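import Crest.Agent.R4P.Phi542
import Crest.Agent.R4.Fin532

/-!
R4 (S0004), POWERS (helper542): **assembly for ALL systems** (port of `R4/Asm532`, builder-free):
from good parameters and an energy bound at the root of the closure tree of an item tree to `MAIN`,
hence to S0004 (`S0004_of_good`).
-/

set_option autoImplicit false
set_option linter.unusedSectionVars false
open MeasureTheory Filter

namespace Crest.Agent.R4P.Asm532

open Crest.Agent.R4.Tour104 Crest.Agent.R4.Soft104 Crest.Agent.R4.Max709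
open Crest.Agent.R4.ClosG758 Crest.Agent.R4.Piece464 Crest.Agent.R4P.Cnt588
open Crest.Agent.R4P.Item758 Crest.Agent.R4.Fin532 Crest.Agent.R4P.BldF542
open Crest.Agent.R4P.Bld532 (NS All)

section
variable {Λ κ : Type*} [Fintype Λ] [DecidableEq Λ] [Fintype κ] [DecidableEq κ]

/-- parameters which are good for the system `(ψ, S)` and the item tree `t`; `S'` = the pruned set,
`c₀` = lower bound for the mean of the leaf weight relative to the units -/
structure Good (γ c₀ : ℝ) (ψ : ℕ → ℝ) (S S' : Finset ℕ) (t : IT) (D : Item758.Par Λ κ) : Prop where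
  gam : D.γ = γ
  wts : D.Wts 1 t
  ab : ∀ j, D.al j ≤ D.be j
  win : ∀ j, -ψ (D.it j) < D.al j ∧ D.be j ≤ ψ (D.it j)
  it : ∀ j, D.it j ∈ S
  top : ∀ j, pp t (D.it j) = 1 → TopW (D.it j) (D.om j)
  sub : S' ⊆ S
  big : 1 / 4 ≤ ∑ q ∈ S', w ψ q
  full : ∀ q ∈ S', ψ q ≤ ∑ j ∈ Finset.univ.filter (fun j => D.it j = q), (D.be j - D.al j)
  phi : ∀ q ∈ S', (q.totient : ℝ) / q ≤
    2 * (prf t q * (((q / pp t q).totient : ℝ) / ((q / pp t q : ℕ) : ℝ)))
  mean : ∀ j, D.it j ∈ S' →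
    c₀ * (((D.it j / pp t (D.it j)).totient : ℝ) / ((D.it j / pp t (D.it j) : ℕ) : ℝ)) ≤
      mnw (D.it j / pp t (D.it j)) (D.om j)

/-- **mass lower bound** at the root -/
theorem Good.mass {γ c₀ : ℝ} (hc₀ : 0 ≤ c₀) {ψ : ℕ → ℝ} {S S' : Finset ℕ} {t : IT} {n : ℕ}
    (hOk : t.Ok n) {D : Item758.Par Λ κ} (h : Good γ c₀ ψ S S' t D)
    (hw : ∀ j, Wt (D.it j / pp t (D.it j)) (D.om j)) :
    c₀ / 8 ≤ ∑ j, (D.be j - D.al j) * prf t (D.it j) * mnw (D.it j / pp t (D.it j)) (D.om j) := by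
  have h0 : ∀ j, 0 ≤ (D.be j - D.al j) * prf t (D.it j) * mnw (D.it j / pp t (D.it j)) (D.om j) :=
    fun j => mul_nonneg (mul_nonneg (by linarith [h.ab j]) (prf_pos t n hOk _).1.le)
      (mnw_nonneg (hw j))
  have h1 : ∑ j ∈ Finset.univ.filter (fun j => D.it j ∈ S'),
      (D.be j - D.al j) * prf t (D.it j) * mnw (D.it j / pp t (D.it j)) (D.om j) ≤
      ∑ j, (D.be j - D.al j) * prf t (D.it j) * mnw (D.it j / pp t (D.it j)) (D.om j) :=
    Finset.sum_le_sum_of_subset_of_nonneg (Finset.filter_subset _ _) fun j _ _ => h0 j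
  refine le_trans ?_ h1
  have h2 : ∑ j ∈ Finset.univ.filter (fun j => D.it j ∈ S'),
      c₀ / 2 * ((D.be j - D.al j) * ((D.it j).totient / (D.it j : ℝ))) ≤
      ∑ j ∈ Finset.univ.filter (fun j => D.it j ∈ S'),
        (D.be j - D.al j) * prf t (D.it j) * mnw (D.it j / pp t (D.it j)) (D.om j) := by
    refine Finset.sum_le_sum fun j hj => ?_
    have hjS' : D.it j ∈ S' := (Finset.mem_filter.1 hj).2
    have hphi := h.phi _ hjS'
    have h3 := h.mean j hjS'
    have hl : 0 ≤ D.be j - D.al j := by linarith [h.ab j]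
    have hp := (prf_pos t n hOk (D.it j)).1.le
    have h5 := mul_le_mul_of_nonneg_left h3 (mul_nonneg hl hp)
    refine le_trans ?_ h5
    have h6 : c₀ / 2 * ((D.be j - D.al j) * ((D.it j).totient / (D.it j : ℝ))) ≤
        c₀ / 2 * ((D.be j - D.al j) * (2 * (prf t (D.it j) *
          (((D.it j / pp t (D.it j)).totient : ℝ) / ((D.it j / pp t (D.it j) : ℕ) : ℝ))))) :=
      mul_le_mul_of_nonneg_left (mul_le_mul_of_nonneg_left hphi hl) (by linarith)
    refine h6.trans (le_of_eq ?_)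
    ring
  refine le_trans ?_ h2
  have h6 : ∑ j ∈ Finset.univ.filter (fun j => D.it j ∈ S'),
      c₀ / 2 * ((D.be j - D.al j) * ((D.it j).totient / (D.it j : ℝ))) =
      ∑ q ∈ S', ∑ j ∈ Finset.univ.filter (fun j => D.it j = q),
        c₀ / 2 * ((D.be j - D.al j) * ((D.it j).totient / (D.it j : ℝ))) := by
    rw [← Finset.sum_fiberwise_of_maps_to (s := Finset.univ.filter (fun j => D.it j ∈ S'))
      (t := S') (g := D.it) (fun j hj => (Finset.mem_filter.1 hj).2)]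
    refine Finset.sum_congr rfl fun q hq => ?_
    congr 1
    ext j
    simp only [Finset.mem_filter, Finset.mem_univ, true_and]
    constructor
    · rintro ⟨_, h⟩; exact h
    · rintro rfl; exact ⟨hq, rfl⟩
  rw [h6]
  have h7 : ∀ q ∈ S', c₀ / 2 * w ψ q ≤ ∑ j ∈ Finset.univ.filter (fun j => D.it j = q),
      c₀ / 2 * ((D.be j - D.al j) * ((D.it j).totient / (D.it j : ℝ))) := by
    intro q hq
    have e : ∑ j ∈ Finset.univ.filter (fun j => D.it j = q),
        c₀ / 2 * ((D.be j - D.al j) * ((D.it j).totient / (D.it j : ℝ))) =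
        c₀ / 2 * ((q.totient / (q : ℝ)) *
          ∑ j ∈ Finset.univ.filter (fun j => D.it j = q), (D.be j - D.al j)) := by
      rw [Finset.mul_sum, Finset.mul_sum]
      refine Finset.sum_congr rfl fun j hj => ?_
      rw [(Finset.mem_filter.1 hj).2]; ring
    rw [e]
    unfold w
    exact mul_le_mul_of_nonneg_left (mul_le_mul_of_nonneg_left (h.full q hq) (by positivity))
      (by linarith)
  refine le_trans ?_ (Finset.sum_le_sum h7)
  rw [← Finset.mul_sum]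
  calc c₀ / 8 = c₀ / 2 * (1 / 4) := by ring
    _ ≤ _ := mul_le_mul_of_nonneg_left h.big (by linarith)

end

/-- **ASSEMBLY for all systems** (`W q = w ψ q`, i.e. tree radius `ψ/2`) -/
theorem MAIN_of_good {γ c₀ K : ℝ} (hc₀ : 0 < c₀) (P₀ : ℕ)
    (H : ∀ (ψ : ℕ → ℝ) (S : Finset ℕ), SysM P₀ ψ S →
      ∃ (t : IT) (n : ℕ) (S' : Finset ℕ) (Λ : Type) (_ : Fintype Λ) (_ : DecidableEq Λ)
        (κ : Type) (_ : Fintype κ) (_ : DecidableEq κ) (D : Item758.Par Λ κ),
        t.items = S ∧ t.Ok n ∧ Fit 1 1 t ∧ Good γ c₀ ψ S S' t D ∧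
        I (fun x => (D.toG 1 1 t).tot x ^ 2) ≤ K) : MAIN γ := by
  refine ⟨c₀ / 8, by positivity, K, P₀, fun ψ S hS => ?_⟩
  obtain ⟨t, n, S', Λ, iF, iD, κ, iFκ, iDκ, D, hi, hO, hF, hG, hE⟩ := H ψ S hS
  have hlen : ∀ j, D.be j - D.al j ≤ 1 := by
    intro j
    have h1 := hS.small (D.it j)
    have h2 := (hG.win j).1
    have h3 := (hG.win j).2
    have h4 : (1 : ℝ) / (P₀ + 2) ≤ 1 / 2 := by
      apply one_div_le_one_div_of_le (by norm_num)
      have : (0 : ℝ) ≤ P₀ := by positivity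
      linarith
    linarith
  have hit : ∀ j, D.it j ∈ t.items := fun j => by rw [hi]; exact hG.it j
  obtain ⟨hok, hcr, hmass⟩ := D.root hF hG.wts hG.ab hlen hit hG.top (ψ := ψ) hG.win
  have hw : ∀ j, Wt (D.it j / pp t (D.it j)) (D.om j) := by
    intro j
    have := hG.wts j (hit j)
    rwa [one_mul] at this
  refine ⟨Λ, Finset.univ, D.it, (D.toG 1 1 t).val, fun i _ => ⟨hG.it i, (hcr i).2.1, ?_⟩, hE, ?_⟩
  · have := (hcr i).2.2
    rwa [hG.gam] at this
  · have h1 := hok.mass_eq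
    rw [hmass] at h1
    have h2 := hG.mass hc₀.le hO hw
    rw [h1] at h2
    exact h2

/-- **S0004 from good parameters and the energy bound** -/
theorem S0004_of_good
    (H : ∀ γ : ℝ, ∃ c₀ K : ℝ, 0 < c₀ ∧ ∃ P₀ : ℕ, ∀ (ψ : ℕ → ℝ) (S : Finset ℕ), SysM P₀ ψ S →
      ∃ (t : IT) (n : ℕ) (S' : Finset ℕ) (Λ : Type) (_ : Fintype Λ) (_ : DecidableEq Λ)
        (κ : Type) (_ : Fintype κ) (_ : DecidableEq κ) (D : Item758.Par Λ κ),
        t.items = S ∧ t.Ok n ∧ Fit 1 1 t ∧ Good γ c₀ ψ S S' t D ∧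
        I (fun x => (D.toG 1 1 t).tot x ^ 2) ≤ K)
    (γ : ℝ) (ψ : ℕ → ℝ) (hψ : ∀ q, 0 ≤ ψ q)
    (hdiv : ¬ Summable fun q : ℕ => (Nat.totient q : ℝ) / q * ψ q) :
    ∀ᵐ x : ℝ, ∃ᶠ q : ℕ in atTop, |(q : ℝ) * x - γ - round ((q : ℝ) * x - γ)| < ψ q :=
  S0004_of_MAIN (fun γ => by
    obtain ⟨c₀, K, hc₀, P₀, H'⟩ := H γ
    exact MAIN_of_good hc₀ P₀ H') γ ψ hψ hdiv

end Crest.Agent.R4P.Asm532
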