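import Crest.Agent.R4.AvgItem710

/-!
R4 (S0004), module L: the names of helper710's tree-free `R4/AvgItem710` in the namespace
`R4P.AvgItem710` (port to the tree with powers, helper504): consumers only replace `R4` by `R4P`.
-/

set_option autoImplicit false

namespace Crest.Agent.R4P.AvgItem710

export Crest.Agent.R4.AvgItem710 (ret ret_Wt ret_le ret_const ret_one pc_shift Ep_pc_ret
  Ep_pc_raise aw rf gcd_pos' mul_gcd_w mul_gcd_M rf_pos div_pos' cop' aw_Wt aw_le aw_const
  rf_coprime aw_coprime Ep_pc mnw_aw I_Ep_pc_mul arc Wt_one PB_arc arc_le_one I_arc pc_le_arc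
  Rel rel_of_arc I_arc_coprime I_arc_coprime_small Dp cof_pos cof_pos' cof_coprime mul_cof
  mul_cof' I_arc_cof min_eq_rr I_arc_comm I_arc_all I_arc_rel I_pc_mul_le_arc ov_le_all
  ov_le_rel Da Ra I_avg_pair_le avg_pair_all avg_pair_rel prs prs_offd prs_orel I_sm_mul'
  sum_prs Q_sm avg_sm Q_avg_sm Q_mono_fun rk_le DW_le_sm Q_avg_le Q_avg_rk_le os_avg_rk_le)

end Crest.Agent.R4P.AvgItem710
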