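import Crest.Agent.R4P.ClosR442
import Crest.Agent.R4.WalkAbs560

/-!
R4 (S0004), module L (WALK), **trees with powers**: the pair walk on decorated trees (port of
R4/Walk560).

* a free pull at `p` is a `br` node of weight `w = 0` with the phantom child `leaf r 0` and `G = 0`
  (`PulN`); `far` nodes are `add` nodes.
* `DT.Col` : a chain of columns at one prime is allowed: the children of `add` nodes and of pulls may
  have the column `p` again; the children of ties (`w ≠ 0`) and of `up` nodes have columns `< p`.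
* `Stp` : stop rule and strategy of the walk.
* steps at the column `p`, in this order: **pre-steps** (`isPL`, `isPR`; the partner is not touched):
  a tie or pull whose own modulus is divisible by `p` is free (`M := M / p`, no error), a pull
  with `p ∤ M` against `add` / `up` / absent multiplies the modulus of the partner; then add nodes (joint, or one-sided: one child
  goes on with the whole partner, the other one is crossing); then ties as in R4.

* `DT` : trees `TrG` with `up` nodes (retained columns, `Sp` = finest worlds whose item contains the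
  prime) and the column of `add` nodes; `DT.g` forgets them.
* `St` : states of the walk; `nxt stp s` : weighted list of the continuing states; `stp` = stop rule
  (parameter).
* local errors `eNM` (two-sided near misses), `eOS` (one-sided columns, other tree up/absent),
  `eSHR` (cells merging), `eSTOP`, `eX` (crossing pairs at SEP columns).
* `walk_cert` : the walk is a certificate `PWRf` with error `W errAll s`.
* `selfR_walk`, `closure_walk`.
-/

set_option autoImplicit false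
set_option linter.unusedSectionVars false
set_option linter.unusedVariables false
open MeasureTheory Filter Set

namespace Crest.Agent.R4P.Walk560

open Crest.Agent.R4.Tour104 Crest.Agent.R4.Tour758 Crest.Agent.R4.Avg758 Crest.Agent.R4.Clos758
open Crest.Agent.R4.ClosL758 Crest.Agent.R4.ClosG758 Crest.Agent.R4.ClosR758
open Crest.Agent.R4P.ClosR442

/-- decorated trees -/
inductive DT (Λ κ : Type*) : Type _
  | leaf (r : Λ → κ) (f : Λ → ℝ → ℝ) : DT Λ κ
  | br (p : ℕ) (w : ℝ) (r : Λ → κ) (t₁ t₀ : DT Λ κ) (v : Λ → ℝ → ℝ) (B G : κ → ℝ → ℝ) : DT Λ κ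
  | add (b : ℕ) (r : Λ → κ) (t₁ t₀ : DT Λ κ) : DT Λ κ
  | up (b : ℕ) (Sp : Finset Λ) (t : DT Λ κ) : DT Λ κ

export Crest.Agent.R4.Walk560 (wsum wsum_stab W W_eq sum_map_add sum_map_smul sum_map_le
  sum_map_nonneg W_add W_smul W_le_super W_mono W_nonneg W_hist W_level W_budget)

variable {Λ κ : Type*}

/-- forget the decorations -/
def DT.g : DT Λ κ → TrG Λ κ
  | .leaf r f => .leaf r f
  | .br p w r t₁ t₀ v B G => .br p w r t₁.g t₀.g v B G
  | .add _ r t₁ t₀ => .add r t₁.g t₀.g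
  | .up _ _ t => t.g

def DT.size : DT Λ κ → ℕ
  | .leaf _ _ => 1
  | .br _ _ _ t₁ t₀ _ _ _ => t₁.size + t₀.size + 1
  | .add _ _ t₁ t₀ => t₁.size + t₀.size + 1
  | .up _ _ t => t.size + 1

/-- top column -/
def DT.top : DT Λ κ → ℕ
  | .leaf _ _ => 0
  | .br p _ _ _ _ _ _ _ => p
  | .add b _ _ _ => b
  | .up b _ _ => b

def DT.isLeaf : DT Λ κ → Prop
  | .leaf _ _ => True
  | _ => False

/-- property at all nodes -/
def DT.All (F : DT Λ κ → Prop) : DT Λ κ → Prop
  | .leaf r f => F (.leaf r f)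
  | .br p w r t₁ t₀ v B G => F (.br p w r t₁ t₀ v B G) ∧ t₁.All F ∧ t₀.All F
  | .add b r t₁ t₀ => F (.add b r t₁ t₀) ∧ t₁.All F ∧ t₀.All F
  | .up b Sp t => F (.up b Sp t) ∧ t.All F

lemma DT.All.self {F : DT Λ κ → Prop} {t : DT Λ κ} (h : t.All F) : F t := by
  cases t with
  | leaf r f => exact h
  | br p w r t₁ t₀ v B G => exact h.1
  | add b r t₁ t₀ => exact h.1
  | up b Sp t => exact h.1

lemma DT.All.mono {F F' : DT Λ κ → Prop} (hFF : ∀ t, F t → F' t) {t : DT Λ κ}
    (h : t.All F) : t.All F' := by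
  induction t with
  | leaf r f => exact hFF _ h
  | br p w r t₁ t₀ v B G ih₁ ih₀ => exact ⟨hFF _ h.1, ih₁ h.2.1, ih₀ h.2.2⟩
  | add b r t₁ t₀ ih₁ ih₀ => exact ⟨hFF _ h.1, ih₁ h.2.1, ih₀ h.2.2⟩
  | up b Sp t ih => exact ⟨hFF _ h.1, ih h.2⟩

lemma DT.All.and {F F' : DT Λ κ → Prop} {t : DT Λ κ}
    (h : t.All F) (h' : t.All F') : t.All fun n => F n ∧ F' n := by
  induction t with
  | leaf r f => exact ⟨h, h'⟩
  | br p w r t₁ t₀ v B G ih₁ ih₀ => exact ⟨⟨h.1, h'.1⟩, ih₁ h.2.1 h'.2.1, ih₀ h.2.2 h'.2.2⟩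
  | add b r t₁ t₀ ih₁ ih₀ => exact ⟨⟨h.1, h'.1⟩, ih₁ h.2.1 h'.2.1, ih₀ h.2.2 h'.2.2⟩
  | up b Sp t ih => exact ⟨⟨h.1, h'.1⟩, ih h.2 h'.2⟩

/-- properties of the plain nodes -/
lemma DT.All.g {F : TrG Λ κ → Prop} {t : DT Λ κ} (h : t.All fun n => F n.g) : t.g.All F := by
  induction t with
  | leaf r f => exact h
  | br p w r t₁ t₀ v B G ih₁ ih₀ => exact ⟨h.1, ih₁ h.2.1, ih₀ h.2.2⟩
  | add b r t₁ t₀ ih₁ ih₀ => exact ⟨h.1, ih₁ h.2.1, ih₀ h.2.2⟩
  | up b Sp t ih => exact ih h.2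

/-- columns: primes `< n`, weakly decreasing; strictly below ties (`w ≠ 0`) and `up` nodes -/
def DT.Col : ℕ → DT Λ κ → Prop
  | _, .leaf _ _ => True
  | n, .br p w _ t₁ t₀ _ _ _ => p.Prime ∧ p < n ∧ t₁.Col (p + 1) ∧ t₀.Col (p + 1) ∧
      (w ≠ 0 → t₁.Col p ∧ t₀.Col p)
  | n, .add b _ t₁ t₀ => b.Prime ∧ b < n ∧ t₁.Col (b + 1) ∧ t₀.Col (b + 1)
  | n, .up b _ t => b.Prime ∧ b < n ∧ t.Col b

lemma DT.Col.lower {n m : ℕ} {t : DT Λ κ} (h : t.Col n) (hm : t.top < m) : t.Col m := by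
  cases t with
  | leaf r f => trivial
  | br p w r t₁ t₀ v B G => exact ⟨h.1, hm, h.2.2⟩
  | add b r t₁ t₀ => exact ⟨h.1, hm, h.2.2⟩
  | up b Sp t => exact ⟨h.1, hm, h.2.2⟩

lemma DT.Col.mono {n m : ℕ} {t : DT Λ κ} (h : t.Col n) (hm : n ≤ m) : t.Col m := by
  cases t with
  | leaf r f => trivial
  | br p w r t₁ t₀ v B G => exact ⟨h.1, h.2.1.trans_le hm, h.2.2⟩
  | add b r t₁ t₀ => exact ⟨h.1, h.2.1.trans_le hm, h.2.2⟩
  | up b Sp t => exact ⟨h.1, h.2.1.trans_le hm, h.2.2⟩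

lemma DT.Col.top_lt {n : ℕ} {t : DT Λ κ} (h : t.Col n) (hn : 0 < n) : t.top < n := by
  cases t with
  | leaf r f => exact hn
  | br p w r t₁ t₀ v B G => exact h.2.1
  | add b r t₁ t₀ => exact h.2.1
  | up b Sp t => exact h.2.1

lemma DT.Col.top_le {n : ℕ} {t : DT Λ κ} (h : t.Col (n + 1)) : t.top ≤ n :=
  Nat.lt_succ_iff.1 (h.top_lt (Nat.succ_pos n))

/-- the partition of a `br` node is a function of the level -/
def WrN (wr : ℕ → Λ → κ) : DT Λ κ → Prop
  | .br p _ r _ _ _ _ _ => r = wr p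
  | _ => True

/-- the `br` nodes of weight `0` are pulls: the missing child is a phantom, no challengers -/
def PulN : DT Λ κ → Prop
  | .br _ w r _ t₀ _ _ G => w = 0 → t₀ = .leaf r (fun _ _ => 0) ∧ G = fun _ _ => 0
  | _ => True

section st
variable [Fintype Λ] [DecidableEq Λ]

/-- `Ad` is closed under splitting by presence at `up` nodes -/
def AdU (Ad : TrG Λ κ → Finset Λ → Prop) : DT Λ κ → Prop
  | .up _ Sp t => ∀ A, Ad t.g A → Ad t.g (A ∩ Sp) ∧ Ad t.g (A \ Sp)
  | _ => True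

/-- views of a tree at a prime -/
inductive Vw (Λ κ : Type*) : Type _
  | br (w : ℝ) (r : Λ → κ) (t₁ t₀ : DT Λ κ) (v : Λ → ℝ → ℝ) (B G : κ → ℝ → ℝ) : Vw Λ κ
  | add (r : Λ → κ) (t₁ t₀ : DT Λ κ) : Vw Λ κ
  | up (Sp : Finset Λ) (u : DT Λ κ) : Vw Λ κ

/-- the view of `t` at the column `p` (absent columns are `up ∅`) -/
def vw (p : ℕ) : DT Λ κ → Vw Λ κ
  | .leaf r f => .up ∅ (.leaf r f)
  | .br q w r t₁ t₀ v B G => if q = p then .br w r t₁ t₀ v B G else .up ∅ (.br q w r t₁ t₀ v B G)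
  | .add q r t₁ t₀ => if q = p then .add r t₁ t₀ else .up ∅ (.add q r t₁ t₀)
  | .up q Sp u => if q = p then .up Sp u else .up ∅ (.up q Sp u)

lemma vw_br {p : ℕ} {t : DT Λ κ} {w : ℝ} {r : Λ → κ} {t₁ t₀ : DT Λ κ} {v : Λ → ℝ → ℝ}
    {B G : κ → ℝ → ℝ} (h : vw p t = .br w r t₁ t₀ v B G) : t = .br p w r t₁ t₀ v B G := by
  cases t with
  | leaf r f => simp [vw] at h
  | br q w r t₁ t₀ v B G =>
    simp only [vw] at h
    split_ifs at h with hq
    injection h with h1 h2 h3 h4 h5 h6 h7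
    subst h1 h2 h3 h4 h5 h6 h7 hq
    rfl
  | add b r t₁ t₀ =>
    simp only [vw] at h
    split_ifs at h
  | up b Sp t =>
    simp only [vw] at h
    split_ifs at h

lemma vw_add {p : ℕ} {t : DT Λ κ} {r : Λ → κ} {t₁ t₀ : DT Λ κ}
    (h : vw p t = .add r t₁ t₀) : t = .add p r t₁ t₀ := by
  cases t with
  | leaf r f => simp [vw] at h
  | br q w r t₁ t₀ v B G =>
    simp only [vw] at h
    split_ifs at h
  | add b r t₁ t₀ =>
    simp only [vw] at h
    split_ifs at h with hq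
    injection h with h1 h2 h3
    subst h1 h2 h3 hq
    rfl
  | up b Sp t =>
    simp only [vw] at h
    split_ifs at h

lemma vw_up {p : ℕ} {t : DT Λ κ} {Sp : Finset Λ} {u : DT Λ κ}
    (h : vw p t = .up Sp u) : t = .up p Sp u ∨ (Sp = ∅ ∧ u = t ∧ (t.isLeaf ∨ t.top ≠ p)) := by
  cases t with
  | leaf r f =>
    simp only [vw, Vw.up.injEq] at h
    exact Or.inr ⟨h.1.symm, h.2.symm, Or.inl trivial⟩
  | br q w r t₁ t₀ v B G =>
    simp only [vw] at h
    split_ifs at h with hq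
    injection h with h1 h2
    exact Or.inr ⟨h1.symm, h2.symm, Or.inr hq⟩
  | add b r t₁ t₀ =>
    simp only [vw] at h
    split_ifs at h with hq
    injection h with h1 h2
    exact Or.inr ⟨h1.symm, h2.symm, Or.inr hq⟩
  | up b Sp' t =>
    simp only [vw] at h
    split_ifs at h with hq
    · injection h with h1 h2
      subst h1 h2 hq
      exact Or.inl rfl
    · injection h with h1 h2
      exact Or.inr ⟨h1.symm, h2.symm, Or.inr hq⟩

lemma vw_up_g {p : ℕ} {t : DT Λ κ} {Sp : Finset Λ} {u : DT Λ κ}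
    (h : vw p t = .up Sp u) : u.g = t.g := by
  rcases vw_up h with rfl | ⟨-, rfl, -⟩ <;> rfl

lemma vw_up_size {p : ℕ} {t : DT Λ κ} {Sp : Finset Λ} {u : DT Λ κ}
    (h : vw p t = .up Sp u) : u.size ≤ t.size := by
  rcases vw_up h with rfl | ⟨-, rfl, -⟩
  · simp [DT.size]
  · exact le_rfl

lemma vw_up_size_lt {p : ℕ} {t : DT Λ κ} {Sp : Finset Λ} {u : DT Λ κ}
    (h : vw p t = .up Sp u) (hl : ¬ t.isLeaf) (hp : t.top = p) : u.size < t.size := by
  rcases vw_up h with rfl | ⟨-, -, h | h⟩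
  · simp [DT.size]
  · exact absurd h hl
  · exact absurd hp h

lemma vw_up_col {p n : ℕ} {t : DT Λ κ} {Sp : Finset Λ} {u : DT Λ κ}
    (h : vw p t = .up Sp u) (hp : t.top ≤ p) (hp0 : 0 < p) (hc : t.Col n) : u.Col p := by
  rcases vw_up h with rfl | ⟨-, rfl, h | h⟩
  · exact hc.2.2
  · cases u with
    | leaf r f => trivial
    | br _ _ _ _ _ _ _ _ => exact absurd h id
    | add _ _ _ _ => exact absurd h id
    | up _ _ _ => exact absurd h id
  · exact hc.lower (lt_of_le_of_ne hp h)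

lemma vw_up_all {F : DT Λ κ → Prop} {p : ℕ} {t : DT Λ κ} {Sp : Finset Λ} {u : DT Λ κ}
    (h : vw p t = .up Sp u) (ht : t.All F) : u.All F := by
  rcases vw_up h with rfl | ⟨-, rfl, -⟩
  · exact ht.2
  · exact ht

lemma vw_up_ad {Ad : TrG Λ κ → Finset Λ → Prop} (hE : ∀ t, Ad t ∅) {p : ℕ} {t : DT Λ κ}
    {Sp : Finset Λ} {u : DT Λ κ} (h : vw p t = .up Sp u) (ht : AdU Ad t) {A : Finset Λ}
    (hA : Ad t.g A) : Ad u.g (A ∩ Sp) ∧ Ad u.g (A \ Sp) := by
  rcases vw_up h with rfl | ⟨rfl, rfl, -⟩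
  · exact ht A hA
  · simp only [Finset.inter_empty, Finset.sdiff_empty]
    exact ⟨hE _, hA⟩

/-- states -/
structure St (Λ κ : Type*) where
  M : ℕ
  M' : ℕ
  O : Finset ℕ
  O' : Finset ℕ
  R : Finset (Λ × Λ)
  t : DT Λ κ
  A : Finset Λ
  t' : DT Λ κ
  A' : Finset Λ

/-- the column of a state -/
def St.p (s : St Λ κ) : ℕ := max s.t.top s.t'.top

def St.rank (s : St Λ κ) : ℕ := s.t.size + s.t'.size

/-- stop rule `st` and strategy: `jt` = add nodes are processed jointly with the partner (add or up),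
`lf` = of two add nodes the left one is processed, `on` = the present child `t₁` of the processed add
node goes on -/
structure Stp (Λ κ : Type*) where
  st : St Λ κ → Prop
  jt : St Λ κ → Prop
  lf : St Λ κ → Prop
  on : St Λ κ → Prop

instance : CoeFun (Stp Λ κ) fun _ => St Λ κ → Prop := ⟨Stp.st⟩

open Classical in
/-- the continuing child of the add node -/
noncomputable def Stp.c (stp : Stp Λ κ) (s : St Λ κ) (t₁ t₀ : DT Λ κ) : DT Λ κ :=
  if stp.on s then t₁ else t₀

open Classical in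
/-- the crossing child of the add node -/
noncomputable def Stp.x (stp : Stp Λ κ) (s : St Λ κ) (t₁ t₀ : DT Λ κ) : DT Λ κ :=
  if stp.on s then t₀ else t₁

lemma Stp.c_or (stp : Stp Λ κ) (s : St Λ κ) (t₁ t₀ : DT Λ κ) :
    (stp.c s t₁ t₀ = t₁ ∧ stp.x s t₁ t₀ = t₀) ∨ (stp.c s t₁ t₀ = t₀ ∧ stp.x s t₁ t₀ = t₁) := by
  unfold Stp.c Stp.x
  by_cases h : stp.on s
  · exact Or.inl ⟨if_pos h, if_pos h⟩
  · exact Or.inr ⟨if_neg h, if_neg h⟩

variable [DecidableEq κ] [WRel κ]

open Classical in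
/-- the one-sided columns after a free step -/
noncomputable def dwn (p M : ℕ) (O : Finset ℕ) : Finset ℕ := if p ∣ M then O else O.erase p

/-- free step on the left -/
noncomputable def St.fL (s : St Λ κ) (r : Λ → κ) (t : DT Λ κ) : St Λ κ :=
  { s with M := s.M / s.p, O' := dwn s.p (s.M / s.p) s.O', R := Ro r, t := t }

/-- free step on the right -/
noncomputable def St.fR (s : St Λ κ) (r : Λ → κ) (t : DT Λ κ) : St Λ κ :=
  { s with M' := s.M' / s.p, O := dwn s.p (s.M' / s.p) s.O, R := Ro r, t' := t }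

/-- pull on the left -/
noncomputable def St.pL (s : St Λ κ) (r : Λ → κ) (t : DT Λ κ) : St Λ κ :=
  { s with M' := s.p * s.M', O := insert s.p s.O, R := Ro r, t := t }

/-- pull on the right -/
noncomputable def St.pR (s : St Λ κ) (r : Λ → κ) (t : DT Λ κ) : St Λ κ :=
  { s with M := s.p * s.M, O' := insert s.p s.O', R := Ro r, t' := t }

/-- pre-step on the left: a tie or pull with `p ∣ M`, or a pull against `add` / `up` / absent -/
def St.isPL (s : St Λ κ) : Prop :=
  match vw s.p s.t, vw s.p s.t' with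
  | .br _ _ _ _ _ _ _, .br _ _ _ _ _ _ _ => s.p ∣ s.M
  | .br w _ _ _ _ _ _, .add _ _ _ => s.p ∣ s.M ∨ w = 0
  | .br w _ _ _ _ _ _, .up _ _ => s.p ∣ s.M ∨ w = 0
  | _, _ => False

/-- pre-step on the right -/
def St.isPR (s : St Λ κ) : Prop :=
  match vw s.p s.t, vw s.p s.t' with
  | .br _ _ _ _ _ _ _, .br _ _ _ _ _ _ _ => s.p ∣ s.M'
  | .add _ _ _, .br w _ _ _ _ _ _ => s.p ∣ s.M' ∨ w = 0
  | .up _ _, .br w _ _ _ _ _ _ => s.p ∣ s.M' ∨ w = 0
  | _, _ => False

open Classical in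
noncomputable def St.stL (s : St Λ κ) : List (ℝ × St Λ κ) :=
  match vw s.p s.t with
  | .br w r t₁ t₀ _ _ _ =>
      if s.p ∣ s.M then [(1 - w, s.fL r t₁), (w, s.fL r t₀)] else [(1 - w, s.pL r t₁), (w, s.pL r t₀)]
  | _ => []

open Classical in
noncomputable def St.stR (s : St Λ κ) : List (ℝ × St Λ κ) :=
  match vw s.p s.t' with
  | .br w r t₁ t₀ _ _ _ =>
      if s.p ∣ s.M' then [(1 - w, s.fR r t₁), (w, s.fR r t₀)] else [(1 - w, s.pR r t₁), (w, s.pR r t₀)]
  | _ => []

lemma St.isPL_cases {s : St Λ κ} (h : s.isPL) : ∃ w r t₁ t₀ v B G,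
    vw s.p s.t = .br w r t₁ t₀ v B G ∧ s.t = .br s.p w r t₁ t₀ v B G ∧
    ((s.p ∣ s.M ∧ s.stL = [(1 - w, s.fL r t₁), (w, s.fL r t₀)]) ∨
      (¬ s.p ∣ s.M ∧ w = 0 ∧ s.stL = [(1 - w, s.pL r t₁), (w, s.pL r t₀)])) := by
  unfold St.isPL at h
  rcases hv : vw s.p s.t with ⟨w, r, t₁, t₀, v, B, G⟩ | ⟨r, t₁, t₀⟩ | ⟨Sp, u⟩
  · refine ⟨w, r, t₁, t₀, v, B, G, rfl, vw_br hv, ?_⟩
    have h' : s.p ∣ s.M ∨ w = 0 := by
      rcases hv' : vw s.p s.t' with ⟨w', r', t₁', t₀', v', B', G'⟩ | ⟨r', t₁', t₀'⟩ | ⟨Sp', u'⟩ <;>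
        simp only [hv, hv'] at h
      · exact Or.inl h
      · exact h
      · exact h
    by_cases hd : s.p ∣ s.M
    · exact Or.inl ⟨hd, by simp [St.stL, hv, hd]⟩
    · exact Or.inr ⟨hd, h'.resolve_left hd, by simp [St.stL, hv, hd]⟩
  · rcases hv' : vw s.p s.t' with ⟨w', r', t₁', t₀', v', B', G'⟩ | ⟨r', t₁', t₀'⟩ | ⟨Sp', u'⟩ <;>
      simp only [hv, hv'] at h
  · rcases hv' : vw s.p s.t' with ⟨w', r', t₁', t₀', v', B', G'⟩ | ⟨r', t₁', t₀'⟩ | ⟨Sp', u'⟩ <;>
      simp only [hv, hv'] at h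

lemma St.isPR_cases {s : St Λ κ} (h : s.isPR) : ∃ w r t₁ t₀ v B G,
    vw s.p s.t' = .br w r t₁ t₀ v B G ∧ s.t' = .br s.p w r t₁ t₀ v B G ∧
    ((s.p ∣ s.M' ∧ s.stR = [(1 - w, s.fR r t₁), (w, s.fR r t₀)]) ∨
      (¬ s.p ∣ s.M' ∧ w = 0 ∧ s.stR = [(1 - w, s.pR r t₁), (w, s.pR r t₀)])) := by
  unfold St.isPR at h
  rcases hv : vw s.p s.t' with ⟨w, r, t₁, t₀, v, B, G⟩ | ⟨r, t₁, t₀⟩ | ⟨Sp, u⟩
  · refine ⟨w, r, t₁, t₀, v, B, G, rfl, vw_br hv, ?_⟩
    have h' : s.p ∣ s.M' ∨ w = 0 := by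
      rcases hv' : vw s.p s.t with ⟨w', r', t₁', t₀', v', B', G'⟩ | ⟨r', t₁', t₀'⟩ | ⟨Sp', u'⟩ <;>
        simp only [hv, hv'] at h
      · exact Or.inl h
      · exact h
      · exact h
    by_cases hd : s.p ∣ s.M'
    · exact Or.inl ⟨hd, by simp [St.stR, hv, hd]⟩
    · exact Or.inr ⟨hd, h'.resolve_left hd, by simp [St.stR, hv, hd]⟩
  · rcases hv' : vw s.p s.t with ⟨w', r', t₁', t₀', v', B', G'⟩ | ⟨r', t₁', t₀'⟩ | ⟨Sp', u'⟩ <;>
      simp only [hv, hv'] at h
  · rcases hv' : vw s.p s.t with ⟨w', r', t₁', t₀', v', B', G'⟩ | ⟨r', t₁', t₀'⟩ | ⟨Sp', u'⟩ <;>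
      simp only [hv, hv'] at h

section notPre
variable {s : St Λ κ} {w : ℝ} {r : Λ → κ} {t₁ t₀ : DT Λ κ} {v : Λ → ℝ → ℝ} {B G : κ → ℝ → ℝ}
  {w' : ℝ} {r' : Λ → κ} {t₁' t₀' : DT Λ κ} {v' : Λ → ℝ → ℝ} {B' G' : κ → ℝ → ℝ}
  {Sp : Finset Λ} {u : DT Λ κ}

lemma St.not_isPL_br (h : ¬ s.isPL) (hv : vw s.p s.t = .br w r t₁ t₀ v B G)
    (hv' : vw s.p s.t' = .br w' r' t₁' t₀' v' B' G') : ¬ s.p ∣ s.M := by
  unfold St.isPL at h
  simp only [hv, hv'] at h
  exact h

lemma St.not_isPR_br (h : ¬ s.isPR) (hv : vw s.p s.t = .br w r t₁ t₀ v B G)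
    (hv' : vw s.p s.t' = .br w' r' t₁' t₀' v' B' G') : ¬ s.p ∣ s.M' := by
  unfold St.isPR at h
  simp only [hv, hv'] at h
  exact h

lemma St.not_isPL_add (h : ¬ s.isPL) (hv : vw s.p s.t = .br w r t₁ t₀ v B G)
    (hv' : vw s.p s.t' = .add r' t₁' t₀') : ¬ s.p ∣ s.M ∧ w ≠ 0 := by
  unfold St.isPL at h
  simp only [hv, hv'] at h
  exact not_or.1 h

lemma St.not_isPL_up (h : ¬ s.isPL) (hv : vw s.p s.t = .br w r t₁ t₀ v B G)
    (hv' : vw s.p s.t' = .up Sp u) : ¬ s.p ∣ s.M ∧ w ≠ 0 := by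
  unfold St.isPL at h
  simp only [hv, hv'] at h
  exact not_or.1 h

lemma St.not_isPR_add (h : ¬ s.isPR) (hv : vw s.p s.t = .add r t₁ t₀)
    (hv' : vw s.p s.t' = .br w' r' t₁' t₀' v' B' G') : ¬ s.p ∣ s.M' ∧ w' ≠ 0 := by
  unfold St.isPR at h
  simp only [hv, hv'] at h
  exact not_or.1 h

lemma St.not_isPR_up (h : ¬ s.isPR) (hv : vw s.p s.t = .up Sp u)
    (hv' : vw s.p s.t' = .br w' r' t₁' t₀' v' B' G') : ¬ s.p ∣ s.M' ∧ w' ≠ 0 := by
  unfold St.isPR at h
  simp only [hv, hv'] at h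
  exact not_or.1 h

end notPre

open Classical in
/-- the continuing states, with the phantom states (weight `0`) of the pulls -/
noncomputable def nxt0 (stp : Stp Λ κ) (s : St Λ κ) : List (ℝ × St Λ κ) :=
  if s.t.isLeaf ∨ s.t'.isLeaf then [] else if stp s then [] else
  if s.isPL then s.stL else if s.isPR then s.stR else
  match vw s.p s.t, vw s.p s.t' with
  | .br w r t₁ t₀ _ _ _, .br w' _ t₁' t₀' _ _ _ =>
      [((1 - w) * (1 - w'), { s with R := Ro r, t := t₁, t' := t₁' }),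
       ((1 - w) * w', { s with R := Ro r, t := t₁, t' := t₀' }),
       (w * (1 - w'), { s with R := Ro r, t := t₀, t' := t₁' }),
       (w * w', { s with R := Ro r, t := t₀, t' := t₀' })]
  | .br w r t₁ t₀ _ _ _, .up _ u =>
      [(1 - w, { s with M' := s.p * s.M', O := insert s.p s.O, R := Ro r, t := t₁, t' := u }),
       (w, { s with M' := s.p * s.M', O := insert s.p s.O, R := Ro r, t := t₀, t' := u })]
  | .up _ u, .br w r t₁' t₀' _ _ _ =>
      [(1 - w, { s with M := s.p * s.M, O' := insert s.p s.O', R := Ro r, t := u, t' := t₁' }),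
       (w, { s with M := s.p * s.M, O' := insert s.p s.O', R := Ro r, t := u, t' := t₀' })]
  | .br _ _ _ _ _ _ _, .add _ t₁' t₀' => [(1, { s with t' := stp.c s t₁' t₀' })]
  | .add _ t₁ t₀, .br _ _ _ _ _ _ _ => [(1, { s with t := stp.c s t₁ t₀ })]
  | .add _ t₁ t₀, .add _ t₁' t₀' =>
      if stp.jt s then [(1, { s with t := t₁, t' := t₁' }), (1, { s with t := t₀, t' := t₀' })]
      else if stp.lf s then [(1, { s with t := stp.c s t₁ t₀ })]
      else [(1, { s with t' := stp.c s t₁' t₀' })]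
  | .add _ t₁ t₀, .up Sp u =>
      if stp.jt s then [(1, { s with t := t₁, t' := u, A' := s.A' ∩ Sp }),
        (1, { s with t := t₀, t' := u, A' := s.A' \ Sp })]
      else [(1, { s with t := stp.c s t₁ t₀ })]
  | .up Sp u, .add _ t₁' t₀' =>
      if stp.jt s then [(1, { s with t := u, A := s.A ∩ Sp, t' := t₁' }),
        (1, { s with t := u, A := s.A \ Sp, t' := t₀' })]
      else [(1, { s with t' := stp.c s t₁' t₀' })]
  | .up _ u, .up _ u' => [(1, { s with t := u, t' := u' })]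

open Classical in
/-- the continuing states -/
noncomputable def nxt (stp : Stp Λ κ) (s : St Λ κ) : List (ℝ × St Λ κ) :=
  (nxt0 stp s).filter fun q => q.1 ≠ 0

lemma mem_nxt {stp : Stp Λ κ} {s : St Λ κ} {q : ℝ × St Λ κ} :
    q ∈ nxt stp s ↔ q ∈ nxt0 stp s ∧ q.1 ≠ 0 := by
  simp [nxt, List.mem_filter]

/-- the phantom states do not contribute -/
lemma nxt_sum (stp : Stp Λ κ) (s : St Λ κ) (F : St Λ κ → ℝ) :
    ((nxt stp s).map fun q => q.1 * F q.2).sum = ((nxt0 stp s).map fun q => q.1 * F q.2).sum := by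
  unfold nxt
  induction nxt0 stp s with
  | nil => rfl
  | cons a l ih =>
    by_cases h : a.1 = 0
    · rw [List.filter_cons_of_neg (by simp [h]), ih, List.map_cons, List.sum_cons, h]
      simp
    · rw [List.filter_cons_of_pos (by simp [h]), List.map_cons, List.sum_cons, ih, List.map_cons,
        List.sum_cons]

lemma top_eq_of_vw {p : ℕ} {t : DT Λ κ} (h : ∀ Sp u, vw p t ≠ .up Sp u) : t.top = p := by
  rcases hv : vw p t with ⟨w, r, t₁, t₀, v, B, G⟩ | ⟨r, t₁, t₀⟩ | ⟨Sp, u⟩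
  · rw [vw_br hv]; rfl
  · rw [vw_add hv]; rfl
  · exact absurd hv (h _ _)

lemma nxt0_rank (stp : Stp Λ κ) (s : St Λ κ) : ∀ q ∈ nxt0 stp s, q.2.rank < s.rank := by
  intro q hq
  unfold nxt0 at hq
  by_cases h1 : s.t.isLeaf ∨ s.t'.isLeaf
  · simp [h1] at hq
  by_cases h2 : stp s
  · simp [h1, h2] at hq
  rw [if_neg h1, if_neg h2] at hq
  rw [not_or] at h1
  by_cases hPL : s.isPL
  · rw [if_pos hPL] at hq
    obtain ⟨w, r, t₁, t₀, v, B, G, -, et, ⟨-, e⟩ | ⟨-, -, e⟩⟩ := St.isPL_cases hPL <;>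
    · have e' := congrArg DT.size et
      simp only [DT.size] at e'
      rw [e] at hq
      simp only [List.mem_cons, List.not_mem_nil, or_false] at hq
      rcases hq with rfl | rfl <;> simp only [St.rank, St.fL, St.pL] <;> omega
  by_cases hPR : s.isPR
  · rw [if_neg hPL, if_pos hPR] at hq
    obtain ⟨w, r, t₁, t₀, v, B, G, -, et, ⟨-, e⟩ | ⟨-, -, e⟩⟩ := St.isPR_cases hPR <;>
    · have e' := congrArg DT.size et
      simp only [DT.size] at e'
      rw [e] at hq
      simp only [List.mem_cons, List.not_mem_nil, or_false] at hq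
      rcases hq with rfl | rfl <;> simp only [St.rank, St.fR, St.pR] <;> omega
  rw [if_neg hPL, if_neg hPR] at hq
  rcases hv : vw s.p s.t with ⟨w, r, t₁, t₀, v, B, G⟩ | ⟨r, t₁, t₀⟩ | ⟨Sp, u⟩ <;>
  rcases hv' : vw s.p s.t' with ⟨w', r', t₁', t₀', v', B', G'⟩ | ⟨r', t₁', t₀'⟩ | ⟨Sp', u'⟩ <;>
  simp only [hv, hv'] at hq
  · have e := congrArg DT.size (vw_br hv)
    have e' := congrArg DT.size (vw_br hv')
    simp only [DT.size] at e e'
    simp only [List.mem_cons, List.not_mem_nil, or_false] at hq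
    rcases hq with rfl | rfl | rfl | rfl <;> simp only [St.rank] <;> omega
  · have e' := congrArg DT.size (vw_add hv')
    simp only [DT.size] at e'
    simp only [List.mem_cons, List.not_mem_nil, or_false] at hq
    subst hq
    simp only [St.rank]
    rcases stp.c_or s t₁' t₀' with ⟨hc, -⟩ | ⟨hc, -⟩ <;> rw [hc] <;> omega
  · have e := congrArg DT.size (vw_br hv)
    have e' := vw_up_size hv'
    simp only [DT.size] at e e'
    simp only [List.mem_cons, List.not_mem_nil, or_false] at hq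
    rcases hq with rfl | rfl <;> simp only [St.rank] <;> omega
  · have e := congrArg DT.size (vw_add hv)
    simp only [DT.size] at e
    simp only [List.mem_cons, List.not_mem_nil, or_false] at hq
    subst hq
    simp only [St.rank]
    rcases stp.c_or s t₁ t₀ with ⟨hc, -⟩ | ⟨hc, -⟩ <;> rw [hc] <;> omega
  · have e := congrArg DT.size (vw_add hv)
    have e' := congrArg DT.size (vw_add hv')
    simp only [DT.size] at e e'
    split_ifs at hq with hj hl <;>
      simp only [List.mem_cons, List.not_mem_nil, or_false] at hq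
    · rcases hq with rfl | rfl <;> simp only [St.rank] <;> omega
    · subst hq
      simp only [St.rank]
      rcases stp.c_or s t₁ t₀ with ⟨hc, -⟩ | ⟨hc, -⟩ <;> rw [hc] <;> omega
    · subst hq
      simp only [St.rank]
      rcases stp.c_or s t₁' t₀' with ⟨hc, -⟩ | ⟨hc, -⟩ <;> rw [hc] <;> omega
  · have e := congrArg DT.size (vw_add hv)
    have e' := vw_up_size hv'
    simp only [DT.size] at e e'
    split_ifs at hq with hj <;>
      simp only [List.mem_cons, List.not_mem_nil, or_false] at hq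
    · rcases hq with rfl | rfl <;> simp only [St.rank] <;> omega
    · subst hq
      simp only [St.rank]
      rcases stp.c_or s t₁ t₀ with ⟨hc, -⟩ | ⟨hc, -⟩ <;> rw [hc] <;> omega
  · have e := vw_up_size hv
    have e' := congrArg DT.size (vw_br hv')
    simp only [DT.size] at e e'
    simp only [List.mem_cons, List.not_mem_nil, or_false] at hq
    rcases hq with rfl | rfl <;> simp only [St.rank] <;> omega
  · have e := vw_up_size hv
    have e' := congrArg DT.size (vw_add hv')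
    simp only [DT.size] at e e'
    split_ifs at hq with hj <;>
      simp only [List.mem_cons, List.not_mem_nil, or_false] at hq
    · rcases hq with rfl | rfl <;> simp only [St.rank] <;> omega
    · subst hq
      simp only [St.rank]
      rcases stp.c_or s t₁' t₀' with ⟨hc, -⟩ | ⟨hc, -⟩ <;> rw [hc] <;> omega
  · have e := vw_up_size hv
    have e' := vw_up_size hv'
    simp only [List.mem_cons, List.not_mem_nil, or_false] at hq
    have : s.t.top = s.p ∨ s.t'.top = s.p := by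
      unfold St.p
      rcases le_total s.t.top s.t'.top with h | h
      · exact Or.inr (max_eq_right h).symm
      · exact Or.inl (max_eq_left h).symm
    rcases this with h | h
    · have := vw_up_size_lt hv h1.1 h
      subst hq
      simp only [St.rank]; omega
    · have := vw_up_size_lt hv' h1.2 h
      subst hq
      simp only [St.rank]; omega

lemma nxt_rank (stp : Stp Λ κ) (s : St Λ κ) : ∀ q ∈ nxt stp s, q.2.rank < s.rank :=
  fun q hq => nxt0_rank stp s q (mem_nxt.1 hq).1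

/-! ### invariants -/

/-- conditions at the nodes -/
structure NodeOk (wr : ℕ → Λ → κ) (Ad : TrG Λ κ → Finset Λ → Prop)
    (μ : TrG Λ κ → Finset Λ → ℝ) (ν : TrG Λ κ → ℝ) (d : DT Λ κ) : Prop where
  wrn : WrN wr d
  pul : PulN d
  adN : AdN Ad d.g
  adU : AdU Ad d
  adE : Ad d.g ∅
  mass : MassOk Ad μ ν d.g

/-- one side of a state: all columns are `≤ n` -/
structure Side [Fintype κ] (wr : ℕ → Λ → κ) (Ad : TrG Λ κ → Finset Λ → Prop)
    (μ : TrG Λ κ → Finset Λ → ℝ) (ν : TrG Λ κ → ℝ) (n : ℕ) (t : DT Λ κ) (A : Finset Λ) :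
    Prop where
  ok : t.g.Ok
  ad : Ad t.g A
  col : t.Col (n + 1)
  wf : t.All (NodeOk wr Ad μ ν)

/-- the averaging modulus and the one-sided columns -/
structure Avgs (n : ℕ) (M : ℕ) (O : Finset ℕ) : Prop where
  M0 : 0 < M
  cop : ∀ p : ℕ, p.Prime → p < n → Nat.Coprime p M
  mem : ∀ p ∈ O, p.Prime ∧ n ≤ p ∧ p ∣ M

/-- invariant of the walk -/
structure Inv [Fintype κ] (wr : ℕ → Λ → κ) (Ad : TrG Λ κ → Finset Λ → Prop)
    (μ : TrG Λ κ → Finset Λ → ℝ) (ν : TrG Λ κ → ℝ) (n : ℕ) (s : St Λ κ) : Prop where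
  L : Side wr Ad μ ν n s.t s.A
  R : Side wr Ad μ ν n s.t' s.A'
  aL : Avgs n s.M s.O'
  aR : Avgs n s.M' s.O

lemma Avgs.down {n M : ℕ} {O : Finset ℕ} (h : Avgs n M O) {p : ℕ} (hp : p ≤ n) : Avgs p M O :=
  ⟨h.M0, fun q hq hqp => h.cop q hq (hqp.trans_le hp),
    fun q hq => ⟨(h.mem q hq).1, hp.trans (h.mem q hq).2.1, (h.mem q hq).2.2⟩⟩

lemma Avgs.mul {n M : ℕ} {O : Finset ℕ} (h : Avgs n M O) {p : ℕ} (hp : p ≤ n) (hpp : p.Prime) :
    Avgs p (p * M) O := by
  refine ⟨Nat.mul_pos hpp.pos h.M0, fun q hq hqp => ?_, fun q hq => ?_⟩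
  · exact Nat.Coprime.mul_right ((Nat.coprime_primes hq hpp).2 hqp.ne)
      (h.cop q hq (hqp.trans_le hp))
  · exact ⟨(h.mem q hq).1, hp.trans (h.mem q hq).2.1, (h.mem q hq).2.2.mul_left p⟩

lemma Avgs.ins {n M : ℕ} {O : Finset ℕ} (h : Avgs n M O) {p : ℕ} (hp : p ≤ n) (hpp : p.Prime) :
    Avgs p (p * M) (insert p O) := by
  have := h.mul hp hpp
  refine ⟨this.M0, this.cop, fun q hq => ?_⟩
  rcases Finset.mem_insert.1 hq with rfl | hq
  · exact ⟨hpp, le_rfl, Dvd.intro _ rfl⟩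
  · exact this.mem q hq

lemma mem_dwn {p M q : ℕ} {O : Finset ℕ} (h : q ∈ dwn p M O) : q ∈ O ∧ (q = p → p ∣ M) := by
  unfold dwn at h
  split_ifs at h with hd
  · exact ⟨h, fun _ => hd⟩
  · exact ⟨Finset.mem_of_mem_erase h, fun e => absurd e (Finset.ne_of_mem_erase h)⟩

lemma Avgs.div {n M : ℕ} {O : Finset ℕ} (h : Avgs n M O) {p : ℕ} (hp : p ≤ n) (hpp : p.Prime)
    (hd : p ∣ M) : Avgs p (M / p) (dwn p (M / p) O) := by
  have e : p * (M / p) = M := Nat.mul_div_cancel' hd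
  refine ⟨Nat.div_pos (Nat.le_of_dvd h.M0 hd) hpp.pos, fun q hq hqp => ?_, fun q hq => ?_⟩
  · exact (h.cop q hq (hqp.trans_le hp)).coprime_dvd_right (Nat.div_dvd_of_dvd hd)
  · obtain ⟨h1, h2⟩ := mem_dwn hq
    obtain ⟨m1, m2, m3⟩ := h.mem q h1
    refine ⟨m1, hp.trans m2, ?_⟩
    by_cases hqp : q = p
    · rw [hqp]; exact h2 hqp
    · rw [← e] at m3
      exact (Nat.Coprime.dvd_of_dvd_mul_left ((Nat.coprime_primes m1 hpp).2 hqp) m3)

variable [Fintype κ] {wr : ℕ → Λ → κ} {Ad : TrG Λ κ → Finset Λ → Prop}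
  {μ : TrG Λ κ → Finset Λ → ℝ} {ν : TrG Λ κ → ℝ} {n : ℕ}

lemma Side.down {t : DT Λ κ} {A : Finset Λ} (h : Side wr Ad μ ν n t A) {p : ℕ}
    (hp : t.top ≤ p) : Side wr Ad μ ν p t A :=
  ⟨h.ok, h.ad, h.col.lower (Nat.lt_succ_of_le hp), h.wf⟩

lemma Side.br {p : ℕ} {w : ℝ} {r : Λ → κ} {t₁ t₀ : DT Λ κ} {v : Λ → ℝ → ℝ} {B G : κ → ℝ → ℝ}
    {A : Finset Λ} (h : Side wr Ad μ ν n (.br p w r t₁ t₀ v B G) A) :
    Side wr Ad μ ν p t₁ A ∧ Side wr Ad μ ν p t₀ A ∧ BrOk p w r t₁.g.val t₀.g.val v B G ∧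
      r = wr p ∧ Sat A r := by
  have hA := h.wf.1.adN A h.ad
  exact ⟨⟨h.ok.1, hA.2.1, h.col.2.2.1, h.wf.2.1⟩, ⟨h.ok.2.1, hA.2.2, h.col.2.2.2.1, h.wf.2.2⟩,
    h.ok.2.2, h.wf.1.wrn, hA.1⟩

lemma Side.add {p : ℕ} {r : Λ → κ} {t₁ t₀ : DT Λ κ}
    {A : Finset Λ} (h : Side wr Ad μ ν n (.add p r t₁ t₀) A) :
    Side wr Ad μ ν p t₁ A ∧ Side wr Ad μ ν p t₀ A := by
  have hA := h.wf.1.adN A h.ad
  exact ⟨⟨h.ok.1, hA.2.1, h.col.2.2.1, h.wf.2.1⟩, ⟨h.ok.2, hA.2.2, h.col.2.2.2, h.wf.2.2⟩⟩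

lemma Side.vwup {p : ℕ} {t : DT Λ κ} {Sp : Finset Λ} {u : DT Λ κ} {A : Finset Λ}
    (h : Side wr Ad μ ν n t A) (hv : vw p t = .up Sp u) (hp : t.top ≤ p) (hp0 : 0 < p) :
    Side wr Ad μ ν p u A ∧ Side wr Ad μ ν p u (A ∩ Sp) ∧ Side wr Ad μ ν p u (A \ Sp) := by
  have e := vw_up_g hv
  have hok : u.g.Ok := by rw [e]; exact h.ok
  have hcol := (vw_up_col hv hp hp0 h.col).mono (Nat.le_succ p)
  have hwf := vw_up_all hv h.wf
  have had : Ad u.g A := by rw [e]; exact h.ad
  have key : Ad u.g (A ∩ Sp) ∧ Ad u.g (A \ Sp) := by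
    rcases vw_up hv with rfl | ⟨rfl, rfl, -⟩
    · exact h.wf.self.adU A h.ad
    · simp only [Finset.inter_empty, Finset.sdiff_empty]
      exact ⟨h.wf.self.adE, h.ad⟩
  exact ⟨⟨hok, had, hcol, hwf⟩, ⟨hok, key.1, hcol, hwf⟩, ⟨hok, key.2, hcol, hwf⟩⟩

lemma col_top {t : DT Λ κ} (h : t.Col n) (hl : ¬ t.isLeaf) : t.top.Prime ∧ t.top < n := by
  cases t with
  | leaf r f => exact absurd trivial hl
  | br p w r t₁ t₀ v B G => exact ⟨h.1, h.2.1⟩
  | add b r t₁ t₀ => exact ⟨h.1, h.2.1⟩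
  | up b Sp t => exact ⟨h.1, h.2.1⟩

lemma p_prime {s : St Λ κ} (h : Inv wr Ad μ ν n s) (hl : ¬ s.t.isLeaf) (hl' : ¬ s.t'.isLeaf) :
    s.p.Prime ∧ s.p ≤ n := by
  have h1 := col_top h.L.col hl
  have h2 := col_top h.R.col hl'
  unfold St.p
  rcases le_total s.t.top s.t'.top with h | h
  · rw [max_eq_right h]; exact ⟨h2.1, Nat.lt_succ_iff.1 h2.2⟩
  · rw [max_eq_left h]; exact ⟨h1.1, Nat.lt_succ_iff.1 h1.2⟩

/-- the invariant is preserved -/
theorem Inv.next0 {stp : Stp Λ κ} {s : St Λ κ} (h : Inv wr Ad μ ν n s) :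
    ∀ q ∈ nxt0 stp s, Inv wr Ad μ ν s.p q.2 ∧ 0 ≤ q.1 := by
  intro q hq
  unfold nxt0 at hq
  by_cases h1 : s.t.isLeaf ∨ s.t'.isLeaf
  · simp [h1] at hq
  by_cases h2 : stp s
  · simp [h1, h2] at hq
  rw [if_neg h1, if_neg h2] at hq
  rw [not_or] at h1
  obtain ⟨hpp, hpn⟩ := p_prime h h1.1 h1.2
  have hL := h.L
  have hR := h.R
  have hpL : s.t.top ≤ s.p := le_max_left _ _
  have hpR : s.t'.top ≤ s.p := le_max_right _ _
  have hLp := hL.down hpL
  have hRp := hR.down hpR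
  have aL := h.aL
  have aR := h.aR
  have aLp := aL.down hpn
  have aRp := aR.down hpn
  by_cases hPL : s.isPL
  · rw [if_pos hPL] at hq
    obtain ⟨w, r, t₁, t₀, v, B, G, -, et, h3⟩ := St.isPL_cases hPL
    rw [et] at hL
    obtain ⟨a1, a0, hb, -, -⟩ := hL.br
    have q1 : 0 ≤ 1 - w := by linarith [hb.w1]
    rcases h3 with ⟨hd, e⟩ | ⟨-, -, e⟩ <;> rw [e] at hq <;>
      simp only [List.mem_cons, List.not_mem_nil, or_false] at hq
    · rcases hq with rfl | rfl
      · exact ⟨⟨a1, hRp, aL.div hpn hpp hd, aRp⟩, q1⟩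
      · exact ⟨⟨a0, hRp, aL.div hpn hpp hd, aRp⟩, hb.w0⟩
    · rcases hq with rfl | rfl
      · exact ⟨⟨a1, hRp, aLp, aR.ins hpn hpp⟩, q1⟩
      · exact ⟨⟨a0, hRp, aLp, aR.ins hpn hpp⟩, hb.w0⟩
  by_cases hPR : s.isPR
  · rw [if_neg hPL, if_pos hPR] at hq
    obtain ⟨w, r, t₁, t₀, v, B, G, -, et, h3⟩ := St.isPR_cases hPR
    rw [et] at hR
    obtain ⟨a1, a0, hb, -, -⟩ := hR.br
    have q1 : 0 ≤ 1 - w := by linarith [hb.w1]
    rcases h3 with ⟨hd, e⟩ | ⟨-, -, e⟩ <;> rw [e] at hq <;>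
      simp only [List.mem_cons, List.not_mem_nil, or_false] at hq
    · rcases hq with rfl | rfl
      · exact ⟨⟨hLp, a1, aLp, aR.div hpn hpp hd⟩, q1⟩
      · exact ⟨⟨hLp, a0, aLp, aR.div hpn hpp hd⟩, hb.w0⟩
    · rcases hq with rfl | rfl
      · exact ⟨⟨hLp, a1, aL.ins hpn hpp, aRp⟩, q1⟩
      · exact ⟨⟨hLp, a0, aL.ins hpn hpp, aRp⟩, hb.w0⟩
  rw [if_neg hPL, if_neg hPR] at hq
  rcases hv : vw s.p s.t with ⟨w, r, t₁, t₀, v, B, G⟩ | ⟨r, t₁, t₀⟩ | ⟨Sp, u⟩ <;>
  rcases hv' : vw s.p s.t' with ⟨w', r', t₁', t₀', v', B', G'⟩ | ⟨r', t₁', t₀'⟩ | ⟨Sp', u'⟩ <;>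
  simp only [hv, hv'] at hq
  · -- br br
    rw [vw_br hv] at hL
    rw [vw_br hv'] at hR
    obtain ⟨a1, a0, hb, -, -⟩ := hL.br
    obtain ⟨b1, b0, hb', -, -⟩ := hR.br
    have q1 : 0 ≤ 1 - w := by linarith [hb.w1]
    have q2 : 0 ≤ 1 - w' := by linarith [hb'.w1]
    simp only [List.mem_cons, List.not_mem_nil, or_false] at hq
    rcases hq with rfl | rfl | rfl | rfl
    · exact ⟨⟨a1, b1, aL.down hpn, aR.down hpn⟩, mul_nonneg q1 q2⟩
    · exact ⟨⟨a1, b0, aL.down hpn, aR.down hpn⟩, mul_nonneg q1 hb'.w0⟩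
    · exact ⟨⟨a0, b1, aL.down hpn, aR.down hpn⟩, mul_nonneg hb.w0 q2⟩
    · exact ⟨⟨a0, b0, aL.down hpn, aR.down hpn⟩, mul_nonneg hb.w0 hb'.w0⟩
  · -- br add
    rw [vw_add hv'] at hR
    obtain ⟨b1, b0⟩ := hR.add
    simp only [List.mem_cons, List.not_mem_nil, or_false] at hq
    subst hq
    refine ⟨?_, zero_le_one⟩
    rcases stp.c_or s t₁' t₀' with ⟨hc, -⟩ | ⟨hc, -⟩ <;> rw [hc]
    · exact ⟨hLp, b1, aLp, aR.down hpn⟩
    · exact ⟨hLp, b0, aLp, aR.down hpn⟩
  · -- br up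
    rw [vw_br hv] at hL
    obtain ⟨a1, a0, hb, -, -⟩ := hL.br
    obtain ⟨b, -, -⟩ := hR.vwup hv' hpR hpp.pos
    have q1 : 0 ≤ 1 - w := by linarith [hb.w1]
    simp only [List.mem_cons, List.not_mem_nil, or_false] at hq
    rcases hq with rfl | rfl
    · exact ⟨⟨a1, b, aL.down hpn, aR.ins hpn hpp⟩, q1⟩
    · exact ⟨⟨a0, b, aL.down hpn, aR.ins hpn hpp⟩, hb.w0⟩
  · -- add br
    rw [vw_add hv] at hL
    obtain ⟨a1, a0⟩ := hL.add
    simp only [List.mem_cons, List.not_mem_nil, or_false] at hq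
    subst hq
    refine ⟨?_, zero_le_one⟩
    rcases stp.c_or s t₁ t₀ with ⟨hc, -⟩ | ⟨hc, -⟩ <;> rw [hc]
    · exact ⟨a1, hRp, aL.down hpn, aRp⟩
    · exact ⟨a0, hRp, aL.down hpn, aRp⟩
  · -- add add
    rw [vw_add hv] at hL
    rw [vw_add hv'] at hR
    obtain ⟨a1, a0⟩ := hL.add
    obtain ⟨b1, b0⟩ := hR.add
    split_ifs at hq with hj hl <;>
      simp only [List.mem_cons, List.not_mem_nil, or_false] at hq
    · rcases hq with rfl | rfl
      · exact ⟨⟨a1, b1, aL.down hpn, aR.down hpn⟩, zero_le_one⟩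
      · exact ⟨⟨a0, b0, aL.down hpn, aR.down hpn⟩, zero_le_one⟩
    · subst hq
      refine ⟨?_, zero_le_one⟩
      rcases stp.c_or s t₁ t₀ with ⟨hc, -⟩ | ⟨hc, -⟩ <;> rw [hc]
      · exact ⟨a1, hRp, aL.down hpn, aRp⟩
      · exact ⟨a0, hRp, aL.down hpn, aRp⟩
    · subst hq
      refine ⟨?_, zero_le_one⟩
      rcases stp.c_or s t₁' t₀' with ⟨hc, -⟩ | ⟨hc, -⟩ <;> rw [hc]
      · exact ⟨hLp, b1, aLp, aR.down hpn⟩
      · exact ⟨hLp, b0, aLp, aR.down hpn⟩
  · -- add up
    rw [vw_add hv] at hL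
    obtain ⟨a1, a0⟩ := hL.add
    obtain ⟨-, b1, b0⟩ := hR.vwup hv' hpR hpp.pos
    split_ifs at hq with hj <;>
      simp only [List.mem_cons, List.not_mem_nil, or_false] at hq
    · rcases hq with rfl | rfl
      · exact ⟨⟨a1, b1, aL.down hpn, aR.down hpn⟩, zero_le_one⟩
      · exact ⟨⟨a0, b0, aL.down hpn, aR.down hpn⟩, zero_le_one⟩
    · subst hq
      refine ⟨?_, zero_le_one⟩
      rcases stp.c_or s t₁ t₀ with ⟨hc, -⟩ | ⟨hc, -⟩ <;> rw [hc]
      · exact ⟨a1, hRp, aL.down hpn, aRp⟩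
      · exact ⟨a0, hRp, aL.down hpn, aRp⟩
  · -- up br
    rw [vw_br hv'] at hR
    obtain ⟨b1, b0, hb, -, -⟩ := hR.br
    obtain ⟨a, -, -⟩ := hL.vwup hv hpL hpp.pos
    have q1 : 0 ≤ 1 - w' := by linarith [hb.w1]
    simp only [List.mem_cons, List.not_mem_nil, or_false] at hq
    rcases hq with rfl | rfl
    · exact ⟨⟨a, b1, aL.ins hpn hpp, aR.down hpn⟩, q1⟩
    · exact ⟨⟨a, b0, aL.ins hpn hpp, aR.down hpn⟩, hb.w0⟩
  · -- up add
    rw [vw_add hv'] at hR
    obtain ⟨b1, b0⟩ := hR.add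
    obtain ⟨-, a1, a0⟩ := hL.vwup hv hpL hpp.pos
    split_ifs at hq with hj <;>
      simp only [List.mem_cons, List.not_mem_nil, or_false] at hq
    · rcases hq with rfl | rfl
      · exact ⟨⟨a1, b1, aL.down hpn, aR.down hpn⟩, zero_le_one⟩
      · exact ⟨⟨a0, b0, aL.down hpn, aR.down hpn⟩, zero_le_one⟩
    · subst hq
      refine ⟨?_, zero_le_one⟩
      rcases stp.c_or s t₁' t₀' with ⟨hc, -⟩ | ⟨hc, -⟩ <;> rw [hc]
      · exact ⟨hLp, b1, aLp, aR.down hpn⟩
      · exact ⟨hLp, b0, aLp, aR.down hpn⟩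
  · -- up up
    obtain ⟨a, -, -⟩ := hL.vwup hv hpL hpp.pos
    obtain ⟨b, -, -⟩ := hR.vwup hv' hpR hpp.pos
    simp only [List.mem_cons, List.not_mem_nil, or_false] at hq
    subst hq
    exact ⟨⟨a, b, aL.down hpn, aR.down hpn⟩, zero_le_one⟩

theorem Inv.next {stp : Stp Λ κ} {s : St Λ κ} (h : Inv wr Ad μ ν n s) :
    ∀ q ∈ nxt stp s, Inv wr Ad μ ν s.p q.2 ∧ 0 ≤ q.1 :=
  fun q hq => h.next0 q (mem_nxt.1 hq).1

theorem Inv.next_pos {stp : Stp Λ κ} {s : St Λ κ} (h : Inv wr Ad μ ν n s) :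
    ∀ q ∈ nxt stp s, 0 < q.1 :=
  fun q hq => lt_of_le_of_ne (h.next0 q (mem_nxt.1 hq).1).2 (Ne.symm (mem_nxt.1 hq).2)

/-- node predicates are inherited by the continuing states -/
theorem nxt0_all {stp : Stp Λ κ} {F : DT Λ κ → Prop} {s : St Λ κ} (h : s.t.All F)
    (h' : s.t'.All F) : ∀ q ∈ nxt0 stp s, q.2.t.All F ∧ q.2.t'.All F := by
  intro q hq
  unfold nxt0 at hq
  by_cases h1 : s.t.isLeaf ∨ s.t'.isLeaf
  · simp [h1] at hq
  by_cases h2 : stp s
  · simp [h1, h2] at hq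
  rw [if_neg h1, if_neg h2] at hq
  by_cases hPL : s.isPL
  · rw [if_pos hPL] at hq
    obtain ⟨w, r, t₁, t₀, v, B, G, -, et, h3⟩ := St.isPL_cases hPL
    rw [et] at h
    rcases h3 with ⟨-, e⟩ | ⟨-, -, e⟩ <;> rw [e] at hq <;>
      simp only [List.mem_cons, List.not_mem_nil, or_false] at hq <;>
      rcases hq with rfl | rfl
    · exact ⟨h.2.1, h'⟩
    · exact ⟨h.2.2, h'⟩
    · exact ⟨h.2.1, h'⟩
    · exact ⟨h.2.2, h'⟩
  by_cases hPR : s.isPR
  · rw [if_neg hPL, if_pos hPR] at hq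
    obtain ⟨w, r, t₁, t₀, v, B, G, -, et, h3⟩ := St.isPR_cases hPR
    rw [et] at h'
    rcases h3 with ⟨-, e⟩ | ⟨-, -, e⟩ <;> rw [e] at hq <;>
      simp only [List.mem_cons, List.not_mem_nil, or_false] at hq <;>
      rcases hq with rfl | rfl
    · exact ⟨h, h'.2.1⟩
    · exact ⟨h, h'.2.2⟩
    · exact ⟨h, h'.2.1⟩
    · exact ⟨h, h'.2.2⟩
  rw [if_neg hPL, if_neg hPR] at hq
  rcases hv : vw s.p s.t with ⟨w, r, t₁, t₀, v, B, G⟩ | ⟨r, t₁, t₀⟩ | ⟨Sp, u⟩ <;>
  rcases hv' : vw s.p s.t' with ⟨w', r', t₁', t₀', v', B', G'⟩ | ⟨r', t₁', t₀'⟩ | ⟨Sp', u'⟩ <;>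
  simp only [hv, hv'] at hq
  · simp only [List.mem_cons, List.not_mem_nil, or_false] at hq
    rw [vw_br hv] at h
    rw [vw_br hv'] at h'
    rcases hq with rfl | rfl | rfl | rfl
    · exact ⟨h.2.1, h'.2.1⟩
    · exact ⟨h.2.1, h'.2.2⟩
    · exact ⟨h.2.2, h'.2.1⟩
    · exact ⟨h.2.2, h'.2.2⟩
  · simp only [List.mem_cons, List.not_mem_nil, or_false] at hq
    rw [vw_add hv'] at h'
    subst hq
    rcases stp.c_or s t₁' t₀' with ⟨hc, -⟩ | ⟨hc, -⟩ <;> simp only [hc]
    · exact ⟨h, h'.2.1⟩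
    · exact ⟨h, h'.2.2⟩
  · simp only [List.mem_cons, List.not_mem_nil, or_false] at hq
    rw [vw_br hv] at h
    have b := vw_up_all hv' h'
    rcases hq with rfl | rfl
    · exact ⟨h.2.1, b⟩
    · exact ⟨h.2.2, b⟩
  · simp only [List.mem_cons, List.not_mem_nil, or_false] at hq
    rw [vw_add hv] at h
    subst hq
    rcases stp.c_or s t₁ t₀ with ⟨hc, -⟩ | ⟨hc, -⟩ <;> simp only [hc]
    · exact ⟨h.2.1, h'⟩
    · exact ⟨h.2.2, h'⟩
  · rw [vw_add hv] at h
    rw [vw_add hv'] at h'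
    split_ifs at hq with hj hl <;>
      simp only [List.mem_cons, List.not_mem_nil, or_false] at hq
    · rcases hq with rfl | rfl
      · exact ⟨h.2.1, h'.2.1⟩
      · exact ⟨h.2.2, h'.2.2⟩
    · subst hq
      have e' : s.t' = .add s.p r' t₁' t₀' := vw_add hv'
      rcases stp.c_or s t₁ t₀ with ⟨hc, -⟩ | ⟨hc, -⟩ <;> simp only [hc]
      · exact ⟨h.2.1, by rw [e']; exact h'⟩
      · exact ⟨h.2.2, by rw [e']; exact h'⟩
    · subst hq
      have e : s.t = .add s.p r t₁ t₀ := vw_add hv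
      rcases stp.c_or s t₁' t₀' with ⟨hc, -⟩ | ⟨hc, -⟩ <;> simp only [hc]
      · exact ⟨by rw [e]; exact h, h'.2.1⟩
      · exact ⟨by rw [e]; exact h, h'.2.2⟩
  · have b := vw_up_all hv' h'
    rw [vw_add hv] at h
    split_ifs at hq with hj <;>
      simp only [List.mem_cons, List.not_mem_nil, or_false] at hq
    · rcases hq with rfl | rfl
      · exact ⟨h.2.1, b⟩
      · exact ⟨h.2.2, b⟩
    · subst hq
      rcases stp.c_or s t₁ t₀ with ⟨hc, -⟩ | ⟨hc, -⟩ <;> simp only [hc]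
      · exact ⟨h.2.1, h'⟩
      · exact ⟨h.2.2, h'⟩
  · simp only [List.mem_cons, List.not_mem_nil, or_false] at hq
    rw [vw_br hv'] at h'
    have b := vw_up_all hv h
    rcases hq with rfl | rfl
    · exact ⟨b, h'.2.1⟩
    · exact ⟨b, h'.2.2⟩
  · have b := vw_up_all hv h
    rw [vw_add hv'] at h'
    split_ifs at hq with hj <;>
      simp only [List.mem_cons, List.not_mem_nil, or_false] at hq
    · rcases hq with rfl | rfl
      · exact ⟨b, h'.2.1⟩
      · exact ⟨b, h'.2.2⟩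
    · subst hq
      rcases stp.c_or s t₁' t₀' with ⟨hc, -⟩ | ⟨hc, -⟩ <;> simp only [hc]
      · exact ⟨h, h'.2.1⟩
      · exact ⟨h, h'.2.2⟩
  · simp only [List.mem_cons, List.not_mem_nil, or_false] at hq
    subst hq
    exact ⟨vw_up_all hv h, vw_up_all hv' h'⟩

theorem nxt_all {stp : Stp Λ κ} {F : DT Λ κ → Prop} {s : St Λ κ} (h : s.t.All F)
    (h' : s.t'.All F) : ∀ q ∈ nxt stp s, q.2.t.All F ∧ q.2.t'.All F :=
  fun q hq => nxt0_all h h' q (mem_nxt.1 hq).1

/-! ### local errors -/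

/-- overlap sum of a state -/
noncomputable def Qs (s : St Λ κ) : ℝ :=
  Q s.R (avg s.M (rv s.A s.t.g.val)) (avg s.M' (rv s.A' s.t'.g.val))

/-- excess of a crossing pair over the product bound -/
noncomputable def Xs (μ : TrG Λ κ → Finset Λ → ℝ) (B : ℝ) (s : St Λ κ) : ℝ :=
  max 0 (Qs s - B * (μ s.t.g s.A * μ s.t'.g s.A'))

open Classical in
/-- cost of a stop -/
noncomputable def eSTOP (stp : Stp Λ κ) (μ : TrG Λ κ → Finset Λ → ℝ) (ν : TrG Λ κ → ℝ)
    (B : ℝ) (s : St Λ κ) : ℝ :=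
  if s.t.isLeaf ∨ s.t'.isLeaf then 0 else if stp s then
    max 0 (Qs s - B * Lh (μ s.t.g s.A) (ν s.t.g) (μ s.t'.g s.A') (ν s.t'.g)) else 0

open Classical in
/-- two-sided near misses -/
noncomputable def eNM (stp : Stp Λ κ) (s : St Λ κ) : ℝ :=
  if s.t.isLeaf ∨ s.t'.isLeaf then 0 else if stp s then 0 else if s.isPL ∨ s.isPR then 0 else
  match vw s.p s.t, vw s.p s.t' with
  | .br _ r _ _ _ _ G, .br _ _ _ _ _ _ G' =>
      Q (orel κ) (avg s.M (rk s.A r G)) (avg s.M' (rk s.A' r G'))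
  | _, _ => 0

open Classical in
/-- one-sided columns, the other tree has nothing (or retained primes) there -/
noncomputable def eOS (stp : Stp Λ κ) (s : St Λ κ) : ℝ :=
  if s.t.isLeaf ∨ s.t'.isLeaf then 0 else if stp s then 0 else if s.isPL ∨ s.isPR then 0 else
  match vw s.p s.t, vw s.p s.t' with
  | .br _ r _ _ _ _ G, .up _ _ =>
      os (orel κ) s.p (avg s.M (rk s.A r G)) (sm r (avg s.M' (rv s.A' s.t'.g.val)))
  | .up _ _, .br _ r _ _ _ _ G =>
      os (orel κ) s.p (avg s.M' (rk s.A' r G)) (sm r (avg s.M (rv s.A s.t.g.val)))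
  | _, _ => 0

/-- relation change of a pre-step -/
noncomputable def St.shr (s : St Λ κ) : Vw Λ κ → ℝ
  | .br _ r _ _ _ _ _ => Qs { s with R := s.R \ Ro r }
  | _ => 0

open Classical in
/-- pairs which are in one world below but not above -/
noncomputable def eSHR (stp : Stp Λ κ) (s : St Λ κ) : ℝ :=
  if s.t.isLeaf ∨ s.t'.isLeaf then 0 else if stp s then 0 else
  if s.isPL then s.shr (vw s.p s.t) else if s.isPR then s.shr (vw s.p s.t') else
  match vw s.p s.t, vw s.p s.t' with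
  | .br _ r _ _ _ _ _, .br _ _ _ _ _ _ _ => Qs { s with R := s.R \ Ro r }
  | .br _ r _ _ _ _ _, .up _ _ => Qs { s with R := s.R \ Ro r }
  | .up _ _, .br _ r _ _ _ _ _ => Qs { s with R := s.R \ Ro r }
  | _, _ => 0

open Classical in
/-- crossing pairs at SEP and far columns -/
noncomputable def eX (stp : Stp Λ κ) (μ : TrG Λ κ → Finset Λ → ℝ) (B : ℝ)
    (s : St Λ κ) : ℝ :=
  if s.t.isLeaf ∨ s.t'.isLeaf then 0 else if stp s then 0 else if s.isPL ∨ s.isPR then 0 else
  match vw s.p s.t, vw s.p s.t' with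
  | .br _ _ _ _ _ _ _, .add _ t₁' t₀' => Xs μ B { s with t' := stp.x s t₁' t₀' }
  | .add _ t₁ t₀, .br _ _ _ _ _ _ _ => Xs μ B { s with t := stp.x s t₁ t₀ }
  | .add _ t₁ t₀, .add _ t₁' t₀' =>
      if stp.jt s then
        Xs μ B { s with t := t₁, t' := t₀' } + Xs μ B { s with t := t₀, t' := t₁' }
      else if stp.lf s then Xs μ B { s with t := stp.x s t₁ t₀ }
      else Xs μ B { s with t' := stp.x s t₁' t₀' }
  | .add _ t₁ t₀, .up Sp u =>
      if stp.jt s then
        Xs μ B { s with t := t₁, t' := u, A' := s.A' \ Sp } +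
          Xs μ B { s with t := t₀, t' := u, A' := s.A' ∩ Sp }
      else Xs μ B { s with t := stp.x s t₁ t₀ }
  | .up Sp u, .add _ t₁' t₀' =>
      if stp.jt s then
        Xs μ B { s with t := u, A := s.A ∩ Sp, t' := t₀' } +
          Xs μ B { s with t := u, A := s.A \ Sp, t' := t₁' }
      else Xs μ B { s with t' := stp.x s t₁' t₀' }
  | _, _ => 0

/-- total local error -/
noncomputable def eAll (stp : Stp Λ κ) (μ : TrG Λ κ → Finset Λ → ℝ) (ν : TrG Λ κ → ℝ)
    (B : ℝ) (s : St Λ κ) : ℝ :=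
  eNM stp s + eOS stp s + eSHR stp s + eX stp μ B s + eSTOP stp μ ν B s

lemma Qs_le_Xs (μ : TrG Λ κ → Finset Λ → ℝ) (B : ℝ) (s : St Λ κ) :
    Qs s ≤ B * (μ s.t.g s.A * μ s.t'.g s.A') + Xs μ B s := by
  unfold Xs
  have := le_max_right 0 (Qs s - B * (μ s.t.g s.A * μ s.t'.g s.A'))
  linarith

/-- the walk sum -/
noncomputable def WS (stp : Stp Λ κ) (loc : St Λ κ → ℝ) (s : St Λ κ) : ℝ :=
  W (nxt stp) St.rank loc s

lemma WS_eq (stp : Stp Λ κ) (loc : St Λ κ → ℝ) (s : St Λ κ) :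
    WS stp loc s = loc s + ((nxt stp s).map fun q => q.1 * WS stp loc q.2).sum :=
  W_eq (fun s => nxt_rank stp s) loc s

lemma WS_eq0 (stp : Stp Λ κ) (loc : St Λ κ → ℝ) (s : St Λ κ) :
    WS stp loc s = loc s + ((nxt0 stp s).map fun q => q.1 * WS stp loc q.2).sum := by
  rw [WS_eq, nxt_sum]

/-! ### one-sided rules, either child goes on -/

variable {B : ℝ}

lemma decL' {M M' : ℕ} {R : Finset (Λ × Λ)} (hB : 0 ≤ B) {r : Λ → κ} {t₁ t₀ t' : TrG Λ κ}
    {A A' : Finset Λ} {e₀ x e : ℝ}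
    (hN : (TrG.add r t₁ t₀).All (AdN Ad)) (hm : (TrG.add r t₁ t₀).All (MassOk Ad μ ν))
    (hm' : t'.All (MassOk Ad μ ν))
    (hA : Ad (TrG.add r t₁ t₀) A) (hA' : Ad t' A') (hE : Ad t' ∅)
    (h₀ : PWRf Ad μ ν B M M' R t₀ A t' A' e₀)
    (hx : Q R (avg M (rv A t₁.val)) (avg M' (rv A' t'.val)) ≤ B * (μ t₁ A * μ t' A') + x)
    (he : e₀ + x ≤ e) : PWRf Ad μ ν B M M' R (.add r t₁ t₀) A t' A' e := by
  have hd : Dec Ad (TrG.add r t₁ t₀) A t₁ A t₀ A := Dec.add
  have ad := hd.ad hN hA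
  have n0 := (hd.all hm).2.self.base.nn _ ad.2
  have nE := hm'.self.base.nn _ hE
  refine PWRf.dec (x₁₀ := x) (x₀₁ := 0) (e₁ := 0) (e₀ := e₀) hd
    (Dec.set (A₁ := ∅) (A₀ := A') (by simp) (Finset.disjoint_empty_left _) hE hA')
    (PWRf.emptyR hB (hd.all hm).1.self hm'.self ad.1 hE) h₀ hx ?_ (by linarith)
  rw [Q_empty_right]; positivity

lemma decR' {M M' : ℕ} {R : Finset (Λ × Λ)} (hB : 0 ≤ B) {r : Λ → κ} {t t₁' t₀' : TrG Λ κ}
    {A A' : Finset Λ} {e₀ x e : ℝ}
    (hN' : (TrG.add r t₁' t₀').All (AdN Ad)) (hm : t.All (MassOk Ad μ ν))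
    (hm' : (TrG.add r t₁' t₀').All (MassOk Ad μ ν))
    (hA : Ad t A) (hA' : Ad (TrG.add r t₁' t₀') A') (hE : Ad t ∅)
    (h₀ : PWRf Ad μ ν B M M' R t A t₀' A' e₀)
    (hx : Q R (avg M (rv A t.val)) (avg M' (rv A' t₁'.val)) ≤ B * (μ t A * μ t₁' A') + x)
    (he : e₀ + x ≤ e) : PWRf Ad μ ν B M M' R t A (.add r t₁' t₀') A' e := by
  have hd : Dec Ad (TrG.add r t₁' t₀') A' t₁' A' t₀' A' := Dec.add
  have ad := hd.ad hN' hA'
  have n0 := (hd.all hm').2.self.base.nn _ ad.2
  have nE := hm.self.base.nn _ hE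
  refine PWRf.dec (x₁₀ := 0) (x₀₁ := x) (e₁ := 0) (e₀ := e₀)
    (Dec.set (A₁ := ∅) (A₀ := A) (by simp) (Finset.disjoint_empty_left _) hE hA) hd
    (PWRf.emptyL hB hm.self (hd.all hm').1.self ad.1 hE) h₀ ?_ hx (by linarith)
  rw [Q_empty_left]; positivity

lemma avg_rk_zero (M : ℕ) (A : Finset Λ) (r : Λ → κ) :
    avg M (rk A r (fun _ _ => (0 : ℝ))) = fun _ _ => 0 := by
  funext c x
  have : rk A r (fun _ _ => (0 : ℝ)) c = fun _ => 0 := by
    unfold rk; split_ifs <;> rfl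
  unfold avg
  rw [this]
  simp [Ep]

lemma os_zero {X : Type*} (R : Finset (X × X)) (p : ℕ) (F : X → ℝ → ℝ) :
    os R p (fun _ _ => (0 : ℝ)) F = 0 := by
  unfold os
  refine Finset.sum_eq_zero fun e _ => ?_
  simp [I, Ep]

/-- the left add node is processed, partner whole -/
lemma oneL {stp : Stp Λ κ} (hB : 0 ≤ B) {s : St Λ κ} {p : ℕ} {r : Λ → κ} {t₁ t₀ : DT Λ κ}
    (hs : s.t = .add p r t₁ t₀) (hL : Side wr Ad μ ν n s.t s.A) (hR : Side wr Ad μ ν n s.t' s.A')
    {e₁ : ℝ} (c : PWRf Ad μ ν B s.M s.M' s.R (stp.c s t₁ t₀).g s.A s.t'.g s.A' e₁) :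
    PWRf Ad μ ν B s.M s.M' s.R s.t.g s.A s.t'.g s.A'
      (e₁ + Xs μ B { s with t := stp.x s t₁ t₀ }) := by
  have gL : s.t.g.All (AdN Ad) := (hL.wf.mono fun d hd => hd.adN).g
  have mL : s.t.g.All (MassOk Ad μ ν) := (hL.wf.mono fun d hd => hd.mass).g
  have mR : s.t'.g.All (MassOk Ad μ ν) := (hR.wf.mono fun d hd => hd.mass).g
  have ER := hR.wf.self.adE
  have aL := hL.ad
  have hX := Qs_le_Xs μ B { s with t := stp.x s t₁ t₀ }
  have eg : s.t.g = TrG.add r t₁.g t₀.g := congrArg DT.g hs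
  rw [eg] at gL mL aL ⊢
  rcases stp.c_or s t₁ t₀ with ⟨hc, hx⟩ | ⟨hc, hx⟩
  · rw [hc] at c
    rw [hx] at hX ⊢
    exact PWRf.decL hB gL mL mR aL hR.ad ER Dec.add c hX le_rfl
  · rw [hc] at c
    rw [hx] at hX ⊢
    exact decL' hB gL mL mR aL hR.ad ER c hX le_rfl

/-- the right add node is processed, partner whole -/
lemma oneR {stp : Stp Λ κ} (hB : 0 ≤ B) {s : St Λ κ} {p : ℕ} {r : Λ → κ} {t₁ t₀ : DT Λ κ}
    (hs : s.t' = .add p r t₁ t₀) (hL : Side wr Ad μ ν n s.t s.A) (hR : Side wr Ad μ ν n s.t' s.A')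
    {e₁ : ℝ} (c : PWRf Ad μ ν B s.M s.M' s.R s.t.g s.A (stp.c s t₁ t₀).g s.A' e₁) :
    PWRf Ad μ ν B s.M s.M' s.R s.t.g s.A s.t'.g s.A'
      (e₁ + Xs μ B { s with t' := stp.x s t₁ t₀ }) := by
  have gR : s.t'.g.All (AdN Ad) := (hR.wf.mono fun d hd => hd.adN).g
  have mL : s.t.g.All (MassOk Ad μ ν) := (hL.wf.mono fun d hd => hd.mass).g
  have mR : s.t'.g.All (MassOk Ad μ ν) := (hR.wf.mono fun d hd => hd.mass).g
  have EL := hL.wf.self.adE
  have aR := hR.ad
  have hX := Qs_le_Xs μ B { s with t' := stp.x s t₁ t₀ }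
  have eg : s.t'.g = TrG.add r t₁.g t₀.g := congrArg DT.g hs
  rw [eg] at gR mR aR ⊢
  rcases stp.c_or s t₁ t₀ with ⟨hc, hx⟩ | ⟨hc, hx⟩
  · rw [hc] at c
    rw [hx] at hX ⊢
    exact PWRf.decR hB gR mL mR hL.ad aR EL Dec.add c hX le_rfl
  · rw [hc] at c
    rw [hx] at hX ⊢
    exact decR' hB gR mL mR hL.ad aR EL c hX le_rfl

set_option maxHeartbeats 2000000 in
/-- **the walk is a certificate** -/
theorem walk_cert {stp : Stp Λ κ} (hB : 0 ≤ B) :
    ∀ (k n : ℕ) (s : St Λ κ), s.rank < k → Inv wr Ad μ ν n s →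
      PWRf Ad μ ν B s.M s.M' s.R s.t.g s.A s.t'.g s.A' (WS stp (eAll stp μ ν B) s) := by
  intro k
  induction k with
  | zero => intro n s hs; omega
  | succ k ih =>
    intro n s hs h
    have hcont : ∀ q ∈ nxt0 stp s, PWRf Ad μ ν B q.2.M q.2.M' q.2.R q.2.t.g q.2.A q.2.t'.g q.2.A'
        (WS stp (eAll stp μ ν B) q.2) := fun q hq =>
      ih s.p q.2 (by have := nxt0_rank stp s q hq; omega) (h.next0 q hq).1
    rw [WS_eq0]
    by_cases h1 : s.t.isLeaf ∨ s.t'.isLeaf
    · have e0 : eAll stp μ ν B s = 0 := by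
        simp [eAll, eNM, eOS, eSHR, eX, eSTOP, h1]
      have e1 : nxt0 stp s = [] := by simp [nxt0, h1]
      rw [e0, e1]
      simp only [List.map_nil, List.sum_nil, add_zero]
      rcases h1 with h1 | h1
      · obtain ⟨M, M', O, O', R, t, A, t', A'⟩ := s
        cases t with
        | leaf r f => exact PWRf.leafL le_rfl
        | br _ _ _ _ _ _ _ _ => exact absurd h1 id
        | add _ _ _ _ => exact absurd h1 id
        | up _ _ _ => exact absurd h1 id
      · obtain ⟨M, M', O, O', R, t, A, t', A'⟩ := s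
        cases t' with
        | leaf r f => exact PWRf.leafR le_rfl
        | br _ _ _ _ _ _ _ _ => exact absurd h1 id
        | add _ _ _ _ => exact absurd h1 id
        | up _ _ _ => exact absurd h1 id
    by_cases h2 : stp s
    · have e1 : nxt0 stp s = [] := by simp [nxt0, h1, h2]
      have e0 : eAll stp μ ν B s =
          max 0 (Qs s - B * Lh (μ s.t.g s.A) (ν s.t.g) (μ s.t'.g s.A') (ν s.t'.g)) := by
        simp [eAll, eNM, eOS, eSHR, eX, eSTOP, h1, h2]
      rw [e0, e1]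
      simp only [List.map_nil, List.sum_nil, add_zero]
      refine PWRf.stop ?_
      have := le_max_right 0 (Qs s - B * Lh (μ s.t.g s.A) (ν s.t.g) (μ s.t'.g s.A') (ν s.t'.g))
      unfold Qs at this ⊢
      linarith
    · have h1' := h1
      rw [not_or] at h1'
      obtain ⟨hpp, hpn⟩ := p_prime h h1'.1 h1'.2
      have hL := h.L
      have hR := h.R
      have hpL : s.t.top ≤ s.p := le_max_left _ _
      have hpR : s.t'.top ≤ s.p := le_max_right _ _
      by_cases hPL : s.isPL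
      · obtain ⟨w, r, t₁, t₀, v, B₁, G, hv, et, h3⟩ := St.isPL_cases hPL
        have e0 : eAll stp μ ν B s = Qs { s with R := s.R \ Ro r } := by
          simp [eAll, eNM, eOS, eSHR, eX, eSTOP, h1, h2, hPL, St.shr, hv]
        have eg : s.t.g = TrG.br s.p w r t₁.g t₀.g v B₁ G := congrArg DT.g et
        have hpul : PulN s.t := hL.wf.self.pul
        rw [et] at hpul
        rcases h3 with ⟨hd, e⟩ | ⟨hd, hw, e⟩
        · have e1 : nxt0 stp s = [(1 - w, s.fL r t₁), (w, s.fL r t₀)] := by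
            simp [nxt0, h1, h2, hPL, e]
          rw [e1] at hcont
          have c1 := hcont _ (List.mem_cons_self)
          have c0 := hcont _ (List.mem_cons_of_mem _ (List.mem_cons_self))
          rw [e0, e1]
          have key : PWRf Ad μ ν B (s.p * (s.M / s.p)) s.M' (Ro r)
              (TrG.br s.p w r t₁.g t₀.g v B₁ G) s.A s.t'.g s.A' _ :=
            PWRf.fcL (w := w) c1 c0 le_rfl
          rw [← eg, Nat.mul_div_cancel' hd] at key
          refine PWRf.shrink key ?_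
          simp only [List.map_cons, List.map_nil, List.sum_cons, List.sum_nil, Qs]
          linarith
        · have e1 : nxt0 stp s = [(1 - w, s.pL r t₁), (w, s.pL r t₀)] := by
            simp [nxt0, h1, h2, hPL, e]
          rw [e1] at hcont
          have c1 := hcont _ (List.mem_cons_self)
          have c0 := hcont _ (List.mem_cons_of_mem _ (List.mem_cons_self))
          rw [e0, e1]
          have cL : Nat.Coprime s.p s.M := (Nat.Prime.coprime_iff_not_dvd hpp).2 hd
          have key : PWRf Ad μ ν B s.M s.M' (Ro r) (TrG.br s.p w r t₁.g t₀.g v B₁ G) s.A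
              s.t'.g s.A' _ := PWRf.colL (w := w) cL c1 c0 le_rfl
          rw [(hpul hw).2, avg_rk_zero, os_zero, zero_add] at key
          rw [(hpul hw).2] at eg
          rw [← eg] at key
          refine PWRf.shrink key ?_
          simp only [List.map_cons, List.map_nil, List.sum_cons, List.sum_nil, Qs]
          linarith
      by_cases hPR : s.isPR
      · obtain ⟨w, r, t₁, t₀, v, B₁, G, hv, et, h3⟩ := St.isPR_cases hPR
        have e0 : eAll stp μ ν B s = Qs { s with R := s.R \ Ro r } := by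
          simp [eAll, eNM, eOS, eSHR, eX, eSTOP, h1, h2, hPL, hPR, St.shr, hv]
        have eg : s.t'.g = TrG.br s.p w r t₁.g t₀.g v B₁ G := congrArg DT.g et
        have hpul : PulN s.t' := hR.wf.self.pul
        rw [et] at hpul
        rcases h3 with ⟨hd, e⟩ | ⟨hd, hw, e⟩
        · have e1 : nxt0 stp s = [(1 - w, s.fR r t₁), (w, s.fR r t₀)] := by
            simp [nxt0, h1, h2, hPL, hPR, e]
          rw [e1] at hcont
          have c1 := hcont _ (List.mem_cons_self)
          have c0 := hcont _ (List.mem_cons_of_mem _ (List.mem_cons_self))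
          rw [e0, e1]
          have key : PWRf Ad μ ν B s.M (s.p * (s.M' / s.p)) (Ro r) s.t.g s.A
              (TrG.br s.p w r t₁.g t₀.g v B₁ G) s.A' _ :=
            PWRf.fcR (w := w) c1 c0 le_rfl
          rw [← eg, Nat.mul_div_cancel' hd] at key
          refine PWRf.shrink key ?_
          simp only [List.map_cons, List.map_nil, List.sum_cons, List.sum_nil, Qs]
          linarith
        · have e1 : nxt0 stp s = [(1 - w, s.pR r t₁), (w, s.pR r t₀)] := by
            simp [nxt0, h1, h2, hPL, hPR, e]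
          rw [e1] at hcont
          have c1 := hcont _ (List.mem_cons_self)
          have c0 := hcont _ (List.mem_cons_of_mem _ (List.mem_cons_self))
          rw [e0, e1]
          have cR : Nat.Coprime s.p s.M' := (Nat.Prime.coprime_iff_not_dvd hpp).2 hd
          have key : PWRf Ad μ ν B s.M s.M' (Ro r) s.t.g s.A
              (TrG.br s.p w r t₁.g t₀.g v B₁ G) s.A' _ := PWRf.colR (w := w) cR c1 c0 le_rfl
          rw [(hpul hw).2, avg_rk_zero, os_zero, zero_add] at key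
          rw [(hpul hw).2] at eg
          rw [← eg] at key
          refine PWRf.shrink key ?_
          simp only [List.map_cons, List.map_nil, List.sum_cons, List.sum_nil, Qs]
          linarith
      rcases hv : vw s.p s.t with ⟨w, r, t₁, t₀, v, B₁, G⟩ | ⟨r, t₁, t₀⟩ | ⟨Sp, u⟩ <;>
      rcases hv' : vw s.p s.t' with ⟨w', r', t₁', t₀', v', B', G'⟩ | ⟨r', t₁', t₀'⟩ | ⟨Sp', u'⟩
      · -- br br
        have e1 : nxt0 stp s = [((1 - w) * (1 - w'), { s with R := Ro r, t := t₁, t' := t₁' }),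
            ((1 - w) * w', { s with R := Ro r, t := t₁, t' := t₀' }),
            (w * (1 - w'), { s with R := Ro r, t := t₀, t' := t₁' }),
            (w * w', { s with R := Ro r, t := t₀, t' := t₀' })] := by
          simp [nxt0, h1, h2, hPL, hPR, hv, hv']
        have e0 : eAll stp μ ν B s = Q (orel κ) (avg s.M (rk s.A r G)) (avg s.M' (rk s.A' r G')) +
            Qs { s with R := s.R \ Ro r } := by
          simp [eAll, eNM, eOS, eSHR, eX, eSTOP, h1, h2, hPL, hPR, hv, hv']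
        rw [e1] at hcont
        have c11 := hcont _ (List.mem_cons_self)
        have c10 := hcont _ (List.mem_cons_of_mem _ (List.mem_cons_self))
        have c01 := hcont _ (List.mem_cons_of_mem _ (List.mem_cons_of_mem _ (List.mem_cons_self)))
        have c00 := hcont _ (List.mem_cons_of_mem _ (List.mem_cons_of_mem _
          (List.mem_cons_of_mem _ (List.mem_cons_self))))
        rw [e0, e1]
        have et := vw_br hv
        have et' := vw_br hv'
        have cL : Nat.Coprime s.p s.M := (Nat.Prime.coprime_iff_not_dvd hpp).2 (St.not_isPL_br hPL hv hv')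
        have cR : Nat.Coprime s.p s.M' := (Nat.Prime.coprime_iff_not_dvd hpp).2 (St.not_isPR_br hPR hv hv')
        rw [et] at hL
        rw [et'] at hR
        obtain ⟨-, -, -, hr, -⟩ := hL.br
        obtain ⟨-, -, -, hr', -⟩ := hR.br
        have err : r' = r := by rw [hr, hr']
        subst err
        have key : PWRf Ad μ ν B s.M s.M' (Ro r') (TrG.br s.p w r' t₁.g t₀.g v B₁ G) s.A
            (TrG.br s.p w' r' t₁'.g t₀'.g v' B' G') s.A' _ :=
          PWRf.col2 (w := w) (w' := w') cL cR c11 c10 c01 c00 le_rfl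
        have eg : s.t.g = TrG.br s.p w r' t₁.g t₀.g v B₁ G := congrArg DT.g et
        have eg' : s.t'.g = TrG.br s.p w' r' t₁'.g t₀'.g v' B' G' := congrArg DT.g et'
        rw [← eg, ← eg'] at key
        refine PWRf.shrink key ?_
        simp only [List.map_cons, List.map_nil, List.sum_cons, List.sum_nil, Qs]
        linarith
      · -- br add
        have e1 : nxt0 stp s = [(1, { s with t' := stp.c s t₁' t₀' })] := by
          simp [nxt0, h1, h2, hPL, hPR, hv, hv']
        have e0 : eAll stp μ ν B s = Xs μ B { s with t' := stp.x s t₁' t₀' } := by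
          simp [eAll, eNM, eOS, eSHR, eX, eSTOP, h1, h2, hPL, hPR, hv, hv']
        rw [e1] at hcont
        have c := hcont _ (List.mem_cons_self)
        rw [e0, e1]
        have key := oneR hB (vw_add hv') hL hR c
        simp only [List.map_cons, List.map_nil, List.sum_cons, List.sum_nil, one_mul, add_zero]
        rw [add_comm]
        exact key
      · -- br up
        have e1 : nxt0 stp s =
            [(1 - w, { s with M' := s.p * s.M', O := insert s.p s.O, R := Ro r, t := t₁, t' := u' }),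
             (w, { s with M' := s.p * s.M', O := insert s.p s.O, R := Ro r, t := t₀, t' := u' })] := by
          simp [nxt0, h1, h2, hPL, hPR, hv, hv']
        have e0 : eAll stp μ ν B s =
            os (orel κ) s.p (avg s.M (rk s.A r G)) (sm r (avg s.M' (rv s.A' s.t'.g.val))) +
            Qs { s with R := s.R \ Ro r } := by
          simp [eAll, eNM, eOS, eSHR, eX, eSTOP, h1, h2, hPL, hPR, hv, hv']
        rw [e1] at hcont
        have c1 := hcont _ (List.mem_cons_self)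
        have c0 := hcont _ (List.mem_cons_of_mem _ (List.mem_cons_self))
        rw [e0, e1]
        have et := vw_br hv
        have cL : Nat.Coprime s.p s.M := (Nat.Prime.coprime_iff_not_dvd hpp).2 (St.not_isPL_up hPL hv hv').1
        have eg := vw_up_g hv'
        simp only [eg] at c1 c0
        have key : PWRf Ad μ ν B s.M s.M' (Ro r) (TrG.br s.p w r t₁.g t₀.g v B₁ G) s.A
            s.t'.g s.A' _ := PWRf.colL (w := w) cL c1 c0 le_rfl
        have eg : s.t.g = TrG.br s.p w r t₁.g t₀.g v B₁ G := congrArg DT.g et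
        rw [← eg] at key
        refine PWRf.shrink key ?_
        simp only [List.map_cons, List.map_nil, List.sum_cons, List.sum_nil, Qs]
        linarith
      · -- add br
        have e1 : nxt0 stp s = [(1, { s with t := stp.c s t₁ t₀ })] := by
          simp [nxt0, h1, h2, hPL, hPR, hv, hv']
        have e0 : eAll stp μ ν B s = Xs μ B { s with t := stp.x s t₁ t₀ } := by
          simp [eAll, eNM, eOS, eSHR, eX, eSTOP, h1, h2, hPL, hPR, hv, hv']
        rw [e1] at hcont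
        have c := hcont _ (List.mem_cons_self)
        rw [e0, e1]
        have key := oneL hB (vw_add hv) hL hR c
        simp only [List.map_cons, List.map_nil, List.sum_cons, List.sum_nil, one_mul, add_zero]
        rw [add_comm]
        exact key
      · -- add add
        by_cases hj : stp.jt s
        · have e1 : nxt0 stp s =
              [(1, { s with t := t₁, t' := t₁' }), (1, { s with t := t₀, t' := t₀' })] := by
            simp [nxt0, h1, h2, hPL, hPR, hv, hv', hj]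
          have e0 : eAll stp μ ν B s =
              Xs μ B { s with t := t₁, t' := t₀' } + Xs μ B { s with t := t₀, t' := t₁' } := by
            simp [eAll, eNM, eOS, eSHR, eX, eSTOP, h1, h2, hPL, hPR, hv, hv', hj]
          rw [e1] at hcont
          have c1 := hcont _ (List.mem_cons_self)
          have c0 := hcont _ (List.mem_cons_of_mem _ (List.mem_cons_self))
          rw [e0, e1]
          have et := vw_add hv
          have et' := vw_add hv'
          have hX := Qs_le_Xs μ B { s with t := t₁, t' := t₀' }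
          have hY := Qs_le_Xs μ B { s with t := t₀, t' := t₁' }
          refine PWRf.dec (A₁ := s.A) (A₀ := s.A) (A₁' := s.A') (A₀' := s.A')
            (t₁ := t₁.g) (t₀ := t₀.g) (t₁' := t₁'.g) (t₀' := t₀'.g) ?_ ?_ c1 c0 hX hY ?_
          · rw [et]; exact Dec.add
          · rw [et']; exact Dec.add
          · simp only [List.map_cons, List.map_nil, List.sum_cons, List.sum_nil]
            linarith
        · by_cases hl : stp.lf s
          · have e1 : nxt0 stp s = [(1, { s with t := stp.c s t₁ t₀ })] := by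
              simp [nxt0, h1, h2, hPL, hPR, hv, hv', hj, hl]
            have e0 : eAll stp μ ν B s = Xs μ B { s with t := stp.x s t₁ t₀ } := by
              simp [eAll, eNM, eOS, eSHR, eX, eSTOP, h1, h2, hPL, hPR, hv, hv', hj, hl]
            rw [e1] at hcont
            have c := hcont _ (List.mem_cons_self)
            rw [e0, e1]
            have key := oneL hB (vw_add hv) hL hR c
            simp only [List.map_cons, List.map_nil, List.sum_cons, List.sum_nil, one_mul, add_zero]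
            rw [add_comm]
            exact key
          · have e1 : nxt0 stp s = [(1, { s with t' := stp.c s t₁' t₀' })] := by
              simp [nxt0, h1, h2, hPL, hPR, hv, hv', hj, hl]
            have e0 : eAll stp μ ν B s = Xs μ B { s with t' := stp.x s t₁' t₀' } := by
              simp [eAll, eNM, eOS, eSHR, eX, eSTOP, h1, h2, hPL, hPR, hv, hv', hj, hl]
            rw [e1] at hcont
            have c := hcont _ (List.mem_cons_self)
            rw [e0, e1]
            have key := oneR hB (vw_add hv') hL hR c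
            simp only [List.map_cons, List.map_nil, List.sum_cons, List.sum_nil, one_mul, add_zero]
            rw [add_comm]
            exact key
      · -- add up
        by_cases hj : stp.jt s
        · have e1 : nxt0 stp s = [(1, { s with t := t₁, t' := u', A' := s.A' ∩ Sp' }),
              (1, { s with t := t₀, t' := u', A' := s.A' \ Sp' })] := by
            simp [nxt0, h1, h2, hPL, hPR, hv, hv', hj]
          have e0 : eAll stp μ ν B s = Xs μ B { s with t := t₁, t' := u', A' := s.A' \ Sp' } +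
              Xs μ B { s with t := t₀, t' := u', A' := s.A' ∩ Sp' } := by
            simp [eAll, eNM, eOS, eSHR, eX, eSTOP, h1, h2, hPL, hPR, hv, hv', hj]
          rw [e1] at hcont
          have c1 := hcont _ (List.mem_cons_self)
          have c0 := hcont _ (List.mem_cons_of_mem _ (List.mem_cons_self))
          rw [e0, e1]
          have et := vw_add hv
          obtain ⟨-, b1, b0⟩ := hR.vwup hv' hpR hpp.pos
          have eg := vw_up_g hv'
          have hX := Qs_le_Xs μ B { s with t := t₁, t' := u', A' := s.A' \ Sp' }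
          have hY := Qs_le_Xs μ B { s with t := t₀, t' := u', A' := s.A' ∩ Sp' }
          refine PWRf.dec (A₁ := s.A) (A₀ := s.A) (A₁' := s.A' ∩ Sp') (A₀' := s.A' \ Sp')
            (t₁ := t₁.g) (t₀ := t₀.g) (t₁' := u'.g) (t₀' := u'.g) ?_ ?_ c1 c0 hX hY ?_
          · rw [et]; exact Dec.add
          · rw [← eg]
            refine Dec.set ?_ ?_ b1.ad b0.ad
            · rw [Finset.union_comm]; exact (Finset.sdiff_union_inter _ _).symm
            · rw [Finset.disjoint_left]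
              intro x hx hx'
              exact (Finset.mem_sdiff.1 hx').2 (Finset.mem_inter.1 hx).2
          · simp only [List.map_cons, List.map_nil, List.sum_cons, List.sum_nil]
            linarith
        · have e1 : nxt0 stp s = [(1, { s with t := stp.c s t₁ t₀ })] := by
            simp [nxt0, h1, h2, hPL, hPR, hv, hv', hj]
          have e0 : eAll stp μ ν B s = Xs μ B { s with t := stp.x s t₁ t₀ } := by
            simp [eAll, eNM, eOS, eSHR, eX, eSTOP, h1, h2, hPL, hPR, hv, hv', hj]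
          rw [e1] at hcont
          have c := hcont _ (List.mem_cons_self)
          rw [e0, e1]
          have key := oneL hB (vw_add hv) hL hR c
          simp only [List.map_cons, List.map_nil, List.sum_cons, List.sum_nil, one_mul, add_zero]
          rw [add_comm]
          exact key
      · -- up br
        have e1 : nxt0 stp s =
            [(1 - w', { s with M := s.p * s.M, O' := insert s.p s.O', R := Ro r', t := u, t' := t₁' }),
             (w', { s with M := s.p * s.M, O' := insert s.p s.O', R := Ro r', t := u, t' := t₀' })] := by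
          simp [nxt0, h1, h2, hPL, hPR, hv, hv']
        have e0 : eAll stp μ ν B s =
            os (orel κ) s.p (avg s.M' (rk s.A' r' G')) (sm r' (avg s.M (rv s.A s.t.g.val))) +
            Qs { s with R := s.R \ Ro r' } := by
          simp [eAll, eNM, eOS, eSHR, eX, eSTOP, h1, h2, hPL, hPR, hv, hv']
        rw [e1] at hcont
        have c1 := hcont _ (List.mem_cons_self)
        have c0 := hcont _ (List.mem_cons_of_mem _ (List.mem_cons_self))
        rw [e0, e1]
        have et' := vw_br hv'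
        have cR : Nat.Coprime s.p s.M' := (Nat.Prime.coprime_iff_not_dvd hpp).2 (St.not_isPR_up hPR hv hv').1
        have eg := vw_up_g hv
        simp only [eg] at c1 c0
        have key : PWRf Ad μ ν B s.M s.M' (Ro r') s.t.g s.A
            (TrG.br s.p w' r' t₁'.g t₀'.g v' B' G') s.A' _ :=
          PWRf.colR (w := w') cR c1 c0 le_rfl
        have eg' : s.t'.g = TrG.br s.p w' r' t₁'.g t₀'.g v' B' G' := congrArg DT.g et'
        rw [← eg'] at key
        refine PWRf.shrink key ?_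
        simp only [List.map_cons, List.map_nil, List.sum_cons, List.sum_nil, Qs]
        linarith
      · -- up add
        by_cases hj : stp.jt s
        · have e1 : nxt0 stp s = [(1, { s with t := u, A := s.A ∩ Sp, t' := t₁' }),
              (1, { s with t := u, A := s.A \ Sp, t' := t₀' })] := by
            simp [nxt0, h1, h2, hPL, hPR, hv, hv', hj]
          have e0 : eAll stp μ ν B s = Xs μ B { s with t := u, A := s.A ∩ Sp, t' := t₀' } +
              Xs μ B { s with t := u, A := s.A \ Sp, t' := t₁' } := by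
            simp [eAll, eNM, eOS, eSHR, eX, eSTOP, h1, h2, hPL, hPR, hv, hv', hj]
          rw [e1] at hcont
          have c1 := hcont _ (List.mem_cons_self)
          have c0 := hcont _ (List.mem_cons_of_mem _ (List.mem_cons_self))
          rw [e0, e1]
          have et' := vw_add hv'
          obtain ⟨-, a1, a0⟩ := hL.vwup hv hpL hpp.pos
          have eg := vw_up_g hv
          have hX := Qs_le_Xs μ B { s with t := u, A := s.A ∩ Sp, t' := t₀' }
          have hY := Qs_le_Xs μ B { s with t := u, A := s.A \ Sp, t' := t₁' }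
          refine PWRf.dec (A₁ := s.A ∩ Sp) (A₀ := s.A \ Sp) (A₁' := s.A') (A₀' := s.A')
            (t₁ := u.g) (t₀ := u.g) (t₁' := t₁'.g) (t₀' := t₀'.g) ?_ ?_ c1 c0 hX hY ?_
          · rw [← eg]
            refine Dec.set ?_ ?_ a1.ad a0.ad
            · rw [Finset.union_comm]; exact (Finset.sdiff_union_inter _ _).symm
            · rw [Finset.disjoint_left]
              intro x hx hx'
              exact (Finset.mem_sdiff.1 hx').2 (Finset.mem_inter.1 hx).2
          · rw [et']; exact Dec.add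
          · simp only [List.map_cons, List.map_nil, List.sum_cons, List.sum_nil]
            linarith
        · have e1 : nxt0 stp s = [(1, { s with t' := stp.c s t₁' t₀' })] := by
            simp [nxt0, h1, h2, hPL, hPR, hv, hv', hj]
          have e0 : eAll stp μ ν B s = Xs μ B { s with t' := stp.x s t₁' t₀' } := by
            simp [eAll, eNM, eOS, eSHR, eX, eSTOP, h1, h2, hPL, hPR, hv, hv', hj]
          rw [e1] at hcont
          have c := hcont _ (List.mem_cons_self)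
          rw [e0, e1]
          have key := oneR hB (vw_add hv') hL hR c
          simp only [List.map_cons, List.map_nil, List.sum_cons, List.sum_nil, one_mul, add_zero]
          rw [add_comm]
          exact key
      · -- up up
        have e1 : nxt0 stp s = [(1, { s with t := u, t' := u' })] := by
          simp [nxt0, h1, h2, hPL, hPR, hv, hv']
        have e0 : eAll stp μ ν B s = 0 := by
          simp [eAll, eNM, eOS, eSHR, eX, eSTOP, h1, h2, hPL, hPR, hv, hv']
        rw [e1] at hcont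
        have c := hcont _ (List.mem_cons_self)
        rw [e0, e1]
        simp only [List.map_cons, List.map_nil, List.sum_cons, List.sum_nil, zero_add, one_mul,
          add_zero]
        rw [← vw_up_g hv, ← vw_up_g hv']
        exact c

end st

end Crest.Agent.R4P.Walk560
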