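import Crest.Agent.R4P.Item758b
import Crest.Agent.R4.ItemDT758
import Crest.Agent.R4P.Walk560

/-!
R4 (S0004), module A3b, third part: decorated trees (`Walk560.DT`) of item trees; port of
`R4/ItemDT758` to the tree with powers (helper504): `pl p t` = column `br` of weight `0` with zero leaf,
`far` = `add`.

The admissible populations are **all** sets which are saturated for the partitions of all nodes below
(`AdS t A := Adm A t`).  `sp b : Finset Λ` = pieces whose item has the retained present prime `b`.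
-/

set_option autoImplicit false
set_option linter.unusedSectionVars false
set_option linter.unusedVariables false
open MeasureTheory Filter

namespace Crest.Agent.R4P.Item758

open Crest.Agent.R4.Tour104 Crest.Agent.R4.Tour758 Crest.Agent.R4.Avg758 Crest.Agent.R4.Clos758
open Crest.Agent.R4.ClosL758 Crest.Agent.R4.ClosG758 Crest.Agent.R4.ClosR758
open Crest.Agent.R4.Lam368 (mult lamF DW BW fW Nested Dat)
open Crest.Agent.R4.Fam464 Crest.Agent.R4P.Cnt588 Crest.Agent.R4P.Walk560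

section
variable {Λ κ : Type*} [Fintype Λ] [DecidableEq Λ] [Fintype κ] [DecidableEq κ]

/-- decorated tree -/
noncomputable def Par.toDT (D : Par Λ κ) (sp : ℕ → Finset Λ) : ℕ → ℕ → IT → DT Λ κ
  | b, pr, .leaf S => .leaf (D.rhoL b pr S) (D.L b pr S 1)
  | b, pr, .br p _ t₁ t₀ => .br p (1 / (p : ℝ)) (D.rho p) (D.toDT sp b (pr * p) t₁)
      (D.toDT sp (b * p) pr t₀)
      (fun j => lamF p (fun j => (D.toFT b (pr * p) t₁).U 1 j)
        (fun j => (D.toFT (b * p) pr t₀).U p j) (fun j => (D.toFT (b * p) pr t₀).U 1 j)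
        (fun _ => D.rho p) (0 + 1) j)
      (fun a => BW p (fun j => (D.toFT b (pr * p) t₁).U 1 j)
        (fun j => (D.toFT (b * p) pr t₀).U p j) (fun j => (D.toFT (b * p) pr t₀).U 1 j)
        (fun _ => D.rho p) (0 + 1) (clz (D.rho p) a))
      (fun a => DW p (fun j => (D.toFT b (pr * p) t₁).U 1 j)
        (fun j => (D.toFT (b * p) pr t₀).U p j) (fun j => (D.toFT (b * p) pr t₀).U 1 j)
        (fun _ => D.rho p) (0 + 1) (clz (D.rho p) a))
  | b, pr, .add p t₁ t₀ => .add p (D.rho p) (D.toDT sp b pr t₁) (D.toDT sp b pr t₀)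
  | b, pr, .up b' _ t => .up b' (sp b') (D.toDT sp b pr t)
  | b, pr, .pl p t => .br p 0 (D.rho p) (D.toDT sp b (pr * p) t) (.leaf (D.rho p) fun _ _ => 0)
      (fun j x => (D.toFT b (pr * p) t).U 1 j (p * x))
      (fun a => sm (D.rho p) ((D.toFT b (pr * p) t).U 1) a) (fun _ _ => 0)
  | b, pr, .far p t₁ t₀ => .add p (D.rho p) (D.toDT sp b pr t₁) (D.toDT sp b pr t₀)

/-- **decorated trees forget to closure trees** -/
theorem Par.toDT_g (D : Par Λ κ) (sp : ℕ → Finset Λ) (t : IT) : ∀ b pr : ℕ,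
    (D.toDT sp b pr t).g = D.toG b pr t := by
  induction t with
  | leaf S => intro b pr; rfl
  | br p Sp t₁ t₀ ih₁ ih₀ =>
    intro b pr
    show TrG.br p (1 / (p : ℝ)) (D.rho p) (D.toDT sp b (pr * p) t₁).g
      (D.toDT sp (b * p) pr t₀).g _ _ _ = _
    rw [ih₁, ih₀]; rfl
  | add p t₁ t₀ ih₁ ih₀ =>
    intro b pr
    show TrG.add (D.rho p) (D.toDT sp b pr t₁).g (D.toDT sp b pr t₀).g = _
    rw [ih₁, ih₀]; rfl
  | up b' Sp t ih => intro b pr; exact ih b pr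
  | pl p t ih =>
    intro b pr
    show TrG.br p 0 (D.rho p) (D.toDT sp b (pr * p) t).g (.leaf (D.rho p) fun _ _ => 0) _ _ _ = _
    rw [ih]; rfl
  | far p t₁ t₀ ih₁ ih₀ =>
    intro b pr
    show TrG.add (D.rho p) (D.toDT sp b pr t₁).g (D.toDT sp b pr t₀).g = _
    rw [ih₁, ih₀]; rfl

/-- columns -/
theorem Par.toDT_Col (D : Par Λ κ) (sp : ℕ → Finset Λ) (t : IT) : ∀ (n b pr : ℕ), t.Ok n →
    (D.toDT sp b pr t).Col n := by
  induction t with
  | leaf S => intro n b pr h; trivial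
  | br p Sp t₁ t₀ ih₁ ih₀ =>
    intro n b pr h
    have h1 := ih₁ p b (pr * p) h.2.2.2.2.1
    have h0 := ih₀ p (b * p) pr h.2.2.2.2.2
    exact ⟨h.1, h.2.1, h1.mono (Nat.le_succ p), h0.mono (Nat.le_succ p), fun _ => ⟨h1, h0⟩⟩
  | add p t₁ t₀ ih₁ ih₀ =>
    intro n b pr h
    exact ⟨h.1, h.2.1, ih₁ _ _ _ h.2.2.2.1, ih₀ _ _ _ h.2.2.2.2⟩
  | up b' Sp t ih =>
    intro n b pr h
    exact ⟨h.1, h.2.1, ih _ _ _ h.2.2.2⟩
  | pl p t ih =>
    intro n b pr h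
    exact ⟨h.1, h.2.1, ih _ _ _ h.2.2, trivial, fun h0 => absurd rfl h0⟩
  | far p t₁ t₀ ih₁ ih₀ =>
    intro n b pr h
    exact ⟨h.1, h.2.1, ih₁ _ _ _ h.2.2.2.1, ih₀ _ _ _ h.2.2.2.2⟩

/-- **node-wise transfer for decorated trees** -/
lemma Par.toDT_All (D : Par Λ κ) (sp : ℕ → Finset Λ) {Qp : Bld532.NS → IT → Prop}
    {F : DT Λ κ → Prop} (hQ : ∀ s t, Qp s t → F (D.toDT sp s.B s.A t))
    (hz : ∀ r : Λ → κ, F (.leaf r fun _ _ => 0)) (t : IT) :
    ∀ (s : Bld532.NS), Bld532.All Qp s t → (D.toDT sp s.B s.A t).All F := by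
  induction t with
  | leaf S => intro s h; exact hQ _ _ h
  | br p Sp t₁ t₀ ih₁ ih₀ =>
    intro s h
    exact ⟨hQ _ _ h.1, ih₁ ⟨p, _, s.A * p, s.B⟩ h.2.1, ih₀ ⟨p, _, s.A, s.B * p⟩ h.2.2⟩
  | add b t₁ t₀ ih₁ ih₀ =>
    intro s h
    have h1 := ih₁ _ h.2.1
    have h0 := ih₀ _ h.2.2
    exact ⟨hQ _ _ h.1, h1, h0⟩
  | up b Sp t ih => intro s h; exact ⟨hQ _ _ h.1, ih ⟨b, _, s.A, s.B⟩ h.2⟩
  | pl b t ih =>
    intro s h
    have h1 := ih _ h.2
    exact ⟨hQ _ _ h.1, h1, hz _⟩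
  | far b t₁ t₀ ih₁ ih₀ =>
    intro s h
    have h1 := ih₁ _ h.2.1
    have h0 := ih₀ _ h.2.2
    exact ⟨hQ _ _ h.1, h1, h0⟩

/-! ### the family of all saturated populations -/

export Crest.Agent.R4.Item758 (AdS AdS_AdN all_of_forall AdS_all Sat_empty Sat_univ AdS_empty
  AdS_univ IL IL_empty IL_univ AdI AdI_AdN AdI_all AdI_empty AdI_univ Sat.inter Sat.sdiff All.and'
  AdS.inter AdS.sdiff IL.inter IL.sdiff AdI.inter AdI.sdiff)

/-- the retained primes are visible in the worlds below -/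
structure Par.SpOk (D : Par Λ κ) (sp : ℕ → Finset Λ) : Prop where
  lev : ∀ b p, p < b → Sat (sp b) (D.rho p)
  leaf : ∀ b c pr S, Sat (sp b) (D.rhoL c pr S)

lemma Par.AdS_sp (D : Par Λ κ) {sp : ℕ → Finset Λ} (h : D.SpOk sp) {b' : ℕ} (t : IT) :
    ∀ n b pr : ℕ, t.Ok n → n ≤ b' → AdS (D.toG b pr t) (sp b') := by
  induction t with
  | leaf S => intro n b pr hO hn; exact h.leaf _ _ _ _
  | br p Sp t₁ t₀ ih₁ ih₀ =>
    intro n b pr hO hn
    have hp : p < b' := lt_of_lt_of_le hO.2.1 hn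
    exact ⟨h.lev _ _ hp, ih₁ p _ _ hO.2.2.2.2.1 hp.le, ih₀ p _ _ hO.2.2.2.2.2 hp.le⟩
  | add p t₁ t₀ ih₁ ih₀ =>
    intro n b pr hO hn
    have hp : p < b' := lt_of_lt_of_le hO.2.1 hn
    exact ⟨h.lev _ _ hp, ih₁ _ _ _ hO.2.2.2.1 hp, ih₀ _ _ _ hO.2.2.2.2 hp⟩
  | up c Sp t ih =>
    intro n b pr hO hn
    exact ih c b pr hO.2.2.2 (le_of_lt (lt_of_lt_of_le hO.2.1 hn))
  | pl p t ih =>
    intro n b pr hO hn
    have hp : p < b' := lt_of_lt_of_le hO.2.1 hn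
    exact ⟨h.lev _ _ hp, ih _ _ _ hO.2.2 hp, h.lev _ _ hp⟩
  | far p t₁ t₀ ih₁ ih₀ =>
    intro n b pr hO hn
    have hp : p < b' := lt_of_lt_of_le hO.2.1 hn
    exact ⟨h.lev _ _ hp, ih₁ _ _ _ hO.2.2.2.1 hp, ih₀ _ _ _ hO.2.2.2.2 hp⟩

/-- **all node conditions of the walk** -/
theorem Par.toDT_NodeOk (D : Par Λ κ) {sp : ℕ → Finset Λ} (h : D.SpOk sp)
    {dec : κ → Finset Λ → ℝ} (h0 : ∀ k A, 0 ≤ dec k A)
    (h1 : ∀ k A A', Disjoint A A' → dec k A + dec k A' = dec k (A ∪ A')) (j₀ : Λ) (t : IT) :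
    ∀ n b pr : ℕ, 0 < b → t.Ok n → Fit b pr t → D.Wts pr t →
    (D.toDT sp b pr t).All
      (NodeOk D.rho AdS (muR dec j₀) fun t => muR dec j₀ t Finset.univ) := by
  have key : ∀ (t : IT) (b pr : ℕ), 0 < b → Fit b pr t → D.Wts pr t →
      MassOk AdS (muR dec j₀) (fun t => muR dec j₀ t Finset.univ) (D.toDT sp b pr t).g := by
    intro t b pr hb hF hW
    rw [D.toDT_g]
    exact (MassOk_muR h0 h1 j₀ (D.toG_Ok hb hF hW)).self
  have keyz : ∀ r : Λ → κ, NodeOk D.rho AdS (muR dec j₀) (fun t => muR dec j₀ t Finset.univ)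
      (.leaf r fun _ _ => 0) := fun r =>
    ⟨trivial, trivial, AdS_AdN _, trivial, AdS_empty _, (MassOk_muR h0 h1 j₀
      (t := .leaf r fun _ _ => 0) (fun _ => PB.const le_rfl)).self⟩
  induction t with
  | leaf S =>
    intro n b pr hb hO hF hW
    exact ⟨trivial, trivial, AdS_AdN _, trivial, AdS_empty _, key _ b pr hb hF hW⟩
  | br p Sp t₁ t₀ ih₁ ih₀ =>
    intro n b pr hb hO hF hW
    have hF' := hF
    have hW' := hW
    obtain ⟨hp, hpb, hd, h1', h0'⟩ := hF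
    exact ⟨⟨rfl, fun h => absurd h (one_div_ne_zero (Nat.cast_ne_zero.2 hp.ne_zero)),
        AdS_AdN _, trivial, AdS_empty _, key _ b pr hb hF' hW'⟩,
      ih₁ p b (pr * p) hb hO.2.2.2.2.1 h1' (hW.br₁ hd),
      ih₀ p (b * p) pr (Nat.mul_pos hb hp.pos) hO.2.2.2.2.2 h0' hW.br₀⟩
  | add p t₁ t₀ ih₁ ih₀ =>
    intro n b pr hb hO hF hW
    have hF' := hF
    have hW' := hW
    obtain ⟨hd, h1', h0'⟩ := hF
    exact ⟨⟨trivial, trivial, AdS_AdN _, trivial, AdS_empty _, key _ b pr hb hF' hW'⟩,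
      ih₁ _ b pr hb hO.2.2.2.1 h1' (hW.add₁ hd), ih₀ _ b pr hb hO.2.2.2.2 h0' hW.add₀⟩
  | up b' Sp t ih =>
    intro n b pr hb hO hF hW
    refine ⟨⟨trivial, trivial, AdS_AdN _, fun A hA => ?_, AdS_empty _, key _ b pr hb hF hW⟩,
      ih b' b pr hb hO.2.2.2 hF hW⟩
    have hs : AdS (D.toDT sp b pr t).g (sp b') := by
      rw [D.toDT_g]
      exact D.AdS_sp h t b' b pr hO.2.2.2 le_rfl
    exact ⟨AdS.inter hA hs, AdS.sdiff hA hs⟩
  | pl p t ih =>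
    intro n b pr hb hO hF hW
    have hF' := hF
    have hW' := hW
    obtain ⟨hp, hpb, h1'⟩ := hF
    exact ⟨⟨rfl, fun _ => ⟨rfl, rfl⟩, AdS_AdN _, trivial, AdS_empty _, key _ b pr hb hF' hW'⟩,
      ih _ b (pr * p) hb hO.2.2 h1' hW.pl, keyz _⟩
  | far p t₁ t₀ ih₁ ih₀ =>
    intro n b pr hb hO hF hW
    have hF' := hF
    have hW' := hW
    obtain ⟨hd, h1', h0'⟩ := hF
    exact ⟨⟨trivial, trivial, AdS_AdN _, trivial, AdS_empty _, key _ b pr hb hF' hW'⟩,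
      ih₁ _ b pr hb hO.2.2.2.1 h1' (hW.far₁ hd), ih₀ _ b pr hb hO.2.2.2.2 h0' hW.far₀⟩

/-- **one side of a walk state** -/
theorem Par.side (D : Par Λ κ) {sp : ℕ → Finset Λ} (h : D.SpOk sp)
    {dec : κ → Finset Λ → ℝ} (h0 : ∀ k A, 0 ≤ dec k A)
    (h1 : ∀ k A A', Disjoint A A' → dec k A + dec k A' = dec k (A ∪ A')) (j₀ : Λ) {t : IT}
    {n b pr : ℕ} (hb : 0 < b) (hO : t.Ok n) (hF : Fit b pr t) (hW : D.Wts pr t) {A : Finset Λ}
    (hA : AdS (D.toG b pr t) A) :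
    Side D.rho AdS (muR dec j₀) (fun t => muR dec j₀ t Finset.univ) n (D.toDT sp b pr t) A where
  ok := by rw [D.toDT_g]; exact D.toG_Ok hb hF hW
  ad := by rw [D.toDT_g]; exact hA
  col := (D.toDT_Col sp t n b pr hO).mono (Nat.le_succ n)
  wf := D.toDT_NodeOk h h0 h1 j₀ t n b pr hb hO hF hW

end

/-! ### item-level populations -/

section il
variable {Λ κ : Type*} [Fintype Λ] [DecidableEq Λ] [Fintype κ] [DecidableEq κ]

/-- **all node conditions of the walk**, item-level populations -/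
theorem Par.toDT_NodeOkI (D : Par Λ κ) {sp : ℕ → Finset Λ} (h : D.SpOk sp)
    (hil : ∀ b, IL D.it (sp b))
    {dec : κ → Finset Λ → ℝ} (h0 : ∀ k A, 0 ≤ dec k A)
    (h1 : ∀ k A A', Disjoint A A' → dec k A + dec k A' = dec k (A ∪ A')) (j₀ : Λ) (t : IT) :
    ∀ n b pr : ℕ, 0 < b → t.Ok n → Fit b pr t → D.Wts pr t →
    (D.toDT sp b pr t).All
      (NodeOk D.rho (AdI D.it) (muR dec j₀) fun t => muR dec j₀ t Finset.univ) := by
  have key : ∀ (t : IT) (b pr : ℕ), 0 < b → Fit b pr t → D.Wts pr t →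
      MassOk (AdI D.it) (muR dec j₀) (fun t => muR dec j₀ t Finset.univ)
        (D.toDT sp b pr t).g := by
    intro t b pr hb hF hW
    rw [D.toDT_g]
    exact (MassOk_muR h0 h1 j₀ (D.toG_Ok hb hF hW)).self
  have keyz : ∀ r : Λ → κ, NodeOk D.rho (AdI D.it) (muR dec j₀) (fun t => muR dec j₀ t Finset.univ)
      (.leaf r fun _ _ => 0) := fun r =>
    ⟨trivial, trivial, AdI_AdN _ _, trivial, AdI_empty _ _, (MassOk_muR h0 h1 j₀
      (t := .leaf r fun _ _ => 0) (fun _ => PB.const le_rfl)).self⟩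
  induction t with
  | leaf S =>
    intro n b pr hb hO hF hW
    exact ⟨trivial, trivial, AdI_AdN _ _, trivial, AdI_empty _ _, key _ b pr hb hF hW⟩
  | br p Sp t₁ t₀ ih₁ ih₀ =>
    intro n b pr hb hO hF hW
    have hF' := hF
    have hW' := hW
    obtain ⟨hp, hpb, hd, h1', h0'⟩ := hF
    exact ⟨⟨rfl, fun h => absurd h (one_div_ne_zero (Nat.cast_ne_zero.2 hp.ne_zero)),
        AdI_AdN _ _, trivial, AdI_empty _ _, key _ b pr hb hF' hW'⟩,
      ih₁ p b (pr * p) hb hO.2.2.2.2.1 h1' (hW.br₁ hd),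
      ih₀ p (b * p) pr (Nat.mul_pos hb hp.pos) hO.2.2.2.2.2 h0' hW.br₀⟩
  | add p t₁ t₀ ih₁ ih₀ =>
    intro n b pr hb hO hF hW
    have hF' := hF
    have hW' := hW
    obtain ⟨hd, h1', h0'⟩ := hF
    exact ⟨⟨trivial, trivial, AdI_AdN _ _, trivial, AdI_empty _ _, key _ b pr hb hF' hW'⟩,
      ih₁ _ b pr hb hO.2.2.2.1 h1' (hW.add₁ hd), ih₀ _ b pr hb hO.2.2.2.2 h0' hW.add₀⟩
  | up b' Sp t ih =>
    intro n b pr hb hO hF hW
    refine ⟨⟨trivial, trivial, AdI_AdN _ _, fun A hA => ?_, AdI_empty _ _, key _ b pr hb hF hW⟩,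
      ih b' b pr hb hO.2.2.2 hF hW⟩
    have hs : AdS (D.toDT sp b pr t).g (sp b') := by
      rw [D.toDT_g]
      exact D.AdS_sp h t b' b pr hO.2.2.2 le_rfl
    exact ⟨AdI.inter hA ⟨hs, hil b'⟩, AdI.sdiff hA ⟨hs, hil b'⟩⟩
  | pl p t ih =>
    intro n b pr hb hO hF hW
    have hF' := hF
    have hW' := hW
    obtain ⟨hp, hpb, h1'⟩ := hF
    exact ⟨⟨rfl, fun _ => ⟨rfl, rfl⟩, AdI_AdN _ _, trivial, AdI_empty _ _, key _ b pr hb hF' hW'⟩,
      ih _ b (pr * p) hb hO.2.2 h1' hW.pl, keyz _⟩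
  | far p t₁ t₀ ih₁ ih₀ =>
    intro n b pr hb hO hF hW
    have hF' := hF
    have hW' := hW
    obtain ⟨hd, h1', h0'⟩ := hF
    exact ⟨⟨trivial, trivial, AdI_AdN _ _, trivial, AdI_empty _ _, key _ b pr hb hF' hW'⟩,
      ih₁ _ b pr hb hO.2.2.2.1 h1' (hW.far₁ hd), ih₀ _ b pr hb hO.2.2.2.2 h0' hW.far₀⟩

/-- **one side of a walk state**, item-level populations -/
theorem Par.sideI (D : Par Λ κ) {sp : ℕ → Finset Λ} (h : D.SpOk sp)
    (hil : ∀ b, IL D.it (sp b))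
    {dec : κ → Finset Λ → ℝ} (h0 : ∀ k A, 0 ≤ dec k A)
    (h1 : ∀ k A A', Disjoint A A' → dec k A + dec k A' = dec k (A ∪ A')) (j₀ : Λ) {t : IT}
    {n b pr : ℕ} (hb : 0 < b) (hO : t.Ok n) (hF : Fit b pr t) (hW : D.Wts pr t) {A : Finset Λ}
    (hA : AdI D.it (D.toG b pr t) A) :
    Side D.rho (AdI D.it) (muR dec j₀) (fun t => muR dec j₀ t Finset.univ) n
      (D.toDT sp b pr t) A where
  ok := by rw [D.toDT_g]; exact D.toG_Ok hb hF hW
  ad := by rw [D.toDT_g]; exact hA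
  col := (D.toDT_Col sp t n b pr hO).mono (Nat.le_succ n)
  wf := D.toDT_NodeOkI h hil h0 h1 j₀ t n b pr hb hO hF hW

end il

end Crest.Agent.R4P.Item758
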