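import Crest.Agent.R4P.AvgSymA710
import Crest.Agent.R4P.ItemDT758

/-!
R4 (S0004), helper710, module L: **the symbols of the pair walk as item-pair sums**, part B (states of
item trees); port of helper710's `R4/AvgSym710` to the tree with powers (helper504).

For a state whose trees are `D.toDT sp b pr τ` and `D.toDT sp b' pr' τ'` (item trees `τ`, `τ'`):
`Qs_le`, `eNM_le`, `eOS_le`, `StI.next`, `Qs_eq`. The columns of a pull (`pl`) have near-miss part `0`.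
-/

set_option autoImplicit false
set_option linter.unusedSectionVars false
set_option linter.unusedVariables false
open MeasureTheory Filter

namespace Crest.Agent.R4P.AvgItem710

open Crest.Agent.R4.Tour104 Crest.Agent.R4.Tour758 Crest.Agent.R4.Avg758 Crest.Agent.R4.Clos758
open Crest.Agent.R4.ClosL758 Crest.Agent.R4.ClosG758 Crest.Agent.R4.ClosR758
open Crest.Agent.R4.Lam368 (mult lamF DW BW fW Nested Dat)
open Crest.Agent.R4.Fam464 Crest.Agent.R4P.Cnt588 Crest.Agent.R4P.Walk560 Crest.Agent.R4.Piece464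
open Crest.Agent.R4P.Item758 Crest.Agent.R4.HVW560

section
variable {Λ κ : Type*} [DecidableEq Λ] [Fintype Λ] [Fintype κ] [DecidableEq κ]

/-! ### one side of a state, a state -/

/-- one side of a walk state: the decorated tree of an item tree -/
structure SideI (D : Par Λ κ) (sp : ℕ → Finset Λ) (b pr : ℕ) (t : IT) (A : Finset Λ)
    (d : DT Λ κ) : Prop where
  eq : d = D.toDT sp b pr t
  hb : 0 < b
  hF : Fit b pr t
  hW : D.Wts pr t
  ad : AdS (D.toG b pr t) A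
  ok : ∃ n, t.Ok n

section
variable {D : Par Λ κ} {sp : ℕ → Finset Λ} {b pr p : ℕ} {t t₁ t₀ : IT} {A : Finset Λ}
  {Sp : Finset ℕ} {d : DT Λ κ}

lemma SideI.val (h : SideI D sp b pr t A d) : d.g.val = fun j => (D.toFT b pr t).U 1 j := by
  rw [h.eq, D.toDT_g, D.toG_val h.hb h.hF h.hW]

lemma SideI.br₁ (h : SideI D sp b pr (.br p Sp t₁ t₀) A d) :
    SideI D sp b (pr * p) t₁ A (D.toDT sp b (pr * p) t₁) :=
  ⟨rfl, h.hb, h.hF.2.2.2.1, h.hW.br₁ h.hF.2.2.1, h.ad.2.1, p, h.ok.choose_spec.2.2.2.2.1⟩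

lemma SideI.br₀ (h : SideI D sp b pr (.br p Sp t₁ t₀) A d) :
    SideI D sp (b * p) pr t₀ A (D.toDT sp (b * p) pr t₀) :=
  ⟨rfl, Nat.mul_pos h.hb h.hF.1.pos, h.hF.2.2.2.2, h.hW.br₀, h.ad.2.2, p,
    h.ok.choose_spec.2.2.2.2.2⟩

lemma SideI.add₁ (h : SideI D sp b pr (.add p t₁ t₀) A d) :
    SideI D sp b pr t₁ A (D.toDT sp b pr t₁) :=
  ⟨rfl, h.hb, h.hF.2.1, h.hW.add₁ h.hF.1, h.ad.2.1, _, h.ok.choose_spec.2.2.2.1⟩

lemma SideI.add₀ (h : SideI D sp b pr (.add p t₁ t₀) A d) :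
    SideI D sp b pr t₀ A (D.toDT sp b pr t₀) :=
  ⟨rfl, h.hb, h.hF.2.2, h.hW.add₀, h.ad.2.2, _, h.ok.choose_spec.2.2.2.2⟩

lemma SideI.far₁ (h : SideI D sp b pr (.far p t₁ t₀) A d) :
    SideI D sp b pr t₁ A (D.toDT sp b pr t₁) :=
  ⟨rfl, h.hb, h.hF.2.1, h.hW.far₁ h.hF.1, h.ad.2.1, _, h.ok.choose_spec.2.2.2.1⟩

lemma SideI.far₀ (h : SideI D sp b pr (.far p t₁ t₀) A d) :
    SideI D sp b pr t₀ A (D.toDT sp b pr t₀) :=
  ⟨rfl, h.hb, h.hF.2.2, h.hW.far₀, h.ad.2.2, _, h.ok.choose_spec.2.2.2.2⟩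

lemma SideI.pl (h : SideI D sp b pr (.pl p t) A d) :
    SideI D sp b (pr * p) t A (D.toDT sp b (pr * p) t) :=
  ⟨rfl, h.hb, h.hF.2.2, h.hW.pl, h.ad.2.1, _, h.ok.choose_spec.2.2⟩

lemma SideI.up (h : SideI D sp b pr (.up p Sp t) A d) :
    SideI D sp b pr t A (D.toDT sp b pr t) :=
  ⟨rfl, h.hb, h.hF, h.hW, h.ad, p, h.ok.choose_spec.2.2.2⟩

lemma SideI.pop (h : SideI D sp b pr t A d) {A' : Finset Λ} (hA : AdS (D.toG b pr t) A') :
    SideI D sp b pr t A' d := ⟨h.eq, h.hb, h.hF, h.hW, hA, h.ok⟩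

/-- splitting by presence at a retained column -/
lemma SideI.spl (h : SideI D sp b pr (.up p Sp t) A d) (hsp : D.SpOk sp) :
    SideI D sp b pr t (A ∩ sp p) (D.toDT sp b pr t) ∧
    SideI D sp b pr t (A \ sp p) (D.toDT sp b pr t) := by
  have h1 := h.up
  have h2 : AdS (D.toG b pr t) (sp p) :=
    D.AdS_sp hsp t p b pr h.ok.choose_spec.2.2.2 le_rfl
  exact ⟨h1.pop (AdS.inter h1.ad h2), h1.pop (AdS.sdiff h1.ad h2)⟩

lemma SideI.sat_br (h : SideI D sp b pr (.br p Sp t₁ t₀) A d) : Sat A (D.rho p) := h.ad.1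

lemma SideI.sat_pl (h : SideI D sp b pr (.pl p t) A d) : Sat A (D.rho p) := h.ad.1

/-- the class functions of a column -/
lemma SideI.G_le (h : SideI D sp b pr (.br p Sp t₁ t₀) A d) (a : κ) (x : ℝ) :
    DW p (fun j => (D.toFT b (pr * p) t₁).U 1 j) (fun j => (D.toFT (b * p) pr t₀).U p j)
      (fun j => (D.toFT (b * p) pr t₀).U 1 j) (fun _ => D.rho p) (0 + 1) (clz (D.rho p) a) x ≤
      sm (D.rho p) (fun j => (D.toFT (b * p) pr t₀).U p j) a x :=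
  FT.DW_le_sm (n := 0) (ch := fun _ => D.rho p) h.hb (D.toFT_Adm _ b pr h.hb h.hF h.hW) a x

lemma SideI.pb_G (h : SideI D sp b pr (.br p Sp t₁ t₀) A d) (a : κ) :
    PB (DW p (fun j => (D.toFT b (pr * p) t₁).U 1 j) (fun j => (D.toFT (b * p) pr t₀).U p j)
      (fun j => (D.toFT (b * p) pr t₀).U 1 j) (fun _ => D.rho p) (0 + 1) (clz (D.rho p) a)) := by
  have hO : (D.toG b pr (.br p Sp t₁ t₀)).Ok := D.toG_Ok h.hb h.hF h.hW
  exact (hO.2.2.col a).pG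

lemma SideI.pb_g (h : SideI D sp b pr (.br p Sp t₁ t₀) A d) (j : Λ) :
    PB ((D.toFT (b * p) pr t₀).U p j) :=
  FT.pb h.br₀.hb (D.toFT_Adm _ _ _ h.br₀.hb h.br₀.hF h.br₀.hW) (Dvd.intro_left b rfl) j

lemma SideI.pb_U (h : SideI D sp b pr t A d) (j : Λ) : PB ((D.toFT b pr t).U 1 j) :=
  FT.pb h.hb (D.toFT_Adm _ _ _ h.hb h.hF h.hW) (one_dvd _) j

end

/-- a walk state of item trees -/
structure StI (D : Par Λ κ) (sp : ℕ → Finset Λ) (s : St Λ κ) (b pr : ℕ) (t : IT) (b' pr' : ℕ)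
    (t' : IT) : Prop where
  L : SideI D sp b pr t s.A s.t
  R : SideI D sp b' pr' t' s.A' s.t'
  M0 : 0 < s.M
  M0' : 0 < s.M'

section
variable [WRel κ] {D : Par Λ κ} {sp : ℕ → Finset Λ} {ρ : ℕ → ℝ} {s : St Λ κ} {b pr b' pr' : ℕ} {t t' : IT}

/-- **cross energy of a state** (for `eSHR`, `eX`, `eSTOP`) -/
theorem Qs_le (hR : D.Rad ρ) (h : StI D sp s b pr t b' pr' t') :
    Qs s ≤ D.PS ρ s.R s.M b pr 1 t s.A s.M' b' pr' 1 t' s.A' := by
  unfold Qs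
  rw [h.L.val, h.R.val]
  exact Q_uv_le hR h.M0 h.M0' h.L.hb h.R.hb h.L.hF h.R.hF h.L.hW h.R.hW (one_dvd _) (one_dvd _)
    s.R s.A s.A'

/-- near misses of a pair of columns -/
noncomputable def symNM (D : Par Λ κ) (ρ : ℕ → ℝ) (M b pr : ℕ) (A : Finset Λ) (M' b' pr' : ℕ)
    (A' : Finset Λ) : IT → IT → ℝ
  | .br p _ _ t₀, .br p' _ _ t₀' => if p = p' then
      D.PS ρ (Ro (D.rho p)) M (b * p) pr p t₀ A M' (b' * p) pr' p t₀' A' else 0
  | _, _ => 0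

/-- `t` has neither a tie nor a SEP column nor a pull at `p`, and nothing above -/
def Blw (p : ℕ) : IT → Prop
  | .leaf _ => True
  | .br q _ _ _ => q < p
  | .add q _ _ => q < p
  | .up q _ _ => q ≤ p
  | .pl q _ => q < p
  | .far q _ _ => q < p

open Classical in
/-- one-sided columns of the first tree -/
noncomputable def symOS (D : Par Λ κ) (ρ : ℕ → ℝ) (M b pr : ℕ) (A : Finset Λ) (M' b' pr' : ℕ)
    (A' : Finset Λ) : IT → IT → ℝ
  | .br p _ _ t₀, t' => if Blw p t' then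
      D.PS ρ (Ro (D.rho p)) M (b * p) pr p t₀ A M' b' pr' 1 t' A' else 0
  | _, _ => 0

lemma symNM_nonneg (hρ : ∀ q, 0 < ρ q) (M b pr : ℕ) (A : Finset Λ) (M' b' pr' : ℕ)
    (A' : Finset Λ) (t t' : IT) : 0 ≤ symNM D ρ M b pr A M' b' pr' A' t t' := by
  unfold symNM
  split
  · split_ifs
    · exact Par.PS_nonneg hρ _ _ _ _ _ _ _ _ _ _ _ _ _
    · exact le_rfl
  · exact le_rfl

lemma symOS_nonneg (hρ : ∀ q, 0 < ρ q) (M b pr : ℕ) (A : Finset Λ) (M' b' pr' : ℕ)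
    (A' : Finset Λ) (t t' : IT) : 0 ≤ symOS D ρ M b pr A M' b' pr' A' t t' := by
  unfold symOS
  split
  · split_ifs
    · exact Par.PS_nonneg hρ _ _ _ _ _ _ _ _ _ _ _ _ _
    · exact le_rfl
  · exact le_rfl

/-- a `br` view of an item tree: a tie or a pull -/
lemma toDT_br {q : ℕ} {w : ℝ} {r : Λ → κ} {d₁ d₀ : DT Λ κ} {v : Λ → ℝ → ℝ} {B G : κ → ℝ → ℝ}
    (h : D.toDT sp b pr t = .br q w r d₁ d₀ v B G) :
    (∃ Sp t₁ t₀, t = .br q Sp t₁ t₀ ∧ r = D.rho q ∧ d₁ = D.toDT sp b (pr * q) t₁ ∧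
      d₀ = D.toDT sp (b * q) pr t₀ ∧ w = 1 / (q : ℝ) ∧
      G = fun a => DW q (fun j => (D.toFT b (pr * q) t₁).U 1 j)
        (fun j => (D.toFT (b * q) pr t₀).U q j) (fun j => (D.toFT (b * q) pr t₀).U 1 j)
        (fun _ => D.rho q) (0 + 1) (clz (D.rho q) a)) ∨
    (∃ t₁, t = .pl q t₁ ∧ r = D.rho q ∧ d₁ = D.toDT sp b (pr * q) t₁ ∧
      d₀ = .leaf (D.rho q) (fun _ _ => 0) ∧ w = 0 ∧ G = fun _ _ => 0) := by
  cases t with
  | leaf S => simp [Par.toDT] at h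
  | br p Sp t₁ t₀ =>
    left
    unfold Par.toDT at h
    injection h with h1 h2 h3 h4 h5 h6 h7 h8
    subst h1
    exact ⟨Sp, t₁, t₀, rfl, h3.symm, h4.symm, h5.symm, h2.symm, h8.symm⟩
  | add p t₁ t₀ => simp [Par.toDT] at h
  | up c Sp t => simp [Par.toDT] at h
  | pl p t₁ =>
    right
    unfold Par.toDT at h
    injection h with h1 h2 h3 h4 h5 h6 h7 h8
    subst h1
    exact ⟨t₁, rfl, h3.symm, h4.symm, h5.symm, h2.symm, h8.symm⟩
  | far p t₁ t₀ => simp [Par.toDT] at h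

/-- an `add` view of an item tree: SEP or FAR -/
lemma toDT_add {q : ℕ} {r : Λ → κ} {d₁ d₀ : DT Λ κ}
    (h : D.toDT sp b pr t = .add q r d₁ d₀) :
    ∃ t₁ t₀, (t = .add q t₁ t₀ ∨ t = .far q t₁ t₀) ∧ r = D.rho q ∧ d₁ = D.toDT sp b pr t₁ ∧
      d₀ = D.toDT sp b pr t₀ := by
  cases t with
  | leaf S => simp [Par.toDT] at h
  | br p Sp t₁ t₀ => simp [Par.toDT] at h
  | add p t₁ t₀ =>
    unfold Par.toDT at h
    injection h with h1 h2 h3 h4
    subst h1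
    exact ⟨t₁, t₀, Or.inl rfl, h2.symm, h3.symm, h4.symm⟩
  | up c Sp t => simp [Par.toDT] at h
  | pl p t₁ => simp [Par.toDT] at h
  | far p t₁ t₀ =>
    unfold Par.toDT at h
    injection h with h1 h2 h3 h4
    subst h1
    exact ⟨t₁, t₀, Or.inr rfl, h2.symm, h3.symm, h4.symm⟩

lemma toDT_up {q : ℕ} {Sp : Finset Λ} {u : DT Λ κ}
    (h : D.toDT sp b pr t = .up q Sp u) :
    ∃ S t₁, t = .up q S t₁ ∧ Sp = sp q ∧ u = D.toDT sp b pr t₁ := by
  cases t with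
  | leaf S => simp [Par.toDT] at h
  | br p Sp t₁ t₀ => simp [Par.toDT] at h
  | add p t₁ t₀ => simp [Par.toDT] at h
  | up c S t =>
    unfold Par.toDT at h
    injection h with h1 h2 h3
    subst h1
    exact ⟨S, t, rfl, h2.symm, h3.symm⟩
  | pl p t₁ => simp [Par.toDT] at h
  | far p t₁ t₀ => simp [Par.toDT] at h

lemma toDT_top : (D.toDT sp b pr t).top = match t with
    | .leaf _ => 0 | .br p _ _ _ => p | .add p _ _ => p | .up p _ _ => p | .pl p _ => p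
    | .far p _ _ => p := by
  cases t <;> rfl

/-- the two sides of an `add` view -/
lemma SideI.addfar {q : ℕ} {A : Finset Λ} {d : DT Λ κ} {t₁ t₀ : IT} (h : SideI D sp b pr t A d)
    (ht : t = .add q t₁ t₀ ∨ t = .far q t₁ t₀) :
    SideI D sp b pr t₁ A (D.toDT sp b pr t₁) ∧ SideI D sp b pr t₀ A (D.toDT sp b pr t₀) := by
  rcases ht with rfl | rfl
  · exact ⟨h.add₁, h.add₀⟩
  · exact ⟨h.far₁, h.far₀⟩

lemma Q_zero_left {μ : Type*} {R : Finset (μ × μ)} {f g : μ → ℝ → ℝ} (hf : ∀ j x, f j x = 0) :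
    Q R f g = 0 := by
  unfold Q
  refine Finset.sum_eq_zero fun x _ => ?_
  have e : (fun y => f x.1 y * g x.2 y) = fun _ => 0 := by
    funext y; rw [hf, zero_mul]
  rw [e]; simp [I]

lemma Q_zero_right {μ : Type*} {R : Finset (μ × μ)} {f g : μ → ℝ → ℝ} (hg : ∀ j x, g j x = 0) :
    Q R f g = 0 := by
  unfold Q
  refine Finset.sum_eq_zero fun x _ => ?_
  have e : (fun y => f x.1 y * g x.2 y) = fun _ => 0 := by
    funext y; rw [hg, mul_zero]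
  rw [e]; simp [I]

lemma avg_rv_zero {M : ℕ} (hM : 0 < M) (A : Finset Λ) (j : Λ) (x : ℝ) :
    avg M (rv A fun (_ : Λ) (_ : ℝ) => (0 : ℝ)) j x = 0 := by
  have e : rv A (fun (_ : Λ) (_ : ℝ) => (0 : ℝ)) j = fun _ => 0 := by
    unfold rv; split_ifs <;> rfl
  unfold avg
  rw [e, Ep_const hM]

lemma avg_rk_zero {M : ℕ} (hM : 0 < M) (A : Finset Λ) (r : Λ → κ) (a : κ) (x : ℝ) :
    avg M (rk A r fun (_ : κ) (_ : ℝ) => (0 : ℝ)) a x = 0 := by
  have e : rk A r (fun (_ : κ) (_ : ℝ) => (0 : ℝ)) a = fun _ => 0 := by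
    unfold rk; split_ifs <;> rfl
  unfold avg
  rw [e, Ep_const hM]

/-- a pull costs nothing at one-sided columns -/
lemma os_zero_le {p M : ℕ} (hp : 0 < p) (hM : 0 < M) {A : Finset Λ} {r : Λ → κ} (hA : Sat A r)
    {F : Λ → ℝ → ℝ} (pF : ∀ j, PB (F j)) :
    os (orel κ) p (avg M (rk A r fun _ _ => 0)) (sm r F) ≤ 0 := by
  refine (os_le_Q (g := fun _ _ => 0) hA hM hp (fun _ => PB.const le_rfl) (fun _ => PB.const le_rfl)
    pF (fun c x => ?_)).trans (le_of_eq (Q_zero_left (avg_rv_zero hM A)))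
  unfold sm
  exact Finset.sum_nonneg fun _ _ => le_rfl

/-- near misses -/
theorem eNM_le (hR : D.Rad ρ) (h : StI D sp s b pr t b' pr' t') (stp : Stp Λ κ) :
    eNM stp s ≤ symNM D ρ s.M b pr s.A s.M' b' pr' s.A' t t' := by
  have h0 := symNM_nonneg (D := D) hR.pos s.M b pr s.A s.M' b' pr' s.A' t t'
  unfold eNM
  split_ifs with k1 k2 k3
  · exact h0
  · exact h0
  · exact h0
  · rcases hv : vw s.p s.t with ⟨w, r, t₁, t₀, v, B, G⟩ | ⟨r, t₁, t₀⟩ | ⟨Sp, u⟩ <;>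
    rcases hv' : vw s.p s.t' with ⟨w', r', t₁', t₀', v', B', G'⟩ | ⟨r', t₁', t₀'⟩ | ⟨Sp', u'⟩ <;>
    try exact h0
    have e1 := h.L.eq.symm.trans (vw_br hv)
    have e2 := h.R.eq.symm.trans (vw_br hv')
    rcases toDT_br e1 with ⟨Sp, τ₁, τ₀, rfl, rfl, -, -, -, rfl⟩ | ⟨τ₁, rfl, rfl, -, -, -, rfl⟩
    · rcases toDT_br e2 with ⟨Sp', τ₁', τ₀', rfl, hr', -, -, -, rfl⟩ | ⟨τ₁', rfl, hr', -, -, -, rfl⟩
      · have hL := h.L
        have hR' := h.R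
        have f1 : symNM D ρ s.M b pr s.A s.M' b' pr' s.A' (.br s.p Sp τ₁ τ₀) (.br s.p Sp' τ₁' τ₀') =
          D.PS ρ (Ro (D.rho s.p)) s.M (b * s.p) pr s.p τ₀ s.A s.M' (b' * s.p) pr' s.p
            τ₀' s.A' := if_pos rfl
        rw [f1]
        refine (Q_offd_le hL.sat_br hR'.sat_br h.M0 h.M0' hL.pb_G hR'.pb_G hL.pb_g hR'.pb_g hL.G_le
          hR'.G_le).trans ?_
        exact Q_uv_le hR h.M0 h.M0' hL.br₀.hb hR'.br₀.hb hL.br₀.hF hR'.br₀.hF hL.br₀.hW hR'.br₀.hW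
          (Dvd.intro_left b rfl) (Dvd.intro_left b' rfl) _ _ _
      · exact (le_of_eq (Q_zero_right (avg_rk_zero h.M0' _ _))).trans h0
    · exact (le_of_eq (Q_zero_left (avg_rk_zero h.M0 _ _))).trans h0

lemma Blw_of {p : ℕ} {Sp : Finset Λ} {u : DT Λ κ} (hv : vw p (D.toDT sp b pr t) = .up Sp u)
    (hp : (D.toDT sp b pr t).top ≤ p) : Blw p t := by
  cases t with
  | leaf S => trivial
  | br q Sp t₁ t₀ =>
    rcases vw_up hv with h | ⟨-, -, h | h⟩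
    · simp [Par.toDT] at h
    · exact absurd h id
    · exact lt_of_le_of_ne hp h
  | add q t₁ t₀ =>
    rcases vw_up hv with h | ⟨-, -, h | h⟩
    · simp [Par.toDT] at h
    · exact absurd h id
    · exact lt_of_le_of_ne hp h
  | up q S t₁ => exact hp
  | pl q t₁ =>
    rcases vw_up hv with h | ⟨-, -, h | h⟩
    · simp [Par.toDT] at h
    · exact absurd h id
    · exact lt_of_le_of_ne hp h
  | far q t₁ t₀ =>
    rcases vw_up hv with h | ⟨-, -, h | h⟩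
    · simp [Par.toDT] at h
    · exact absurd h id
    · exact lt_of_le_of_ne hp h

/-- the one-sided bound -/
lemma os_core (hR : D.Rad ρ) {M M' p c' : ℕ} {A A' : Finset Λ} {t₁ t₀ : IT} {d : DT Λ κ}
    {Sp : Finset ℕ} (h : SideI D sp b pr (.br p Sp t₁ t₀) A d) (hM : 0 < M) (hM' : 0 < M') (hb' : 0 < b')
    (hF' : Fit b' pr' t') (hW' : D.Wts pr' t') :
    os (orel κ) p (avg M (rk A (D.rho p) fun a => DW p (fun j => (D.toFT b (pr * p) t₁).U 1 j)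
        (fun j => (D.toFT (b * p) pr t₀).U p j) (fun j => (D.toFT (b * p) pr t₀).U 1 j)
        (fun _ => D.rho p) (0 + 1) (clz (D.rho p) a)))
      (sm (D.rho p) (avg M' (rv A' fun j => (D.toFT b' pr' t').U 1 j))) ≤
      D.PS ρ (Ro (D.rho p)) M (b * p) pr p t₀ A M' b' pr' 1 t' A' := by
  have pF : ∀ j, PB (avg M' (rv A' fun j => (D.toFT b' pr' t').U 1 j) j) := fun j =>
    PB_uA hM' hb' hF' hW' (one_dvd _) j
  refine (os_le_Q h.sat_br hM h.hF.1.pos h.pb_G h.pb_g pF h.G_le).trans ?_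
  exact Q_uv_le hR hM hM' h.br₀.hb hb' h.br₀.hF hF' h.br₀.hW hW' (Dvd.intro_left b rfl)
    (one_dvd _) _ _ _

/-- one-sided columns -/
theorem eOS_le (hR : D.Rad ρ) (h : StI D sp s b pr t b' pr' t') (stp : Stp Λ κ) :
    eOS stp s ≤ symOS D ρ s.M b pr s.A s.M' b' pr' s.A' t t' +
      symOS D ρ s.M' b' pr' s.A' s.M b pr s.A t' t := by
  have h0 := symOS_nonneg (D := D) hR.pos s.M b pr s.A s.M' b' pr' s.A' t t'
  have h0' := symOS_nonneg (D := D) hR.pos s.M' b' pr' s.A' s.M b pr s.A t' t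
  have h00 := add_nonneg h0 h0'
  unfold eOS
  split_ifs with k1 k2 k3
  · exact h00
  · exact h00
  · exact h00
  · rcases hv : vw s.p s.t with ⟨w, r, t₁, t₀, v, B, G⟩ | ⟨r, t₁, t₀⟩ | ⟨Sp, u⟩ <;>
    rcases hv' : vw s.p s.t' with ⟨w', r', t₁', t₀', v', B', G'⟩ | ⟨r', t₁', t₀'⟩ | ⟨Sp', u'⟩ <;>
    try exact h00
    · -- br, up
      have e1 := h.L.eq.symm.trans (vw_br hv)
      rcases toDT_br e1 with ⟨Sp, τ₁, τ₀, rfl, rfl, -, -, -, rfl⟩ | ⟨τ₁, rfl, rfl, -, -, -, rfl⟩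
      · have hB : Blw s.p t' := by
          have h1 : s.t'.top ≤ s.p := le_max_right _ _
          rw [h.R.eq] at hv' h1
          exact Blw_of hv' h1
        have f1 : symOS D ρ s.M b pr s.A s.M' b' pr' s.A' (.br s.p Sp τ₁ τ₀) t' =
          D.PS ρ (Ro (D.rho s.p)) s.M (b * s.p) pr s.p τ₀ s.A s.M' b' pr' 1 t' s.A' := if_pos hB
        rw [f1]
        refine le_trans ?_ (le_add_of_nonneg_right h0')
        show os (orel κ) s.p (avg s.M (rk s.A (D.rho s.p) _))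
          (sm (D.rho s.p) (avg s.M' (rv s.A' s.t'.g.val))) ≤ _
        rw [h.R.val]
        exact os_core (c' := 1) hR h.L h.M0 h.M0' h.R.hb h.R.hF h.R.hW
      · refine le_trans ?_ h00
        refine os_zero_le h.L.hF.1.pos h.M0 h.L.sat_pl fun j => ?_
        rw [h.R.val]
        exact PB_uA h.M0' h.R.hb h.R.hF h.R.hW (one_dvd _) j
    · -- up, br
      have e1 := h.R.eq.symm.trans (vw_br hv')
      rcases toDT_br e1 with ⟨Sp, τ₁, τ₀, rfl, rfl, -, -, -, rfl⟩ | ⟨τ₁, rfl, rfl, -, -, -, rfl⟩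
      · have hB : Blw s.p t := by
          have h1 : s.t.top ≤ s.p := le_max_left _ _
          rw [h.L.eq] at hv h1
          exact Blw_of hv h1
        have f1 : symOS D ρ s.M' b' pr' s.A' s.M b pr s.A (.br s.p Sp τ₁ τ₀) t =
          D.PS ρ (Ro (D.rho s.p)) s.M' (b' * s.p) pr' s.p τ₀ s.A' s.M b pr 1 t s.A := if_pos hB
        rw [f1]
        refine le_trans ?_ (le_add_of_nonneg_left h0)
        show os (orel κ) s.p (avg s.M' (rk s.A' (D.rho s.p) _))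
          (sm (D.rho s.p) (avg s.M (rv s.A s.t.g.val))) ≤ _
        rw [h.L.val]
        exact os_core (c' := 1) hR h.R h.M0' h.M0 h.L.hb h.L.hF h.L.hW
      · refine le_trans ?_ h00
        refine os_zero_le h.R.hF.1.pos h.M0' h.R.sat_pl fun j => ?_
        rw [h.L.val]
        exact PB_uA h.M0 h.L.hb h.L.hF h.L.hW (one_dvd _) j

/-- the `up` view -/
lemma SideI.vwup {p : ℕ} {A : Finset Λ} {d : DT Λ κ} (h : SideI D sp b pr t A d)
    (hsp : D.SpOk sp) {Sp : Finset Λ} {u : DT Λ κ} (hv : vw p d = .up Sp u) :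
    ∃ τ, SideI D sp b pr τ A u ∧ SideI D sp b pr τ (A ∩ Sp) u ∧ SideI D sp b pr τ (A \ Sp) u := by
  rcases vw_up hv with h1 | ⟨rfl, rfl, -⟩
  · have e := h.eq.symm.trans h1
    obtain ⟨S, t₁, rfl, rfl, rfl⟩ := toDT_up e
    exact ⟨t₁, h.up, (h.spl hsp).1, (h.spl hsp).2⟩
  · simp only [Finset.inter_empty, Finset.sdiff_empty]
    exact ⟨t, h, h.pop (AdS_empty _), h⟩

/-- the column of a tie is positive -/
lemma SideI.p_pos {p : ℕ} {A : Finset Λ} {d : DT Λ κ} {t₁ t₀ : IT} {Sp : Finset ℕ}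
    (h : SideI D sp b pr (.br p Sp t₁ t₀) A d) : 0 < p := h.hF.1.pos

/-- **the continuing states are states of item trees** -/
theorem StI.next (hsp : D.SpOk sp) (h : StI D sp s b pr t b' pr' t') (stp : Stp Λ κ) :
    ∀ q ∈ nxt stp s, ∃ b₁ pr₁ t₁ b₁' pr₁' t₁', StI D sp q.2 b₁ pr₁ t₁ b₁' pr₁' t₁' := by
  intro q hq
  obtain ⟨hq, hne⟩ := mem_nxt.1 hq
  have hcL : ∀ τ₁ τ₀ : IT, SideI D sp b pr τ₁ s.A (D.toDT sp b pr τ₁) →
      SideI D sp b pr τ₀ s.A (D.toDT sp b pr τ₀) →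
      ∃ τ, SideI D sp b pr τ s.A (stp.c s (D.toDT sp b pr τ₁) (D.toDT sp b pr τ₀)) := by
    intro τ₁ τ₀ h1 h0
    rcases stp.c_or s (D.toDT sp b pr τ₁) (D.toDT sp b pr τ₀) with ⟨e, -⟩ | ⟨e, -⟩
    · exact ⟨τ₁, by rw [e]; exact h1⟩
    · exact ⟨τ₀, by rw [e]; exact h0⟩
  have hcR : ∀ τ₁ τ₀ : IT, SideI D sp b' pr' τ₁ s.A' (D.toDT sp b' pr' τ₁) →
      SideI D sp b' pr' τ₀ s.A' (D.toDT sp b' pr' τ₀) →
      ∃ τ, SideI D sp b' pr' τ s.A' (stp.c s (D.toDT sp b' pr' τ₁) (D.toDT sp b' pr' τ₀)) := by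
    intro τ₁ τ₀ h1 h0
    rcases stp.c_or s (D.toDT sp b' pr' τ₁) (D.toDT sp b' pr' τ₀) with ⟨e, -⟩ | ⟨e, -⟩
    · exact ⟨τ₁, by rw [e]; exact h1⟩
    · exact ⟨τ₀, by rw [e]; exact h0⟩
  unfold nxt0 at hq
  by_cases h1 : s.t.isLeaf ∨ s.t'.isLeaf
  · simp [h1] at hq
  by_cases h2 : stp s
  · simp [h1, h2] at hq
  rw [if_neg h1, if_neg h2] at hq
  have hL := h.L
  have hR := h.R
  by_cases hPL : s.isPL
  · -- pre-step on the left
    rw [if_pos hPL] at hq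
    obtain ⟨w, r, t₁, t₀, v, B, G, -, et, h3⟩ := St.isPL_cases hPL
    rcases h3 with ⟨hd, e⟩ | ⟨-, -, e⟩ <;> rw [e] at hq <;>
      simp only [List.mem_cons, List.not_mem_nil, or_false] at hq <;>
      rcases toDT_br (hL.eq.symm.trans et) with
        ⟨Sp, τ₁, τ₀, rfl, rfl, rfl, rfl, -, -⟩ | ⟨τ₁, rfl, rfl, rfl, -, rfl, -⟩
    · have hp := Nat.div_pos (Nat.le_of_dvd h.M0 hd) hL.p_pos
      rcases hq with rfl | rfl
      · exact ⟨_, _, _, _, _, _, hL.br₁, hR, hp, h.M0'⟩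
      · exact ⟨_, _, _, _, _, _, hL.br₀, hR, hp, h.M0'⟩
    · have hp := Nat.div_pos (Nat.le_of_dvd h.M0 hd) hL.hF.1.pos
      rcases hq with rfl | rfl
      · exact ⟨_, _, _, _, _, _, hL.pl, hR, hp, h.M0'⟩
      · exact absurd rfl hne
    · have hp := Nat.mul_pos hL.p_pos h.M0'
      rcases hq with rfl | rfl
      · exact ⟨_, _, _, _, _, _, hL.br₁, hR, h.M0, hp⟩
      · exact ⟨_, _, _, _, _, _, hL.br₀, hR, h.M0, hp⟩
    · have hp := Nat.mul_pos hL.hF.1.pos h.M0'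
      rcases hq with rfl | rfl
      · exact ⟨_, _, _, _, _, _, hL.pl, hR, h.M0, hp⟩
      · exact absurd rfl hne
  by_cases hPR : s.isPR
  · -- pre-step on the right
    rw [if_neg hPL, if_pos hPR] at hq
    obtain ⟨w, r, t₁, t₀, v, B, G, -, et, h3⟩ := St.isPR_cases hPR
    rcases h3 with ⟨hd, e⟩ | ⟨-, -, e⟩ <;> rw [e] at hq <;>
      simp only [List.mem_cons, List.not_mem_nil, or_false] at hq <;>
      rcases toDT_br (hR.eq.symm.trans et) with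
        ⟨Sp, τ₁, τ₀, rfl, rfl, rfl, rfl, -, -⟩ | ⟨τ₁, rfl, rfl, rfl, -, rfl, -⟩
    · have hp := Nat.div_pos (Nat.le_of_dvd h.M0' hd) hR.p_pos
      rcases hq with rfl | rfl
      · exact ⟨_, _, _, _, _, _, hL, hR.br₁, h.M0, hp⟩
      · exact ⟨_, _, _, _, _, _, hL, hR.br₀, h.M0, hp⟩
    · have hp := Nat.div_pos (Nat.le_of_dvd h.M0' hd) hR.hF.1.pos
      rcases hq with rfl | rfl
      · exact ⟨_, _, _, _, _, _, hL, hR.pl, h.M0, hp⟩
      · exact absurd rfl hne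
    · have hp := Nat.mul_pos hR.p_pos h.M0
      rcases hq with rfl | rfl
      · exact ⟨_, _, _, _, _, _, hL, hR.br₁, hp, h.M0'⟩
      · exact ⟨_, _, _, _, _, _, hL, hR.br₀, hp, h.M0'⟩
    · have hp := Nat.mul_pos hR.hF.1.pos h.M0
      rcases hq with rfl | rfl
      · exact ⟨_, _, _, _, _, _, hL, hR.pl, hp, h.M0'⟩
      · exact absurd rfl hne
  rw [if_neg hPL, if_neg hPR] at hq
  rcases hv : vw s.p s.t with ⟨w, r, t₁, t₀, v, B, G⟩ | ⟨r, t₁, t₀⟩ | ⟨Sp, u⟩ <;>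
  rcases hv' : vw s.p s.t' with ⟨w', r', t₁', t₀', v', B', G'⟩ | ⟨r', t₁', t₀'⟩ | ⟨Sp', u'⟩ <;>
  simp only [hv, hv'] at hq
  · -- br, br
    simp only [List.mem_cons, List.not_mem_nil, or_false] at hq
    rcases toDT_br (hL.eq.symm.trans (vw_br hv)) with
      ⟨Sp, τ₁, τ₀, rfl, rfl, rfl, rfl, -, -⟩ | ⟨τ₁, rfl, rfl, rfl, -, rfl, -⟩ <;>
    rcases toDT_br (hR.eq.symm.trans (vw_br hv')) with
      ⟨Sp', τ₁', τ₀', rfl, -, rfl, rfl, -, -⟩ | ⟨τ₁', rfl, -, rfl, -, rfl, -⟩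
    · rcases hq with rfl | rfl | rfl | rfl
      · exact ⟨_, _, _, _, _, _, hL.br₁, hR.br₁, h.M0, h.M0'⟩
      · exact ⟨_, _, _, _, _, _, hL.br₁, hR.br₀, h.M0, h.M0'⟩
      · exact ⟨_, _, _, _, _, _, hL.br₀, hR.br₁, h.M0, h.M0'⟩
      · exact ⟨_, _, _, _, _, _, hL.br₀, hR.br₀, h.M0, h.M0'⟩
    · rcases hq with rfl | rfl | rfl | rfl
      · exact ⟨_, _, _, _, _, _, hL.br₁, hR.pl, h.M0, h.M0'⟩
      · exact absurd (by simp) hne
      · exact ⟨_, _, _, _, _, _, hL.br₀, hR.pl, h.M0, h.M0'⟩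
      · exact absurd (by simp) hne
    · rcases hq with rfl | rfl | rfl | rfl
      · exact ⟨_, _, _, _, _, _, hL.pl, hR.br₁, h.M0, h.M0'⟩
      · exact ⟨_, _, _, _, _, _, hL.pl, hR.br₀, h.M0, h.M0'⟩
      · exact absurd (by simp) hne
      · exact absurd (by simp) hne
    · rcases hq with rfl | rfl | rfl | rfl
      · exact ⟨_, _, _, _, _, _, hL.pl, hR.pl, h.M0, h.M0'⟩
      · exact absurd (by simp) hne
      · exact absurd (by simp) hne
      · exact absurd (by simp) hne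
  · -- br, add
    simp only [List.mem_cons, List.not_mem_nil, or_false] at hq
    obtain ⟨τ₁', τ₀', ht, -, rfl, rfl⟩ := toDT_add (hR.eq.symm.trans (vw_add hv'))
    obtain ⟨k1, k0⟩ := hR.addfar ht
    obtain ⟨τ, k⟩ := hcR _ _ k1 k0
    subst hq
    exact ⟨_, _, _, _, _, _, hL, k, h.M0, h.M0'⟩
  · -- br, up
    simp only [List.mem_cons, List.not_mem_nil, or_false] at hq
    obtain ⟨τ', k1, k2, k3⟩ := hR.vwup hsp hv'
    rcases toDT_br (hL.eq.symm.trans (vw_br hv)) with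
      ⟨Sp, τ₁, τ₀, rfl, rfl, rfl, rfl, -, -⟩ | ⟨τ₁, rfl, rfl, rfl, -, rfl, -⟩
    · have hp := Nat.mul_pos hL.p_pos h.M0'
      rcases hq with rfl | rfl
      · exact ⟨_, _, _, _, _, _, hL.br₁, k1, h.M0, hp⟩
      · exact ⟨_, _, _, _, _, _, hL.br₀, k1, h.M0, hp⟩
    · have hp := Nat.mul_pos hL.hF.1.pos h.M0'
      rcases hq with rfl | rfl
      · exact ⟨_, _, _, _, _, _, hL.pl, k1, h.M0, hp⟩
      · exact absurd rfl hne
  · -- add, br
    simp only [List.mem_cons, List.not_mem_nil, or_false] at hq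
    obtain ⟨τ₁', τ₀', ht, -, rfl, rfl⟩ := toDT_add (hL.eq.symm.trans (vw_add hv))
    obtain ⟨k1, k0⟩ := hL.addfar ht
    obtain ⟨τ, k⟩ := hcL _ _ k1 k0
    subst hq
    exact ⟨_, _, _, _, _, _, k, hR, h.M0, h.M0'⟩
  · -- add, add
    obtain ⟨τ₁, τ₀, ht, -, rfl, rfl⟩ := toDT_add (hL.eq.symm.trans (vw_add hv))
    obtain ⟨τ₁', τ₀', ht', -, rfl, rfl⟩ := toDT_add (hR.eq.symm.trans (vw_add hv'))
    obtain ⟨k1, k0⟩ := hL.addfar ht
    obtain ⟨k1', k0'⟩ := hR.addfar ht'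
    split_ifs at hq with c1 c2 <;>
    simp only [List.mem_cons, List.not_mem_nil, or_false] at hq
    · rcases hq with rfl | rfl
      · exact ⟨_, _, _, _, _, _, k1, k1', h.M0, h.M0'⟩
      · exact ⟨_, _, _, _, _, _, k0, k0', h.M0, h.M0'⟩
    · obtain ⟨τ, k⟩ := hcL _ _ k1 k0
      subst hq
      exact ⟨_, _, _, _, _, _, k, hR, h.M0, h.M0'⟩
    · obtain ⟨τ, k⟩ := hcR _ _ k1' k0'
      subst hq
      exact ⟨_, _, _, _, _, _, hL, k, h.M0, h.M0'⟩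
  · -- add, up
    obtain ⟨τ₁, τ₀, ht, -, rfl, rfl⟩ := toDT_add (hL.eq.symm.trans (vw_add hv))
    obtain ⟨k1, k0⟩ := hL.addfar ht
    obtain ⟨τ', l1, l2, l3⟩ := hR.vwup hsp hv'
    split_ifs at hq with c1 <;>
    simp only [List.mem_cons, List.not_mem_nil, or_false] at hq
    · rcases hq with rfl | rfl
      · exact ⟨_, _, _, _, _, _, k1, l2, h.M0, h.M0'⟩
      · exact ⟨_, _, _, _, _, _, k0, l3, h.M0, h.M0'⟩
    · obtain ⟨τ, k⟩ := hcL _ _ k1 k0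
      subst hq
      exact ⟨_, _, _, _, _, _, k, hR, h.M0, h.M0'⟩
  · -- up, br
    simp only [List.mem_cons, List.not_mem_nil, or_false] at hq
    obtain ⟨τ', k1, k2, k3⟩ := hL.vwup hsp hv
    rcases toDT_br (hR.eq.symm.trans (vw_br hv')) with
      ⟨Sp, τ₁, τ₀, rfl, rfl, rfl, rfl, -, -⟩ | ⟨τ₁, rfl, rfl, rfl, -, rfl, -⟩
    · have hp := Nat.mul_pos hR.p_pos h.M0
      rcases hq with rfl | rfl
      · exact ⟨_, _, _, _, _, _, k1, hR.br₁, hp, h.M0'⟩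
      · exact ⟨_, _, _, _, _, _, k1, hR.br₀, hp, h.M0'⟩
    · have hp := Nat.mul_pos hR.hF.1.pos h.M0
      rcases hq with rfl | rfl
      · exact ⟨_, _, _, _, _, _, k1, hR.pl, hp, h.M0'⟩
      · exact absurd rfl hne
  · -- up, add
    obtain ⟨τ₁, τ₀, ht, -, rfl, rfl⟩ := toDT_add (hR.eq.symm.trans (vw_add hv'))
    obtain ⟨k1, k0⟩ := hR.addfar ht
    obtain ⟨τ', l1, l2, l3⟩ := hL.vwup hsp hv
    split_ifs at hq with c1 <;>
    simp only [List.mem_cons, List.not_mem_nil, or_false] at hq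
    · rcases hq with rfl | rfl
      · exact ⟨_, _, _, _, _, _, l2, k1, h.M0, h.M0'⟩
      · exact ⟨_, _, _, _, _, _, l3, k0, h.M0, h.M0'⟩
    · obtain ⟨τ, k⟩ := hcR _ _ k1 k0
      subst hq
      exact ⟨_, _, _, _, _, _, hL, k, h.M0, h.M0'⟩
  · -- up, up
    simp only [List.mem_cons, List.not_mem_nil, or_false] at hq
    obtain ⟨τ, k1, -, -⟩ := hL.vwup hsp hv
    obtain ⟨τ', k1', -, -⟩ := hR.vwup hsp hv'
    subst hq
    exact ⟨_, _, _, _, _, _, k1, k1', h.M0, h.M0'⟩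

/-- the cross energy of a state, exactly, as a sum over pairs of items -/
theorem Qs_eq (h : StI D sp s b pr t b' pr' t') :
    Qs s = ∑ e ∈ D.PE s.R (D.uA s.M b pr t s.A 1) (D.uA s.M' b' pr' t' s.A' 1),
      D.iF s.R (D.uA s.M b pr t s.A 1) (D.uA s.M' b' pr' t' s.A' 1) e := by
  unfold Qs
  rw [h.L.val, h.R.val]
  exact D.Q_eq s.R _ _

end

end

end Crest.Agent.R4P.AvgItem710
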