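import Crest.Agent.R4P.Item758
import Crest.Agent.R4P.AvgItem710
import Crest.Agent.R4.AvgSym710

/-!
R4 (S0004), helper710, module L, part A: **energies of pairs of item populations**; port of the first
half of helper710's `R4/AvgSym710` to the tree with powers (helper504). Tree-free names are exported
from `R4.AvgItem710`.

For a state whose trees are `D.toDT sp b pr τ` and `D.toDT sp b' pr' τ'` (item trees `τ`, `τ'`):

* `Par.pb` : the bound of one averaged pair of item pieces (radii `(b/c) ρ j`, moduli `it j / pr`,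
  averages `M`, `M'`);
* `Par.PS` : its sum over the pairs of a set `R` with `e.1 ∈ A`, `e.2 ∈ A'`, items in `τ`, `τ'`;
-/

set_option autoImplicit false
set_option linter.unusedSectionVars false
set_option linter.unusedVariables false
open MeasureTheory Filter

namespace Crest.Agent.R4P.AvgItem710

open Crest.Agent.R4.Tour104 Crest.Agent.R4.Tour758 Crest.Agent.R4.Avg758 Crest.Agent.R4.Clos758
open Crest.Agent.R4.ClosL758 Crest.Agent.R4.ClosG758 Crest.Agent.R4.ClosR758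
open Crest.Agent.R4.Lam368 (mult lamF DW BW fW Nested Dat)
open Crest.Agent.R4.Fam464 Crest.Agent.R4P.Cnt588 Crest.Agent.R4.Piece464
open Crest.Agent.R4P.Item758 Crest.Agent.R4.HVW560

lemma pp_dvd {t : IT} : ∀ {b pr : ℕ}, Fit b pr t → ∀ q ∈ t.items, pr * pp t q ∣ q := by
  induction t with
  | leaf S =>
    intro b pr h q hq
    show pr * 1 ∣ q
    rw [mul_one]; exact (h q hq).2.1
  | br p Sp t₁ t₀ ih₁ ih₀ =>
    intro b pr h q hq
    obtain ⟨hp, hpb, hd, h1, h0⟩ := h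
    by_cases h2 : q ∈ t₀.items
    · have e : pp (.br p Sp t₁ t₀) q = pp t₀ q := if_pos h2
      rw [e]; exact ih₀ h0 q h2
    · have e : pp (.br p Sp t₁ t₀) q = p * pp t₁ q := if_neg h2
      rw [e, ← mul_assoc]
      exact ih₁ h1 q ((Finset.mem_union.1 hq).resolve_right h2)
  | add p t₁ t₀ ih₁ ih₀ =>
    intro b pr h q hq
    obtain ⟨hd, h1, h0⟩ := h
    by_cases h2 : q ∈ t₀.items
    · have e : pp (.add p t₁ t₀) q = pp t₀ q := if_pos h2
      rw [e]; exact ih₀ h0 q h2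
    · have e : pp (.add p t₁ t₀) q = pp t₁ q := if_neg h2
      rw [e]
      exact ih₁ h1 q ((Finset.mem_union.1 hq).resolve_right h2)
  | up c Sp t ih => intro b pr h q hq; exact ih h q hq
  | pl p t ih =>
    intro b pr h q hq
    have e : pp (.pl p t) q = p * pp t q := rfl
    rw [e, ← mul_assoc]
    exact ih h.2.2 q hq
  | far p t₁ t₀ ih₁ ih₀ =>
    intro b pr h q hq
    obtain ⟨hd, h1, h0⟩ := h
    by_cases h2 : q ∈ t₀.items
    · have e : pp (.far p t₁ t₀) q = pp t₀ q := if_pos h2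
      rw [e]; exact ih₀ h0 q h2
    · have e : pp (.far p t₁ t₀) q = pp t₁ q := if_neg h2
      rw [e]
      exact ih₁ h1 q ((Finset.mem_union.1 hq).resolve_right h2)

export Crest.Agent.R4.AvgItem710 (div_dvd_div' arc_eq_card sum_pc_le_arc Fam pbd Da_nonneg
  pbd_nonneg pbd_le pbd_le_all fam_pair_le exists_of_I_ne)

/-! ### energies of item pairs -/

section
variable {Λ κ : Type*}

/-- bound of a pair of items at two nodes: radii `(b/c) ρ q`, moduli `q/pr`, averages `M` -/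
noncomputable def _root_.Crest.Agent.R4P.Item758.Par.pb (D : Par Λ κ) (ρ : ℕ → ℝ) (M b pr c q : ℕ)
    (M' b' pr' c' q' : ℕ) : ℝ :=
  pbd ((b : ℝ) / c * D.γ) ((b : ℝ) / c * ρ q) (q / pr) M
    ((b' : ℝ) / c' * D.γ) ((b' : ℝ) / c' * ρ q') (q' / pr') M'

/-- pieces: inside `[-ρ, ρ)`, the windows of one item are disjoint, weights at most one -/
structure _root_.Crest.Agent.R4P.Item758.Par.Rad (D : Par Λ κ) (ρ : ℕ → ℝ) : Prop where
  pos : ∀ q, 0 < ρ q
  al : ∀ j, -ρ (D.it j) ≤ D.al j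
  be : ∀ j, D.be j ≤ ρ (D.it j)
  om : ∀ j a, D.om j a ≤ 1
  dj : ∀ i j, i ≠ j → D.it i = D.it j → D.be i ≤ D.al j ∨ D.be j ≤ D.al i

lemma _root_.Crest.Agent.R4P.Item758.Par.pb_nonneg {D : Par Λ κ} {ρ : ℕ → ℝ} (hρ : ∀ q, 0 < ρ q)
    (M b pr c q M' b' pr' c' q' : ℕ) : 0 ≤ D.pb ρ M b pr c q M' b' pr' c' q' :=
  pbd_nonneg (mul_nonneg (by positivity) (hρ q).le) (mul_nonneg (by positivity) (hρ q').le)

variable [DecidableEq Λ]

/-- the energy of a pair of items -/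
noncomputable def _root_.Crest.Agent.R4P.Item758.Par.iF (D : Par Λ κ) (R : Finset (Λ × Λ))
    (φ ψ : Λ → ℝ → ℝ) (e : ℕ × ℕ) : ℝ :=
  ∑ x ∈ R.filter (fun x => (D.it x.1, D.it x.2) = e), I (fun y => φ x.1 y * ψ x.2 y)

open Classical in
/-- the pairs of items with a nonzero pair of pieces in `R` -/
noncomputable def _root_.Crest.Agent.R4P.Item758.Par.PE (D : Par Λ κ) (R : Finset (Λ × Λ))
    (φ ψ : Λ → ℝ → ℝ) : Finset (ℕ × ℕ) :=
  (R.filter fun x => I (fun y => φ x.1 y * ψ x.2 y) ≠ 0).image fun x => (D.it x.1, D.it x.2)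

lemma _root_.Crest.Agent.R4P.Item758.Par.mem_PE {D : Par Λ κ} {R : Finset (Λ × Λ)}
    {φ ψ : Λ → ℝ → ℝ} {e : ℕ × ℕ} : e ∈ D.PE R φ ψ ↔ ∃ j j', (j, j') ∈ R ∧
      I (fun y => φ j y * ψ j' y) ≠ 0 ∧ D.it j = e.1 ∧ D.it j' = e.2 := by
  classical
  unfold Par.PE
  rw [Finset.mem_image]
  constructor
  · rintro ⟨⟨j, j'⟩, hx, rfl⟩
    obtain ⟨h1, h2⟩ := Finset.mem_filter.1 hx
    exact ⟨j, j', h1, h2, rfl, rfl⟩
  · rintro ⟨j, j', h1, h2, h3, h4⟩
    exact ⟨(j, j'), Finset.mem_filter.2 ⟨h1, h2⟩, Prod.ext h3 h4⟩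

/-- the cross energy is the sum of the energies of the item pairs -/
theorem _root_.Crest.Agent.R4P.Item758.Par.Q_eq (D : Par Λ κ) (R : Finset (Λ × Λ))
    (φ ψ : Λ → ℝ → ℝ) : Q R φ ψ = ∑ e ∈ D.PE R φ ψ, D.iF R φ ψ e := by
  classical
  unfold Q
  rw [← Finset.sum_filter_ne_zero]
  rw [← Finset.sum_fiberwise_of_maps_to (t := D.PE R φ ψ)
    (g := fun x => (D.it x.1, D.it x.2)) (fun x hx => by
      obtain ⟨h1, h2⟩ := Finset.mem_filter.1 hx
      exact Par.mem_PE.2 ⟨x.1, x.2, h1, h2, rfl, rfl⟩)]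
  refine Finset.sum_congr rfl fun e _ => ?_
  unfold Par.iF
  refine Finset.sum_subset (fun x hx => ?_) fun x hx hx' => ?_
  · obtain ⟨h1, h2⟩ := Finset.mem_filter.1 hx
    exact Finset.mem_filter.2 ⟨(Finset.mem_filter.1 h1).1, h2⟩
  · obtain ⟨h1, h2⟩ := Finset.mem_filter.1 hx
    by_contra h3
    exact hx' (Finset.mem_filter.2 ⟨Finset.mem_filter.2 ⟨h1, h3⟩, h2⟩)

lemma _root_.Crest.Agent.R4P.Item758.Par.iF_nonneg (D : Par Λ κ) (R : Finset (Λ × Λ))
    {φ ψ : Λ → ℝ → ℝ} (h : ∀ j y, 0 ≤ φ j y) (h' : ∀ j y, 0 ≤ ψ j y) (e : ℕ × ℕ) :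
    0 ≤ D.iF R φ ψ e :=
  Finset.sum_nonneg fun x _ => I_nonneg fun y => mul_nonneg (h _ y) (h' _ y)

variable [Fintype Λ] [Fintype κ] [DecidableEq κ]

/-- the weight of a piece at a node is admissible -/
lemma wt_node {D : Par Λ κ} {b pr : ℕ} {t : IT} (hF : Fit b pr t) (hW : D.Wts pr t) {j : Λ}
    (hj : D.it j ∈ t.items) (c : ℕ) :
    Wt (D.it j / pr) (fun a => D.om j ((c * mp t (D.it j) : ℕ) * a)) :=
  Wt_scale ((hW j hj).dvd (div_dvd_div' (hF.item _ hj).1 (pp_dvd hF _ hj))) _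

/-- the averaged values of a node, restricted to `A` -/
noncomputable def _root_.Crest.Agent.R4P.Item758.Par.uA (D : Par Λ κ) (M b pr : ℕ) (t : IT)
    (A : Finset Λ) (c : ℕ) : Λ → ℝ → ℝ := avg M (rv A fun j => (D.toFT b pr t).U c j)

section
variable {D : Par Λ κ} {ρ : ℕ → ℝ} {M M' b pr c b' pr' c' : ℕ} {t t' : IT} {A A' : Finset Λ}

lemma PB_uA (hM : 0 < M) (hb : 0 < b) (hF : Fit b pr t) (hW : D.Wts pr t) (hc : c ∣ b) (j : Λ) :
    PB (D.uA M b pr t A c j) :=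
  PB_avg hM (PB_rv (fun j => FT.pb hb (D.toFT_Adm t b pr hb hF hW) hc j) A) j

lemma uA_zero (hM : 0 < M) {j : Λ} (h : ¬ (j ∈ A ∧ D.it j ∈ t.items)) (y : ℝ) :
    D.uA M b pr t A c j y = 0 := by
  unfold Par.uA avg
  by_cases hA : j ∈ A
  · have hi : D.it j ∉ t.items := fun hi => h ⟨hA, hi⟩
    have e0 : rv A (fun j => (D.toFT b pr t).U c j) j = fun _ => 0 := by
      rw [rv_of_mem hA]
      exact funext fun x => D.U_zero t b pr c j hi x
    rw [e0, Ep_const hM]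
  · rw [rv_of_not_mem hA, Ep_const hM]

/-- **a pair which counts**: what membership gives -/
theorem _root_.Crest.Agent.R4P.Item758.Par.PE_ex (hM : 0 < M) (hM' : 0 < M') {R : Finset (Λ × Λ)}
    {e : ℕ × ℕ} (he : e ∈ D.PE R (D.uA M b pr t A c) (D.uA M' b' pr' t' A' c')) :
    ∃ j j', (j, j') ∈ R ∧ j ∈ A ∧ j' ∈ A' ∧ D.it j = e.1 ∧ D.it j' = e.2 ∧ e.1 ∈ t.items ∧
      e.2 ∈ t'.items ∧ ∃ y, D.uA M b pr t A c j y ≠ 0 ∧ D.uA M' b' pr' t' A' c' j' y ≠ 0 := by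
  obtain ⟨j, j', h1, h2, h3, h4⟩ := Par.mem_PE.1 he
  obtain ⟨y, h5, h6⟩ := exists_of_I_ne h2
  have h7 : j ∈ A ∧ D.it j ∈ t.items := by
    by_contra h; exact h5 (uA_zero hM h y)
  have h8 : j' ∈ A' ∧ D.it j' ∈ t'.items := by
    by_contra h; exact h6 (uA_zero hM' h y)
  exact ⟨j, j', h1, h7.1, h8.1, h3, h4, h3 ▸ h7.2, h4 ▸ h8.2, y, h5, h6⟩

/-- the pieces of one item at a node form a family -/
lemma fam_node (hR : D.Rad ρ) (hb : 0 < b) (hF : Fit b pr t) (hW : D.Wts pr t) (hc : c ∣ b)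
    {q : ℕ} (hq : q ∈ t.items) (A : Finset Λ) :
    Fam (A.filter fun j => D.it j = q) (fun j => (D.toFT b pr t).U c j) ((b : ℝ) / c * D.γ)
      ((b : ℝ) / c * ρ q) (q / pr) (fun j => (b : ℝ) / c * D.al j) (fun j => (b : ℝ) / c * D.be j)
      (fun j a => D.om j ((c * mp t q : ℕ) * a)) := by
  have c0 : (0 : ℝ) < c := by exact_mod_cast Nat.pos_of_dvd_of_pos hc hb
  have b0 : (0 : ℝ) < b := by exact_mod_cast hb
  have s0 : 0 < (b : ℝ) / c := by positivity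
  have hi : ∀ j ∈ A.filter fun j => D.it j = q, D.it j = q := fun j hj =>
    (Finset.mem_filter.1 hj).2
  refine ⟨fun j hj => FT.pb hb (D.toFT_Adm t b pr hb hF hW) hc j, fun j hj x => ?_, fun j hj => ?_,
    fun j hj a => hR.om j _, fun j hj => ?_, fun j hj => ?_, fun i hi' j hj hij => ?_⟩
  · have e := hi j hj
    have := D.U_le t b pr c hb hF hW hc j (e ▸ hq) x
    rw [e] at this
    exact this
  · have e := hi j hj
    have := wt_node hF hW (j := j) (e ▸ hq) c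
    rw [e] at this
    exact this
  · have := mul_le_mul_of_nonneg_left (hR.al j) s0.le
    rw [hi j hj] at this
    linarith
  · have := mul_le_mul_of_nonneg_left (hR.be j) s0.le
    rwa [hi j hj] at this
  · rcases hR.dj i j hij ((hi i hi').trans (hi j hj).symm) with k | k
    · exact Or.inl (mul_le_mul_of_nonneg_left k s0.le)
    · exact Or.inr (mul_le_mul_of_nonneg_left k s0.le)

/-- **the energy of a pair of items** -/
theorem iF_le (hR : D.Rad ρ) (hM : 0 < M) (hM' : 0 < M') (hb : 0 < b) (hb' : 0 < b')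
    (hF : Fit b pr t) (hF' : Fit b' pr' t') (hW : D.Wts pr t) (hW' : D.Wts pr' t') (hc : c ∣ b)
    (hc' : c' ∣ b') (R : Finset (Λ × Λ)) (A A' : Finset Λ) (e : ℕ × ℕ) (he : e.1 ∈ t.items)
    (he' : e.2 ∈ t'.items) :
    D.iF R (D.uA M b pr t A c) (D.uA M' b' pr' t' A' c') e ≤
      D.pb ρ M b pr c e.1 M' b' pr' c' e.2 := by
  obtain ⟨a1, a2, a3⟩ := hF.item _ he
  obtain ⟨a1', a2', a3'⟩ := hF'.item _ he'
  have w0 : 0 < e.1 / pr := Nat.div_pos (Nat.le_of_dvd a1 a2) (Nat.pos_of_dvd_of_pos a2 a1)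
  have w0' : 0 < e.2 / pr' :=
    Nat.div_pos (Nat.le_of_dvd a1' a2') (Nat.pos_of_dvd_of_pos a2' a1')
  have c0 : (0 : ℝ) < c := by exact_mod_cast Nat.pos_of_dvd_of_pos hc hb
  have c0' : (0 : ℝ) < c' := by exact_mod_cast Nat.pos_of_dvd_of_pos hc' hb'
  have b0 : (0 : ℝ) < b := by exact_mod_cast hb
  have b0' : (0 : ℝ) < b' := by exact_mod_cast hb'
  have r0 : 0 < (b : ℝ) / c * ρ e.1 := mul_pos (by positivity) (hR.pos _)
  have r0' : 0 < (b' : ℝ) / c' * ρ e.2 := mul_pos (by positivity) (hR.pos _)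
  have key := fam_pair_le (fam_node hR hb hF hW hc he A) (fam_node hR hb' hF' hW' hc' he' A')
    hM hM' w0 w0' r0 r0'
  refine le_trans ?_ key
  unfold Par.iF
  rw [← Finset.sum_product']
  have hsub : ∀ x ∈ R.filter (fun x => (D.it x.1, D.it x.2) = e),
      x ∉ (A.filter fun j => D.it j = e.1) ×ˢ (A'.filter fun j => D.it j = e.2) →
      I (fun y => D.uA M b pr t A c x.1 y * D.uA M' b' pr' t' A' c' x.2 y) = 0 := by
    intro x hx hx'
    by_contra h
    obtain ⟨y, h5, h6⟩ := exists_of_I_ne h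
    apply hx'
    have h3 := (Finset.mem_filter.1 hx).2
    have h7 : x.1 ∈ A := by
      by_contra h
      exact h5 (uA_zero hM (fun k => h k.1) y)
    have h8 : x.2 ∈ A' := by
      by_contra h
      exact h6 (uA_zero hM' (fun k => h k.1) y)
    rw [← h3]
    exact Finset.mem_product.2 ⟨Finset.mem_filter.2 ⟨h7, rfl⟩, Finset.mem_filter.2 ⟨h8, rfl⟩⟩
  rw [← Finset.sum_filter_add_sum_filter_not (R.filter (fun x => (D.it x.1, D.it x.2) = e))
    (fun x => x ∈ (A.filter fun j => D.it j = e.1) ×ˢ (A'.filter fun j => D.it j = e.2))]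
  rw [Finset.sum_eq_zero (s := (R.filter (fun x => (D.it x.1, D.it x.2) = e)).filter
    (fun x => ¬ x ∈ (A.filter fun j => D.it j = e.1) ×ˢ (A'.filter fun j => D.it j = e.2)))
    (fun x hx => hsub x (Finset.mem_filter.1 hx).1 (Finset.mem_filter.1 hx).2), add_zero]
  have hval : ∀ x ∈ (A.filter fun j => D.it j = e.1) ×ˢ (A'.filter fun j => D.it j = e.2),
      I (fun y => D.uA M b pr t A c x.1 y * D.uA M' b' pr' t' A' c' x.2 y) =
      I (fun y => Ep M ((D.toFT b pr t).U c x.1) y * Ep M' ((D.toFT b' pr' t').U c' x.2) y) := by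
    intro x hx
    obtain ⟨h1, h2⟩ := Finset.mem_product.1 hx
    unfold Par.uA avg
    rw [rv_of_mem (Finset.mem_filter.1 h1).1, rv_of_mem (Finset.mem_filter.1 h2).1]
  refine le_trans (Finset.sum_le_sum_of_subset_of_nonneg (t := (A.filter fun j => D.it j = e.1) ×ˢ
    (A'.filter fun j => D.it j = e.2)) (fun x hx => (Finset.mem_filter.1 hx).2) fun x _ _ => ?_)
    (Finset.sum_congr rfl hval).le
  exact I_nonneg fun y => mul_nonneg ((PB_uA hM hb hF hW hc _).nonneg y)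
    ((PB_uA hM' hb' hF' hW' hc' _).nonneg y)

end

/-- the item-pair sum -/
noncomputable def _root_.Crest.Agent.R4P.Item758.Par.PS (D : Par Λ κ) (ρ : ℕ → ℝ)
    (R : Finset (Λ × Λ)) (M b pr c : ℕ) (t : IT) (A : Finset Λ) (M' b' pr' c' : ℕ)
    (t' : IT) (A' : Finset Λ) : ℝ :=
  ∑ e ∈ D.PE R (D.uA M b pr t A c) (D.uA M' b' pr' t' A' c'), D.pb ρ M b pr c e.1 M' b' pr' c' e.2

lemma _root_.Crest.Agent.R4P.Item758.Par.PS_nonneg {D : Par Λ κ} {ρ : ℕ → ℝ} (hρ : ∀ q, 0 < ρ q)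
    (R : Finset (Λ × Λ)) (M b pr c : ℕ) (t : IT) (A : Finset Λ) (M' b' pr' c' : ℕ)
    (t' : IT) (A' : Finset Λ) : 0 ≤ D.PS ρ R M b pr c t A M' b' pr' c' t' A' :=
  Finset.sum_nonneg fun _ _ => Par.pb_nonneg hρ _ _ _ _ _ _ _ _ _ _

/-- **cross energy of two restricted, averaged populations** -/
theorem Q_uv_le {D : Par Λ κ} {ρ : ℕ → ℝ} (hR : D.Rad ρ) {M M' b pr c b' pr' c' : ℕ} {t t' : IT}
    (hM : 0 < M) (hM' : 0 < M') (hb : 0 < b) (hb' : 0 < b') (hF : Fit b pr t) (hF' : Fit b' pr' t')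
    (hW : D.Wts pr t) (hW' : D.Wts pr' t') (hc : c ∣ b) (hc' : c' ∣ b') (R : Finset (Λ × Λ))
    (A A' : Finset Λ) :
    Q R (avg M (rv A fun j => (D.toFT b pr t).U c j))
        (avg M' (rv A' fun j => (D.toFT b' pr' t').U c' j)) ≤
      D.PS ρ R M b pr c t A M' b' pr' c' t' A' := by
  show Q R (D.uA M b pr t A c) (D.uA M' b' pr' t' A' c') ≤ _
  rw [D.Q_eq]
  refine Finset.sum_le_sum fun e he => ?_
  obtain ⟨j, j', -, -, -, -, -, h1, h2, -⟩ := Par.PE_ex hM hM' he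
  exact iF_le hR hM hM' hb hb' hF hF' hW hW' hc hc' R A A' e h1 h2

end

end Crest.Agent.R4P.AvgItem710
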