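import Mathlib

/-!
R4 (S0004), module B (COUNTING, TR2): item trees.

A node is a set of items together with the factor `c = ∏_{present ties} (1-1/p)⁻¹ ∏_{missing ties} p`
(root: `c = 1`), so the mass of the node is `c * W (items)` and `π * mass = W (items)`, `W` = root
weights (`W q = 2 ψ q φ(q)/q`).  Everything is expressed with root weights.

* `leaf S`
* `br p t₁ t₀` : tie, `t₁` = items with `p` present, `t₀` = items with `p` missing
* `add b t₁ t₀` : SEP column (same circle)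
* `up b Sp t` : retained column, nothing is done; `Sp` = the items of `t` which contain `b`
-/

set_option autoImplicit false

namespace Crest.Agent.R4P.Cnt588

inductive IT
  | leaf (S : Finset ℕ)
  | br (p : ℕ) (Sp : Finset ℕ) (t₁ t₀ : IT)
  | add (b : ℕ) (t₁ t₀ : IT)
  | up (b : ℕ) (Sp : Finset ℕ) (t : IT)
  | pl (p : ℕ) (t : IT)
  | far (p : ℕ) (t₁ t₀ : IT)

/-- a block of columns -/
def blk (P Q : ℕ) : Finset ℕ := (Finset.Ioc P Q).filter Nat.Prime

/-- all items of the node -/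
def IT.items : IT → Finset ℕ
  | .leaf S => S
  | .br _ _ t₁ t₀ => t₁.items ∪ t₀.items
  | .add _ t₁ t₀ => t₁.items ∪ t₀.items
  | .up _ _ t => t.items
  | .pl _ t => t.items
  | .far _ t₁ t₀ => t₁.items ∪ t₀.items

/-- `W` of a set -/
noncomputable def Ws (W : ℕ → ℝ) (S : Finset ℕ) : ℝ := ∑ q ∈ S, W q

/-- well-formed: disjoint children, columns are primes `< n`, decreasing -/
def IT.Ok : ℕ → IT → Prop
  | _, .leaf _ => True
  | n, .br p Sp t₁ t₀ => p.Prime ∧ p < n ∧ Disjoint t₁.items t₀.items ∧ Sp ⊆ t₁.items ∧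
      t₁.Ok p ∧ t₀.Ok p
  | n, .add b t₁ t₀ => b.Prime ∧ b < n ∧ Disjoint t₁.items t₀.items ∧
      t₁.Ok (b + 1) ∧ t₀.Ok (b + 1)
  | n, .up b Sp t => b.Prime ∧ b < n ∧ Sp ⊆ t.items ∧ t.Ok b
  | n, .pl b t => b.Prime ∧ b < n ∧ t.Ok (b + 1)
  | n, .far b t₁ t₀ => b.Prime ∧ b < n ∧ Disjoint t₁.items t₀.items ∧
      t₁.Ok (b + 1) ∧ t₀.Ok (b + 1)

/-- non-leaf nodes with column in `I` have mass in `[lam, Lam]` (`c` = factor of the node) -/
def IT.Alive (W : ℕ → ℝ) (I : Finset ℕ) (lam Lam : ℝ) : ℝ → IT → Prop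
  | _, .leaf _ => True
  | c, .br p Sp t₁ t₀ => (p ∈ I → lam ≤ c * Ws W (IT.br p Sp t₁ t₀).items ∧
        c * Ws W (IT.br p Sp t₁ t₀).items ≤ Lam) ∧
      t₁.Alive W I lam Lam (c / (1 - 1 / (p : ℝ))) ∧ t₀.Alive W I lam Lam (c * p)
  | c, .add b t₁ t₀ => (b ∈ I → lam ≤ c * Ws W (IT.add b t₁ t₀).items ∧
        c * Ws W (IT.add b t₁ t₀).items ≤ Lam) ∧
      t₁.Alive W I lam Lam c ∧ t₀.Alive W I lam Lam c
  | c, .up b Sp t => (b ∈ I → lam ≤ c * Ws W t.items ∧ c * Ws W t.items ≤ Lam) ∧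
      t.Alive W I lam Lam c
  | c, .pl _ t => t.Alive W I lam Lam c
  | c, .far b t₁ t₀ => (b ∈ I → lam ≤ c * Ws W (IT.far b t₁ t₀).items ∧
        c * Ws W (IT.far b t₁ t₀).items ≤ Lam) ∧
      t₁.Alive W I lam Lam c ∧ t₀.Alive W I lam Lam c

/-- SEP rule: at every SEP column `b ∈ I` both shares are at least `L / b` -/
def IT.SepRule (W : ℕ → ℝ) (I : Finset ℕ) (L : ℝ) : IT → Prop
  | .leaf _ => True
  | .br _ _ t₁ t₀ => t₁.SepRule W I L ∧ t₀.SepRule W I L
  | .add b t₁ t₀ => (b ∈ I → L / b * (Ws W t₁.items + Ws W t₀.items) ≤ Ws W t₀.items ∧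
        L / b * (Ws W t₁.items + Ws W t₀.items) ≤ Ws W t₁.items) ∧
      t₁.SepRule W I L ∧ t₀.SepRule W I L
  | .up _ _ t => t.SepRule W I L
  | .pl _ t => t.SepRule W I L
  | .far _ t₁ t₀ => t₁.SepRule W I L ∧ t₀.SepRule W I L

/-- UP rule: present share at most `σ b` -/
def IT.UpRule (W : ℕ → ℝ) (σ : ℕ → ℝ) : IT → Prop
  | .leaf _ => True
  | .br p Sp t₁ t₀ => Ws W Sp ≤ σ p * Ws W t₁.items ∧ t₁.UpRule W σ ∧ t₀.UpRule W σ
  | .add _ t₁ t₀ => t₁.UpRule W σ ∧ t₀.UpRule W σ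
  | .up b Sp t => Ws W Sp ≤ σ b * Ws W t.items ∧ t.UpRule W σ
  | .pl _ t => t.UpRule W σ
  | .far _ t₁ t₀ => t₁.UpRule W σ ∧ t₀.UpRule W σ

/-- missing ties of an item -/
def IT.mt : IT → ℕ → Finset ℕ
  | .leaf _, _ => ∅
  | .br p _ t₁ t₀, q => if q ∈ t₀.items then insert p (t₀.mt q) else t₁.mt q
  | .add _ t₁ t₀, q => if q ∈ t₀.items then t₀.mt q else t₁.mt q
  | .up _ _ t, q => t.mt q
  | .pl _ t, q => t.mt q
  | .far _ t₁ t₀, q => if q ∈ t₀.items then t₀.mt q else t₁.mt q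

/-- SEP primes of an item (both sides of the SEP split: with powers also an item of the missing
side `{v ≤ k-1}` may contain `b`); intersect with the prime divisors of the item for the retained
ones -/
def IT.sp : IT → ℕ → Finset ℕ
  | .leaf _, _ => ∅
  | .br _ _ t₁ t₀, q => if q ∈ t₀.items then t₀.sp q else t₁.sp q
  | .add b t₁ t₀, q => insert b (if q ∈ t₀.items then t₀.sp q else t₁.sp q)
  | .up _ _ t, q => t.sp q
  | .pl _ t, q => t.sp q
  | .far _ t₁ t₀, q => if q ∈ t₀.items then t₀.sp q else t₁.sp q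

/-- up-present (retained) primes of an item -/
def IT.uq : IT → ℕ → Finset ℕ
  | .leaf _, _ => ∅
  | .br p Sp t₁ t₀, q => if q ∈ t₀.items then t₀.uq q
      else if q ∈ Sp then insert p (t₁.uq q) else t₁.uq q
  | .add _ t₁ t₀, q => if q ∈ t₀.items then t₀.uq q else t₁.uq q
  | .up b Sp t, q => if q ∈ Sp then insert b (t.uq q) else t.uq q
  | .pl _ t, q => t.uq q
  | .far _ t₁ t₀, q => if q ∈ t₀.items then t₀.uq q else t₁.uq q

/-- `∑` over the SEP nodes with column in `I` of the (root) weight of the smaller child -/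
noncomputable def IT.cmin (W : ℕ → ℝ) (I : Finset ℕ) : IT → ℝ
  | .leaf _ => 0
  | .br _ _ t₁ t₀ => t₁.cmin W I + t₀.cmin W I
  | .add b t₁ t₀ => (if b ∈ I then min (Ws W t₁.items) (Ws W t₀.items) else 0) +
      (t₁.cmin W I + t₀.cmin W I)
  | .up _ _ t => t.cmin W I
  | .pl _ t => t.cmin W I
  | .far _ t₁ t₀ => t₁.cmin W I + t₀.cmin W I

/-- number (in mass) of leaves etc.: a node whose mass is `< lam` at a column of `I` is a leaf, this
is part of `Alive`. Constant of (E). -/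
noncomputable def KE (I : Finset ℕ) (lam Lam : ℝ) : ℝ :=
  2 * Real.log (Lam / lam) + 2 +
    8 * (Lam / lam) * (1 + Real.log (Lam / lam)) * ∑ p ∈ I, (1 / (p : ℝ))

/-- constant of (a) -/
noncomputable def KA (I : Finset ℕ) (lam Lam : ℝ) : ℝ :=
  1 + Lam / lam * ∑ p ∈ I, (1 / (p : ℝ))

end Crest.Agent.R4P.Cnt588
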