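import Crest.Agent.R4.World363
import Crest.Agent.R4P.Cnt588

/-!
R4 (S0004), module H: worlds, port of helper363's `R4/World363` to the tree with powers (helper504).
The tree-free part is exported from `R4.W363`.
-/

set_option autoImplicit false

namespace Crest.Agent.R4P.W363

open Crest.Agent.R4.LF363 Crest.Agent.R4P.Cnt588

export Crest.Agent.R4.W363 (CLab clab_of_close newLab newLab_eq_some newLab_spec stk stk_nil 
  stk_cons stk_of_clab stk_spec lst lst_prod mem_lst cen cen_near cen_of_clab off off_eq 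
  abs_off_le cell cell_eq_iff cell_mono_set brk brk_subset brk_mono cell_close_pos 
  cell_close_neg cell_central cell_close nx nx_ge nx_gap nx_card bps bps_mono bps_gap bps_card 
  nx_mem bps_mem bps_end exists_bp WPar rep rep_spec rep_eq_iff)

/-- centre of `q` at column `p` (root coordinates); `t` = the root tree -/
noncomputable def cenP (P : WPar) (γ : ℝ) (ψ : ℕ → ℝ) (t : IT) (p q : ℕ) : ℝ :=
  cen (P.A p) γ (ψ q) (lst (t.mt q) p)

/-- retained part of `q` above `p` (with powers the SEP-present children are pulled: only the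
up-retained primes) -/
noncomputable def ret (t : IT) (p q : ℕ) : ℕ := ∏ b ∈ (t.uq q).filter (p < ·), b

/-- cell index of the point `z` of the arc of `q` at column `p` -/
noncomputable def cix (P : WPar) (γ : ℝ) (ψ : ℕ → ℝ) (t : IT) (p q : ℕ) (z : ℝ) : ℕ :=
  cell (brk P.ρ₀ P.n₀ (P.dep p)) (off γ (cenP P γ ψ t p q) q z)

/-- **world** at column `p` of the `k`-th piece of `q` (`bp q k` = left endpoint of the piece) -/
noncomputable def wld (P : WPar) (γ : ℝ) (ψ : ℕ → ℝ) (t : IT) (bp : ℕ → ℕ → ℝ) (p : ℕ) (j : ℕ × ℕ) :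
    ℕ × ℕ := (cix P γ ψ t p j.1 (bp j.1 j.2), ret t p j.1)

/-- breakpoints of `q` in `z`-coordinates for all the columns of a finite set -/
noncomputable def zbk (P : WPar) (γ : ℝ) (ψ : ℕ → ℝ) (t : IT) (I : Finset ℕ) (q : ℕ) : Finset ℝ :=
  I.biUnion fun p => (brk P.ρ₀ P.n₀ (P.dep p)).image fun e => q * e - (γ - cenP P γ ψ t p q)

/-- **the cell index is constant on every piece** -/
theorem cix_const {P : WPar} {γ : ℝ} {ψ : ℕ → ℝ} {t : IT} {I : Finset ℕ} {q : ℕ} (hq : 0 < q)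
    {bp : ℕ → ℝ} (hbp : ∀ z ∈ zbk P γ ψ t I q, ∀ k, bp k < z → z < bp (k + 1) → False)
    {p : ℕ} (hp : p ∈ I) {k : ℕ} {z : ℝ} (h1 : bp k ≤ z) (h2 : z < bp (k + 1)) :
    cix P γ ψ t p q z = cix P γ ψ t p q (bp k) := by
  unfold cix
  rw [cell_eq_iff]
  intro e he
  have hq' : (0:ℝ) < q := by exact_mod_cast hq
  have hm : (q : ℝ) * e - (γ - cenP P γ ψ t p q) ∈ zbk P γ ψ t I q := by
    unfold zbk
    rw [Finset.mem_biUnion]
    exact ⟨p, hp, Finset.mem_image.2 ⟨e, he, rfl⟩⟩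
  unfold off
  rw [le_div_iff₀ hq', le_div_iff₀ hq']
  constructor
  · intro h
    by_contra hc
    push Not at hc
    exact hbp _ hm k (by linarith) (by linarith)
  · intro h
    linarith

/-- **same snapped centre: same cell at every common point.** `x` = root point, `a`, `a'` = the
centres which contain it. -/
theorem cix_same {P : WPar} {γ : ℝ} {ψ : ℕ → ℝ} {t : IT} {p q r : ℕ} (hq : 0 < q) (hr : 0 < r)
    {x z z' : ℝ} {a a' : ℤ} (hz : z = q * x - γ - a) (hz' : z' = r * x - γ - a')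
    (hc : (a + cenP P γ ψ t p q) / q = (a' + cenP P γ ψ t p r) / r) :
    cix P γ ψ t p q z = cix P γ ψ t p r z' := by
  unfold cix
  rw [off_eq hq hz, off_eq hr hz', hc]

/-- **same cell: the snapped centres are close** (or both points are within `3 ρ₀` of the centres) -/
theorem cen_close {P : WPar} {γ : ℝ} {ψ : ℕ → ℝ} {t : IT} {p q r : ℕ} (h0 : 0 < P.ρ₀)
    (hn : 0 < P.n₀) (hA : 0 ≤ P.A p) (hq : 0 < q) (hr : 0 < r)
    {x z z' : ℝ} {a a' : ℤ} (hz : z = q * x - γ - a) (hz' : z' = r * x - γ - a')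
    (hzq : |z| ≤ ψ q) (hzr : |z'| ≤ ψ r)
    (hR : (P.A p + 1) * ψ q / q < P.ρ₀ * Real.exp P.n₀)
    (hR' : (P.A p + 1) * ψ r / r < P.ρ₀ * Real.exp P.n₀)
    (h : cix P γ ψ t p q z = cix P γ ψ t p r z') :
    |(a + cenP P γ ψ t p q) / q - (a' + cenP P γ ψ t p r) / r| ≤
      max ((Real.exp (1 / 2^(P.dep p)) - 1) * ((P.A p + 1) * min (ψ q / q) (ψ r / r))) (6 * P.ρ₀) := by
  have hψq : 0 ≤ ψ q := (abs_nonneg _).trans hzq
  have hψr : 0 ≤ ψ r := (abs_nonneg _).trans hzr
  have b1 : |off γ (cenP P γ ψ t p q) q z| ≤ (P.A p + 1) * ψ q / q :=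
    abs_off_le (q := q) hzq (cen_near (mul_nonneg hA hψq) (lst (t.mt q) p) (γ := γ))
  have b2 : |off γ (cenP P γ ψ t p r) r z'| ≤ (P.A p + 1) * ψ r / r :=
    abs_off_le (q := r) hzr (cen_near (mul_nonneg hA hψr) (lst (t.mt r) p) (γ := γ))
  unfold cix at h
  have e : (a + cenP P γ ψ t p q) / q - (a' + cenP P γ ψ t p r) / r =
      off γ (cenP P γ ψ t p r) r z' - off γ (cenP P γ ψ t p q) q z := by
    rw [off_eq hq hz, off_eq hr hz']; ring
  rw [e, abs_sub_comm]
  have hexp0 : 0 ≤ Real.exp (1/2^(P.dep p)) - 1 := by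
    have := Real.add_one_le_exp (1/2^(P.dep p) : ℝ)
    have : (0:ℝ) ≤ 1/2^(P.dep p) := by positivity
    linarith
  rcases cell_close h0 hn (lt_of_le_of_lt b1 hR) (lt_of_le_of_lt b2 hR') h with h1 | ⟨h1, h2⟩
  · refine le_trans (h1.trans ?_) (le_max_left _ _)
    apply mul_le_mul_of_nonneg_left _ hexp0
    have e1 : (P.A p + 1) * min (ψ q / q) (ψ r / r) =
        min ((P.A p + 1) * ψ q / q) ((P.A p + 1) * ψ r / r) := by
      rw [mul_min_of_nonneg _ _ (by linarith : (0:ℝ) ≤ P.A p + 1)]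
      congr 1 <;> ring
    rw [e1]
    exact min_le_min b1 b2
  · refine le_trans ((abs_sub _ _).trans ?_) (le_max_right _ _)
    linarith

end Crest.Agent.R4P.W363
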