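import Crest.Agent.R4.World2_363
import Crest.Agent.R4P.World363

/-!
R4 (S0004), module H, second file: the world index **W***, port of helper363's `R4/World2_363` to the
tree with powers (helper504).
-/

set_option autoImplicit false

namespace Crest.Agent.R4P.W363
open Crest.Agent.R4.LF363

export Crest.Agent.R4.W363 (lab0 lab0_eq_some lab0_spec lab0_none sta sta_thin sta_spec grd 
  grd_close snapped_eq ctr off_circle)

/-! ### the world index -/

/-- parameters: `thr p` = thinness, `dep p` = depth of the logarithmic cells, `ρ₀`, `n₀` = range of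
the cells, `δ₀`, `n₁` = grid -/
structure WP where
  thr : ℕ → ℝ
  dep : ℕ → ℕ
  ρ₀ : ℝ
  n₀ : ℕ
  δ₀ : ℝ
  n₁ : ℕ

/-- breakpoints of a state at level `p` -/
noncomputable def WP.E (P : WP) (p : ℕ) : Option ℚ → Finset ℝ
  | some _ => grd P.δ₀ P.n₁
  | none => brk P.ρ₀ P.n₀ (P.dep p)

/-- type and cell of the point `z` of the arc of `q`; `s` = state of `q` at level `p` -/
noncomputable def WP.ix (P : WP) (γ : ℝ) (p q : ℕ) (s : Option ℚ) (z : ℝ) : Bool × ℕ :=
  (s.isSome, cell (P.E p s) (off γ (ctr γ s) q z))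

/-- equal offsets, same type: same index (labelled or at the same level) -/
lemma WP.ix_same_some (P : WP) {γ : ℝ} {p q r : ℕ} {σ τ : ℚ} {z z' : ℝ}
    (h : off γ σ q z = off γ τ r z') :
    P.ix γ p q (some σ) z = P.ix γ p r (some τ) z' := by
  unfold WP.ix WP.E ctr
  simp only [Option.isSome_some, h]

/-- **labelled items: same index means exactly the same snapped centre.** `a`, `a'` are the centres
of a common point `x` of the root circle (or `x`, `q`, `r`, `γ` replaced by the data of any circle,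
see `off_circle`). -/
theorem WP.exact_of_same (P : WP) {γ : ℝ} {p q r : ℕ} {σ τ : ℚ} (hq : 0 < q) (hr : 0 < r)
    (hδ : 0 < P.δ₀) (hδ1 : P.δ₀ * (σ.den * q * (τ.den * r)) ≤ 1)
    {x z z' : ℝ} {a a' : ℤ} (hz : z = q * x - γ - a) (hz' : z' = r * x - γ - a')
    (h1 : |off γ σ q z| < P.n₁ * P.δ₀) (h2 : |off γ τ r z'| < P.n₁ * P.δ₀)
    (h : P.ix γ p q (some σ) z = P.ix γ p r (some τ) z') :
    ((a:ℝ) + σ) / q = (a' + τ) / r := by
  have h3 : cell (grd P.δ₀ P.n₁) (off γ σ q z) = cell (grd P.δ₀ P.n₁) (off γ τ r z') :=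
    congrArg Prod.snd h
  have h4 := grd_close hδ h1 h2 h3
  apply snapped_eq hq hr hδ1
  have e : ((a:ℝ) + σ) / q - (a' + τ) / r = off γ τ r z' - off γ σ q z := by
    rw [off_eq hq hz, off_eq hr hz']; ring
  rw [e, abs_sub_comm]
  exact h4

/-- **unlabelled items: same index means close true centres.** -/
theorem WP.close_of_same (P : WP) {γ : ℝ} {p q r : ℕ} (h0 : 0 < P.ρ₀) (hn : 0 < P.n₀)
    (hq : 0 < q) (hr : 0 < r) {ψ ψ' z z' : ℝ} (hz : |z| ≤ ψ) (hz' : |z'| ≤ ψ')
    (hR : ψ / q < P.ρ₀ * Real.exp P.n₀) (hR' : ψ' / r < P.ρ₀ * Real.exp P.n₀)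
    (h : P.ix γ p q none z = P.ix γ p r none z') :
    |off γ γ q z - off γ γ r z'| ≤
      max ((Real.exp (1 / 2^(P.dep p)) - 1) * min (ψ / q) (ψ' / r)) (6 * P.ρ₀) := by
  have h3 : cell (brk P.ρ₀ P.n₀ (P.dep p)) (off γ γ q z)
      = cell (brk P.ρ₀ P.n₀ (P.dep p)) (off γ γ r z') := congrArg Prod.snd h
  have hq' : (0:ℝ) < q := by exact_mod_cast hq
  have hr' : (0:ℝ) < r := by exact_mod_cast hr
  have b1 : |off γ γ q z| ≤ ψ / q := by
    unfold off
    rw [sub_self, add_zero, abs_div, Nat.abs_cast]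
    exact div_le_div_of_nonneg_right hz hq'.le
  have b2 : |off γ γ r z'| ≤ ψ' / r := by
    unfold off
    rw [sub_self, add_zero, abs_div, Nat.abs_cast]
    exact div_le_div_of_nonneg_right hz' hr'.le
  have hexp0 : 0 ≤ Real.exp (1/2^(P.dep p)) - 1 := by
    have := Real.add_one_le_exp (1/2^(P.dep p) : ℝ)
    have : (0:ℝ) ≤ 1/2^(P.dep p) := by positivity
    linarith
  rcases cell_close h0 hn (lt_of_le_of_lt b1 hR) (lt_of_le_of_lt b2 hR') h3 with h1 | ⟨h1, h2⟩
  · refine le_trans (h1.trans ?_) (le_max_left _ _)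
    exact mul_le_mul_of_nonneg_left (min_le_min b1 b2) hexp0
  · refine le_trans ((abs_sub _ _).trans ?_) (le_max_right _ _)
    linarith

/-- labelled and unlabelled items are never in the same world -/
lemma WP.isSome_eq (P : WP) {γ : ℝ} {p q r : ℕ} {s s' : Option ℚ} {z z' : ℝ}
    (h : P.ix γ p q s z = P.ix γ p r s' z') : s.isSome = s'.isSome := congrArg Prod.fst h

/-! ### worlds of the pieces -/

open Crest.Agent.R4P.Cnt588

/-- state of `q` at level `p`; `t` = the root tree -/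
noncomputable def WP.st (P : WP) (γ : ℝ) (ψ : ℕ → ℝ) (t : IT) (p q : ℕ) : Option ℚ :=
  sta P.thr γ (ψ q) (lst (t.mt q) p) p

/-- **world** at level `p` of the `k`-th piece of `q` (`bp q k` = left endpoint of the piece) -/
noncomputable def WP.world (P : WP) (γ : ℝ) (ψ : ℕ → ℝ) (t : IT) (bp : ℕ → ℕ → ℝ) (p : ℕ)
    (j : ℕ × ℕ) : (Bool × ℕ) × ℕ :=
  (P.ix γ p j.1 (P.st γ ψ t p j.1) (bp j.1 j.2), ret t p j.1)

/-- breakpoints of `q` in `z`-coordinates, for all the levels of a finite set -/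
noncomputable def WP.zb (P : WP) (γ : ℝ) (ψ : ℕ → ℝ) (t : IT) (I : Finset ℕ) (q : ℕ) : Finset ℝ :=
  I.biUnion fun p => (P.E p (P.st γ ψ t p q)).image
    fun e => q * e - (γ - ctr γ (P.st γ ψ t p q))

/-- **the index is constant on every piece** (breakpoints from `exists_bp` with `Z = P.zb ..`) -/
theorem WP.ix_const (P : WP) {γ : ℝ} {ψ : ℕ → ℝ} {t : IT} {I : Finset ℕ} {q : ℕ} (hq : 0 < q)
    {bp : ℕ → ℝ} (hbp : ∀ z ∈ P.zb γ ψ t I q, ∀ k, bp k < z → z < bp (k + 1) → False)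
    {p : ℕ} (hp : p ∈ I) {k : ℕ} {z : ℝ} (h1 : bp k ≤ z) (h2 : z < bp (k + 1)) :
    P.ix γ p q (P.st γ ψ t p q) z = P.ix γ p q (P.st γ ψ t p q) (bp k) := by
  unfold WP.ix
  refine Prod.ext rfl ?_
  show cell _ _ = cell _ _
  rw [cell_eq_iff]
  intro e he
  have hq' : (0:ℝ) < q := by exact_mod_cast hq
  have hm : (q : ℝ) * e - (γ - ctr γ (P.st γ ψ t p q)) ∈ P.zb γ ψ t I q := by
    unfold WP.zb
    rw [Finset.mem_biUnion]
    exact ⟨p, hp, Finset.mem_image.2 ⟨e, he, rfl⟩⟩
  unfold off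
  rw [le_div_iff₀ hq', le_div_iff₀ hq']
  constructor
  · intro h
    by_contra hc
    push Not at hc
    exact hbp _ hm k (by linarith) (by linarith)
  · intro h
    linarith

/-- **FF pairs (both labelled, exact on the circle of the pair) are in the same world at every common
point of the two pieces.** `q = A w`, `r = A' w'`, `B`, `B'` the products of the missing columns,
`A B = A' B'` (common circle), `ρ = B σ`, `ρ' = B' σ'`, `y` the common point, `n`, `n'` the numerators. -/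
theorem WP.same_of_exact (P : WP) {γ : ℝ} {p q r A A' B B' w w' : ℕ} (hA : 0 < A) (hA' : 0 < A')
    (hB : 0 < B)
    (hw : 0 < w) (hw' : 0 < w') (hq : q = A * w) (hr : r = A' * w') (hN : A * B = A' * B')
    {σ τ : ℚ} {y z z' : ℝ} {n n' : ℤ} (hz : B * z = w * y - B * γ - n)
    (hz' : B' * z' = w' * y - B' * γ - n')
    (hex : ((n:ℝ) + B * σ) / w = (n' + B' * τ) / w') :
    P.ix γ p q (some σ) z = P.ix γ p r (some τ) z' := by
  apply P.ix_same_some
  have hw0 : (w:ℝ) ≠ 0 := by exact_mod_cast hw.ne'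
  have hw0' : (w':ℝ) ≠ 0 := by exact_mod_cast hw'.ne'
  have e1 : ((A * B : ℕ) : ℝ) * off γ σ q z = y - ((n:ℝ) + B * σ) / w := by
    rw [off_circle (B := B) hA hw hq, hz]
    field_simp
    ring
  have e2 : ((A * B : ℕ) : ℝ) * off γ τ r z' = y - ((n':ℝ) + B' * τ) / w' := by
    rw [hN, off_circle (B := B') hA' hw' hr, hz']
    field_simp
    ring
  have hAB : ((A * B : ℕ) : ℝ) ≠ 0 := by exact_mod_cast (Nat.mul_pos hA hB).ne'
  apply mul_left_cancel₀ hAB
  rw [e1, e2, hex]

end Crest.Agent.R4P.W363
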