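import Crest.Agent.R4.Bdry363
import Crest.Agent.R4P.World2_363
import Crest.Agent.R4P.AvgSymA710

/-!
R4 (S0004), POWERS: port of the last part of helper363's `R4/Bdry363` (boundary number for item pairs
of a state) to the tree with powers (helper820); the tree-free part is exported from `R4.Bdry363`.
-/

set_option autoImplicit false
set_option linter.unusedSectionVars false
set_option linter.unusedVariables false
open MeasureTheory Filter

namespace Crest.Agent.R4P.Bdry363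

export Crest.Agent.R4.Bdry363 (FB card_FB cover KS wc wh wh_nonneg sum_wh mem_window
  sum_pair_le_cover fam_pair_cover fam_pair_bdry)

open Crest.Agent.R4.W363
open Crest.Agent.R4.Tour104 Crest.Agent.R4.Tour758 Crest.Agent.R4.Avg758 Crest.Agent.R4.Clos758
open Crest.Agent.R4.ClosL758 Crest.Agent.R4.ClosG758 Crest.Agent.R4.ClosR758
open Crest.Agent.R4.Fam464 Crest.Agent.R4P.Cnt588 Crest.Agent.R4.Piece464
open Crest.Agent.R4P.Item758 Crest.Agent.R4.HVW560 Crest.Agent.R4P.AvgItem710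

/-! ### item pairs of a state -/

section
variable {Λ κ : Type*} [DecidableEq Λ] [Fintype Λ] [Fintype κ] [DecidableEq κ]
variable {D : Par Λ κ} {ρ : ℕ → ℝ} {M M' b pr c b' pr' c' : ℕ} {t t' : IT}

/-- **the boundary number for an item pair** (both items un-labelled, cells around the true centres):
if the relation `R` only contains pairs of pieces in different cells, and the true centres of the pair
are closer than `ε η` times the shorter half length, the energy is the `C ε (1 + log 1/ε)`-th part of the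
energy of the pair. `z / q` = `off γ γ q z` = root offset. -/
theorem iF_bdry (hR : D.Rad ρ) (hM : 0 < M) (hM' : 0 < M') (hb : 0 < b) (hb' : 0 < b')
    (hF : Fit b pr t) (hF' : Fit b' pr' t') (hW : D.Wts pr t) (hW' : D.Wts pr' t') (hc : c ∣ b)
    (hc' : c' ∣ b') (R : Finset (Λ × Λ)) (A A' : Finset Λ) (e : ℕ × ℕ) (he : e.1 ∈ t.items)
    (he' : e.2 ∈ t'.items) {ρ₀ ε : ℝ} {n d : ℕ} (h0 : 0 < ρ₀) (hε : 0 < ε) (hε1 : ε ≤ 1)
    (hcirc : (M : ℝ) * ((b : ℝ) / c) * pr = M' * ((b' : ℝ) / c') * pr')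
    (hD : Da (e.1 / pr) M (e.2 / pr') M' ((b : ℝ) / c * ρ e.1) ((b' : ℝ) / c' * ρ e.2) ≤ 1 / 2)
    (hrel : ∀ x ∈ R, D.it x.1 = e.1 → D.it x.2 = e.2 → ∀ z z' : ℝ, D.al x.1 ≤ z → z < D.be x.1 →
      D.al x.2 ≤ z' → z' < D.be x.2 →
      cell (brk ρ₀ n d) (z / e.1) ≠ cell (brk ρ₀ n d) (z' / e.2))
    (hclose : ∀ (a a' : ℤ) (z z' y : ℝ), |z| ≤ ρ e.1 → |z'| ≤ ρ e.2 →
      rf (e.1 / pr) M * ((b : ℝ) / c * z) = ((e.1 / pr / M.gcd (e.1 / pr) : ℕ) : ℝ) * y -
        rf (e.1 / pr) M * ((b : ℝ) / c * D.γ) - a →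
      rf (e.2 / pr') M' * ((b' : ℝ) / c' * z') = ((e.2 / pr' / M'.gcd (e.2 / pr') : ℕ) : ℝ) * y -
        rf (e.2 / pr') M' * ((b' : ℝ) / c' * D.γ) - a' →
      |z / e.1 - z' / e.2| ≤ ε / 2^d * min (ρ e.1 / e.1) (ρ e.2 / e.2)) :
    D.iF R (D.uA M b pr t A c) (D.uA M' b' pr' t' A' c') e ≤
      28 * (ε * (1 + Real.log (1 / ε))) *
        (((b : ℝ) / c * ρ e.1) * ((b' : ℝ) / c' * ρ e.2) /
          Da (e.1 / pr) M (e.2 / pr') M' ((b : ℝ) / c * ρ e.1) ((b' : ℝ) / c' * ρ e.2)) := by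
  classical
  obtain ⟨a1, a2, a3⟩ := hF.item _ he
  obtain ⟨a1', a2', a3'⟩ := hF'.item _ he'
  have pr0 : 0 < pr := Nat.pos_of_dvd_of_pos a2 a1
  have pr0' : 0 < pr' := Nat.pos_of_dvd_of_pos a2' a1'
  have w0 : 0 < e.1 / pr := Nat.div_pos (Nat.le_of_dvd a1 a2) pr0
  have w0' : 0 < e.2 / pr' := Nat.div_pos (Nat.le_of_dvd a1' a2') pr0'
  have c0 : (0 : ℝ) < c := by exact_mod_cast Nat.pos_of_dvd_of_pos hc hb
  have c0' : (0 : ℝ) < c' := by exact_mod_cast Nat.pos_of_dvd_of_pos hc' hb'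
  have b0 : (0 : ℝ) < b := by exact_mod_cast hb
  have b0' : (0 : ℝ) < b' := by exact_mod_cast hb'
  set s : ℝ := (b : ℝ) / c with hs
  set s' : ℝ := (b' : ℝ) / c' with hs'
  have s0 : 0 < s := by positivity
  have s0' : 0 < s' := by positivity
  have r0 : 0 < s * ρ e.1 := mul_pos s0 (hR.pos _)
  have r0' : 0 < s' * ρ e.2 := mul_pos s0' (hR.pos _)
  have q0 : (0 : ℝ) < e.1 := by exact_mod_cast a1
  have q0' : (0 : ℝ) < e.2 := by exact_mod_cast a1'
  set w := e.1 / pr with hw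
  set w' := e.2 / pr' with hw'
  have m0 : (0 : ℝ) < rf w M := by exact_mod_cast rf_pos hM
  have m0' : (0 : ℝ) < rf w' M' := by exact_mod_cast rf_pos hM'
  set v := w / M.gcd w with hv
  set v' := w' / M'.gcd w' with hv'
  have v0 : 0 < v := div_pos' w0 hM
  have v0' : 0 < v' := div_pos' w0' hM'
  have hX : (0 : ℝ) < cof v v' := by exact_mod_cast AvgItem710.cof_pos (w' := v') v0
  have hY : (0 : ℝ) < cof v' v := by exact_mod_cast AvgItem710.cof_pos' (w := v) v0'
  have g0 : (0 : ℝ) < v.gcd v' := by exact_mod_cast Nat.gcd_pos_of_pos_left _ v0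
  have z0 : (0 : ℝ) < M.gcd w := by exact_mod_cast gcd_pos' hM
  have z0' : (0 : ℝ) < M'.gcd w' := by exact_mod_cast gcd_pos' hM'
  set ρm : ℝ := min (ρ e.1 / e.1) (ρ e.2 / e.2) with hρm
  have hρm0 : 0 < ρm := lt_min (div_pos (hR.pos _) q0) (div_pos (hR.pos _) q0')
  -- products
  have hq : (e.1 : ℝ) = pr * (M.gcd w * (v.gcd v' * cof v v')) := by
    have h1 : e.1 = pr * w := (Nat.mul_div_cancel' a2).symm
    have h2 : w = M.gcd w * v := mul_gcd_w.symm
    have h3 : v = v.gcd v' * cof v v' := (AvgItem710.mul_cof).symm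
    have h4 : e.1 = pr * (M.gcd w * (v.gcd v' * cof v v')) := by rw [← h3, ← h2, ← h1]
    exact_mod_cast h4
  have hq' : (e.2 : ℝ) = pr' * (M'.gcd w' * (v.gcd v' * cof v' v)) := by
    have h1 : e.2 = pr' * w' := (Nat.mul_div_cancel' a2').symm
    have h2 : w' = M'.gcd w' * v' := mul_gcd_w.symm
    have h3 : v' = v.gcd v' * cof v' v := (AvgItem710.mul_cof').symm
    have h4 : e.2 = pr' * (M'.gcd w' * (v.gcd v' * cof v' v)) := by rw [← h3, ← h2, ← h1]
    exact_mod_cast h4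
  have hMr : (M : ℝ) = rf w M * M.gcd w := by exact_mod_cast (mul_gcd_M (w := w) (M := M)).symm
  have hMr' : (M' : ℝ) = rf w' M' * M'.gcd w' := by
    exact_mod_cast (mul_gcd_M (w := w') (M := M')).symm
  -- the scale identity
  have hscale : rf w M * s * e.1 * cof v' v = rf w' M' * s' * e.2 * cof v v' := by
    rw [hq, hq']
    rw [hMr, hMr'] at hcirc
    calc rf w M * s * (pr * (M.gcd w * (v.gcd v' * cof v v'))) * cof v' v =
        (rf w M * M.gcd w * s * pr) * (v.gcd v' * cof v v' * cof v' v) := by ring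
      _ = (rf w' M' * M'.gcd w' * s' * pr') * (v.gcd v' * cof v v' * cof v' v) := by rw [hcirc]
      _ = _ := by ring
  have hDX : (cof v v' : ℝ) * (rf w' M' * (s' * ρ e.2)) ≤ 1 / 2 := (le_max_right _ _).trans hD
  set E := (R.filter (fun x => (D.it x.1, D.it x.2) = e)).filter (fun x => x.1 ∈ A ∧ x.2 ∈ A')
    with hE
  have hEm : ∀ x ∈ E, x ∈ R ∧ D.it x.1 = e.1 ∧ D.it x.2 = e.2 ∧ x.1 ∈ A ∧ x.2 ∈ A' := by
    intro x hx
    obtain ⟨h1, h2, h3⟩ := Finset.mem_filter.1 hx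
    obtain ⟨h4, h5⟩ := Finset.mem_filter.1 h1
    exact ⟨h4, congrArg Prod.fst h5, congrArg Prod.snd h5, h2, h3⟩
  have key := fam_pair_bdry (fam_node hR hb hF hW hc he A) (fam_node hR hb' hF' hW' hc' he' A')
    hM hM' w0 w0' r0' E (fun x hx => by
      obtain ⟨h1, h2, h3, h4, h5⟩ := hEm x hx
      exact ⟨Finset.mem_filter.2 ⟨h4, h2⟩, Finset.mem_filter.2 ⟨h5, h3⟩⟩) hDX
    (ρ₀ := ρ₀) (ε := ε) (ρ := ρm) (l := rf w M * s * e.1) (l' := rf w' M' * s' * e.2) (n := n)
    (d := d) h0 hε hε1 hρm0 (by positivity)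
    (fun x hx a a' y g1 g2 => by
      obtain ⟨h1, h2, h3, h4, h5⟩ := hEm x hx
      set Z := ((v : ℕ) : ℝ) * y - rf w M * (s * D.γ) - a with hZ
      set Z' := ((v' : ℕ) : ℝ) * y - rf w' M' * (s' * D.γ) - a' with hZ'
      have hms : 0 < (rf w M : ℝ) * s := by positivity
      have hms' : 0 < (rf w' M' : ℝ) * s' := by positivity
      set z := Z / (rf w M * s) with hz
      set z' := Z' / (rf w' M' * s') with hz'
      have b1 : D.al x.1 ≤ z := by
        rw [hz, le_div_iff₀ hms]; exact le_trans (le_of_eq (by ring)) g1.1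
      have b2 : z < D.be x.1 := by
        rw [hz, div_lt_iff₀ hms]; exact lt_of_lt_of_eq g1.2 (by ring)
      have b3 : D.al x.2 ≤ z' := by
        rw [hz', le_div_iff₀ hms']; exact le_trans (le_of_eq (by ring)) g2.1
      have b4 : z' < D.be x.2 := by
        rw [hz', div_lt_iff₀ hms']; exact lt_of_lt_of_eq g2.2 (by ring)
      have e1 : Z / (rf w M * s * e.1) = z / e.1 := by rw [hz]; field_simp
      have e2 : Z' / (rf w' M' * s' * e.2) = z' / e.2 := by rw [hz']; field_simp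
      have c1 : |z| ≤ ρ e.1 := by
        rw [abs_le, ← h2]
        exact ⟨(hR.al x.1).trans b1, b2.le.trans (hR.be x.1)⟩
      have c2 : |z'| ≤ ρ e.2 := by
        rw [abs_le, ← h3]
        exact ⟨(hR.al x.2).trans b3, b4.le.trans (hR.be x.2)⟩
      have hcl := hclose a a' z z' y c1 c2
        (by rw [hz]; field_simp; ring) (by rw [hz']; field_simp; ring)
      have hτ : ε / 2^d * ρm ≤ ρm := by
        have h2d : (1:ℝ) ≤ 2^d := one_le_pow₀ (by norm_num)
        have h3 : ε / 2^d ≤ 1 := (div_le_self hε.le h2d).trans hε1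
        exact mul_le_of_le_one_left hρm0.le h3
      rw [e1, e2]
      refine ⟨?_, hcl, hrel x h1 h2 h3 z z' b1 b2 b3 b4⟩
      have d1 : |z / e.1| ≤ ρ e.1 / e.1 := by
        rw [abs_div, abs_of_pos q0]
        exact div_le_div_of_nonneg_right c1 q0.le
      have d2 : |z' / e.2| ≤ ρ e.2 / e.2 := by
        rw [abs_div, abs_of_pos q0']
        exact div_le_div_of_nonneg_right c2 q0'.le
      rcases min_choice (ρ e.1 / (e.1 : ℝ)) (ρ e.2 / (e.2 : ℝ)) with hmin | hmin
      · have : ρm = ρ e.1 / e.1 := hmin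
        rw [← this] at d1
        linarith
      · have h6 : ρm = ρ e.2 / e.2 := hmin
        rw [← h6] at d2
        have h7 : |z / e.1| ≤ |z / e.1 - z' / e.2| + |z' / e.2| := by
          have := abs_add_le (z / e.1 - z' / e.2) (z' / e.2)
          simpa using this
        linarith)
  -- the energy of the pair is the sum over `E`
  have hiF : D.iF R (D.uA M b pr t A c) (D.uA M' b' pr' t' A' c') e =
      ∑ x ∈ E, I (fun y => Ep M ((D.toFT b pr t).U c x.1) y *
        Ep M' ((D.toFT b' pr' t').U c' x.2) y) := by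
    unfold Par.iF
    rw [← Finset.sum_filter_add_sum_filter_not (R.filter (fun x => (D.it x.1, D.it x.2) = e))
      (fun x => x.1 ∈ A ∧ x.2 ∈ A')]
    rw [Finset.sum_eq_zero (s := (R.filter (fun x => (D.it x.1, D.it x.2) = e)).filter
      (fun x => ¬ (x.1 ∈ A ∧ x.2 ∈ A'))) (fun x hx => ?_), add_zero]
    · refine Finset.sum_congr rfl fun x hx => ?_
      obtain ⟨-, -, -, h4, h5⟩ := hEm x hx
      unfold Par.uA avg
      rw [rv_of_mem h4, rv_of_mem h5]
    · by_contra h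
      obtain ⟨y, h5, h6⟩ := exists_of_I_ne h
      apply (Finset.mem_filter.1 hx).2
      constructor
      · by_contra h
        exact h5 (uA_zero hM (fun k => h k.1) y)
      · by_contra h
        exact h6 (uA_zero hM' (fun k => h k.1) y)
  rw [hiF]
  refine key.trans (le_of_eq ?_)
  -- constants
  have hDa : Da w M w' M' (s * ρ e.1) (s' * ρ e.2) =
      max ((cof v' v : ℝ) * (rf w M * (s * ρ e.1))) (cof v v' * (rf w' M' * (s' * ρ e.2))) := rfl
  have hmin := AvgItem710.min_eq_rr (r := rf w M * (s * ρ e.1)) (r' := rf w' M' * (s' * ρ e.2))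
    (mul_pos m0 r0) (mul_pos m0' r0') hX hY
  rw [← hDa] at hmin
  have hDpos : 0 < Da w M w' M' (s * ρ e.1) (s' * ρ e.2) := by
    rw [hDa]; exact lt_max_of_lt_left (by positivity)
  have hlρ : rf w M * s * e.1 * ρm / cof v v' =
      (rf w M * (s * ρ e.1)) * (rf w' M' * (s' * ρ e.2)) /
        Da w M w' M' (s * ρ e.1) (s' * ρ e.2) := by
    have h1 : 2 * (rf w M * s * e.1 * ρm / cof v v') =
        min (2 * (rf w M * (s * ρ e.1)) / cof v v') (2 * (rf w' M' * (s' * ρ e.2)) / cof v' v) := by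
      rw [hρm]
      have e1 : 2 * (rf w M * s * e.1 * min (ρ e.1 / e.1) (ρ e.2 / e.2) / cof v v') =
          (2 * (rf w M * s * e.1) / cof v v') * min (ρ e.1 / e.1) (ρ e.2 / e.2) := by ring
      rw [e1, mul_min_of_nonneg _ _ (by positivity)]
      congr 1
      · field_simp
      · rw [div_mul_div_comm, div_eq_div_iff (by positivity) (by positivity)]
        calc 2 * (rf w M * s * e.1) * ρ e.2 * cof v' v =
            2 * ρ e.2 * (rf w M * s * e.1 * cof v' v) := by ring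
          _ = 2 * ρ e.2 * (rf w' M' * s' * e.2 * cof v v') := by rw [hscale]
          _ = _ := by ring
    rw [hmin] at h1
    linarith
  calc 1 / ((rf w M : ℝ) * rf w' M') * (28 * (ε * (1 + Real.log (1 / ε))) *
        (rf w M * s * e.1 * ρm) / cof v v')
      = 28 * (ε * (1 + Real.log (1 / ε))) * (1 / ((rf w M : ℝ) * rf w' M') *
        (rf w M * s * e.1 * ρm / cof v v')) := by ring
    _ = _ := by
      rw [hlρ]
      congr 1
      field_simp

/-- the closeness hypothesis of `iF_bdry` from the determinant: `D < 1/4` and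
`|n₀ - (θ' X - θ Y)| ≤ (ε/2^d) min (Y r, X r')` (averaged targets, radii, cofactors). -/
theorem iF_bdry' (hR : D.Rad ρ) (hM : 0 < M) (hM' : 0 < M') (hb : 0 < b) (hb' : 0 < b')
    (hF : Fit b pr t) (hF' : Fit b' pr' t') (hW : D.Wts pr t) (hW' : D.Wts pr' t') (hc : c ∣ b)
    (hc' : c' ∣ b') (R : Finset (Λ × Λ)) (A A' : Finset Λ) (e : ℕ × ℕ) (he : e.1 ∈ t.items)
    (he' : e.2 ∈ t'.items) {ρ₀ ε : ℝ} {n d : ℕ} (h0 : 0 < ρ₀) (hε : 0 < ε) (hε1 : ε ≤ 1)
    (hcirc : (M : ℝ) * ((b : ℝ) / c) * pr = M' * ((b' : ℝ) / c') * pr')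
    (hD : Da (e.1 / pr) M (e.2 / pr') M' ((b : ℝ) / c * ρ e.1) ((b' : ℝ) / c' * ρ e.2) < 1 / 4)
    (hrel : ∀ x ∈ R, D.it x.1 = e.1 → D.it x.2 = e.2 → ∀ z z' : ℝ, D.al x.1 ≤ z → z < D.be x.1 →
      D.al x.2 ≤ z' → z' < D.be x.2 →
      cell (brk ρ₀ n d) (z / e.1) ≠ cell (brk ρ₀ n d) (z' / e.2))
    {n₀ : ℤ}
    (hoff : |(n₀ : ℝ) - (rf (e.2 / pr') M' * ((b' : ℝ) / c' * D.γ) *
        cof (e.1 / pr / M.gcd (e.1 / pr)) (e.2 / pr' / M'.gcd (e.2 / pr')) -
        rf (e.1 / pr) M * ((b : ℝ) / c * D.γ) *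
        cof (e.2 / pr' / M'.gcd (e.2 / pr')) (e.1 / pr / M.gcd (e.1 / pr)))| ≤
      ε / 2^d * min (cof (e.2 / pr' / M'.gcd (e.2 / pr')) (e.1 / pr / M.gcd (e.1 / pr)) *
          (rf (e.1 / pr) M * ((b : ℝ) / c * ρ e.1)))
        (cof (e.1 / pr / M.gcd (e.1 / pr)) (e.2 / pr' / M'.gcd (e.2 / pr')) *
          (rf (e.2 / pr') M' * ((b' : ℝ) / c' * ρ e.2)))) :
    D.iF R (D.uA M b pr t A c) (D.uA M' b' pr' t' A' c') e ≤
      28 * (ε * (1 + Real.log (1 / ε))) *
        (((b : ℝ) / c * ρ e.1) * ((b' : ℝ) / c' * ρ e.2) /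
          Da (e.1 / pr) M (e.2 / pr') M' ((b : ℝ) / c * ρ e.1) ((b' : ℝ) / c' * ρ e.2)) := by
  refine iF_bdry hR hM hM' hb hb' hF hF' hW hW' hc hc' R A A' e he he' h0 hε hε1 hcirc
    (by linarith) hrel ?_
  intro a a' z z' y c1 c2 h1 h2
  obtain ⟨a1, a2, a3⟩ := hF.item _ he
  obtain ⟨a1', a2', a3'⟩ := hF'.item _ he'
  have pr0 : 0 < pr := Nat.pos_of_dvd_of_pos a2 a1
  have pr0' : 0 < pr' := Nat.pos_of_dvd_of_pos a2' a1'
  have w0 : 0 < e.1 / pr := Nat.div_pos (Nat.le_of_dvd a1 a2) pr0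
  have w0' : 0 < e.2 / pr' := Nat.div_pos (Nat.le_of_dvd a1' a2') pr0'
  have c0 : (0 : ℝ) < c := by exact_mod_cast Nat.pos_of_dvd_of_pos hc hb
  have c0' : (0 : ℝ) < c' := by exact_mod_cast Nat.pos_of_dvd_of_pos hc' hb'
  have b0 : (0 : ℝ) < b := by exact_mod_cast hb
  have b0' : (0 : ℝ) < b' := by exact_mod_cast hb'
  set s : ℝ := (b : ℝ) / c with hs
  set s' : ℝ := (b' : ℝ) / c' with hs'
  have s0 : 0 < s := by positivity
  have s0' : 0 < s' := by positivity
  have q0 : (0 : ℝ) < e.1 := by exact_mod_cast a1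
  have q0' : (0 : ℝ) < e.2 := by exact_mod_cast a1'
  set w := e.1 / pr with hw
  set w' := e.2 / pr' with hw'
  have m0 : (0 : ℝ) < rf w M := by exact_mod_cast rf_pos hM
  have m0' : (0 : ℝ) < rf w' M' := by exact_mod_cast rf_pos hM'
  set v := w / M.gcd w with hv
  set v' := w' / M'.gcd w' with hv'
  have v0 : 0 < v := div_pos' w0 hM
  have v0' : 0 < v' := div_pos' w0' hM'
  have hX : (0 : ℝ) < cof v v' := by exact_mod_cast AvgItem710.cof_pos (w' := v') v0
  have hY : (0 : ℝ) < cof v' v := by exact_mod_cast AvgItem710.cof_pos' (w := v) v0'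
  have g0 : (0 : ℝ) < v.gcd v' := by exact_mod_cast Nat.gcd_pos_of_pos_left _ v0
  have z0 : (0 : ℝ) < M.gcd w := by exact_mod_cast gcd_pos' hM
  have z0' : (0 : ℝ) < M'.gcd w' := by exact_mod_cast gcd_pos' hM'
  have hρ1 := hR.pos e.1
  have hρ2 := hR.pos e.2
  have hq : (e.1 : ℝ) = pr * (M.gcd w * (v.gcd v' * cof v v')) := by
    have h1 : e.1 = pr * w := (Nat.mul_div_cancel' a2).symm
    have h2 : w = M.gcd w * v := mul_gcd_w.symm
    have h3 : v = v.gcd v' * cof v v' := (AvgItem710.mul_cof).symm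
    have h4 : e.1 = pr * (M.gcd w * (v.gcd v' * cof v v')) := by rw [← h3, ← h2, ← h1]
    exact_mod_cast h4
  have hq' : (e.2 : ℝ) = pr' * (M'.gcd w' * (v.gcd v' * cof v' v)) := by
    have h1 : e.2 = pr' * w' := (Nat.mul_div_cancel' a2').symm
    have h2 : w' = M'.gcd w' * v' := mul_gcd_w.symm
    have h3 : v' = v.gcd v' * cof v' v := (AvgItem710.mul_cof').symm
    have h4 : e.2 = pr' * (M'.gcd w' * (v.gcd v' * cof v' v)) := by rw [← h3, ← h2, ← h1]
    exact_mod_cast h4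
  have hMr : (M : ℝ) = rf w M * M.gcd w := by exact_mod_cast (mul_gcd_M (w := w) (M := M)).symm
  have hMr' : (M' : ℝ) = rf w' M' * M'.gcd w' := by
    exact_mod_cast (mul_gcd_M (w := w') (M := M')).symm
  have hvr : (v : ℝ) = v.gcd v' * cof v v' := by exact_mod_cast (AvgItem710.mul_cof).symm
  have hvr' : (v' : ℝ) = v.gcd v' * cof v' v := by exact_mod_cast (AvgItem710.mul_cof').symm
  have hpr0 : (0 : ℝ) < pr := by exact_mod_cast pr0
  have hpr0' : (0 : ℝ) < pr' := by exact_mod_cast pr0'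
  -- `N` = multiplier of the circle
  set N : ℝ := M * s * pr with hN
  have hN0 : 0 < N := by
    have : (0 : ℝ) < M := by exact_mod_cast hM
    positivity
  have hNq : N * v = rf w M * s * e.1 := by rw [hN, hMr, hvr, hq]; ring
  have hNq' : N * v' = rf w' M' * s' * e.2 := by rw [hcirc, hMr', hvr', hq']; ring
  clear_value N
  set X : ℝ := ((cof v v' : ℕ) : ℝ) with hXd
  set Y : ℝ := ((cof v' v : ℕ) : ℝ) with hYd
  set g : ℝ := ((v.gcd v' : ℕ) : ℝ) with hgd
  set m : ℝ := ((rf w M : ℕ) : ℝ) with hmd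
  set m' : ℝ := ((rf w' M' : ℕ) : ℝ) with hmd'
  -- the determinant
  have hdet : m * (s * z) * Y - m' * (s' * z') * X =
      m' * (s' * D.γ) * X - m * (s * D.γ) * Y - ((a : ℝ) * Y - a' * X) := by
    rw [h1, h2, hvr, hvr']; ring
  have hn : (a * (cof v' v : ℤ) - a' * (cof v v' : ℤ) : ℤ) = n₀ := by
    have hz1 : |m * (s * z) * Y| ≤ Y * (m * (s * ρ e.1)) := by
      rw [abs_mul, abs_mul, abs_mul, abs_of_pos hY, abs_of_pos m0, abs_of_pos s0]
      calc m * (s * |z|) * Y ≤ m * (s * ρ e.1) * Y :=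
            mul_le_mul_of_nonneg_right (mul_le_mul_of_nonneg_left
              (mul_le_mul_of_nonneg_left c1 s0.le) m0.le) hY.le
        _ = _ := by ring
    have hz2 : |m' * (s' * z') * X| ≤ X * (m' * (s' * ρ e.2)) := by
      rw [abs_mul, abs_mul, abs_mul, abs_of_pos hX, abs_of_pos m0', abs_of_pos s0']
      calc m' * (s' * |z'|) * X ≤ m' * (s' * ρ e.2) * X :=
            mul_le_mul_of_nonneg_right (mul_le_mul_of_nonneg_left
              (mul_le_mul_of_nonneg_left c2 s0'.le) m0'.le) hX.le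
        _ = _ := by ring
    have hD1 : Y * (m * (s * ρ e.1)) < 1 / 4 := lt_of_le_of_lt (le_max_left _ _) hD
    have hD2 : X * (m' * (s' * ρ e.2)) < 1 / 4 := lt_of_le_of_lt (le_max_right _ _) hD
    have h2d : (1:ℝ) ≤ 2^d := one_le_pow₀ (by norm_num)
    have hε2 : ε / 2^d ≤ 1 := (div_le_self hε.le h2d).trans hε1
    have hmin : ε / 2^d * min (Y * (m * (s * ρ e.1))) (X * (m' * (s' * ρ e.2))) < 1 / 4 := by
      refine lt_of_le_of_lt (mul_le_of_le_one_left ?_ hε2) (lt_of_le_of_lt (min_le_left _ _) hD1)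
      exact le_min (by positivity) (by positivity)
    have h3 : |(((a * (cof v' v : ℤ) - a' * (cof v v' : ℤ)) - n₀ : ℤ) : ℝ)| < 1 := by
      have e1 : (((a * (cof v' v : ℤ) - a' * (cof v v' : ℤ)) - n₀ : ℤ) : ℝ) =
          -((n₀ : ℝ) - (m' * (s' * D.γ) * X - m * (s * D.γ) * Y)) -
            (m * (s * z) * Y - m' * (s' * z') * X) := by
        rw [hdet]; push_cast; ring
      rw [e1]
      refine lt_of_le_of_lt (abs_sub _ _) ?_
      rw [abs_neg]
      have h5 := abs_sub (m * (s * z) * Y) (m' * (s' * z') * X)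
      have h6 := hoff
      linarith
    have h4 : |(a * (cof v' v : ℤ) - a' * (cof v v' : ℤ)) - n₀| < 1 := by exact_mod_cast h3
    have := Int.abs_lt_one_iff.1 h4
    omega
  have hdet2 : m * (s * z) * Y - m' * (s' * z') * X =
      -((n₀ : ℝ) - (m' * (s' * D.γ) * X - m * (s * D.γ) * Y)) := by
    rw [hdet, ← hn]; push_cast; ring
  -- root offsets
  have hz : z / e.1 = m * (s * z) / (N * g * X) := by
    rw [div_eq_div_iff q0.ne' (by positivity)]
    have : N * g * X = m * s * e.1 := by rw [← hNq, hvr]; ring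
    rw [this]; ring
  have hz' : z' / e.2 = m' * (s' * z') / (N * g * Y) := by
    rw [div_eq_div_iff q0'.ne' (by positivity)]
    have : N * g * Y = m' * s' * e.2 := by rw [← hNq', hvr']; ring
    rw [this]; ring
  have hr : ρ e.1 / e.1 = m * (s * ρ e.1) / (N * g * X) := by
    rw [div_eq_div_iff q0.ne' (by positivity)]
    have : N * g * X = m * s * e.1 := by rw [← hNq, hvr]; ring
    rw [this]; ring
  have hr' : ρ e.2 / e.2 = m' * (s' * ρ e.2) / (N * g * Y) := by
    rw [div_eq_div_iff q0'.ne' (by positivity)]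
    have : N * g * Y = m' * s' * e.2 := by rw [← hNq', hvr']; ring
    rw [this]; ring
  have e2 : z / e.1 - z' / e.2 = (m * (s * z) * Y - m' * (s' * z') * X) / (N * g * X * Y) := by
    rw [hz, hz']; field_simp
  have hK : 0 < N * g * X * Y := by positivity
  rw [e2, hdet2, abs_div, abs_neg, abs_of_pos hK, div_le_iff₀ hK]
  refine hoff.trans (le_of_eq ?_)
  rw [mul_assoc]
  congr 1
  rw [hr, hr', mul_comm _ (N * g * X * Y), mul_min_of_nonneg _ _ hK.le]
  congr 1
  · field_simp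
  · field_simp

end

end Crest.Agent.R4P.Bdry363
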