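import Crest.Agent.R4P.BldB153

/-!
R4 (S0004), powers pass: the BUILDER, part C: items, `Ok`, `Alive`, `SepRule`, `UpRule`, `NodeOk`,
masses, concrete parameters (same names as in `R4/Bld532.lean`).
-/

set_option autoImplicit false

namespace Crest.Agent.R4P.Bld532

open Crest.Agent.R4P.Cnt588

theorem le_of_lt_succ_prime {k r : ℕ} (h : r < k + 1) : r ≤ k := Nat.lt_succ_iff.1 h

theorem not_Clo {P : Par} {W : ℕ → ℝ} {k : ℕ} {c : ℝ} {S : Finset ℕ} (h : ¬ Clo P W k c S) :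
    P.p0 < k ∧ P.lo k ≤ c * Ws W S ∧ c * Ws W S ≤ P.hi k := by
  unfold Clo at h; push Not at h; exact h

/-- the items of the tree are `S` -/
theorem bld_items (P : Par) (W : ℕ → ℝ) (hW : ∀ q, 0 ≤ W q) (hP : P.Good) (n : ℕ) (c : ℝ)
    (A B : ℕ) (S : Finset ℕ) (hB : Bk S ⟨n, c, A, B⟩) : (bld P W n c A S).items = S := by
  refine bld_ind (M := fun _ S t => t.items = S) hW hP ?_ n c A B S hB
  constructor
  · intro c A B S _; rfl
  · intro k c A B S t _ _ h; exact h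
  · intro k c A B S _ _ _; rfl
  · intro k c A B S t _ _ _ _ _ h; exact h
  · intro k c A B S j t₁ t₀ _ _ _ _ _ h1 h0
    simp only [IT.items] at h1 ⊢
    rw [h1, h0]; exact dv_union_nd _ _ _
  · intro k c A B S K t _ _ _ _ _ _ _ _ h
    simp only [IT.items, h]; exact far_union_near _ _ _ _
  · intro k c A B S t _ _ _ _ _ _ _ h; exact h
  · intro k c A B S t₁ t₀ _ _ _ _ _ _ _ _ h1 h0
    simp only [IT.items, h1, h0]; exact dv_union_nd _ _ _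

/-- what the builder guarantees at a node with state `s` -/
def NodeOk (P : Par) (W : ℕ → ℝ) (s : NS) : IT → Prop
  | .leaf S => Bk S s ∧ ((∀ r, r.Prime → r < s.n → r ≤ P.p0) ∨
      ∃ k, k.Prime ∧ k < s.n ∧ P.p0 < k ∧ (∀ r, r.Prime → r < s.n → r ≤ k) ∧
        (s.c * Ws W S < P.lo k ∨ P.hi k < s.c * Ws W S))
  | .br p Sp t₁ t₀ => p.Prime ∧ p < s.n ∧ P.p0 < p ∧ (∀ r, r.Prime → r < s.n → r ≤ p) ∧
      Bk (t₁.items ∪ t₀.items) s ∧
      t₁.items = dv s.A p (t₁.items ∪ t₀.items) ∧ t₀.items = nd s.A p (t₁.items ∪ t₀.items) ∧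
      Sp = dv s.A (p ^ 2) (t₁.items ∪ t₀.items) ∧
      (∀ q ∈ t₁.items ∪ t₀.items, ¬ p ^ 3 ∣ q / s.A) ∧
      P.lo p ≤ s.c * Ws W (t₁.items ∪ t₀.items) ∧
      s.c * Ws W (t₁.items ∪ t₀.items) ≤ P.hi p ∧
      Ws W t₀.items ≤ 2 * P.sg p * Ws W (t₁.items ∪ t₀.items) ∧
      Ws W Sp ≤ 2 * P.sg p * Ws W t₁.items
  | .add b t₁ t₀ => b.Prime ∧ b < s.n ∧ P.p0 < b ∧ (∀ r, r.Prime → r < s.n → r ≤ b) ∧
      Bk (t₁.items ∪ t₀.items) s ∧
      (∃ j t', 1 ≤ j ∧ t₁ = plk b j t' ∧ t₁.items = dv s.A (b ^ j) (t₁.items ∪ t₀.items) ∧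
        t₀.items = nd s.A (b ^ j) (t₁.items ∪ t₀.items) ∧
        Ws W (nd s.A (b ^ (j - 1)) (t₁.items ∪ t₀.items)) ≤
          P.sg b * Ws W (t₁.items ∪ t₀.items)) ∧
      P.lo b ≤ s.c * Ws W (t₁.items ∪ t₀.items) ∧ s.c * Ws W (t₁.items ∪ t₀.items) ≤ P.hi b ∧
      P.sg b * Ws W (t₁.items ∪ t₀.items) < Ws W t₀.items ∧
      P.sg b * Ws W (t₁.items ∪ t₀.items) < Ws W t₁.items
  | .up b Sp t => b.Prime ∧ b < s.n ∧ P.p0 < b ∧ (∀ r, r.Prime → r < s.n → r ≤ b) ∧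
      Bk t.items s ∧ Sp = dv s.A b t.items ∧ (∀ q ∈ t.items, ¬ b ^ 2 ∣ q / s.A) ∧
      P.lo b ≤ s.c * Ws W t.items ∧ s.c * Ws W t.items ≤ P.hi b ∧
      Ws W Sp ≤ 2 * P.sg b * Ws W t.items
  | .pl b t => b.Prime ∧ b < s.n ∧ P.p0 < b ∧ (∀ r, r.Prime → r < s.n → r ≤ b) ∧
      Bk t.items s ∧ (∀ q ∈ t.items, b ∣ q / s.A) ∧ s.c * Ws W t.items ≤ P.hi b
  | .far b t₁ t₀ => b.Prime ∧ b < s.n ∧ P.p0 < b ∧ (∀ r, r.Prime → r < s.n → r ≤ b) ∧
      Bk (t₁.items ∪ t₀.items) s ∧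
      (∃ K, t₁ = .leaf (farS b s.A K (t₁.items ∪ t₀.items)) ∧
        t₀.items = nearS b s.A K (t₁.items ∪ t₀.items) ∧
        Ws W (nd s.A (b ^ K) (t₁.items ∪ t₀.items)) ≤ P.sg b * Ws W (t₁.items ∪ t₀.items) ∧
        Ws W (dv s.A (b ^ (K + 1)) (t₁.items ∪ t₀.items)) ≤
          P.sg b * Ws W (t₁.items ∪ t₀.items)) ∧
      P.lo b ≤ s.c * Ws W (t₁.items ∪ t₀.items) ∧ s.c * Ws W (t₁.items ∪ t₀.items) ≤ P.hi b ∧
      Ws W t₁.items ≤ 2 * P.sg b * Ws W (t₁.items ∪ t₀.items)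

/-- the state only matters through `n` up to non-primes -/
theorem All_skip {P : Par} {W : ℕ → ℝ} {k : ℕ} {c : ℝ} {A B : ℕ} (hk : ¬ k.Prime) {t : IT}
    (hBk : Bk t.items ⟨k + 1, c, A, B⟩)
    (h : All (NodeOk P W) ⟨k, c, A, B⟩ t) : All (NodeOk P W) ⟨k + 1, c, A, B⟩ t := by
  have key : ∀ r : ℕ, r.Prime → r < k + 1 → r < k := fun r hr hrk =>
    lt_of_le_of_ne (Nat.lt_succ_iff.1 hrk) fun he => hk (he ▸ hr)
  cases t with
  | leaf S =>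
    refine ⟨hBk, ?_⟩
    rcases h.2 with h1 | ⟨j, hj, hjk, hp, hall, hm⟩
    · left; intro r hr hrk; exact h1 r hr (key r hr hrk)
    · right
      exact ⟨j, hj, Nat.lt_succ_of_lt hjk, hp, fun r hr hrk => hall r hr (key r hr hrk), hm⟩
  | br p Sp t₁ t₀ =>
    obtain ⟨⟨a1, a2, a3, a4, a5, a6⟩, h2⟩ := h
    exact ⟨⟨a1, Nat.lt_succ_of_lt a2, a3, fun r hr hrk => a4 r hr (key r hr hrk), hBk, a6⟩, h2⟩
  | add b t₁ t₀ =>
    obtain ⟨⟨a1, a2, a3, a4, a5, a6⟩, h2⟩ := h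
    exact ⟨⟨a1, Nat.lt_succ_of_lt a2, a3, fun r hr hrk => a4 r hr (key r hr hrk), hBk, a6⟩, h2⟩
  | up b Sp t =>
    obtain ⟨⟨a1, a2, a3, a4, a5, a6⟩, h2⟩ := h
    exact ⟨⟨a1, Nat.lt_succ_of_lt a2, a3, fun r hr hrk => a4 r hr (key r hr hrk), hBk, a6⟩, h2⟩
  | pl b t =>
    obtain ⟨⟨a1, a2, a3, a4, a5, a6⟩, h2⟩ := h
    exact ⟨⟨a1, Nat.lt_succ_of_lt a2, a3, fun r hr hrk => a4 r hr (key r hr hrk), hBk, a6⟩, h2⟩
  | far b t₁ t₀ =>
    obtain ⟨⟨a1, a2, a3, a4, a5, a6⟩, h2⟩ := h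
    exact ⟨⟨a1, Nat.lt_succ_of_lt a2, a3, fun r hr hrk => a4 r hr (key r hr hrk), hBk, a6⟩, h2⟩

/-- MAIN bookkeeping theorem: every node of the built tree satisfies `NodeOk` -/
theorem bld_All (P : Par) (W : ℕ → ℝ) (hW : ∀ q, 0 ≤ W q) (hP : P.Good) (n : ℕ) (c : ℝ)
    (A B : ℕ) (S : Finset ℕ) (hB : Bk S ⟨n, c, A, B⟩) :
    All (NodeOk P W) ⟨n, c, A, B⟩ (bld P W n c A S) := by
  refine (bld_ind (M := fun s S t => t.items = S ∧ All (NodeOk P W) s t) hW hP ?_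
    n c A B S hB).2
  constructor
  · intro c A B S hB
    exact ⟨rfl, hB, Or.inl fun r _ hr => absurd hr (Nat.not_lt_zero r)⟩
  · intro k c A B S t hk hB h
    exact ⟨h.1, All_skip hk (by rw [h.1]; exact hB) h.2⟩
  · intro k c A B S hk hB hC
    refine ⟨rfl, hB, ?_⟩
    rcases Nat.lt_or_ge P.p0 k with hp | hp
    · right
      refine ⟨k, hk, Nat.lt_succ_self k, hp, fun r _ => le_of_lt_succ_prime, ?_⟩
      rcases hC with h | h | h
      · exact absurd h (not_le.2 hp)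
      · exact Or.inl h
      · exact Or.inr h
    · left; intro r _ hrk; exact (le_of_lt_succ_prime hrk).trans hp
  · intro k c A B S t hk hp hB hd hh h
    refine ⟨h.1, ⟨hk, Nat.lt_succ_self k, hp, fun r _ => le_of_lt_succ_prime, ?_, ?_, ?_⟩, h.2⟩
    · rw [h.1]; exact hB
    · rw [h.1]; exact hd
    · rw [h.1]; exact hh
  · intro k c A B S j t₁ t₀ hk hB hC hcut hmin h1 h0
    have hi : (plk k j t₁).items ∪ t₀.items = S := by rw [h1.1, h0.1]; exact dv_union_nd _ _ _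
    obtain ⟨hp, hlo, hhi⟩ := not_Clo hC
    refine ⟨hi, ⟨hk, Nat.lt_succ_self k, hp, fun r _ => le_of_lt_succ_prime, ?_, ?_, ?_⟩,
      h1.2, h0.2⟩
    · rw [hi]; exact hB
    · rw [hi]; exact ⟨j, t₁, hcut.1, rfl, h1.1, h0.1, hmin⟩
    · rw [hi, h1.1, h0.1]; exact ⟨hlo, hhi, hcut.2.2, hcut.2.1⟩
  · intro k c A B S K t hk hB hC hd1 hd2 hf1 hf2 h1 h0
    have hi : (IT.leaf (farS k A K S)).items ∪ t.items = S := by
      rw [h0.1]; exact far_union_near _ _ _ _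
    obtain ⟨hp, hlo, hhi⟩ := not_Clo hC
    refine ⟨hi, ⟨hk, Nat.lt_succ_self k, hp, fun r _ => le_of_lt_succ_prime, ?_, ?_, ?_⟩,
      h1.2, h0.2⟩
    · rw [hi]; exact hB
    · rw [hi]; exact ⟨K, rfl, h0.1, hd1, hd2⟩
    · rw [hi]; exact ⟨hlo, hhi, hf1⟩
  · intro k c A B S t hk hp hB hlo hhi hs hn h
    refine ⟨h.1, ⟨hk, Nat.lt_succ_self k, hp, fun r _ => le_of_lt_succ_prime, ?_, ?_⟩, h.2⟩
    · rw [h.1]; exact hB
    · rw [h.1]; exact ⟨rfl, hn, hlo, hhi, hs⟩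
  · intro k c A B S t₁ t₀ hk hp hB hlo hhi hm hs hn h1 h0
    have hi : t₁.items ∪ t₀.items = S := by rw [h1.1, h0.1]; exact dv_union_nd _ _ _
    refine ⟨hi, ⟨hk, Nat.lt_succ_self k, hp, fun r _ => le_of_lt_succ_prime, ?_, ?_⟩,
      h1.2, h0.2⟩
    · rw [hi]; exact hB
    · rw [hi, h1.1, h0.1]; exact ⟨rfl, rfl, rfl, hn, hlo, hhi, hm, hs⟩

theorem bld_All_root (P : Par) (W : ℕ → ℝ) (hW : ∀ q, 0 ≤ W q) (hP : P.Good) (n : ℕ)
    (S : Finset ℕ) (hS : ∀ q ∈ S, 0 < q) :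
    All (NodeOk P W) ⟨n, 1, 1, 1⟩ (bld P W n 1 1 S) :=
  bld_All P W hW hP n 1 1 1 S (Bk.root S hS n)

/-! ### `Ok`, `Alive`, `SepRule`, `UpRule` from `NodeOk` -/

/-- the tree is well-formed -/
theorem Ok_of_All (P : Par) (W : ℕ → ℝ) : ∀ (t : IT) (s : NS), All (NodeOk P W) s t → t.Ok s.n := by
  intro t
  induction t with
  | leaf S => intro s _; trivial
  | br p Sp t₁ t₀ ih1 ih0 =>
    rintro s ⟨⟨h1, h2, _, _, _, h3, h4, h5, _⟩, h6, h7⟩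
    refine ⟨h1, h2, ?_, ?_, ih1 _ h6, ih0 _ h7⟩
    · have := disj_dv_nd s.A p (t₁.items ∪ t₀.items)
      rw [← h3, ← h4] at this; exact this
    · rw [h5]; intro q hq
      rw [h3]
      rw [mem_dv] at hq ⊢
      exact ⟨hq.1, (dvd_pow_self p two_ne_zero).trans hq.2⟩
  | add b t₁ t₀ ih1 ih0 =>
    rintro s ⟨⟨h1, h2, _, _, _, ⟨j, t', _, _, h3, h4, _⟩, _⟩, h6, h7⟩
    refine ⟨h1, h2, ?_, ih1 _ h6, ih0 _ h7⟩
    have := disj_dv_nd s.A (b ^ j) (t₁.items ∪ t₀.items)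
    rw [← h3, ← h4] at this; exact this
  | up b Sp t ih =>
    rintro s ⟨⟨h1, h2, _, _, _, h3, _⟩, h6⟩
    refine ⟨h1, h2, ?_, ih _ h6⟩
    rw [h3]; exact dv_sub _ _ _
  | pl b t ih =>
    rintro s ⟨⟨h1, h2, _⟩, h6⟩
    exact ⟨h1, h2, ih _ h6⟩
  | far b t₁ t₀ ih1 ih0 =>
    rintro s ⟨⟨h1, h2, _, _, _, ⟨K, h3, h4, _⟩, _⟩, h6, h7⟩
    refine ⟨h1, h2, ?_, ih1 _ h6, ih0 _ h7⟩
    have h5 : t₁.items = farS b s.A K (t₁.items ∪ t₀.items) := by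
      conv_lhs => rw [h3]
      rfl
    have := disj_far_near b s.A K (t₁.items ∪ t₀.items)
    rw [← h5, ← h4] at this; exact this

theorem bld_Ok (P : Par) (W : ℕ → ℝ) (hW : ∀ q, 0 ≤ W q) (hP : P.Good) (n : ℕ) (c : ℝ)
    (A B : ℕ) (S : Finset ℕ) (hB : Bk S ⟨n, c, A, B⟩) : (bld P W n c A S).Ok n :=
  Ok_of_All P W _ _ (bld_All P W hW hP n c A B S hB)

/-- mass window per block -/
theorem Alive_of_All (P : Par) (W : ℕ → ℝ) (I : Finset ℕ) (lam Lam : ℝ)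
    (hlo : ∀ k ∈ I, k.Prime → P.p0 < k → lam ≤ P.lo k)
    (hhi : ∀ k ∈ I, k.Prime → P.p0 < k → P.hi k ≤ Lam) :
    ∀ (t : IT) (s : NS), All (NodeOk P W) s t → t.Alive W I lam Lam s.c := by
  intro t
  induction t with
  | leaf S => intro s _; trivial
  | br p Sp t₁ t₀ ih1 ih0 =>
    rintro s ⟨⟨h1, h2, h3, _, _, _, _, _, _, h4, h5, _⟩, h6, h7⟩
    exact ⟨fun hI => ⟨(hlo p hI h1 h3).trans h4, h5.trans (hhi p hI h1 h3)⟩, by have h := ih1 _ h6; exact h, by have h := ih0 _ h7; exact h⟩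
  | add b t₁ t₀ ih1 ih0 =>
    rintro s ⟨⟨h1, h2, h3, _, _, _, h4, h5, _⟩, h6, h7⟩
    exact ⟨fun hI => ⟨(hlo b hI h1 h3).trans h4,
      h5.trans (hhi b hI h1 h3)⟩, by have h := ih1 _ h6; exact h, by have h := ih0 _ h7; exact h⟩
  | up b Sp t ih =>
    rintro s ⟨⟨h1, h2, h3, _, _, _, _, h4, h5, _⟩, h6⟩
    exact ⟨fun hI => ⟨(hlo b hI h1 h3).trans h4, h5.trans (hhi b hI h1 h3)⟩, by have h := ih _ h6; exact h⟩
  | pl b t ih =>
    rintro s ⟨_, h6⟩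
    have h := ih _ h6; exact h
  | far b t₁ t₀ ih1 ih0 =>
    rintro s ⟨⟨h1, h2, h3, _, _, _, h4, h5, _⟩, h6, h7⟩
    exact ⟨fun hI => ⟨(hlo b hI h1 h3).trans h4,
      h5.trans (hhi b hI h1 h3)⟩, by have h := ih1 _ h6; exact h, by have h := ih0 _ h7; exact h⟩

/-- SEP rule per block -/
theorem SepRule_of_All (P : Par) (W : ℕ → ℝ) (hW : ∀ q, 0 ≤ W q) (I : Finset ℕ) (L : ℝ)
    (hL : ∀ k ∈ I, k.Prime → P.p0 < k → L / k ≤ P.sg k) :
    ∀ (t : IT) (s : NS), All (NodeOk P W) s t → t.SepRule W I L := by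
  intro t
  induction t with
  | leaf S => intro s _; trivial
  | br p Sp t₁ t₀ ih1 ih0 =>
    rintro s ⟨_, h6, h7⟩; exact ⟨ih1 _ h6, ih0 _ h7⟩
  | add b t₁ t₀ ih1 ih0 =>
    rintro s ⟨⟨h1, h2, h3, _, _, ⟨j, t', _, _, e1, e0, _⟩, _, _, h4, h5⟩, h6, h7⟩
    refine ⟨fun hI => ?_, ih1 _ h6, ih0 _ h7⟩
    have h8 : Ws W t₁.items + Ws W t₀.items = Ws W (t₁.items ∪ t₀.items) := by
      have := Ws_dv_add_nd W s.A (b ^ j) (t₁.items ∪ t₀.items)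
      rw [← e1, ← e0] at this; exact this
    rw [h8]
    have h9 := mul_le_mul_of_nonneg_right (hL b hI h1 h3) (Ws_nonneg hW (t₁.items ∪ t₀.items))
    exact ⟨h9.trans h4.le, h9.trans h5.le⟩
  | up b Sp t ih => rintro s ⟨_, h6⟩; exact ih _ h6
  | pl b t ih => rintro s ⟨_, h6⟩; exact ih _ h6
  | far b t₁ t₀ ih1 ih0 => rintro s ⟨_, h6, h7⟩; exact ⟨ih1 _ h6, ih0 _ h7⟩

/-- UP rule with `2 sg` -/
theorem UpRule_of_All (P : Par) (W : ℕ → ℝ) :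
    ∀ (t : IT) (s : NS), All (NodeOk P W) s t → t.UpRule W (fun k => 2 * P.sg k) := by
  intro t
  induction t with
  | leaf S => intro s _; trivial
  | br p Sp t₁ t₀ ih1 ih0 =>
    rintro s ⟨⟨_, _, _, _, _, _, _, _, _, _, _, _, h⟩, h6, h7⟩; exact ⟨h, ih1 _ h6, ih0 _ h7⟩
  | add b t₁ t₀ ih1 ih0 => rintro s ⟨_, h6, h7⟩; exact ⟨ih1 _ h6, ih0 _ h7⟩
  | up b Sp t ih => rintro s ⟨⟨_, _, _, _, _, _, _, _, _, h⟩, h6⟩; exact ⟨h, ih _ h6⟩
  | pl b t ih => rintro s ⟨_, h6⟩; exact ih _ h6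
  | far b t₁ t₀ ih1 ih0 => rintro s ⟨_, h6, h7⟩; exact ⟨ih1 _ h6, ih0 _ h7⟩

/-! ### columns -/

/-- all tie-missing / SEP / up primes of the items are primes in `(p0, n)` -/
theorem cols_of_All (P : Par) (W : ℕ → ℝ) : ∀ (t : IT) (s : NS), All (NodeOk P W) s t →
    ∀ q p, (p ∈ t.mt q ∨ p ∈ t.sp q ∨ p ∈ t.uq q) → p.Prime ∧ P.p0 < p ∧ p < s.n := by
  intro t
  induction t with
  | leaf S => intro s _ q p h; simp [IT.mt, IT.sp, IT.uq] at h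
  | br r Sp t₁ t₀ ih1 ih0 =>
    rintro s ⟨⟨h1, h2, h3, _⟩, h6, h7⟩ q p h
    have key : (p = r) ∨ (p ∈ t₀.mt q ∨ p ∈ t₀.sp q ∨ p ∈ t₀.uq q) ∨
        (p ∈ t₁.mt q ∨ p ∈ t₁.sp q ∨ p ∈ t₁.uq q) := by
      simp only [IT.mt, IT.sp, IT.uq] at h
      split_ifs at h <;> (try simp only [Finset.mem_insert] at h) <;> tauto
    rcases key with rfl | h | h
    · exact ⟨h1, h3, h2⟩
    · have h8 := ih0 _ h7 q p h
      exact ⟨h8.1, h8.2.1, h8.2.2.trans h2⟩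
    · have h8 := ih1 _ h6 q p h
      exact ⟨h8.1, h8.2.1, h8.2.2.trans h2⟩
  | add r t₁ t₀ ih1 ih0 =>
    rintro s ⟨⟨h1, h2, h3, _⟩, h6, h7⟩ q p h
    have key : (p = r) ∨ (p ∈ t₀.mt q ∨ p ∈ t₀.sp q ∨ p ∈ t₀.uq q) ∨
        (p ∈ t₁.mt q ∨ p ∈ t₁.sp q ∨ p ∈ t₁.uq q) := by
      simp only [IT.mt, IT.sp, IT.uq] at h
      split_ifs at h <;> (try simp only [Finset.mem_insert] at h) <;> tauto
    rcases key with rfl | h | h
    · exact ⟨h1, h3, h2⟩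
    · have h8 := ih0 _ h7 q p h
      exact ⟨h8.1, h8.2.1, (Nat.lt_succ_iff.1 h8.2.2).trans_lt h2⟩
    · have h8 := ih1 _ h6 q p h
      exact ⟨h8.1, h8.2.1, (Nat.lt_succ_iff.1 h8.2.2).trans_lt h2⟩
  | up r Sp t ih =>
    rintro s ⟨⟨h1, h2, h3, _⟩, h6⟩ q p h
    have key : (p = r) ∨ (p ∈ t.mt q ∨ p ∈ t.sp q ∨ p ∈ t.uq q) := by
      simp only [IT.mt, IT.sp, IT.uq] at h
      split_ifs at h <;> (try simp only [Finset.mem_insert] at h) <;> tauto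
    rcases key with rfl | h
    · exact ⟨h1, h3, h2⟩
    · have h8 := ih _ h6 q p h
      exact ⟨h8.1, h8.2.1, h8.2.2.trans h2⟩
  | pl r t ih =>
    rintro s ⟨⟨h1, h2, h3, _⟩, h6⟩ q p h
    have h8 := ih _ h6 q p h
    exact ⟨h8.1, h8.2.1, (Nat.lt_succ_iff.1 h8.2.2).trans_lt h2⟩
  | far r t₁ t₀ ih1 ih0 =>
    rintro s ⟨⟨h1, h2, h3, _⟩, h6, h7⟩ q p h
    have key : (p ∈ t₀.mt q ∨ p ∈ t₀.sp q ∨ p ∈ t₀.uq q) ∨
        (p ∈ t₁.mt q ∨ p ∈ t₁.sp q ∨ p ∈ t₁.uq q) := by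
      simp only [IT.mt, IT.sp, IT.uq] at h
      split_ifs at h <;> tauto
    rcases key with h | h
    · have h8 := ih0 _ h7 q p h
      exact ⟨h8.1, h8.2.1, (Nat.lt_succ_iff.1 h8.2.2).trans_lt h2⟩
    · have h8 := ih1 _ h6 q p h
      exact ⟨h8.1, h8.2.1, (Nat.lt_succ_iff.1 h8.2.2).trans_lt h2⟩

/-! ### masses -/

/-- mass of a node: level dependent upper bound -/
theorem mass_of_All (P : Par) (W : ℕ → ℝ) (hW : ∀ q, 0 ≤ W q) (hsg : ∀ k, 0 ≤ P.sg k)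
    (Mx : ℕ → ℝ) (hmono : ∀ p, p.Prime → P.p0 < p → Mx p ≤ Mx (p + 1))
    (hM : ∀ p : ℕ, p.Prime → P.p0 < p → (2 + 2 * (p * P.sg p)) * P.hi p ≤ Mx p) :
    ∀ (t : IT) (s : NS), All (NodeOk P W) s t → 0 < s.c → s.c * Ws W t.items ≤ Mx s.n →
      All (fun s t => 0 < s.c ∧ s.c * Ws W t.items ≤ Mx s.n) s t := by
  intro t
  induction t with
  | leaf S => intro s _ hc h; exact ⟨hc, h⟩
  | br k Sp t₁ t₀ ih1 ih0 =>
    rintro s ⟨⟨hk, h2, hp, _, _, _, _, _, _, hl, hh, hm, _⟩, h6, h7⟩ hc hN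
    have hk2 : (2 : ℝ) ≤ k := by exact_mod_cast hk.two_le
    have hk0 : (0 : ℝ) < k := by linarith
    have hw : (1 : ℝ) / 2 ≤ 1 - 1 / (k : ℝ) := by
      have : 1 / (k : ℝ) ≤ 1 / 2 := one_div_le_one_div_of_le (by norm_num) hk2
      linarith
    have hw0 : (0 : ℝ) < 1 - 1 / (k : ℝ) := by linarith
    have hS0 := Ws_nonneg hW (t₁.items ∪ t₀.items)
    have hhi0 : 0 ≤ P.hi k := le_trans (mul_nonneg hc.le hS0) hh
    have hpr : Ws W t₁.items ≤ Ws W (t₁.items ∪ t₀.items) := Ws_mono hW Finset.subset_union_left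
    refine ⟨⟨hc, hN⟩, ih1 _ h6 (by positivity) ?_, ih0 _ h7 (by positivity) ?_⟩
    · refine le_trans ?_ (hM k hk hp)
      show s.c / (1 - 1 / (k : ℝ)) * Ws W t₁.items ≤ _
      have e1 : s.c / (1 - 1 / (k : ℝ)) * Ws W t₁.items ≤ 2 * (s.c * Ws W (t₁.items ∪ t₀.items)) := by
        rw [div_mul_eq_mul_div, div_le_iff₀ hw0]
        have : s.c * Ws W t₁.items ≤ s.c * Ws W (t₁.items ∪ t₀.items) :=
          mul_le_mul_of_nonneg_left hpr hc.le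
        have h5 : 0 ≤ s.c * Ws W (t₁.items ∪ t₀.items) := mul_nonneg hc.le hS0
        nlinarith
      have e2 : 0 ≤ (k : ℝ) * P.sg k * P.hi k := mul_nonneg (mul_nonneg hk0.le (hsg k)) hhi0
      nlinarith
    · refine le_trans ?_ (hM k hk hp)
      show s.c * k * Ws W t₀.items ≤ _
      have e1 : s.c * k * Ws W t₀.items ≤
          (2 * (k * P.sg k)) * (s.c * Ws W (t₁.items ∪ t₀.items)) := by
        calc s.c * k * Ws W t₀.items ≤ s.c * k * (2 * P.sg k * Ws W (t₁.items ∪ t₀.items)) :=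
              mul_le_mul_of_nonneg_left hm (by positivity)
          _ = (2 * (k * P.sg k)) * (s.c * Ws W (t₁.items ∪ t₀.items)) := by ring
      have e2 : (2 * (k * P.sg k)) * (s.c * Ws W (t₁.items ∪ t₀.items)) ≤
          (2 * (k * P.sg k)) * P.hi k :=
        mul_le_mul_of_nonneg_left hh (mul_nonneg (by norm_num) (mul_nonneg hk0.le (hsg k)))
      nlinarith
  | add k t₁ t₀ ih1 ih0 =>
    rintro s ⟨⟨hk, h2, hp, _, _, _, hl, hh, _⟩, h6, h7⟩ hc hN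
    have hk0 : (0 : ℝ) < k := by exact_mod_cast hk.pos
    have hhi0 : 0 ≤ P.hi k := le_trans (mul_nonneg hc.le (Ws_nonneg hW _)) hh
    have e2 : 0 ≤ (k : ℝ) * P.sg k * P.hi k := mul_nonneg (mul_nonneg hk0.le (hsg k)) hhi0
    have e3 : P.hi k ≤ Mx (k + 1) := by
      refine le_trans ?_ ((hM k hk hp).trans (hmono k hk hp)); nlinarith
    have h8 : Ws W t₁.items ≤ Ws W (t₁.items ∪ t₀.items) := Ws_mono hW Finset.subset_union_left
    have h9 : Ws W t₀.items ≤ Ws W (t₁.items ∪ t₀.items) := Ws_mono hW Finset.subset_union_right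
    exact ⟨⟨hc, hN⟩, ih1 _ h6 hc (((mul_le_mul_of_nonneg_left h8 hc.le).trans hh).trans e3),
      ih0 _ h7 hc (((mul_le_mul_of_nonneg_left h9 hc.le).trans hh).trans e3)⟩
  | up k Sp t ih =>
    rintro s ⟨⟨hk, h2, hp, _, _, _, _, hl, hh, _⟩, h6⟩ hc hN
    have hk0 : (0 : ℝ) < k := by exact_mod_cast hk.pos
    have hhi0 : 0 ≤ P.hi k := le_trans (mul_nonneg hc.le (Ws_nonneg hW _)) hh
    have e2 : 0 ≤ (k : ℝ) * P.sg k * P.hi k := mul_nonneg (mul_nonneg hk0.le (hsg k)) hhi0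
    have e3 : P.hi k ≤ Mx k := le_trans (by nlinarith) (hM k hk hp)
    exact ⟨⟨hc, hN⟩, ih _ h6 hc (hh.trans e3)⟩
  | pl k t ih =>
    rintro s ⟨⟨hk, h2, hp, _, _, _, hh⟩, h6⟩ hc hN
    have hk0 : (0 : ℝ) < k := by exact_mod_cast hk.pos
    have hhi0 : 0 ≤ P.hi k := le_trans (mul_nonneg hc.le (Ws_nonneg hW _)) hh
    have e2 : 0 ≤ (k : ℝ) * P.sg k * P.hi k := mul_nonneg (mul_nonneg hk0.le (hsg k)) hhi0
    have e3 : P.hi k ≤ Mx (k + 1) := by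
      refine le_trans ?_ ((hM k hk hp).trans (hmono k hk hp)); nlinarith
    exact ⟨⟨hc, hN⟩, ih _ h6 hc (hh.trans e3)⟩
  | far k t₁ t₀ ih1 ih0 =>
    rintro s ⟨⟨hk, h2, hp, _, _, _, hl, hh, _⟩, h6, h7⟩ hc hN
    have hk0 : (0 : ℝ) < k := by exact_mod_cast hk.pos
    have hhi0 : 0 ≤ P.hi k := le_trans (mul_nonneg hc.le (Ws_nonneg hW _)) hh
    have e2 : 0 ≤ (k : ℝ) * P.sg k * P.hi k := mul_nonneg (mul_nonneg hk0.le (hsg k)) hhi0
    have e3 : P.hi k ≤ Mx (k + 1) := by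
      refine le_trans ?_ ((hM k hk hp).trans (hmono k hk hp)); nlinarith
    have h8 : Ws W t₁.items ≤ Ws W (t₁.items ∪ t₀.items) := Ws_mono hW Finset.subset_union_left
    have h9 : Ws W t₀.items ≤ Ws W (t₁.items ∪ t₀.items) := Ws_mono hW Finset.subset_union_right
    exact ⟨⟨hc, hN⟩, ih1 _ h6 hc (((mul_le_mul_of_nonneg_left h8 hc.le).trans hh).trans e3),
      ih0 _ h7 hc (((mul_le_mul_of_nonneg_left h9 hc.le).trans hh).trans e3)⟩

/-! ### concrete parameters -/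

/-- `lo k = (log k)^(-C1)`, `hi k = (log k)^c2`, `sg k = (log k)^B / k` -/
noncomputable def par (B C1 c2 : ℝ) (p0 : ℕ) : Par where
  p0 := p0
  lo := fun k => Real.log k ^ (-C1)
  hi := fun k => Real.log k ^ c2
  sg := fun k => Real.log k ^ B / k

theorem par_sg_nonneg (B C1 c2 : ℝ) (p0 k : ℕ) : 0 ≤ (par B C1 c2 p0).sg k := by
  show 0 ≤ Real.log k ^ B / k
  have : 0 ≤ Real.log (k : ℝ) := Real.log_natCast_nonneg k
  positivity

theorem one_le_log_nat {k : ℕ} (hk : 3 ≤ k) : 1 ≤ Real.log k := by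
  rw [Real.le_log_iff_exp_le (by positivity)]
  have : (3 : ℝ) ≤ k := by exact_mod_cast hk
  have := Real.exp_one_lt_d9
  linarith

/-- the parameters are good for `p0 ≥ p₁` -/
theorem par_Good (B C1 c2 : ℝ) (hB : 0 ≤ B) (hC1 : 0 ≤ C1) (hc2 : 0 ≤ c2) :
    ∃ p₁ : ℕ, ∀ p0 ≥ p₁, (par B C1 c2 p0).Good := by
  have hlit := (isLittleO_log_rpow_rpow_atTop (B + c2 + C1) (show (0 : ℝ) < 1 by norm_num)).bound
    (show (0 : ℝ) < 1 / 8 by norm_num)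
  obtain ⟨x, hx⟩ := Filter.eventually_atTop.1 hlit
  refine ⟨⌈|x|⌉₊ + 3, fun p0 hp0 => ⟨par_sg_nonneg _ _ _ _, fun k => ?_, fun k hk hkp => ?_,
    fun k hk hkp => ?_⟩⟩
  · show 0 ≤ Real.log k ^ (-C1)
    have : 0 ≤ Real.log (k : ℝ) := Real.log_natCast_nonneg k
    positivity
  all_goals
    have hkp' : p0 < k := hkp
    have hk3 : 3 ≤ k := by omega
    have hl := one_le_log_nat hk3
    have hk0 : (0 : ℝ) < k := by exact_mod_cast hk.pos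
    have hxk : x ≤ k := by
      have h5 : |x| ≤ ⌈|x|⌉₊ := Nat.le_ceil _
      have h6 : ((⌈|x|⌉₊ : ℕ) : ℝ) ≤ k := by
        have : ⌈|x|⌉₊ ≤ k := by omega
        exact_mod_cast this
      linarith [le_abs_self x]
    have h8 := hx k hxk
    rw [Real.norm_eq_abs, Real.norm_eq_abs, Real.rpow_one, abs_of_nonneg (by positivity),
      abs_of_nonneg (by positivity)] at h8
  · show Real.log k ^ B / k ≤ 1 / 8
    rw [div_le_iff₀ hk0]
    refine le_trans ?_ h8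
    exact Real.rpow_le_rpow_of_exponent_le hl (by linarith)
  · show 2 * (Real.log k ^ B / k) * Real.log k ^ c2 < Real.log k ^ (-C1)
    have hlp : 0 < Real.log (k : ℝ) := by linarith
    have h9 : Real.log k ^ B * Real.log k ^ c2 * Real.log k ^ C1 = Real.log k ^ (B + c2 + C1) := by
      rw [← Real.rpow_add hlp, ← Real.rpow_add hlp]
    rw [Real.rpow_neg hlp.le, lt_inv_comm₀ (by positivity) (by positivity)]
    rw [lt_inv_comm₀ (by positivity) (by positivity)]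
    rw [← one_div, lt_div_iff₀ (by positivity)]
    calc 2 * (Real.log k ^ B / k) * Real.log k ^ c2 * Real.log k ^ C1
        = 2 * (Real.log k ^ B * Real.log k ^ c2 * Real.log k ^ C1) / k := by ring
      _ = 2 * Real.log k ^ (B + c2 + C1) / k := by rw [h9]
      _ ≤ 2 * (1 / 8 * k) / k := by gcongr
      _ < 1 := by
        rw [div_lt_one hk0]; linarith

/-- block version of the window -/
theorem par_Alive (B C1 c2 : ℝ) (p0 : ℕ) (hC1 : 0 ≤ C1) (hc2 : 0 ≤ c2) (hp0 : 2 ≤ p0)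
    (W : ℕ → ℝ) (P Q : ℕ) (t : IT) (s : NS) (h : All (NodeOk (par B C1 c2 p0) W) s t) :
    t.Alive W (blk P Q) (Real.log Q ^ (-C1)) (Real.log Q ^ c2) s.c := by
  refine Alive_of_All (par B C1 c2 p0) W _ _ _ ?_ ?_ t s h
  · intro k hk hkp hkp0
    have hk3 : 3 ≤ k := by change p0 < k at hkp0; omega
    have hkQ : k ≤ Q := (Finset.mem_Ioc.1 (Finset.mem_filter.1 hk).1).2
    show Real.log Q ^ (-C1) ≤ Real.log k ^ (-C1)
    have h1 := one_le_log_nat hk3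
    have h2 : Real.log k ≤ Real.log Q := Real.log_le_log (by positivity) (by exact_mod_cast hkQ)
    exact Real.rpow_le_rpow_of_nonpos (by linarith) h2 (by linarith)
  · intro k hk hkp hkp0
    have hk3 : 3 ≤ k := by change p0 < k at hkp0; omega
    have hkQ : k ≤ Q := (Finset.mem_Ioc.1 (Finset.mem_filter.1 hk).1).2
    show Real.log k ^ c2 ≤ Real.log Q ^ c2
    have h1 := one_le_log_nat hk3
    have h2 : Real.log k ≤ Real.log Q := Real.log_le_log (by positivity) (by exact_mod_cast hkQ)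
    exact Real.rpow_le_rpow (by linarith) h2 hc2

/-- block version of the SEP rule -/
theorem par_SepRule (B C1 c2 : ℝ) (p0 : ℕ) (hB : 0 ≤ B)
    (W : ℕ → ℝ) (hW : ∀ q, 0 ≤ W q) (P Q : ℕ) (hP : 1 ≤ P) (t : IT) (s : NS)
    (h : All (NodeOk (par B C1 c2 p0) W) s t) :
    t.SepRule W (blk P Q) (Real.log P ^ B) := by
  refine SepRule_of_All _ _ hW _ _ ?_ t s h
  intro k hk hkp hkp0
  have hkP : P < k := (Finset.mem_Ioc.1 (Finset.mem_filter.1 hk).1).1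
  show Real.log P ^ B / k ≤ Real.log k ^ B / k
  have hk0 : (0 : ℝ) < k := by exact_mod_cast hkp.pos
  have h2 : Real.log P ≤ Real.log k :=
    Real.log_le_log (by exact_mod_cast hP) (by exact_mod_cast hkP.le)
  exact div_le_div_of_nonneg_right
    (Real.rpow_le_rpow (Real.log_natCast_nonneg P) h2 hB) hk0.le

/-- masses: a node of level `n` has mass `≤ 4 (log n)^(B+c2)` -/
theorem par_mass (B C1 c2 : ℝ) (p0 : ℕ) (hB : 0 ≤ B) (hc2 : 0 ≤ c2) (hp0 : 2 ≤ p0)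
    (W : ℕ → ℝ) (hW : ∀ q, 0 ≤ W q) (t : IT) (s : NS)
    (h : All (NodeOk (par B C1 c2 p0) W) s t) (hc : 0 < s.c)
    (hroot : s.c * Ws W t.items ≤ 4 * Real.log s.n ^ (B + c2)) :
    All (fun s t => 0 < s.c ∧ s.c * Ws W t.items ≤ 4 * Real.log s.n ^ (B + c2)) s t := by
  apply mass_of_All (par B C1 c2 p0) W hW (par_sg_nonneg B C1 c2 p0)
    (fun k => 4 * Real.log k ^ (B + c2)) ?_ ?_ t s h hc hroot
  · intro p hp _
    have h0 := Real.log_natCast_nonneg p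
    have h1 : Real.log p ≤ Real.log ((p + 1 : ℕ) : ℝ) :=
      Real.log_le_log (by exact_mod_cast hp.pos) (by exact_mod_cast Nat.le_succ p)
    have := Real.rpow_le_rpow h0 h1 (show 0 ≤ B + c2 by linarith)
    show 4 * Real.log p ^ (B + c2) ≤ 4 * Real.log ((p + 1 : ℕ) : ℝ) ^ (B + c2)
    linarith
  · intro p hp hpp
    have hk3 : 3 ≤ p := by change p0 < p at hpp; omega
    show (2 + 2 * ((p : ℝ) * (Real.log p ^ B / p))) * Real.log p ^ c2 ≤ 4 * Real.log p ^ (B + c2)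
    have h1 := one_le_log_nat hk3
    have hp0' : (p : ℝ) ≠ 0 := by exact_mod_cast hp.ne_zero
    rw [mul_div_cancel₀ _ hp0', Real.rpow_add (by linarith), ← mul_assoc]
    refine mul_le_mul_of_nonneg_right ?_ (by positivity)
    have : 1 ≤ Real.log p ^ B := Real.one_le_rpow h1 hB
    linarith

end Crest.Agent.R4P.Bld532
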