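import Crest.Agent.R4P.NS161

/-!
R4 (S0004), powers pass: the BUILDER of the tree `R4P.Cnt588.IT` (shape V3, post #15202), part A:
definitions and the structure of one prime.
-/

set_option autoImplicit false

namespace Crest.Agent.R4P.Bld532

open Crest.Agent.R4P.Cnt588

/-- parameters of the builder -/
structure Par where
  p0 : ℕ
  lo : ℕ → ℝ
  hi : ℕ → ℝ
  sg : ℕ → ℝ

/-- items whose part above `A` is divisible by `k` -/
def dv (A k : ℕ) (S : Finset ℕ) : Finset ℕ := S.filter (fun q => k ∣ q / A)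
/-- items whose part above `A` is not divisible by `k` -/
def nd (A k : ℕ) (S : Finset ℕ) : Finset ℕ := S.filter (fun q => ¬ k ∣ q / A)

theorem mem_dv {A k q : ℕ} {S : Finset ℕ} : q ∈ dv A k S ↔ q ∈ S ∧ k ∣ q / A := by simp [dv]
theorem mem_nd {A k q : ℕ} {S : Finset ℕ} : q ∈ nd A k S ↔ q ∈ S ∧ ¬ k ∣ q / A := by simp [nd]
theorem dv_sub (A k : ℕ) (S : Finset ℕ) : dv A k S ⊆ S := Finset.filter_subset _ _
theorem nd_sub (A k : ℕ) (S : Finset ℕ) : nd A k S ⊆ S := Finset.filter_subset _ _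
theorem dv_union_nd (A k : ℕ) (S : Finset ℕ) : dv A k S ∪ nd A k S = S := by
  unfold dv nd; exact Finset.filter_union_filter_not_eq _ _
theorem disj_dv_nd (A k : ℕ) (S : Finset ℕ) : Disjoint (dv A k S) (nd A k S) := by
  unfold dv nd; exact Finset.disjoint_filter_filter_not _ _ _
theorem Ws_dv_add_nd (W : ℕ → ℝ) (A k : ℕ) (S : Finset ℕ) :
    Ws W (dv A k S) + Ws W (nd A k S) = Ws W S := by
  unfold Ws
  rw [← Finset.sum_union (disj_dv_nd A k S), dv_union_nd]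
theorem Ws_nonneg {W : ℕ → ℝ} (hW : ∀ q, 0 ≤ W q) (S : Finset ℕ) : 0 ≤ Ws W S :=
  Finset.sum_nonneg fun q _ => hW q
theorem Ws_mono {W : ℕ → ℝ} (hW : ∀ q, 0 ≤ W q) {S T : Finset ℕ} (h : S ⊆ T) : Ws W S ≤ Ws W T :=
  Finset.sum_le_sum_of_subset_of_nonneg h fun q _ _ => hW q
theorem nd_one (A : ℕ) (S : Finset ℕ) : nd A 1 S = ∅ := by
  unfold nd; simp

/-- closing condition at the prime `k` -/
def Clo (P : Par) (W : ℕ → ℝ) (k : ℕ) (c : ℝ) (S : Finset ℕ) : Prop :=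
  k ≤ P.p0 ∨ c * Ws W S < P.lo k ∨ P.hi k < c * Ws W S

/-- threshold `k` cuts the node in two pieces with share above `sg` -/
def Cut (P : Par) (W : ℕ → ℝ) (p A : ℕ) (S : Finset ℕ) (k : ℕ) : Prop :=
  1 ≤ k ∧ P.sg p * Ws W S < Ws W (dv A (p ^ k) S) ∧ P.sg p * Ws W S < Ws W (nd A (p ^ k) S)

open Classical in
/-- dominant exponent (if there is no cut) -/
noncomputable def dom (P : Par) (W : ℕ → ℝ) (p A : ℕ) (S : Finset ℕ) : ℕ :=
  Nat.findGreatest (fun k => Ws W (nd A (p ^ k) S) ≤ P.sg p * Ws W S) (S.sup id)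

/-- the far items: valuation at distance at least two from `K` -/
def farS (p A K : ℕ) (S : Finset ℕ) : Finset ℕ := dv A (p ^ (K + 2)) S ∪ nd A (p ^ (K - 1)) S
/-- the other ones: valuation `K - 1, K, K + 1` -/
def nearS (p A K : ℕ) (S : Finset ℕ) : Finset ℕ :=
  S.filter (fun q => ¬ p ^ (K + 2) ∣ q / A ∧ p ^ (K - 1) ∣ q / A)

theorem mem_farS {p A K q : ℕ} {S : Finset ℕ} :
    q ∈ farS p A K S ↔ q ∈ S ∧ (p ^ (K + 2) ∣ q / A ∨ ¬ p ^ (K - 1) ∣ q / A) := by
  simp only [farS, Finset.mem_union, mem_dv, mem_nd]; tauto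
theorem mem_nearS {p A K q : ℕ} {S : Finset ℕ} :
    q ∈ nearS p A K S ↔ q ∈ S ∧ (¬ p ^ (K + 2) ∣ q / A ∧ p ^ (K - 1) ∣ q / A) := by
  simp only [nearS, Finset.mem_filter]
theorem farS_sub (p A K : ℕ) (S : Finset ℕ) : farS p A K S ⊆ S := fun _ h => (mem_farS.1 h).1
theorem nearS_sub (p A K : ℕ) (S : Finset ℕ) : nearS p A K S ⊆ S := fun _ h => (mem_nearS.1 h).1
theorem far_union_near (p A K : ℕ) (S : Finset ℕ) : farS p A K S ∪ nearS p A K S = S := by
  ext q; simp only [Finset.mem_union, mem_farS, mem_nearS]; tauto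
theorem disj_far_near (p A K : ℕ) (S : Finset ℕ) : Disjoint (farS p A K S) (nearS p A K S) := by
  rw [Finset.disjoint_left]; intro q h1 h2
  rw [mem_farS] at h1; rw [mem_nearS] at h2; tauto
theorem Ws_far_add_near (W : ℕ → ℝ) (p A K : ℕ) (S : Finset ℕ) :
    Ws W (farS p A K S) + Ws W (nearS p A K S) = Ws W S := by
  unfold Ws
  rw [← Finset.sum_union (disj_far_near p A K S), far_union_near]

/-- `j` pulls -/
def plk (p : ℕ) : ℕ → IT → IT
  | 0, t => t
  | j + 1, t => .pl p (plk p j t)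

open Classical in
/-- the far leaf -/
noncomputable def farw (p : ℕ) (F : Finset ℕ) (t : IT) : IT := if F = ∅ then t else .far p (.leaf F) t

/-- the node at a prime with dominant exponent `K`, near items `S` -/
noncomputable def fin (p : ℕ) (rec : ℝ → ℕ → Finset ℕ → IT) (c : ℝ) (A K : ℕ) (S : Finset ℕ) : IT :=
  match K with
  | 0 => .up p (dv A p S) (rec c A S)
  | K + 1 => plk p K (.br p (dv (A * p ^ K) (p ^ 2) S)
      (rec (c / (1 - 1 / (p : ℝ))) (A * p ^ K * p) (dv (A * p ^ K) p S))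
      (rec (c * p) (A * p ^ K) (nd (A * p ^ K) p S)))

open Classical in
/-- `fin`, or a leaf if the near items are too light -/
noncomputable def fin1 (P : Par) (W : ℕ → ℝ) (p : ℕ) (rec : ℝ → ℕ → Finset ℕ → IT) (c : ℝ)
    (A K : ℕ) (S : Finset ℕ) : IT := if Clo P W p c S then .leaf S else fin p rec c A K S

open Classical in
/-- the chain at the prime `p` (first argument: fuel) -/
noncomputable def chain (P : Par) (W : ℕ → ℝ) (p : ℕ) (rec : ℝ → ℕ → Finset ℕ → IT) :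
    ℕ → ℝ → ℕ → Finset ℕ → IT
  | 0, _, _, S => .leaf S
  | f + 1, c, A, S =>
    if Clo P W p c S then .leaf S
    else if h : ∃ k, Cut P W p A S k then
      .add p (plk p (Nat.find h)
          (chain P W p rec f c (A * p ^ (Nat.find h)) (dv A (p ^ (Nat.find h)) S)))
        (chain P W p rec f c A (nd A (p ^ (Nat.find h)) S))
    else farw p (farS p A (dom P W p A S) S)
      (fin1 P W p rec c A (dom P W p A S) (nearS p A (dom P W p A S) S))

open Classical in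
/-- the builder: processes the primes `< n` -/
noncomputable def bld (P : Par) (W : ℕ → ℝ) : ℕ → ℝ → ℕ → Finset ℕ → IT
  | 0, _, _, S => .leaf S
  | k + 1, c, A, S =>
    if k.Prime then chain P W k (bld P W k) (S.card + 1) c A S else bld P W k c A S

/-- bookkeeping of a state: `A` = everything pulled, `B` = product of the missing ties -/
structure Bk (S : Finset ℕ) (s : NS) : Prop where
  pos : ∀ q ∈ S, 0 < q
  dvd : ∀ q ∈ S, s.A ∣ q
  cop : ∀ q ∈ S, Nat.Coprime (q / s.A) s.B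
  Apos : 0 < s.A
  sfB : Squarefree s.B
  geA : ∀ p, p.Prime → p ∣ s.A → s.n ≤ p + 1
  geB : ∀ p, p.Prime → p ∣ s.B → s.n ≤ p
  ceq : ∃ T : Finset ℕ, (∀ r ∈ T, r.Prime ∧ s.n ≤ r ∧ r ∣ s.A) ∧
    s.c = s.B * ∏ r ∈ T, (1 - 1 / (r : ℝ))⁻¹

theorem Bk.root (S : Finset ℕ) (hS : ∀ q ∈ S, 0 < q) (n : ℕ) : Bk S ⟨n, 1, 1, 1⟩ where
  pos := hS
  dvd := fun _ _ => one_dvd _
  cop := fun _ _ => Nat.coprime_one_right _
  Apos := Nat.one_pos
  sfB := squarefree_one
  geA := fun p hp h => absurd (Nat.dvd_one.1 h) hp.one_lt.ne'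
  geB := fun p hp h => absurd (Nat.dvd_one.1 h) hp.one_lt.ne'
  ceq := ⟨∅, by simp, by simp⟩

theorem Bk.mono {S S' : Finset ℕ} (hS : S' ⊆ S) {s : NS} (h : Bk S s) {n : ℕ} (hn : n ≤ s.n) :
    Bk S' ⟨n, s.c, s.A, s.B⟩ where
  pos := fun q hq => h.pos q (hS hq)
  dvd := fun q hq => h.dvd q (hS hq)
  cop := fun q hq => h.cop q (hS hq)
  Apos := h.Apos
  sfB := h.sfB
  geA := fun p hp hd => hn.trans (h.geA p hp hd)
  geB := fun p hp hd => hn.trans (h.geB p hp hd)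
  ceq := by
    obtain ⟨T, h1, h2⟩ := h.ceq
    exact ⟨T, fun r hr => ⟨(h1 r hr).1, hn.trans (h1 r hr).2.1, (h1 r hr).2.2⟩, h2⟩

theorem Bk.copB {S : Finset ℕ} {s : NS} (h : Bk S s) {p : ℕ} (hp : p.Prime) (hn : p < s.n) :
    Nat.Coprime p s.B :=
  (Nat.Prime.coprime_iff_not_dvd hp).2 fun hd => absurd (h.geB p hp hd) (not_le.2 hn)

theorem div_mul_pow {q A k : ℕ} : q / (A * k) = q / A / k := (Nat.div_div_eq_div_mul q A k).symm

/-- pull by a divisor `k = p ^ j` -/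
theorem Bk.pull {S : Finset ℕ} {k n c A B : _} (h : Bk S ⟨k + 1, c, A, B⟩) (hk : k.Prime)
    (hS : ∀ q ∈ S, k ^ n ∣ q / A) : Bk S ⟨k + 1, c, A * k ^ n, B⟩ where
  pos := h.pos
  dvd := fun q hq => by
    obtain ⟨m, hm⟩ := h.dvd q hq
    have h1 := hS q hq
    rw [hm, Nat.mul_div_cancel_left m h.Apos] at h1
    rw [hm]; exact Nat.mul_dvd_mul_left A h1
  cop := fun q hq => by
    show Nat.Coprime (q / (A * k ^ n)) B
    rw [div_mul_pow]
    exact Nat.Coprime.coprime_dvd_left (Nat.div_dvd_of_dvd (hS q hq)) (h.cop q hq)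
  Apos := Nat.mul_pos h.Apos (pow_pos hk.pos n)
  sfB := h.sfB
  geA := fun r hr hd => by
    rcases (Nat.Prime.dvd_mul hr).1 hd with h1 | h1
    · exact h.geA r hr h1
    · have := (Nat.prime_dvd_prime_iff_eq hr hk).1 (hr.dvd_of_dvd_pow h1)
      show k + 1 ≤ r + 1
      rw [this]
  geB := h.geB
  ceq := by
    obtain ⟨T, h1, h2⟩ := h.ceq
    exact ⟨T, fun r hr => ⟨(h1 r hr).1, (h1 r hr).2.1, (h1 r hr).2.2.mul_right _⟩, h2⟩

theorem Bk.present {S : Finset ℕ} {k c A B : _} (h : Bk S ⟨k + 1, c, A, B⟩) (hk : k.Prime)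
    (hS : ∀ q ∈ S, k ∣ q / A) : Bk S ⟨k, c / (1 - 1 / (k : ℝ)), A * k, B⟩ where
  pos := h.pos
  dvd := fun q hq => by
    have := (h.pull (n := 1) hk (by simpa using hS)).dvd q hq
    simpa using this
  cop := fun q hq => by
    have := (h.pull (n := 1) hk (by simpa using hS)).cop q hq
    simpa using this
  Apos := Nat.mul_pos h.Apos hk.pos
  sfB := h.sfB
  geA := fun r hr hd => by
    rcases (Nat.Prime.dvd_mul hr).1 hd with h1 | h1
    · exact (Nat.le_succ k).trans (h.geA r hr h1)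
    · have := (Nat.prime_dvd_prime_iff_eq hr hk).1 h1
      show k ≤ r + 1
      omega
  geB := fun r hr hd => (Nat.le_succ k).trans (h.geB r hr hd)
  ceq := by
    obtain ⟨T, h1, h2⟩ := h.ceq
    have hkT : k ∉ T := fun hkT => by
      have := (h1 k hkT).2.1
      simp only at this; omega
    refine ⟨insert k T, ?_, ?_⟩
    · intro r hr
      rcases Finset.mem_insert.1 hr with rfl | hr
      · exact ⟨hk, le_refl _, Dvd.intro_left _ rfl⟩
      · exact ⟨(h1 r hr).1, (Nat.le_succ k).trans (h1 r hr).2.1, (h1 r hr).2.2.mul_right _⟩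
    · rw [Finset.prod_insert hkT]
      simp only at h2 ⊢
      rw [h2]; ring

theorem Bk.missing {S : Finset ℕ} {k c A B : _} (h : Bk S ⟨k + 1, c, A, B⟩) (hk : k.Prime)
    (hS : ∀ q ∈ S, ¬ k ∣ q / A) : Bk S ⟨k, c * k, A, B * k⟩ where
  pos := h.pos
  dvd := h.dvd
  cop := fun q hq => Nat.Coprime.mul_right (h.cop q hq)
    (((Nat.Prime.coprime_iff_not_dvd hk).2 (hS q hq)).symm)
  Apos := h.Apos
  sfB := (Nat.squarefree_mul (h.copB hk (Nat.lt_succ_self k)).symm).2 ⟨h.sfB, hk.prime.squarefree⟩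
  geA := fun r hr hd => (Nat.le_succ k).trans (h.geA r hr hd)
  geB := fun r hr hd => by
    rcases (Nat.Prime.dvd_mul hr).1 hd with h1 | h1
    · exact (Nat.le_succ k).trans (h.geB r hr h1)
    · exact ((Nat.prime_dvd_prime_iff_eq hr hk).1 h1).ge
  ceq := by
    obtain ⟨T, h1, h2⟩ := h.ceq
    refine ⟨T, fun r hr => ⟨(h1 r hr).1, (Nat.le_succ k).trans (h1 r hr).2.1, (h1 r hr).2.2⟩, ?_⟩
    simp only at h2 ⊢
    rw [h2]; push_cast; ring

/-- the factor is at least `B ≥ 1` -/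
theorem Bk.B_le_c {S : Finset ℕ} {s : NS} (h : Bk S s) : (s.B : ℝ) ≤ s.c := by
  obtain ⟨T, h1, h2⟩ := h.ceq
  rw [h2]
  have key : ∀ r ∈ T, (1 : ℝ) ≤ (1 - 1 / (r : ℝ))⁻¹ := by
    intro r hr
    have hr1 : (1 : ℝ) < r := by exact_mod_cast (h1 r hr).1.one_lt
    have h4 : 0 < 1 - 1 / (r : ℝ) := by
      have : 1 / (r : ℝ) < 1 := by rw [div_lt_one (by positivity)]; exact hr1
      linarith
    rw [one_le_inv₀ h4]
    have : 0 ≤ 1 / (r : ℝ) := by positivity
    linarith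
  have h3 : (1 : ℝ) ≤ ∏ r ∈ T, (1 - 1 / (r : ℝ))⁻¹ := by
    have h5 : ∏ _r ∈ T, (1 : ℝ) ≤ ∏ r ∈ T, (1 - 1 / (r : ℝ))⁻¹ := by
      refine Finset.prod_le_prod (fun _ _ => zero_le_one) fun r hr => ?_
      exact key r hr
    simpa using h5
  nlinarith [Nat.cast_nonneg (α := ℝ) s.B]

theorem Bk.Bpos {S : Finset ℕ} {s : NS} (h : Bk S s) : 0 < s.B := Nat.pos_of_ne_zero h.sfB.ne_zero

theorem Bk.one_le_c {S : Finset ℕ} {s : NS} (h : Bk S s) : 1 ≤ s.c := by
  have := h.B_le_c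
  have h1 : (1 : ℝ) ≤ s.B := by exact_mod_cast h.Bpos
  linarith

end Crest.Agent.R4P.Bld532
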