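import Crest.Agent.R4P.BldA153

/-!
R4 (S0004), powers pass: the BUILDER, part B: the induction principle `bld_ind`.
-/

set_option autoImplicit false

namespace Crest.Agent.R4P.Bld532

open Crest.Agent.R4P.Cnt588

/-- conditions on the parameters -/
structure Par.Good (P : Par) : Prop where
  sg0 : ∀ k, 0 ≤ P.sg k
  lo0 : ∀ k, 0 ≤ P.lo k
  sg8 : ∀ k, k.Prime → P.p0 < k → P.sg k ≤ 1 / 8
  far : ∀ k, k.Prime → P.p0 < k → 2 * P.sg k * P.hi k < P.lo k

theorem dom_spec {P : Par} {W : ℕ → ℝ} (hW : ∀ q, 0 ≤ W q) {p A : ℕ} {S : Finset ℕ}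
    (hp : 2 ≤ p) (hA : ∀ q ∈ S, 0 < q / A) (hsg : 0 ≤ P.sg p) (hcut : ¬ ∃ k, Cut P W p A S k) :
    Ws W (nd A (p ^ dom P W p A S) S) ≤ P.sg p * Ws W S ∧
      Ws W (dv A (p ^ (dom P W p A S + 1)) S) ≤ P.sg p * Ws W S := by
  classical
  have hS := Ws_nonneg hW S
  constructor
  · have h0 : Ws W (nd A (p ^ 0) S) ≤ P.sg p * Ws W S := by
      rw [pow_zero, nd_one]; simpa [Ws] using mul_nonneg hsg hS
    exact Nat.findGreatest_spec (P := fun k => Ws W (nd A (p ^ k) S) ≤ P.sg p * Ws W S)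
      (Nat.zero_le _) h0
  · by_contra hcon
    push Not at hcon
    have h1 : Ws W (nd A (p ^ (dom P W p A S + 1)) S) ≤ P.sg p * Ws W S := by
      by_contra h2
      push Not at h2
      exact hcut ⟨dom P W p A S + 1, Nat.succ_pos _, hcon, h2⟩
    rcases Nat.lt_or_ge (S.sup id) (dom P W p A S + 1) with h | h
    · have h2 : dv A (p ^ (dom P W p A S + 1)) S = ∅ := by
        rw [Finset.eq_empty_iff_forall_notMem]
        intro q hq
        rw [mem_dv] at hq
        have h3 : q ≤ S.sup id := Finset.le_sup (f := id) hq.1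
        have h4 : q / A ≤ q := Nat.div_le_self _ _
        have h5 := Nat.le_of_dvd (hA q hq.1) hq.2
        have h6 : dom P W p A S + 1 < p ^ (dom P W p A S + 1) := Nat.lt_pow_self (by omega)
        omega
      rw [h2] at hcon
      have : Ws W (∅ : Finset ℕ) = 0 := by simp [Ws]
      have := mul_nonneg hsg hS
      linarith
    · exact Nat.findGreatest_is_greatest
        (P := fun k => Ws W (nd A (p ^ k) S) ≤ P.sg p * Ws W S)
        (n := S.sup id) (k := dom P W p A S + 1) (Nat.lt_succ_self _) h h1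

theorem dvd_div_mul {a b q A : ℕ} (ha : 0 < a) (h : a ∣ q / A) : b ∣ q / (A * a) ↔ a * b ∣ q / A := by
  rw [div_mul_pow]
  obtain ⟨m, hm⟩ := h
  rw [hm, Nat.mul_div_cancel_left m ha]
  exact (Nat.mul_dvd_mul_iff_left ha).symm

section
variable (P : Par) (W : ℕ → ℝ) {M : NS → Finset ℕ → IT → Prop}

/-- the hypotheses of the induction -/
structure IndH (M : NS → Finset ℕ → IT → Prop) : Prop where
  h0 : ∀ c A B S, Bk S ⟨0, c, A, B⟩ → M ⟨0, c, A, B⟩ S (.leaf S)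
  hskip : ∀ k c A B S t, ¬ k.Prime → Bk S ⟨k + 1, c, A, B⟩ → M ⟨k, c, A, B⟩ S t →
    M ⟨k + 1, c, A, B⟩ S t
  hleaf : ∀ k c A B S, k.Prime → Bk S ⟨k + 1, c, A, B⟩ → Clo P W k c S →
    M ⟨k + 1, c, A, B⟩ S (.leaf S)
  hpl : ∀ k c A B S t, k.Prime → P.p0 < k → Bk S ⟨k + 1, c, A, B⟩ → (∀ q ∈ S, k ∣ q / A) →
    c * Ws W S ≤ P.hi k → M ⟨k + 1, c, A * k, B⟩ S t → M ⟨k + 1, c, A, B⟩ S (.pl k t)
  hadd : ∀ k c A B S j t₁ t₀, k.Prime → Bk S ⟨k + 1, c, A, B⟩ → ¬ Clo P W k c S →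
    Cut P W k A S j → Ws W (nd A (k ^ (j - 1)) S) ≤ P.sg k * Ws W S →
    M ⟨k + 1, c, A, B⟩ (dv A (k ^ j) S) (plk k j t₁) →
    M ⟨k + 1, c, A, B⟩ (nd A (k ^ j) S) t₀ → M ⟨k + 1, c, A, B⟩ S (.add k (plk k j t₁) t₀)
  hfar : ∀ k c A B S K t, k.Prime → Bk S ⟨k + 1, c, A, B⟩ → ¬ Clo P W k c S →
    Ws W (nd A (k ^ K) S) ≤ P.sg k * Ws W S → Ws W (dv A (k ^ (K + 1)) S) ≤ P.sg k * Ws W S →
    Ws W (farS k A K S) ≤ 2 * P.sg k * Ws W S →
    c * Ws W (farS k A K S) < P.lo k →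
    M ⟨k + 1, c, A, B⟩ (farS k A K S) (.leaf (farS k A K S)) →
    M ⟨k + 1, c, A, B⟩ (nearS k A K S) t →
    M ⟨k + 1, c, A, B⟩ S (.far k (.leaf (farS k A K S)) t)
  hup : ∀ k c A B S t, k.Prime → P.p0 < k → Bk S ⟨k + 1, c, A, B⟩ →
    P.lo k ≤ c * Ws W S → c * Ws W S ≤ P.hi k → Ws W (dv A k S) ≤ 2 * P.sg k * Ws W S →
    (∀ q ∈ S, ¬ k ^ 2 ∣ q / A) → M ⟨k, c, A, B⟩ S t →
    M ⟨k + 1, c, A, B⟩ S (.up k (dv A k S) t)
  hbr : ∀ k c A B S t₁ t₀, k.Prime → P.p0 < k → Bk S ⟨k + 1, c, A, B⟩ →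
    P.lo k ≤ c * Ws W S → c * Ws W S ≤ P.hi k → Ws W (nd A k S) ≤ 2 * P.sg k * Ws W S →
    Ws W (dv A (k ^ 2) S) ≤ 2 * P.sg k * Ws W (dv A k S) →
    (∀ q ∈ S, ¬ k ^ 3 ∣ q / A) →
    M ⟨k, c / (1 - 1 / (k : ℝ)), A * k, B⟩ (dv A k S) t₁ → M ⟨k, c * k, A, B * k⟩ (nd A k S) t₀ →
    M ⟨k + 1, c, A, B⟩ S (.br k (dv A (k ^ 2) S) t₁ t₀)

variable {P W}

theorem IndH.plk (H : IndH P W M) {k : ℕ} (hk : k.Prime) (hp : P.p0 < k) {c : ℝ} {B : ℕ}
    {S : Finset ℕ} (hh : c * Ws W S ≤ P.hi k) {t : IT} : ∀ (j A : ℕ), Bk S ⟨k + 1, c, A, B⟩ → (∀ q ∈ S, k ^ j ∣ q / A) →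
    M ⟨k + 1, c, A * k ^ j, B⟩ S t → M ⟨k + 1, c, A, B⟩ S (plk k j t)
  | 0, A, _, _, h => by simpa [Bld532.plk] using h
  | j + 1, A, hB, hS, h => by
    have h1 : ∀ q ∈ S, k ∣ q / A := fun q hq => (dvd_pow_self k (Nat.succ_ne_zero j)).trans (hS q hq)
    have hB' : Bk S ⟨k + 1, c, A * k, B⟩ := by
      have := hB.pull (n := 1) hk (by simpa using h1)
      simpa using this
    refine H.hpl k c A B S _ hk hp hB h1 hh (IndH.plk H hk hp hh j (A * k) hB' ?_ ?_)
    · intro q hq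
      rw [dvd_div_mul hk.pos (h1 q hq), ← pow_succ']
      exact hS q hq
    · have : A * k * k ^ j = A * k ^ (j + 1) := by rw [pow_succ]; ring
      rw [this]; exact h

theorem fin_ind (hW : ∀ q, 0 ≤ W q) (hP : P.Good) (H : IndH P W M) {k : ℕ} (hk : k.Prime)
    {rec : ℝ → ℕ → Finset ℕ → IT}
    (hrec : ∀ c A B S, Bk S ⟨k, c, A, B⟩ → M ⟨k, c, A, B⟩ S (rec c A S))
    {c : ℝ} {A B : ℕ} {S : Finset ℕ} (hB : Bk S ⟨k + 1, c, A, B⟩) (hC : ¬ Clo P W k c S) (K : ℕ)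
    (h1 : Ws W (nd A (k ^ K) S) ≤ P.sg k * Ws W S)
    (h2 : Ws W (dv A (k ^ (K + 1)) S) ≤ P.sg k * Ws W S) :
    (¬ Clo P W k c (nearS k A K S) →
      M ⟨k + 1, c, A, B⟩ (nearS k A K S) (fin k rec c A K (nearS k A K S))) ∧
      Ws W (farS k A K S) ≤ 2 * P.sg k * Ws W S ∧ c * Ws W (farS k A K S) < P.lo k := by
  unfold Clo at hC
  push Not at hC
  obtain ⟨hp, hlo, hhi⟩ := hC
  have hc : 1 ≤ c := hB.one_le_c
  have hs8 := hP.sg8 k hk hp
  have hs0 := hP.sg0 k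
  have hS := Ws_nonneg hW S
  have hfar : Ws W (farS k A K S) ≤ 2 * P.sg k * Ws W S := by
    have h3 : Ws W (farS k A K S) ≤ Ws W (dv A (k ^ (K + 2)) S) + Ws W (nd A (k ^ (K - 1)) S) := by
      unfold farS Ws
      have h9 := Finset.sum_union_inter (s₁ := dv A (k ^ (K + 2)) S)
        (s₂ := nd A (k ^ (K - 1)) S) (f := W)
      have h10 : 0 ≤ ∑ q ∈ dv A (k ^ (K + 2)) S ∩ nd A (k ^ (K - 1)) S, W q :=
        Finset.sum_nonneg fun q _ => hW q
      linarith
    have h4 : Ws W (dv A (k ^ (K + 2)) S) ≤ Ws W (dv A (k ^ (K + 1)) S) := by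
      refine Ws_mono hW fun q hq => ?_
      rw [mem_dv] at hq ⊢
      exact ⟨hq.1, (pow_dvd_pow k (Nat.le_succ _)).trans hq.2⟩
    have h5 : Ws W (nd A (k ^ (K - 1)) S) ≤ Ws W (nd A (k ^ K) S) := by
      refine Ws_mono hW fun q hq => ?_
      rw [mem_nd] at hq ⊢
      exact ⟨hq.1, fun h => hq.2 ((pow_dvd_pow k (Nat.sub_le _ _)).trans h)⟩
    nlinarith
  have hadd := Ws_far_add_near W k A K S
  have hnear : Ws W S ≤ 2 * Ws W (nearS k A K S) := by nlinarith
  have hnearle : Ws W (nearS k A K S) ≤ Ws W S := Ws_mono hW (nearS_sub k A K S)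
  have hB' : Bk (nearS k A K S) ⟨k + 1, c, A, B⟩ := hB.mono (nearS_sub k A K S) (le_refl _)
  have whi : c * Ws W (nearS k A K S) ≤ P.hi k :=
    (mul_le_mul_of_nonneg_left hnearle (by linarith)).trans hhi
  refine ⟨fun hC' => ?_, hfar, ?_⟩
  · have wlo : P.lo k ≤ c * Ws W (nearS k A K S) := by
      unfold Clo at hC'; push Not at hC'; exact hC'.2.1
    cases K with
    | zero =>
      show M _ _ (.up k (dv A k (nearS k A 0 S)) (rec c A (nearS k A 0 S)))
      refine H.hup k c A B _ _ hk hp hB' wlo whi ?_ ?_ (hrec _ _ _ _ (hB'.mono (fun _ h => h) (Nat.le_succ k)))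
      · have h3 : Ws W (dv A k (nearS k A 0 S)) ≤ Ws W (dv A (k ^ (0 + 1)) S) := by
          refine Ws_mono hW fun q hq => ?_
          rw [mem_dv] at hq ⊢
          exact ⟨nearS_sub k A 0 S hq.1, by simpa using hq.2⟩
        nlinarith
      · intro q hq; exact (mem_nearS.1 hq).2.1
    | succ K =>
      have hdiv : ∀ q ∈ nearS k A (K + 1) S, k ^ K ∣ q / A := fun q hq => (mem_nearS.1 hq).2.2
      have hkK : 0 < k ^ K := pow_pos hk.pos K
      have hB2 : Bk (nearS k A (K + 1) S) ⟨k + 1, c, A * k ^ K, B⟩ := hB'.pull hk hdiv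
      show M _ _ (Bld532.plk k K (.br k (dv (A * k ^ K) (k ^ 2) (nearS k A (K + 1) S))
        (rec (c / (1 - 1 / (k : ℝ))) (A * k ^ K * k) (dv (A * k ^ K) k (nearS k A (K + 1) S)))
        (rec (c * k) (A * k ^ K) (nd (A * k ^ K) k (nearS k A (K + 1) S)))))
      refine H.plk hk hp whi K A hB' hdiv ?_
      have h3 : Ws W (nd (A * k ^ K) k (nearS k A (K + 1) S)) ≤ P.sg k * Ws W S := by
        refine (Ws_mono hW fun q hq => ?_).trans h1
        rw [mem_nd] at hq ⊢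
        refine ⟨nearS_sub _ _ _ _ hq.1, fun h => hq.2 ?_⟩
        rw [dvd_div_mul hkK (hdiv q hq.1), ← pow_succ]
        exact h
      have h4 : Ws W (dv (A * k ^ K) (k ^ 2) (nearS k A (K + 1) S)) ≤ P.sg k * Ws W S := by
        refine (Ws_mono hW fun q hq => ?_).trans h2
        rw [mem_dv] at hq ⊢
        refine ⟨nearS_sub _ _ _ _ hq.1, ?_⟩
        have h5 := hq.2
        rw [dvd_div_mul hkK (hdiv q hq.1), ← pow_add] at h5
        exact h5
      have h5 := Ws_dv_add_nd W (A * k ^ K) k (nearS k A (K + 1) S)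
      have h6 : Ws W S ≤ 2 * Ws W (dv (A * k ^ K) k (nearS k A (K + 1) S)) := by nlinarith
      refine H.hbr k c (A * k ^ K) B _ _ _ hk hp hB2 wlo whi (by nlinarith) (by nlinarith) ?_
        (hrec _ _ _ _ ?_) (hrec _ _ _ _ ?_)
      · intro q hq h
        rw [dvd_div_mul hkK (hdiv q hq), ← pow_add] at h
        exact (mem_nearS.1 hq).2.1 h
      · exact (hB2.mono (dv_sub _ _ _) (le_refl _)).present hk fun q hq => (mem_dv.1 hq).2
      · exact (hB2.mono (nd_sub _ _ _) (le_refl _)).missing hk fun q hq => (mem_nd.1 hq).2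
  · have h7 : c * Ws W (farS k A K S) ≤ 2 * P.sg k * (c * Ws W S) := by
      have := mul_le_mul_of_nonneg_left hfar (by linarith : (0:ℝ) ≤ c)
      nlinarith
    have h8 : 2 * P.sg k * (c * Ws W S) ≤ 2 * P.sg k * P.hi k :=
      mul_le_mul_of_nonneg_left hhi (by linarith)
    linarith [hP.far k hk hp]

theorem nonempty_of_Ws_pos {W : ℕ → ℝ} {S : Finset ℕ} (h : 0 < Ws W S) : S.Nonempty := by
  rw [Finset.nonempty_iff_ne_empty]
  rintro rfl
  simp [Ws] at h

open Classical in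
theorem chain_ind (hW : ∀ q, 0 ≤ W q) (hP : P.Good) (H : IndH P W M) {k : ℕ} (hk : k.Prime)
    {rec : ℝ → ℕ → Finset ℕ → IT}
    (hrec : ∀ c A B S, Bk S ⟨k, c, A, B⟩ → M ⟨k, c, A, B⟩ S (rec c A S)) :
    ∀ (f : ℕ) (c : ℝ) (A B : ℕ) (S : Finset ℕ), S.card < f → Bk S ⟨k + 1, c, A, B⟩ →
      M ⟨k + 1, c, A, B⟩ S (chain P W k rec f c A S) := by
  intro f
  induction f with
  | zero => intro c A B S h; exact absurd h (Nat.not_lt_zero _)
  | succ f ih =>
    intro c A B S hf hB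
    rw [chain]
    have hA : ∀ q ∈ S, 0 < q / A := fun q hq =>
      Nat.div_pos (Nat.le_of_dvd (hB.pos q hq) (hB.dvd q hq)) hB.Apos
    split_ifs with h1 h2
    · exact H.hleaf k c A B S hk hB h1
    · set j := Nat.find h2 with hj
      have hcut : Cut P W k A S j := Nat.find_spec h2
      have hmin : Ws W (nd A (k ^ (j - 1)) S) ≤ P.sg k * Ws W S := by
        rcases Nat.eq_zero_or_pos (j - 1) with h0 | h0
        · rw [h0, pow_zero, nd_one]
          simpa [Ws] using mul_nonneg (hP.sg0 k) (Ws_nonneg hW S)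
        · have h3 : ¬ Cut P W k A S (j - 1) := by
            refine Nat.find_min h2 ?_
            rw [← hj]; have := hcut.1; omega
          by_contra h4
          push Not at h4
          refine h3 ⟨h0, hcut.2.1.trans_le (Ws_mono hW fun q hq => ?_), h4⟩
          rw [mem_dv] at hq ⊢
          exact ⟨hq.1, (pow_dvd_pow k (Nat.sub_le _ _)).trans hq.2⟩
      have hp : P.p0 < k := by
        unfold Clo at h1; push Not at h1; exact h1.1
      have hs := mul_nonneg (hP.sg0 k) (Ws_nonneg hW S)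
      have hne1 : (dv A (k ^ j) S).Nonempty := nonempty_of_Ws_pos (hs.trans_lt hcut.2.1)
      have hne0 : (nd A (k ^ j) S).Nonempty := nonempty_of_Ws_pos (hs.trans_lt hcut.2.2)
      have hcard : (dv A (k ^ j) S).card + (nd A (k ^ j) S).card = S.card := by
        rw [← Finset.card_union_of_disjoint (disj_dv_nd A (k ^ j) S), dv_union_nd]
      have hc1 := Finset.card_pos.2 hne1
      have hc0 := Finset.card_pos.2 hne0
      have hB1 : Bk (dv A (k ^ j) S) ⟨k + 1, c, A, B⟩ := hB.mono (dv_sub _ _ _) (le_refl _)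
      have hd1 : ∀ q ∈ dv A (k ^ j) S, k ^ j ∣ q / A := fun q hq => (mem_dv.1 hq).2
      refine H.hadd k c A B S j _ _ hk hB h1 hcut hmin ?_ ?_
      · refine H.plk hk hp ?_ j A hB1 hd1 (ih c (A * k ^ j) B _ (by omega) (hB1.pull hk hd1))
        have h3 : c * Ws W S ≤ P.hi k := by unfold Clo at h1; push Not at h1; exact h1.2.2
        exact (mul_le_mul_of_nonneg_left (Ws_mono hW (dv_sub _ _ _))
          (zero_le_one.trans hB.one_le_c)).trans h3
      · exact ih c A B _ (by omega) (hB.mono (nd_sub _ _ _) (le_refl _))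
    · have hdom := dom_spec hW hk.two_le hA (hP.sg0 k) h2
      obtain ⟨hM, hf1, hf2⟩ := fin_ind hW hP H hk hrec hB h1 (dom P W k A S) hdom.1 hdom.2
      have hM' : M ⟨k + 1, c, A, B⟩ (nearS k A (dom P W k A S) S)
          (fin1 P W k rec c A (dom P W k A S) (nearS k A (dom P W k A S) S)) := by
        unfold fin1
        split_ifs with h5
        · exact H.hleaf k c A B _ hk (hB.mono (nearS_sub _ _ _ _) (le_refl _)) h5
        · exact hM h5
      unfold farw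
      by_cases h3 : farS k A (dom P W k A S) S = ∅
      · rw [if_pos h3]
        have h4 : nearS k A (dom P W k A S) S = S := by
          have := far_union_near k A (dom P W k A S) S
          rw [h3, Finset.empty_union] at this
          exact this
        rw [h4] at hM' ⊢
        exact hM'
      · rw [if_neg h3]
        refine H.hfar k c A B S _ _ hk hB h1 hdom.1 hdom.2 hf1 hf2 ?_ hM'
        exact H.hleaf k c A B _ hk (hB.mono (farS_sub _ _ _ _) (le_refl _)) (Or.inr (Or.inl hf2))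

/-- **induction principle for the builder** -/
theorem bld_ind (hW : ∀ q, 0 ≤ W q) (hP : P.Good) (H : IndH P W M) :
    ∀ (n : ℕ) (c : ℝ) (A B : ℕ) (S : Finset ℕ), Bk S ⟨n, c, A, B⟩ →
      M ⟨n, c, A, B⟩ S (bld P W n c A S) := by
  intro n
  induction n with
  | zero => intro c A B S hB; exact H.h0 c A B S hB
  | succ k ih =>
    intro c A B S hB
    rw [bld]
    split_ifs with hk
    · exact chain_ind hW hP H hk ih (S.card + 1) c A B S (Nat.lt_succ_self _) hB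
    · exact H.hskip k c A B S _ hk hB (ih c A B S (hB.mono (fun _ h => h) (Nat.le_succ k)))

end

end Crest.Agent.R4P.Bld532
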