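import Crest.Agent.R4P.Phi542

/-!
R4 (S0004), POWERS: **the UPPER comparison of the masses** (helper820): with `w = q / pp t q`,
`prf t q * φ(w)/w ≤ 2 φ(q)/q` as soon as the pulled primes without a present tie are few:
they are SEP primes or missing ties of `q` (`PlOk`, a property of the builder), and pruning bounds
`∑ 1/p` over both.
-/

set_option autoImplicit false

namespace Crest.Agent.R4P.PhiU820

open Crest.Agent.R4P.Cnt588 Crest.Agent.R4P.Item758 Crest.Agent.R4P.Bld532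
open Crest.Agent.R4P.BldF542 Crest.Agent.R4P.Phi542

/-- product over a union -/
lemma prod_union_ge {s t : Finset ℕ} (hs : ∀ p ∈ s, p.Prime) (ht : ∀ p ∈ t, p.Prime) :
    (∏ p ∈ s, (1 - 1 / (p : ℝ))) * ∏ p ∈ t, (1 - 1 / (p : ℝ)) ≤
      ∏ p ∈ s ∪ t, (1 - 1 / (p : ℝ)) := by
  rw [← Finset.prod_union_inter]
  have h1 : 0 ≤ ∏ p ∈ s ∪ t, (1 - 1 / (p : ℝ)) := Finset.prod_nonneg fun p hp => by
    rcases Finset.mem_union.1 hp with h | h
    · exact (fac_bounds (hs p h)).1.le
    · exact (fac_bounds (ht p h)).1.le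
  exact mul_le_of_le_one_right h1 (Finset.prod_le_one
    (fun p hp => (fac_bounds (hs p (Finset.mem_inter.1 hp).1)).1.le)
    fun p hp => (fac_bounds (hs p (Finset.mem_inter.1 hp).1)).2)

/-- **`φ(q)/q` against the tree, upper comparison** -/
theorem phi_ge (t : IT) {n : ℕ} (hO : t.Ok n) (hF : Fit 1 1 t) {q : ℕ} (hq : q ∈ t.items)
    {V : Finset ℕ} (hVp : ∀ p ∈ V, p.Prime)
    (hV : ∀ p : ℕ, p.Prime → p ∣ pp t q → p ∉ tp t q → p ∈ V) :
    (∏ p ∈ V, (1 - 1 / (p : ℝ))) *
      (prf t q * (((q / pp t q).totient : ℝ) / ((q / pp t q : ℕ) : ℝ))) ≤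
      (q.totient : ℝ) / q := by
  classical
  obtain ⟨q0, hd, -⟩ := pp_dvd t 1 1 hF q hq
  rw [one_mul] at hd
  have hw0 : 0 < q / pp t q := Nat.div_pos (Nat.le_of_dvd q0 hd) (Nat.pos_of_dvd_of_pos hd q0)
  set w := q / pp t q with hw
  have e : pp t q * w = q := Nat.mul_div_cancel' hd
  rw [phi_prod q0, phi_prod hw0, prf_eq_prod t n hO q]
  set T := tp t q with hT
  have hTp : ∀ p ∈ T, p.Prime := fun p hp => (tp_lt t n hO q p hp).1
  have hWp : ∀ p ∈ w.primeFactors, p.Prime := fun p hp => Nat.prime_of_mem_primeFactors hp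
  have hTW : ∀ p ∈ T ∪ w.primeFactors, p.Prime := fun p hp => by
    rcases Finset.mem_union.1 hp with h | h
    · exact hTp p h
    · exact hWp p h
  have hsub : q.primeFactors ⊆ V ∪ (T ∪ w.primeFactors) := by
    intro p hp
    have hpp := Nat.prime_of_mem_primeFactors hp
    have hpd := Nat.dvd_of_mem_primeFactors hp
    rw [← e] at hpd
    rw [Finset.mem_union, Finset.mem_union]
    rcases (Nat.Prime.dvd_mul hpp).1 hpd with h | h
    · by_cases hpT : p ∈ T
      · exact Or.inr (Or.inl hpT)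
      · exact Or.inl (hV p hpp h hpT)
    · exact Or.inr (Or.inr (Nat.mem_primeFactors.2 ⟨hpp, h, hw0.ne'⟩))
  have h1 := prod_mono_sub hsub fun p hp => by
    rcases Finset.mem_union.1 hp with h | h
    · exact hVp p h
    · exact hTW p h
  have h2 := prod_union_ge hVp hTW
  have h3 := prod_union_ge hTp hWp
  have h4 : 0 ≤ ∏ p ∈ V, (1 - 1 / (p : ℝ)) :=
    Finset.prod_nonneg fun p hp => (fac_bounds (hVp p hp)).1.le
  exact (mul_le_mul_of_nonneg_left h3 h4).trans (h2.trans h1)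

/-- the next tie below a chain of pulls at `p` is a tie at `p` -/
def Nxt (p : ℕ) : IT → Prop
  | .leaf _ => False
  | .br r _ _ _ => r = p
  | .add _ _ _ => False
  | .up _ _ _ => False
  | .pl r t => r = p ∧ Nxt p t
  | .far _ _ _ => False

/-- every pull at `p` is below a SEP node (or a tie) at `p`, or is part of the chain of pulls directly
above a tie at `p` (`Z` = SEP columns and ties above) -/
def PlOk : Finset ℕ → IT → Prop
  | _, .leaf _ => True
  | Z, .br p _ t₁ t₀ => PlOk (insert p Z) t₁ ∧ PlOk (insert p Z) t₀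
  | Z, .add b t₁ t₀ => PlOk (insert b Z) t₁ ∧ PlOk (insert b Z) t₀
  | Z, .up _ _ t => PlOk Z t
  | Z, .pl p t => (p ∈ Z ∨ Nxt p t) ∧ PlOk Z t
  | Z, .far _ t₁ t₀ => PlOk Z t₁ ∧ PlOk Z t₀

lemma nxt_mem {p : ℕ} : ∀ (t : IT), Nxt p t → ∀ q, p ∈ tp t q ∨ p ∈ t.mt q := by
  intro t
  induction t with
  | leaf S => intro h; exact h.elim
  | br r Sp t₁ t₀ _ _ =>
    intro h q
    have h' : r = p := h
    subst h'
    simp only [tp, IT.mt]
    split_ifs
    · exact Or.inr (Finset.mem_insert_self _ _)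
    · exact Or.inl (Finset.mem_insert_self _ _)
  | add b t₁ t₀ _ _ => intro h; exact h.elim
  | up b Sp t _ => intro h; exact h.elim
  | pl r t ih => intro h q; exact ih h.2 q
  | far b t₁ t₀ _ _ => intro h; exact h.elim

/-- **the pulled primes are present ties, missing ties or SEP primes of the item** -/
theorem pp_mem : ∀ (t : IT) (n : ℕ) (Z : Finset ℕ), t.Ok n → PlOk Z t → ∀ (q p : ℕ), p.Prime →
    p ∣ pp t q → p ∈ Z ∨ p ∈ tp t q ∨ p ∈ t.mt q ∨ p ∈ t.sp q := by
  intro t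
  induction t with
  | leaf S =>
    intro n Z _ _ q p hp hd
    exact absurd (Nat.dvd_one.1 hd) hp.one_lt.ne'
  | br r Sp t₁ t₀ ih1 ih0 =>
    intro n Z hO hP q p hp hd
    obtain ⟨h1, h2, h3, h3', h4, h5⟩ := hO
    obtain ⟨P1, P0⟩ := hP
    by_cases hq : q ∈ t₀.items
    · have e : pp (.br r Sp t₁ t₀) q = pp t₀ q := if_pos hq
      rw [e] at hd
      simp only [tp, IT.mt, IT.sp, if_pos hq]
      rcases ih0 _ _ h5 P0 q p hp hd with h | h | h | h
      · rcases Finset.mem_insert.1 h with rfl | h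
        · exact Or.inr (Or.inr (Or.inl (Finset.mem_insert_self _ _)))
        · exact Or.inl h
      · exact Or.inr (Or.inl h)
      · exact Or.inr (Or.inr (Or.inl (Finset.mem_insert_of_mem h)))
      · exact Or.inr (Or.inr (Or.inr h))
    · have e : pp (.br r Sp t₁ t₀) q = r * pp t₁ q := if_neg hq
      rw [e] at hd
      simp only [tp, IT.mt, IT.sp, if_neg hq]
      rcases (Nat.Prime.dvd_mul hp).1 hd with hd | hd
      · rw [(Nat.prime_dvd_prime_iff_eq hp h1).1 hd]
        exact Or.inr (Or.inl (Finset.mem_insert_self _ _))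
      · rcases ih1 _ _ h4 P1 q p hp hd with h | h | h | h
        · rcases Finset.mem_insert.1 h with rfl | h
          · exact Or.inr (Or.inl (Finset.mem_insert_self _ _))
          · exact Or.inl h
        · exact Or.inr (Or.inl (Finset.mem_insert_of_mem h))
        · exact Or.inr (Or.inr (Or.inl h))
        · exact Or.inr (Or.inr (Or.inr h))
  | add b t₁ t₀ ih1 ih0 =>
    intro n Z hO hP q p hp hd
    obtain ⟨h1, h2, h3, h4, h5⟩ := hO
    obtain ⟨P1, P0⟩ := hP
    by_cases hq : q ∈ t₀.items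
    · have e : pp (.add b t₁ t₀) q = pp t₀ q := if_pos hq
      rw [e] at hd
      simp only [tp, IT.mt, IT.sp, if_pos hq]
      rcases ih0 _ _ h5 P0 q p hp hd with h | h | h | h
      · rcases Finset.mem_insert.1 h with rfl | h
        · exact Or.inr (Or.inr (Or.inr (Finset.mem_insert_self _ _)))
        · exact Or.inl h
      · exact Or.inr (Or.inl h)
      · exact Or.inr (Or.inr (Or.inl h))
      · exact Or.inr (Or.inr (Or.inr (Finset.mem_insert_of_mem h)))
    · have e : pp (.add b t₁ t₀) q = pp t₁ q := if_neg hq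
      rw [e] at hd
      simp only [tp, IT.mt, IT.sp, if_neg hq]
      rcases ih1 _ _ h4 P1 q p hp hd with h | h | h | h
      · rcases Finset.mem_insert.1 h with rfl | h
        · exact Or.inr (Or.inr (Or.inr (Finset.mem_insert_self _ _)))
        · exact Or.inl h
      · exact Or.inr (Or.inl h)
      · exact Or.inr (Or.inr (Or.inl h))
      · exact Or.inr (Or.inr (Or.inr (Finset.mem_insert_of_mem h)))
  | up b Sp t ih =>
    intro n Z hO hP q p hp hd
    exact ih _ _ hO.2.2.2 hP q p hp hd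
  | pl r t ih =>
    intro n Z hO hP q p hp hd
    obtain ⟨h1, h2, h4⟩ := hO
    obtain ⟨P1, P2⟩ := hP
    have e : pp (.pl r t) q = r * pp t q := rfl
    rw [e] at hd
    show p ∈ Z ∨ p ∈ tp t q ∨ p ∈ t.mt q ∨ p ∈ t.sp q
    rcases (Nat.Prime.dvd_mul hp).1 hd with hd | hd
    · have hpr := (Nat.prime_dvd_prime_iff_eq hp h1).1 hd
      subst hpr
      rcases P1 with h | h
      · exact Or.inl h
      · rcases nxt_mem t h q with h | h
        · exact Or.inr (Or.inl h)
        · exact Or.inr (Or.inr (Or.inl h))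
    · exact ih _ _ h4 P2 q p hp hd
  | far b t₁ t₀ ih1 ih0 =>
    intro n Z hO hP q p hp hd
    obtain ⟨h1, h2, h3, h4, h5⟩ := hO
    obtain ⟨P1, P0⟩ := hP
    by_cases hq : q ∈ t₀.items
    · have e : pp (.far b t₁ t₀) q = pp t₀ q := if_pos hq
      rw [e] at hd
      simp only [tp, IT.mt, IT.sp, if_pos hq]
      exact ih0 _ _ h5 P0 q p hp hd
    · have e : pp (.far b t₁ t₀) q = pp t₁ q := if_neg hq
      rw [e] at hd
      simp only [tp, IT.mt, IT.sp, if_neg hq]
      exact ih1 _ _ h4 P1 q p hp hd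

/-- the SEP primes of an item are primes -/
theorem sp_prime : ∀ (t : IT) (n : ℕ), t.Ok n → ∀ q, ∀ p ∈ t.sp q, p.Prime := by
  intro t
  induction t with
  | leaf S => intro n _ q p hp; simp [IT.sp] at hp
  | br r Sp t₁ t₀ ih1 ih0 =>
    intro n h q p hp
    obtain ⟨h1, h2, h3, h3', h4, h5⟩ := h
    simp only [IT.sp] at hp
    split_ifs at hp with hq
    · exact ih0 _ h5 q p hp
    · exact ih1 _ h4 q p hp
  | add b t₁ t₀ ih1 ih0 =>
    intro n h q p hp
    obtain ⟨h1, h2, h3, h4, h5⟩ := h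
    simp only [IT.sp] at hp
    rcases Finset.mem_insert.1 hp with rfl | hp
    · exact h1
    · split_ifs at hp with hq
      · exact ih0 _ h5 q p hp
      · exact ih1 _ h4 q p hp
  | up b Sp t ih =>
    intro n h q p hp
    exact ih _ h.2.2.2 q p hp
  | pl r t ih =>
    intro n h q p hp
    exact ih _ h.2.2 q p hp
  | far b t₁ t₀ ih1 ih0 =>
    intro n h q p hp
    obtain ⟨h1, h2, h3, h4, h5⟩ := h
    simp only [IT.sp] at hp
    split_ifs at hp with hq
    · exact ih0 _ h5 q p hp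
    · exact ih1 _ h4 q p hp

/-- **the form used at the leaves** -/
theorem phi_ge_two (t : IT) {n : ℕ} (hO : t.Ok n) (hF : Fit 1 1 t) (hP : PlOk ∅ t) {q : ℕ}
    (hq : q ∈ t.items) (hs : ∑ p ∈ t.mt q ∪ t.sp q, 1 / (p : ℝ) ≤ 1 / 2) :
    prf t q * (((q / pp t q).totient : ℝ) / ((q / pp t q : ℕ) : ℝ)) ≤
      2 * ((q.totient : ℝ) / q) := by
  classical
  have hVp : ∀ p ∈ t.mt q ∪ t.sp q, p.Prime := fun p hp => by
    rcases Finset.mem_union.1 hp with h | h
    · exact (mt_lt t n hO q p h).1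
    · exact sp_prime t n hO q p h
  have h1 := phi_ge t hO hF hq hVp fun p hp hd hn => by
    rcases pp_mem t n ∅ hO hP q p hp hd with h | h | h | h
    · exact absurd h (Finset.notMem_empty p)
    · exact absurd h hn
    · exact Finset.mem_union_left _ h
    · exact Finset.mem_union_right _ h
  have h2 := one_sub_sum_le hVp
  have h3 : (0 : ℝ) ≤ prf t q * (((q / pp t q).totient : ℝ) / ((q / pp t q : ℕ) : ℝ)) :=
    mul_nonneg (prf_pos t n hO q).1.le (by positivity)
  nlinarith [mul_le_mul_of_nonneg_right (show (1 : ℝ) / 2 ≤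
    ∏ p ∈ t.mt q ∪ t.sp q, (1 - 1 / (p : ℝ)) by linarith) h3]

/-- at a leaf: `u.c = B / prf` -/
theorem leaf_mass (t : IT) {n : ℕ} (hO : t.Ok n) (hF : Fit 1 1 t) (hP : PlOk ∅ t) {q : ℕ}
    (hq : q ∈ t.items) (hs : ∑ p ∈ t.mt q ∪ t.sp q, 1 / (p : ℝ) ≤ 1 / 2) {u : NS}
    (hu : lst t ⟨n, 1, 1, 1⟩ q = u) :
    (u.B : ℝ) * (((q / u.A).totient : ℝ) / ((q / u.A : ℕ) : ℝ)) ≤
      2 * (u.c * ((q.totient : ℝ) / q)) := by
  have h1 := phi_ge_two t hO hF hP hq hs
  have hA : u.A = pp t q := by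
    rw [← hu, lst_A]; simp
  have hB : u.B = mp t q := by
    rw [← hu, lst_Bmp]; simp
  have hc : u.c * prf t q = mp t q := by
    have := lst_c t n hO ⟨n, 1, 1, 1⟩ q
    rw [hu] at this
    simpa using this
  obtain ⟨hp0, hp1⟩ := prf_pos t n hO q
  have hc0 : 0 ≤ u.c := by
    have h2 : 0 ≤ u.c * prf t q := by rw [hc]; positivity
    exact nonneg_of_mul_nonneg_left h2 hp0
  rw [hA, hB, ← hc, mul_assoc]
  calc u.c * (prf t q * (((q / pp t q).totient : ℝ) / ((q / pp t q : ℕ) : ℝ)))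
      ≤ u.c * (2 * ((q.totient : ℝ) / q)) := mul_le_mul_of_nonneg_left h1 hc0
    _ = _ := by ring

end Crest.Agent.R4P.PhiU820
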