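import Crest.Agent.R4P.PruneB153
import Crest.Agent.R4P.PhiU820

/-!
R4 (S0004), powers pass: obligations of the builder: `UqN` (542), `PlOk` (820).
-/

set_option autoImplicit false

namespace Crest.Agent.R4P.Bld532

open Crest.Agent.R4P.Cnt588 Crest.Agent.R4P.Phi542 Crest.Agent.R4P.PhiU820

theorem UqN_of_NodeOk {P : Par} {W : ℕ → ℝ} {s : NS} {t : IT} (h : NodeOk P W s t) : UqN s t := by
  cases t with
  | br p Sp t₁ t₀ =>
    obtain ⟨h1, h2, _, _, h5, h3, h4, h6, _⟩ := h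
    intro q hq hd
    rw [h3] at hq
    rw [h6, mem_dv]
    refine ⟨(mem_dv.1 hq).1, ?_⟩
    rw [dvd_div_mul h1.pos (mem_dv.1 hq).2, ← pow_two] at hd
    exact hd
  | leaf S => trivial
  | add b t₁ t₀ => trivial
  | up b Sp t => trivial
  | pl b t => trivial
  | far b t₁ t₀ => trivial

theorem All_UqN {P : Par} {W : ℕ → ℝ} {s : NS} {t : IT} (h : All (NodeOk P W) s t) :
    All UqN s t := h.mono fun _ _ => UqN_of_NodeOk

theorem plk_PlOk {k : ℕ} {Z : Finset ℕ} {t : IT} (hk : k ∈ Z) (h : PlOk Z t) :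
    ∀ j, PlOk Z (plk k j t)
  | 0 => h
  | j + 1 => ⟨Or.inl hk, plk_PlOk hk h j⟩

theorem Nxt_plk {k : ℕ} {Sp : Finset ℕ} {t₁ t₀ : IT} : ∀ j, Nxt k (plk k j (.br k Sp t₁ t₀))
  | 0 => rfl
  | j + 1 => ⟨rfl, Nxt_plk j⟩

theorem plk_br_PlOk {k : ℕ} {Z : Finset ℕ} {Sp : Finset ℕ} {t₁ t₀ : IT}
    (h : PlOk Z (.br k Sp t₁ t₀)) : ∀ j, PlOk Z (plk k j (.br k Sp t₁ t₀))
  | 0 => h
  | j + 1 => ⟨Or.inr (Nxt_plk j), plk_br_PlOk h j⟩

open Classical in
theorem chain_PlOk (P : Par) (W : ℕ → ℝ) (k : ℕ) (rec : ℝ → ℕ → Finset ℕ → IT)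
    (hrec : ∀ c A S Z, PlOk Z (rec c A S)) :
    ∀ (f : ℕ) (c : ℝ) (A : ℕ) (S Z : Finset ℕ), PlOk Z (chain P W k rec f c A S) := by
  intro f
  induction f with
  | zero => intro c A S Z; trivial
  | succ f ih =>
    intro c A S Z
    rw [chain]
    split_ifs with h1 h2
    · trivial
    · exact ⟨plk_PlOk (Finset.mem_insert_self _ _) (ih _ _ _ _) _, ih _ _ _ _⟩
    · have hfin : ∀ K S', PlOk Z (fin1 P W k rec c A K S') := by
        intro K S'
        unfold fin1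
        split_ifs
        · trivial
        · cases K with
          | zero => exact hrec _ _ _ _
          | succ K => exact plk_br_PlOk (Z := Z) ⟨hrec _ _ _ _, hrec _ _ _ _⟩ K
      unfold farw
      split_ifs
      · exact hfin _ _
      · exact ⟨trivial, hfin _ _⟩

theorem bld_PlOk (P : Par) (W : ℕ → ℝ) : ∀ (n : ℕ) (c : ℝ) (A : ℕ) (S Z : Finset ℕ),
    PlOk Z (bld P W n c A S) := by
  intro n
  induction n with
  | zero => intro c A S Z; trivial
  | succ k ih =>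
    intro c A S Z
    rw [bld]
    split_ifs
    · exact chain_PlOk P W k _ ih _ _ _ _ _
    · exact ih _ _ _ _

end Crest.Agent.R4P.Bld532
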