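import Crest.Agent.R4P.Item758b

/-!
R4 (S0004), POWERS: tree lemmas without a builder (port of the builder-free half of
`R4/BldFit532`): the leaf of an item and the products of its present / missing ties.
-/

set_option autoImplicit false

namespace Crest.Agent.R4P.BldF542

open Crest.Agent.R4P.Cnt588 Crest.Agent.R4P.Item758 Crest.Agent.R4P.Bld532

/-- the missing ties are below `n` -/
theorem mt_lt : ∀ (t : IT) (n : ℕ), t.Ok n → ∀ q, ∀ p ∈ t.mt q, p.Prime ∧ p < n := by
  intro t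
  induction t with
  | leaf S => intro n _ q p hp; simp [IT.mt] at hp
  | br r Sp t₁ t₀ ih1 ih0 =>
    intro n h q p hp
    obtain ⟨h1, h2, h3, h3', h4, h5⟩ := h
    simp only [IT.mt] at hp
    split_ifs at hp with hq
    · rcases Finset.mem_insert.1 hp with rfl | hp
      · exact ⟨h1, h2⟩
      · exact ⟨(ih0 r h5 q p hp).1, (ih0 r h5 q p hp).2.trans h2⟩
    · exact ⟨(ih1 r h4 q p hp).1, (ih1 r h4 q p hp).2.trans h2⟩
  | add b t₁ t₀ ih1 ih0 =>
    intro n h q p hp
    obtain ⟨h1, h2, h3, h4, h5⟩ := h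
    simp only [IT.mt] at hp
    split_ifs at hp with hq
    · have := ih0 _ h5 q p hp
      exact ⟨this.1, by omega⟩
    · have := ih1 _ h4 q p hp
      exact ⟨this.1, by omega⟩
  | up b Sp t ih =>
    intro n h q p hp
    obtain ⟨h1, h2, h3, h4⟩ := h
    simp only [IT.mt] at hp
    have := ih _ h4 q p hp
    exact ⟨this.1, by omega⟩
  | pl r t ih =>
    intro n h q p hp
    obtain ⟨h1, h2, h4⟩ := h
    simp only [IT.mt] at hp
    have := ih _ h4 q p hp
    exact ⟨this.1, by omega⟩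
  | far b t₁ t₀ ih1 ih0 =>
    intro n h q p hp
    obtain ⟨h1, h2, h3, h4, h5⟩ := h
    simp only [IT.mt] at hp
    split_ifs at hp with hq
    · have := ih0 _ h5 q p hp
      exact ⟨this.1, by omega⟩
    · have := ih1 _ h4 q p hp
      exact ⟨this.1, by omega⟩

/-- `B` of the leaf of `q` is the product of the missing ties of `q` -/
theorem lst_B : ∀ (t : IT) (n : ℕ), t.Ok n → ∀ (s : NS) (q : ℕ),
    (lst t s q).B = s.B * ∏ p ∈ t.mt q, p := by
  intro t
  induction t with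
  | leaf S => intro n _ s q; simp [lst, IT.mt]
  | br r Sp t₁ t₀ ih1 ih0 =>
    intro n h s q
    obtain ⟨h1, h2, h3, h3', h4, h5⟩ := h
    simp only [lst, IT.mt]
    split_ifs with hq
    · rw [ih0 _ h5, Finset.prod_insert]
      · ring
      · intro hm; exact lt_irrefl r (mt_lt t₀ r h5 q r hm).2
    · rw [ih1 _ h4]
  | add b t₁ t₀ ih1 ih0 =>
    intro n h s q
    obtain ⟨h1, h2, h3, h4, h5⟩ := h
    simp only [lst, IT.mt]
    split_ifs with hq
    · rw [ih0 _ h5]
    · rw [ih1 _ h4]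
  | up b Sp t ih =>
    intro n h s q
    obtain ⟨h1, h2, h3, h4⟩ := h
    simp only [lst, IT.mt]
    rw [ih _ h4]
  | pl p t ih =>
    intro n h s q
    obtain ⟨h1, h2, h4⟩ := h
    simp only [lst, IT.mt]
    rw [ih _ h4]
  | far b t₁ t₀ ih1 ih0 =>
    intro n h s q
    obtain ⟨h1, h2, h3, h4, h5⟩ := h
    simp only [lst, IT.mt]
    split_ifs with hq
    · rw [ih0 _ h5]
    · rw [ih1 _ h4]

/-- the leaf of `q`: product of the present ties and pulls -/
theorem lst_A : ∀ (t : IT) (s : NS) (q : ℕ), (lst t s q).A = s.A * pp t q := by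
  intro t
  induction t with
  | leaf S => intro s q; simp [lst, pp]
  | br r Sp t₁ t₀ ih1 ih0 =>
    intro s q
    simp only [lst, pp]
    split_ifs with hq
    · rw [ih0]
    · rw [ih1]; ring
  | add b t₁ t₀ ih1 ih0 =>
    intro s q
    simp only [lst, pp]
    split_ifs with hq
    · rw [ih0]
    · rw [ih1]
  | up b Sp t ih => intro s q; simp only [lst, pp]; rw [ih]
  | pl p t ih => intro s q; simp only [lst, pp]; rw [ih]; ring
  | far b t₁ t₀ ih1 ih0 =>
    intro s q
    simp only [lst, pp]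
    split_ifs with hq
    · rw [ih0]
    · rw [ih1]

/-- the leaf of `q`: product of the missing ties -/
theorem lst_Bmp : ∀ (t : IT) (s : NS) (q : ℕ), (lst t s q).B = s.B * mp t q := by
  intro t
  induction t with
  | leaf S => intro s q; simp [lst, mp]
  | br r Sp t₁ t₀ ih1 ih0 =>
    intro s q
    simp only [lst, mp]
    split_ifs with hq
    · rw [ih0]; ring
    · rw [ih1]
  | add b t₁ t₀ ih1 ih0 =>
    intro s q
    simp only [lst, mp]
    split_ifs with hq
    · rw [ih0]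
    · rw [ih1]
  | up b Sp t ih => intro s q; simp only [lst, mp]; rw [ih]
  | pl p t ih => intro s q; simp only [lst, mp]; rw [ih]
  | far b t₁ t₀ ih1 ih0 =>
    intro s q
    simp only [lst, mp]
    split_ifs with hq
    · rw [ih0]
    · rw [ih1]

/-- `mp = ∏ mt` -/
theorem mp_eq_prod : ∀ (t : IT) (n : ℕ), t.Ok n → ∀ q, mp t q = ∏ p ∈ t.mt q, p := by
  intro t n h q
  have h1 := lst_B t n h ⟨0, 0, 0, 1⟩ q
  have h2 := lst_Bmp t ⟨0, 0, 0, 1⟩ q
  rw [h2] at h1
  simpa using h1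

/-- factor of the leaf of `q` -/
theorem lst_c : ∀ (t : IT) (n : ℕ), t.Ok n → ∀ (s : NS) (q : ℕ),
    (lst t s q).c * prf t q = s.c * mp t q := by
  intro t
  induction t with
  | leaf S => intro n _ s q; simp [lst, mp, prf]
  | br r Sp t₁ t₀ ih1 ih0 =>
    intro n h s q
    obtain ⟨h1, h2, h3, h3', h4, h5⟩ := h
    simp only [lst, mp, prf]
    split_ifs with hq
    · rw [ih0 _ h5]; push_cast; ring
    · have hr : (1 : ℝ) < r := by exact_mod_cast h1.one_lt
      have hw : (1 - 1 / (r : ℝ)) ≠ 0 := by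
        have : 1 / (r : ℝ) < 1 := by rw [div_lt_one (by linarith)]; exact hr
        linarith
      have h6 := ih1 r h4 ⟨r, s.c / (1 - 1 / (r : ℝ)), s.A * r, s.B⟩ q
      calc (lst t₁ ⟨r, s.c / (1 - 1 / (r : ℝ)), s.A * r, s.B⟩ q).c * ((1 - 1 / (r : ℝ)) * prf t₁ q)
          = (1 - 1 / (r : ℝ)) * ((lst t₁ ⟨r, s.c / (1 - 1 / (r : ℝ)), s.A * r, s.B⟩ q).c *
            prf t₁ q) := by ring
        _ = (1 - 1 / (r : ℝ)) * (s.c / (1 - 1 / (r : ℝ)) * mp t₁ q) := by rw [h6]
        _ = s.c * mp t₁ q := by rw [← mul_assoc, mul_div_cancel₀ _ hw]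
  | add b t₁ t₀ ih1 ih0 =>
    intro n h s q
    obtain ⟨h1, h2, h3, h4, h5⟩ := h
    simp only [lst, mp, prf]
    split_ifs with hq
    · rw [ih0 _ h5]
    · rw [ih1 _ h4]
  | up b Sp t ih =>
    intro n h s q
    obtain ⟨h1, h2, h3, h4⟩ := h
    simp only [lst, mp, prf]
    rw [ih _ h4]
  | pl p t ih =>
    intro n h s q
    obtain ⟨h1, h2, h4⟩ := h
    simp only [lst, mp, prf]
    rw [ih _ h4]
  | far b t₁ t₀ ih1 ih0 =>
    intro n h s q
    obtain ⟨h1, h2, h3, h4, h5⟩ := h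
    simp only [lst, mp, prf]
    split_ifs with hq
    · rw [ih0 _ h5]
    · rw [ih1 _ h4]

theorem prf_pos : ∀ (t : IT) (n : ℕ), t.Ok n → ∀ q, 0 < prf t q ∧ prf t q ≤ 1 := by
  intro t
  induction t with
  | leaf S => intro n _ q; simp [prf]
  | br r Sp t₁ t₀ ih1 ih0 =>
    intro n h q
    obtain ⟨h1, h2, h3, h3', h4, h5⟩ := h
    simp only [prf]
    split_ifs with hq
    · exact ih0 _ h5 q
    · have hr : (1 : ℝ) < r := by exact_mod_cast h1.one_lt
      have hw : 0 < (1 - 1 / (r : ℝ)) := by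
        have : 1 / (r : ℝ) < 1 := by rw [div_lt_one (by linarith)]; exact hr
        linarith
      have hw1 : (1 - 1 / (r : ℝ)) ≤ 1 := by
        have : 0 ≤ 1 / (r : ℝ) := by positivity
        linarith
      have h6 := ih1 _ h4 q
      exact ⟨mul_pos hw h6.1, mul_le_one₀ hw1 h6.1.le h6.2⟩
  | add b t₁ t₀ ih1 ih0 =>
    intro n h q
    obtain ⟨h1, h2, h3, h4, h5⟩ := h
    simp only [prf]
    split_ifs with hq
    · exact ih0 _ h5 q
    · exact ih1 _ h4 q
  | up b Sp t ih =>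
    intro n h q
    obtain ⟨h1, h2, h3, h4⟩ := h
    simp only [prf]
    exact ih _ h4 q
  | pl p t ih =>
    intro n h q
    obtain ⟨h1, h2, h4⟩ := h
    simp only [prf]
    exact ih _ h4 q
  | far b t₁ t₀ ih1 ih0 =>
    intro n h q
    obtain ⟨h1, h2, h3, h4, h5⟩ := h
    simp only [prf]
    split_ifs with hq
    · exact ih0 _ h5 q
    · exact ih1 _ h4 q

/-- `pp t q ∣ q`, and `q / pp t q` is prime to `mp t q` (root of a `Fit` tree) -/
theorem pp_dvd (t : IT) : ∀ b pr : ℕ, Fit b pr t → ∀ q ∈ t.items,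
    0 < q ∧ pr * pp t q ∣ q ∧ Nat.Coprime (q / (pr * pp t q)) (b * mp t q) := by
  induction t with
  | leaf S =>
    intro b pr hF q hq
    obtain ⟨a1, a2, a3⟩ := hF q hq
    show 0 < q ∧ pr * 1 ∣ q ∧ Nat.Coprime (q / (pr * 1)) (b * 1)
    rw [mul_one, mul_one]
    exact ⟨a1, a2, a3⟩
  | br p Sp t₁ t₀ ih₁ ih₀ =>
    intro b pr hF q hq
    obtain ⟨hp, hpb, hd, h1, h0⟩ := hF
    by_cases hq0 : q ∈ t₀.items
    · have e : pp (.br p Sp t₁ t₀) q = pp t₀ q := if_pos hq0
      have e' : mp (.br p Sp t₁ t₀) q = p * mp t₀ q := if_pos hq0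
      rw [e, e', ← mul_assoc]
      exact ih₀ _ _ h0 q hq0
    · have hq1 : q ∈ t₁.items := (Finset.mem_union.1 hq).resolve_right hq0
      have e : pp (.br p Sp t₁ t₀) q = p * pp t₁ q := if_neg hq0
      have e' : mp (.br p Sp t₁ t₀) q = mp t₁ q := if_neg hq0
      rw [e, e', ← mul_assoc]
      exact ih₁ _ _ h1 q hq1
  | add p t₁ t₀ ih₁ ih₀ =>
    intro b pr hF q hq
    obtain ⟨hd, h1, h0⟩ := hF
    by_cases hq0 : q ∈ t₀.items
    · have e : pp (.add p t₁ t₀) q = pp t₀ q := if_pos hq0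
      have e' : mp (.add p t₁ t₀) q = mp t₀ q := if_pos hq0
      rw [e, e']
      exact ih₀ _ _ h0 q hq0
    · have hq1 : q ∈ t₁.items := (Finset.mem_union.1 hq).resolve_right hq0
      have e : pp (.add p t₁ t₀) q = pp t₁ q := if_neg hq0
      have e' : mp (.add p t₁ t₀) q = mp t₁ q := if_neg hq0
      rw [e, e']
      exact ih₁ _ _ h1 q hq1
  | up p Sp t ih => intro b pr hF q hq; exact ih b pr hF q hq
  | pl p t ih =>
    intro b pr hF q hq
    have e : pp (.pl p t) q = p * pp t q := rfl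
    have e' : mp (.pl p t) q = mp t q := rfl
    rw [e, e', ← mul_assoc]
    exact ih _ _ hF.2.2 q hq
  | far p t₁ t₀ ih₁ ih₀ =>
    intro b pr hF q hq
    obtain ⟨hd, h1, h0⟩ := hF
    by_cases hq0 : q ∈ t₀.items
    · have e : pp (.far p t₁ t₀) q = pp t₀ q := if_pos hq0
      have e' : mp (.far p t₁ t₀) q = mp t₀ q := if_pos hq0
      rw [e, e']
      exact ih₀ _ _ h0 q hq0
    · have hq1 : q ∈ t₁.items := (Finset.mem_union.1 hq).resolve_right hq0
      have e : pp (.far p t₁ t₀) q = pp t₁ q := if_neg hq0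
      have e' : mp (.far p t₁ t₀) q = mp t₁ q := if_neg hq0
      rw [e, e']
      exact ih₁ _ _ h1 q hq1

end Crest.Agent.R4P.BldF542
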