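import Crest.Agent.R4P.StepDef588
import Crest.Agent.R4.StepCut588
import Crest.Agent.Lib.Mertens

/-!
R4 (S0004), module C/E, **T9'**, block (B) (helper95, statement helper588 #14697): the cut of an item
tree below the level `y`, along an item. Port to the tree with powers (helper504).

* `U_cut` : pointwise comparison with the subtree.
* `mem_subt`, `Fit_subt`, `Wts_subt`, `Ok_subt`, `pp_cut`, `mp_cut`, `prf_cut`, `subt_same`, ...
* `mpc_eq`, `mpc_le` : product of the missing ties `≥ y`.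
* `prfc_ge`, `prfc_mertens` : Mertens bound.
-/

set_option autoImplicit false
set_option linter.unusedSectionVars false
set_option linter.unusedVariables false
open MeasureTheory Filter

namespace Crest.Agent.R4P.Step588

open Crest.Agent.R4.Tour104 Crest.Agent.R4.Tour758 Crest.Agent.R4.Avg758 Crest.Agent.R4.Clos758
open Crest.Agent.R4.ClosL758 Crest.Agent.R4.ClosG758 Crest.Agent.R4.Lam368
open Crest.Agent.R4.Piece464 Crest.Agent.R4.Fam464 Crest.Agent.R4P.Cnt588 Crest.Agent.R4P.Item758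

/-! ### disjoint children -/

/-- the children of all nodes are disjoint -/
def Dj : IT → Prop
  | .leaf _ => True
  | .br _ _ t₁ t₀ => Disjoint t₁.items t₀.items ∧ Dj t₁ ∧ Dj t₀
  | .add _ t₁ t₀ => Disjoint t₁.items t₀.items ∧ Dj t₁ ∧ Dj t₀
  | .up _ _ t => Dj t
  | .pl _ t => Dj t
  | .far _ t₁ t₀ => Disjoint t₁.items t₀.items ∧ Dj t₁ ∧ Dj t₀

lemma Fit_dj {t : IT} : ∀ {b pr : ℕ}, Fit b pr t → Dj t := by
  induction t with
  | leaf S => intro b pr h; trivial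
  | br p Sp t₁ t₀ ih₁ ih₀ => intro b pr h; exact ⟨h.2.2.1, ih₁ h.2.2.2.1, ih₀ h.2.2.2.2⟩
  | add p t₁ t₀ ih₁ ih₀ => intro b pr h; exact ⟨h.1, ih₁ h.2.1, ih₀ h.2.2⟩
  | up p Sp t ih => intro b pr h; exact ih h
  | pl p t ih => intro b pr h; exact ih h.2.2
  | far p t₁ t₀ ih₁ ih₀ => intro b pr h; exact ⟨h.1, ih₁ h.2.1, ih₀ h.2.2⟩

lemma Ok_dj {t : IT} : ∀ {n : ℕ}, t.Ok n → Dj t := by
  induction t with
  | leaf S => intro n h; trivial
  | br p Sp t₁ t₀ ih₁ ih₀ => intro n h; exact ⟨h.2.2.1, ih₁ h.2.2.2.2.1, ih₀ h.2.2.2.2.2⟩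
  | add p t₁ t₀ ih₁ ih₀ => intro n h; exact ⟨h.2.2.1, ih₁ h.2.2.2.1, ih₀ h.2.2.2.2⟩
  | up p Sp t ih => intro n h; exact ih h.2.2.2
  | pl p t ih => intro n h; exact ih h.2.2
  | far p t₁ t₀ ih₁ ih₀ => intro n h; exact ⟨h.2.2.1, ih₁ h.2.2.2.1, ih₀ h.2.2.2.2⟩

/-! ### computation rules -/

section rules
variable {y p : ℕ} {t₁ t₀ t : IT} {Sp : Finset ℕ} {q : ℕ}

lemma subt_br_lt (h : p < y) : subt y (.br p Sp t₁ t₀) q = .br p Sp t₁ t₀ := if_pos h
lemma subt_br0 (h : ¬ p < y) (hq : q ∈ t₀.items) : subt y (.br p Sp t₁ t₀) q = subt y t₀ q :=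
  (if_neg h).trans (if_pos hq)
lemma subt_br1 (h : ¬ p < y) (hq : q ∉ t₀.items) : subt y (.br p Sp t₁ t₀) q = subt y t₁ q :=
  (if_neg h).trans (if_neg hq)
lemma subt_add_lt (h : p < y) : subt y (.add p t₁ t₀) q = .add p t₁ t₀ := if_pos h
lemma subt_far_lt (h : p < y) : subt y (.far p t₁ t₀) q = .far p t₁ t₀ := if_pos h
lemma subt_add0 (h : ¬ p < y) (hq : q ∈ t₀.items) : subt y (.add p t₁ t₀) q = subt y t₀ q :=
  (if_neg h).trans (if_pos hq)
lemma subt_far0 (h : ¬ p < y) (hq : q ∈ t₀.items) : subt y (.far p t₁ t₀) q = subt y t₀ q :=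
  (if_neg h).trans (if_pos hq)
lemma subt_add1 (h : ¬ p < y) (hq : q ∉ t₀.items) : subt y (.add p t₁ t₀) q = subt y t₁ q :=
  (if_neg h).trans (if_neg hq)
lemma subt_far1 (h : ¬ p < y) (hq : q ∉ t₀.items) : subt y (.far p t₁ t₀) q = subt y t₁ q :=
  (if_neg h).trans (if_neg hq)
lemma subt_up_lt (h : p < y) : subt y (.up p Sp t) q = .up p Sp t := if_pos h
lemma subt_pl_lt (h : p < y) : subt y (.pl p t) q = .pl p t := if_pos h
lemma subt_up (h : ¬ p < y) : subt y (.up p Sp t) q = subt y t q := if_neg h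

lemma subt_pl (h : ¬ p < y) : subt y (.pl p t) q = subt y t q := if_neg h

lemma mpc_br_lt (h : p < y) : mpc y (.br p Sp t₁ t₀) q = 1 := if_pos h
lemma mpc_br0 (h : ¬ p < y) (hq : q ∈ t₀.items) : mpc y (.br p Sp t₁ t₀) q = p * mpc y t₀ q :=
  (if_neg h).trans (if_pos hq)
lemma mpc_br1 (h : ¬ p < y) (hq : q ∉ t₀.items) : mpc y (.br p Sp t₁ t₀) q = mpc y t₁ q :=
  (if_neg h).trans (if_neg hq)
lemma mpc_add_lt (h : p < y) : mpc y (.add p t₁ t₀) q = 1 := if_pos h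
lemma mpc_far_lt (h : p < y) : mpc y (.far p t₁ t₀) q = 1 := if_pos h
lemma mpc_add0 (h : ¬ p < y) (hq : q ∈ t₀.items) : mpc y (.add p t₁ t₀) q = mpc y t₀ q :=
  (if_neg h).trans (if_pos hq)
lemma mpc_far0 (h : ¬ p < y) (hq : q ∈ t₀.items) : mpc y (.far p t₁ t₀) q = mpc y t₀ q :=
  (if_neg h).trans (if_pos hq)
lemma mpc_add1 (h : ¬ p < y) (hq : q ∉ t₀.items) : mpc y (.add p t₁ t₀) q = mpc y t₁ q :=
  (if_neg h).trans (if_neg hq)
lemma mpc_far1 (h : ¬ p < y) (hq : q ∉ t₀.items) : mpc y (.far p t₁ t₀) q = mpc y t₁ q :=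
  (if_neg h).trans (if_neg hq)
lemma mpc_up_lt (h : p < y) : mpc y (.up p Sp t) q = 1 := if_pos h
lemma mpc_pl_lt (h : p < y) : mpc y (.pl p t) q = 1 := if_pos h
lemma mpc_up (h : ¬ p < y) : mpc y (.up p Sp t) q = mpc y t q := if_neg h

lemma mpc_pl (h : ¬ p < y) : mpc y (.pl p t) q = mpc y t q := if_neg h

lemma ppc_br_lt (h : p < y) : ppc y (.br p Sp t₁ t₀) q = 1 := if_pos h
lemma ppc_br0 (h : ¬ p < y) (hq : q ∈ t₀.items) : ppc y (.br p Sp t₁ t₀) q = ppc y t₀ q :=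
  (if_neg h).trans (if_pos hq)
lemma ppc_br1 (h : ¬ p < y) (hq : q ∉ t₀.items) : ppc y (.br p Sp t₁ t₀) q = p * ppc y t₁ q :=
  (if_neg h).trans (if_neg hq)
lemma ppc_add_lt (h : p < y) : ppc y (.add p t₁ t₀) q = 1 := if_pos h
lemma ppc_far_lt (h : p < y) : ppc y (.far p t₁ t₀) q = 1 := if_pos h
lemma ppc_add0 (h : ¬ p < y) (hq : q ∈ t₀.items) : ppc y (.add p t₁ t₀) q = ppc y t₀ q :=
  (if_neg h).trans (if_pos hq)
lemma ppc_far0 (h : ¬ p < y) (hq : q ∈ t₀.items) : ppc y (.far p t₁ t₀) q = ppc y t₀ q :=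
  (if_neg h).trans (if_pos hq)
lemma ppc_add1 (h : ¬ p < y) (hq : q ∉ t₀.items) : ppc y (.add p t₁ t₀) q = ppc y t₁ q :=
  (if_neg h).trans (if_neg hq)
lemma ppc_far1 (h : ¬ p < y) (hq : q ∉ t₀.items) : ppc y (.far p t₁ t₀) q = ppc y t₁ q :=
  (if_neg h).trans (if_neg hq)
lemma ppc_up_lt (h : p < y) : ppc y (.up p Sp t) q = 1 := if_pos h
lemma ppc_pl_lt (h : p < y) : ppc y (.pl p t) q = 1 := if_pos h
lemma ppc_up (h : ¬ p < y) : ppc y (.up p Sp t) q = ppc y t q := if_neg h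

lemma ppc_pl (h : ¬ p < y) : ppc y (.pl p t) q = p * ppc y t q := if_neg h

lemma prfc_br_lt (h : p < y) : prfc y (.br p Sp t₁ t₀) q = 1 := if_pos h
lemma prfc_br0 (h : ¬ p < y) (hq : q ∈ t₀.items) : prfc y (.br p Sp t₁ t₀) q = prfc y t₀ q :=
  (if_neg h).trans (if_pos hq)
lemma prfc_br1 (h : ¬ p < y) (hq : q ∉ t₀.items) :
    prfc y (.br p Sp t₁ t₀) q = (1 - 1 / (p : ℝ)) * prfc y t₁ q :=
  (if_neg h).trans (if_neg hq)
lemma prfc_add_lt (h : p < y) : prfc y (.add p t₁ t₀) q = 1 := if_pos h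
lemma prfc_far_lt (h : p < y) : prfc y (.far p t₁ t₀) q = 1 := if_pos h
lemma prfc_add0 (h : ¬ p < y) (hq : q ∈ t₀.items) : prfc y (.add p t₁ t₀) q = prfc y t₀ q :=
  (if_neg h).trans (if_pos hq)
lemma prfc_far0 (h : ¬ p < y) (hq : q ∈ t₀.items) : prfc y (.far p t₁ t₀) q = prfc y t₀ q :=
  (if_neg h).trans (if_pos hq)
lemma prfc_add1 (h : ¬ p < y) (hq : q ∉ t₀.items) : prfc y (.add p t₁ t₀) q = prfc y t₁ q :=
  (if_neg h).trans (if_neg hq)
lemma prfc_far1 (h : ¬ p < y) (hq : q ∉ t₀.items) : prfc y (.far p t₁ t₀) q = prfc y t₁ q :=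
  (if_neg h).trans (if_neg hq)
lemma prfc_up_lt (h : p < y) : prfc y (.up p Sp t) q = 1 := if_pos h
lemma prfc_pl_lt (h : p < y) : prfc y (.pl p t) q = 1 := if_pos h
lemma prfc_up (h : ¬ p < y) : prfc y (.up p Sp t) q = prfc y t q := if_neg h

lemma prfc_pl (h : ¬ p < y) : prfc y (.pl p t) q = prfc y t q := if_neg h

end rules

/-! ### the subtree -/

lemma subt_items (y : ℕ) (t : IT) (q : ℕ) : (subt y t q).items ⊆ t.items := by
  induction t with
  | leaf S => exact Finset.Subset.refl _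
  | br p Sp t₁ t₀ ih₁ ih₀ =>
    by_cases hp : p < y
    · rw [subt_br_lt hp]
    · by_cases hq : q ∈ t₀.items
      · rw [subt_br0 hp hq]; exact ih₀.trans Finset.subset_union_right
      · rw [subt_br1 hp hq]; exact ih₁.trans Finset.subset_union_left
  | add p t₁ t₀ ih₁ ih₀ =>
    by_cases hp : p < y
    · rw [subt_add_lt hp]
    · by_cases hq : q ∈ t₀.items
      · rw [subt_add0 hp hq]; exact ih₀.trans Finset.subset_union_right
      · rw [subt_add1 hp hq]; exact ih₁.trans Finset.subset_union_left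
  | up p Sp t ih =>
    by_cases hp : p < y
    · rw [subt_up_lt hp]
    · rw [subt_up hp]; exact ih
  | pl p t ih =>
    by_cases hp : p < y
    · rw [subt_pl_lt hp]
    · rw [subt_pl hp]; exact ih
  | far p t₁ t₀ ih₁ ih₀ =>
    by_cases hp : p < y
    · rw [subt_far_lt hp]
    · by_cases hq : q ∈ t₀.items
      · rw [subt_far0 hp hq]; exact ih₀.trans Finset.subset_union_right
      · rw [subt_far1 hp hq]; exact ih₁.trans Finset.subset_union_left

lemma mem_subt (y : ℕ) (t : IT) {q : ℕ} (h : q ∈ t.items) : q ∈ (subt y t q).items := by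
  induction t with
  | leaf S => exact h
  | br p Sp t₁ t₀ ih₁ ih₀ =>
    by_cases hp : p < y
    · rw [subt_br_lt hp]; exact h
    · by_cases hq : q ∈ t₀.items
      · rw [subt_br0 hp hq]; exact ih₀ hq
      · rw [subt_br1 hp hq]; exact ih₁ ((Finset.mem_union.1 h).resolve_right hq)
  | add p t₁ t₀ ih₁ ih₀ =>
    by_cases hp : p < y
    · rw [subt_add_lt hp]; exact h
    · by_cases hq : q ∈ t₀.items
      · rw [subt_add0 hp hq]; exact ih₀ hq
      · rw [subt_add1 hp hq]; exact ih₁ ((Finset.mem_union.1 h).resolve_right hq)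
  | up p Sp t ih =>
    by_cases hp : p < y
    · rw [subt_up_lt hp]; exact h
    · rw [subt_up hp]; exact ih h
  | pl p t ih =>
    by_cases hp : p < y
    · rw [subt_pl_lt hp]; exact h
    · rw [subt_pl hp]; exact ih h
  | far p t₁ t₀ ih₁ ih₀ =>
    by_cases hp : p < y
    · rw [subt_far_lt hp]; exact h
    · by_cases hq : q ∈ t₀.items
      · rw [subt_far0 hp hq]; exact ih₀ hq
      · rw [subt_far1 hp hq]; exact ih₁ ((Finset.mem_union.1 h).resolve_right hq)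

lemma Fit_subt (y : ℕ) (t : IT) (q : ℕ) : ∀ {b pr : ℕ}, Fit b pr t →
    Fit (b * mpc y t q) (pr * ppc y t q) (subt y t q) := by
  induction t with
  | leaf S =>
    intro b pr h
    show Fit (b * 1) (pr * 1) (.leaf S)
    rw [mul_one, mul_one]; exact h
  | br p Sp t₁ t₀ ih₁ ih₀ =>
    intro b pr h
    by_cases hp : p < y
    · rw [subt_br_lt hp, mpc_br_lt hp, ppc_br_lt hp, mul_one, mul_one]; exact h
    · by_cases hq : q ∈ t₀.items
      · rw [subt_br0 hp hq, mpc_br0 hp hq, ppc_br0 hp hq, ← mul_assoc]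
        exact ih₀ h.2.2.2.2
      · rw [subt_br1 hp hq, mpc_br1 hp hq, ppc_br1 hp hq, ← mul_assoc]
        exact ih₁ h.2.2.2.1
  | add p t₁ t₀ ih₁ ih₀ =>
    intro b pr h
    by_cases hp : p < y
    · rw [subt_add_lt hp, mpc_add_lt hp, ppc_add_lt hp, mul_one, mul_one]; exact h
    · by_cases hq : q ∈ t₀.items
      · rw [subt_add0 hp hq, mpc_add0 hp hq, ppc_add0 hp hq]
        exact ih₀ h.2.2
      · rw [subt_add1 hp hq, mpc_add1 hp hq, ppc_add1 hp hq]
        exact ih₁ h.2.1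
  | up p Sp t ih =>
    intro b pr h
    by_cases hp : p < y
    · rw [subt_up_lt hp, mpc_up_lt hp, ppc_up_lt hp, mul_one, mul_one]; exact h
    · rw [subt_up hp, mpc_up hp, ppc_up hp]; exact ih h
  | pl p t ih =>
    intro b pr h
    by_cases hp : p < y
    · rw [subt_pl_lt hp, mpc_pl_lt hp, ppc_pl_lt hp, mul_one, mul_one]; exact h
    · rw [subt_pl hp, mpc_pl hp, ppc_pl hp, ← mul_assoc]; exact ih h.2.2
  | far p t₁ t₀ ih₁ ih₀ =>
    intro b pr h
    by_cases hp : p < y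
    · rw [subt_far_lt hp, mpc_far_lt hp, ppc_far_lt hp, mul_one, mul_one]; exact h
    · by_cases hq : q ∈ t₀.items
      · rw [subt_far0 hp hq, mpc_far0 hp hq, ppc_far0 hp hq]
        exact ih₀ h.2.2
      · rw [subt_far1 hp hq, mpc_far1 hp hq, ppc_far1 hp hq]
        exact ih₁ h.2.1

lemma Ok_subt (y : ℕ) (t : IT) (q : ℕ) : ∀ {n : ℕ}, t.Ok n → y ≤ n → (subt y t q).Ok y := by
  induction t with
  | leaf S => intro n h hy; trivial
  | br p Sp t₁ t₀ ih₁ ih₀ =>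
    intro n h hy
    by_cases hp : p < y
    · rw [subt_br_lt hp]; exact ⟨h.1, hp, h.2.2⟩
    · by_cases hq : q ∈ t₀.items
      · rw [subt_br0 hp hq]; exact ih₀ h.2.2.2.2.2 (not_lt.1 hp)
      · rw [subt_br1 hp hq]; exact ih₁ h.2.2.2.2.1 (not_lt.1 hp)
  | add p t₁ t₀ ih₁ ih₀ =>
    intro n h hy
    by_cases hp : p < y
    · rw [subt_add_lt hp]; exact ⟨h.1, hp, h.2.2⟩
    · by_cases hq : q ∈ t₀.items
      · rw [subt_add0 hp hq]; exact ih₀ h.2.2.2.2 ((not_lt.1 hp).trans (Nat.le_succ p))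
      · rw [subt_add1 hp hq]; exact ih₁ h.2.2.2.1 ((not_lt.1 hp).trans (Nat.le_succ p))
  | up p Sp t ih =>
    intro n h hy
    by_cases hp : p < y
    · rw [subt_up_lt hp]; exact ⟨h.1, hp, h.2.2⟩
    · rw [subt_up hp]; exact ih h.2.2.2 (not_lt.1 hp)
  | pl p t ih =>
    intro n h hy
    by_cases hp : p < y
    · rw [subt_pl_lt hp]; exact ⟨h.1, hp, h.2.2⟩
    · rw [subt_pl hp]; exact ih h.2.2 ((not_lt.1 hp).trans (Nat.le_succ p))
  | far p t₁ t₀ ih₁ ih₀ =>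
    intro n h hy
    by_cases hp : p < y
    · rw [subt_far_lt hp]; exact ⟨h.1, hp, h.2.2⟩
    · by_cases hq : q ∈ t₀.items
      · rw [subt_far0 hp hq]; exact ih₀ h.2.2.2.2 ((not_lt.1 hp).trans (Nat.le_succ p))
      · rw [subt_far1 hp hq]; exact ih₁ h.2.2.2.1 ((not_lt.1 hp).trans (Nat.le_succ p))

lemma Ok_mono {t : IT} {n n' : ℕ} (h : t.Ok n) (hn : n ≤ n') : t.Ok n' := by
  cases t with
  | leaf S => trivial
  | br p Sp t₁ t₀ => exact ⟨h.1, h.2.1.trans_le hn, h.2.2⟩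
  | add p t₁ t₀ => exact ⟨h.1, h.2.1.trans_le hn, h.2.2⟩
  | up p Sp t => exact ⟨h.1, h.2.1.trans_le hn, h.2.2⟩
  | pl p t => exact ⟨h.1, h.2.1.trans_le hn, h.2.2⟩
  | far p t₁ t₀ => exact ⟨h.1, h.2.1.trans_le hn, h.2.2⟩

/-! ### products along the cut -/

lemma pp_cut (y : ℕ) (t : IT) (q : ℕ) : pp t q = ppc y t q * pp (subt y t q) q := by
  induction t with
  | leaf S => show (1 : ℕ) = 1 * 1; rfl
  | br p Sp t₁ t₀ ih₁ ih₀ =>
    by_cases hp : p < y
    · rw [subt_br_lt hp, ppc_br_lt hp, one_mul]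
    · by_cases hq : q ∈ t₀.items
      · rw [subt_br0 hp hq, ppc_br0 hp hq, ← ih₀]; exact if_pos hq
      · rw [subt_br1 hp hq, ppc_br1 hp hq, mul_assoc, ← ih₁]; exact if_neg hq
  | add p t₁ t₀ ih₁ ih₀ =>
    by_cases hp : p < y
    · rw [subt_add_lt hp, ppc_add_lt hp, one_mul]
    · by_cases hq : q ∈ t₀.items
      · rw [subt_add0 hp hq, ppc_add0 hp hq, ← ih₀]; exact if_pos hq
      · rw [subt_add1 hp hq, ppc_add1 hp hq, ← ih₁]; exact if_neg hq
  | up p Sp t ih =>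
    by_cases hp : p < y
    · rw [subt_up_lt hp, ppc_up_lt hp, one_mul]
    · rw [subt_up hp, ppc_up hp, ← ih]; rfl
  | pl p t ih =>
    by_cases hp : p < y
    · rw [subt_pl_lt hp, ppc_pl_lt hp, one_mul]
    · rw [subt_pl hp, ppc_pl hp, mul_assoc, ← ih]; rfl
  | far p t₁ t₀ ih₁ ih₀ =>
    by_cases hp : p < y
    · rw [subt_far_lt hp, ppc_far_lt hp, one_mul]
    · by_cases hq : q ∈ t₀.items
      · rw [subt_far0 hp hq, ppc_far0 hp hq, ← ih₀]; exact if_pos hq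
      · rw [subt_far1 hp hq, ppc_far1 hp hq, ← ih₁]; exact if_neg hq

lemma mp_cut (y : ℕ) (t : IT) (q : ℕ) : mp t q = mpc y t q * mp (subt y t q) q := by
  induction t with
  | leaf S => show (1 : ℕ) = 1 * 1; rfl
  | br p Sp t₁ t₀ ih₁ ih₀ =>
    by_cases hp : p < y
    · rw [subt_br_lt hp, mpc_br_lt hp, one_mul]
    · by_cases hq : q ∈ t₀.items
      · rw [subt_br0 hp hq, mpc_br0 hp hq, mul_assoc, ← ih₀]; exact if_pos hq
      · rw [subt_br1 hp hq, mpc_br1 hp hq, ← ih₁]; exact if_neg hq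
  | add p t₁ t₀ ih₁ ih₀ =>
    by_cases hp : p < y
    · rw [subt_add_lt hp, mpc_add_lt hp, one_mul]
    · by_cases hq : q ∈ t₀.items
      · rw [subt_add0 hp hq, mpc_add0 hp hq, ← ih₀]; exact if_pos hq
      · rw [subt_add1 hp hq, mpc_add1 hp hq, ← ih₁]; exact if_neg hq
  | up p Sp t ih =>
    by_cases hp : p < y
    · rw [subt_up_lt hp, mpc_up_lt hp, one_mul]
    · rw [subt_up hp, mpc_up hp, ← ih]; rfl
  | pl p t ih =>
    by_cases hp : p < y
    · rw [subt_pl_lt hp, mpc_pl_lt hp, one_mul]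
    · rw [subt_pl hp, mpc_pl hp, ← ih]; rfl
  | far p t₁ t₀ ih₁ ih₀ =>
    by_cases hp : p < y
    · rw [subt_far_lt hp, mpc_far_lt hp, one_mul]
    · by_cases hq : q ∈ t₀.items
      · rw [subt_far0 hp hq, mpc_far0 hp hq, ← ih₀]; exact if_pos hq
      · rw [subt_far1 hp hq, mpc_far1 hp hq, ← ih₁]; exact if_neg hq

lemma prf_cut (y : ℕ) (t : IT) (q : ℕ) : prf t q = prfc y t q * prf (subt y t q) q := by
  induction t with
  | leaf S => show (1 : ℝ) = 1 * 1; rw [one_mul]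
  | br p Sp t₁ t₀ ih₁ ih₀ =>
    by_cases hp : p < y
    · rw [subt_br_lt hp, prfc_br_lt hp, one_mul]
    · by_cases hq : q ∈ t₀.items
      · rw [subt_br0 hp hq, prfc_br0 hp hq, ← ih₀]; exact if_pos hq
      · rw [subt_br1 hp hq, prfc_br1 hp hq, mul_assoc, ← ih₁]; exact if_neg hq
  | add p t₁ t₀ ih₁ ih₀ =>
    by_cases hp : p < y
    · rw [subt_add_lt hp, prfc_add_lt hp, one_mul]
    · by_cases hq : q ∈ t₀.items
      · rw [subt_add0 hp hq, prfc_add0 hp hq, ← ih₀]; exact if_pos hq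
      · rw [subt_add1 hp hq, prfc_add1 hp hq, ← ih₁]; exact if_neg hq
  | up p Sp t ih =>
    by_cases hp : p < y
    · rw [subt_up_lt hp, prfc_up_lt hp, one_mul]
    · rw [subt_up hp, prfc_up hp, ← ih]; rfl
  | pl p t ih =>
    by_cases hp : p < y
    · rw [subt_pl_lt hp, prfc_pl_lt hp, one_mul]
    · rw [subt_pl hp, prfc_pl hp, ← ih]; rfl
  | far p t₁ t₀ ih₁ ih₀ =>
    by_cases hp : p < y
    · rw [subt_far_lt hp, prfc_far_lt hp, one_mul]
    · by_cases hq : q ∈ t₀.items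
      · rw [subt_far0 hp hq, prfc_far0 hp hq, ← ih₀]; exact if_pos hq
      · rw [subt_far1 hp hq, prfc_far1 hp hq, ← ih₁]; exact if_neg hq

/-! ### items of the same subtree have the same data -/

lemma subt_same (y : ℕ) (t : IT) (hd : Dj t) {q r : ℕ} (hq : q ∈ t.items)
    (hr : r ∈ (subt y t q).items) :
    subt y t r = subt y t q ∧ mpc y t r = mpc y t q ∧ ppc y t r = ppc y t q ∧
      prfc y t r = prfc y t q := by
  induction t with
  | leaf S => exact ⟨rfl, rfl, rfl, rfl⟩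
  | br p Sp t₁ t₀ ih₁ ih₀ =>
    obtain ⟨h0, hd1, hd0⟩ := hd
    by_cases hp : p < y
    · simp only [subt_br_lt hp, mpc_br_lt hp, ppc_br_lt hp, prfc_br_lt hp, and_self]
    · by_cases hq0 : q ∈ t₀.items
      · rw [subt_br0 hp hq0] at hr
        have hr0 : r ∈ t₀.items := subt_items y t₀ q hr
        obtain ⟨a1, a2, a3, a4⟩ := ih₀ hd0 hq0 hr
        simp only [subt_br0 hp hq0, mpc_br0 hp hq0, ppc_br0 hp hq0, prfc_br0 hp hq0,
          subt_br0 hp hr0, mpc_br0 hp hr0, ppc_br0 hp hr0, prfc_br0 hp hr0, a1, a2, a3, a4, and_self]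
      · have hq1 : q ∈ t₁.items := (Finset.mem_union.1 hq).resolve_right hq0
        rw [subt_br1 hp hq0] at hr
        have hr1 : r ∈ t₁.items := subt_items y t₁ q hr
        have hr0 : r ∉ t₀.items := Finset.disjoint_left.1 h0 hr1
        obtain ⟨a1, a2, a3, a4⟩ := ih₁ hd1 hq1 hr
        simp only [subt_br1 hp hq0, mpc_br1 hp hq0, ppc_br1 hp hq0, prfc_br1 hp hq0,
          subt_br1 hp hr0, mpc_br1 hp hr0, ppc_br1 hp hr0, prfc_br1 hp hr0, a1, a2, a3, a4, and_self]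
  | add p t₁ t₀ ih₁ ih₀ =>
    obtain ⟨h0, hd1, hd0⟩ := hd
    by_cases hp : p < y
    · simp only [subt_add_lt hp, mpc_add_lt hp, ppc_add_lt hp, prfc_add_lt hp, and_self]
    · by_cases hq0 : q ∈ t₀.items
      · rw [subt_add0 hp hq0] at hr
        have hr0 : r ∈ t₀.items := subt_items y t₀ q hr
        obtain ⟨a1, a2, a3, a4⟩ := ih₀ hd0 hq0 hr
        simp only [subt_add0 hp hq0, mpc_add0 hp hq0, ppc_add0 hp hq0, prfc_add0 hp hq0,
          subt_add0 hp hr0, mpc_add0 hp hr0, ppc_add0 hp hr0, prfc_add0 hp hr0, a1, a2, a3, a4,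
          and_self]
      · have hq1 : q ∈ t₁.items := (Finset.mem_union.1 hq).resolve_right hq0
        rw [subt_add1 hp hq0] at hr
        have hr1 : r ∈ t₁.items := subt_items y t₁ q hr
        have hr0 : r ∉ t₀.items := Finset.disjoint_left.1 h0 hr1
        obtain ⟨a1, a2, a3, a4⟩ := ih₁ hd1 hq1 hr
        simp only [subt_add1 hp hq0, mpc_add1 hp hq0, ppc_add1 hp hq0, prfc_add1 hp hq0,
          subt_add1 hp hr0, mpc_add1 hp hr0, ppc_add1 hp hr0, prfc_add1 hp hr0, a1, a2, a3, a4,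
          and_self]
  | up p Sp t ih =>
    by_cases hp : p < y
    · simp only [subt_up_lt hp, mpc_up_lt hp, ppc_up_lt hp, prfc_up_lt hp, and_self]
    · rw [subt_up hp] at hr
      simp only [subt_up hp, mpc_up hp, ppc_up hp, prfc_up hp]
      exact ih hd hq hr
  | pl p t ih =>
    by_cases hp : p < y
    · simp only [subt_pl_lt hp, mpc_pl_lt hp, ppc_pl_lt hp, prfc_pl_lt hp, and_self]
    · rw [subt_pl hp] at hr
      simp only [subt_pl hp, mpc_pl hp, ppc_pl hp, prfc_pl hp]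
      obtain ⟨a1, a2, a3, a4⟩ := ih hd hq hr
      exact ⟨a1, a2, by rw [a3], a4⟩
  | far p t₁ t₀ ih₁ ih₀ =>
    obtain ⟨h0, hd1, hd0⟩ := hd
    by_cases hp : p < y
    · simp only [subt_far_lt hp, mpc_far_lt hp, ppc_far_lt hp, prfc_far_lt hp, and_self]
    · by_cases hq0 : q ∈ t₀.items
      · rw [subt_far0 hp hq0] at hr
        have hr0 : r ∈ t₀.items := subt_items y t₀ q hr
        obtain ⟨a1, a2, a3, a4⟩ := ih₀ hd0 hq0 hr
        simp only [subt_far0 hp hq0, mpc_far0 hp hq0, ppc_far0 hp hq0, prfc_far0 hp hq0,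
          subt_far0 hp hr0, mpc_far0 hp hr0, ppc_far0 hp hr0, prfc_far0 hp hr0, a1, a2, a3, a4,
          and_self]
      · have hq1 : q ∈ t₁.items := (Finset.mem_union.1 hq).resolve_right hq0
        rw [subt_far1 hp hq0] at hr
        have hr1 : r ∈ t₁.items := subt_items y t₁ q hr
        have hr0 : r ∉ t₀.items := Finset.disjoint_left.1 h0 hr1
        obtain ⟨a1, a2, a3, a4⟩ := ih₁ hd1 hq1 hr
        simp only [subt_far1 hp hq0, mpc_far1 hp hq0, ppc_far1 hp hq0, prfc_far1 hp hq0,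
          subt_far1 hp hr0, mpc_far1 hp hr0, ppc_far1 hp hr0, prfc_far1 hp hr0, a1, a2, a3, a4,
          and_self]

section
variable {Λ κ : Type*}

lemma Wts_subt {D : Par Λ κ} (y : ℕ) (t : IT) (q : ℕ) : ∀ {pr : ℕ}, Dj t → D.Wts pr t →
    D.Wts (pr * ppc y t q) (subt y t q) := by
  induction t with
  | leaf S =>
    intro pr hd h
    show D.Wts (pr * 1) (.leaf S)
    rw [mul_one]; exact h
  | br p Sp t₁ t₀ ih₁ ih₀ =>
    intro pr hd h
    obtain ⟨h0, hd1, hd0⟩ := hd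
    by_cases hp : p < y
    · rw [subt_br_lt hp, ppc_br_lt hp, mul_one]; exact h
    · by_cases hq : q ∈ t₀.items
      · rw [subt_br0 hp hq, ppc_br0 hp hq]
        exact ih₀ hd0 h.br₀
      · rw [subt_br1 hp hq, ppc_br1 hp hq, ← mul_assoc]
        exact ih₁ hd1 (h.br₁ h0)
  | add p t₁ t₀ ih₁ ih₀ =>
    intro pr hd h
    obtain ⟨h0, hd1, hd0⟩ := hd
    by_cases hp : p < y
    · rw [subt_add_lt hp, ppc_add_lt hp, mul_one]; exact h
    · by_cases hq : q ∈ t₀.items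
      · rw [subt_add0 hp hq, ppc_add0 hp hq]
        exact ih₀ hd0 h.add₀
      · rw [subt_add1 hp hq, ppc_add1 hp hq]
        exact ih₁ hd1 (h.add₁ h0)
  | up p Sp t ih =>
    intro pr hd h
    by_cases hp : p < y
    · rw [subt_up_lt hp, ppc_up_lt hp, mul_one]; exact h
    · rw [subt_up hp, ppc_up hp]; exact ih hd h
  | pl p t ih =>
    intro pr hd h
    by_cases hp : p < y
    · rw [subt_pl_lt hp, ppc_pl_lt hp, mul_one]; exact h
    · rw [subt_pl hp, ppc_pl hp, ← mul_assoc]; exact ih hd h.pl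
  | far p t₁ t₀ ih₁ ih₀ =>
    intro pr hd h
    obtain ⟨h0, hd1, hd0⟩ := hd
    by_cases hp : p < y
    · rw [subt_far_lt hp, ppc_far_lt hp, mul_one]; exact h
    · by_cases hq : q ∈ t₀.items
      · rw [subt_far0 hp hq, ppc_far0 hp hq]
        exact ih₀ hd0 h.far₀
      · rw [subt_far1 hp hq, ppc_far1 hp hq]
        exact ih₁ hd1 (h.far₁ h0)

variable [Fintype Λ] [DecidableEq κ]

/-- **(B1)**: dropping the columns `≥ y` -/
theorem U_cut (D : Par Λ κ) (y : ℕ) (t : IT) : ∀ b pr c : ℕ, 0 < b → Fit b pr t → D.Wts pr t →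
    c ∣ b → ∀ j, D.it j ∈ t.items → ∀ x, (D.toFT b pr t).U c j x ≤
      (D.toFT (b * mpc y t (D.it j)) (pr * ppc y t (D.it j)) (subt y t (D.it j))).U
        (c * mpc y t (D.it j)) j ((ppc y t (D.it j) : ℕ) * x) := by
  induction t with
  | leaf S =>
    intro b pr c hb hF hW hc j hj x
    show (D.toFT b pr (.leaf S)).U c j x ≤ (D.toFT (b * 1) (pr * 1) (.leaf S)).U (c * 1) j
      ((1 : ℕ) * x)
    rw [mul_one, mul_one, mul_one, Nat.cast_one, one_mul]
  | br p Sp t₁ t₀ ih₁ ih₀ =>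
    intro b pr c hb hF hW hc j hj x
    by_cases hpy : p < y
    · rw [subt_br_lt hpy, mpc_br_lt hpy, ppc_br_lt hpy, mul_one, mul_one, mul_one, Nat.cast_one,
        one_mul]
    have hA : (D.toFT b pr (.br p Sp t₁ t₀)).Adm b := D.toFT_Adm _ b pr hb hF hW
    have hdat := FT.dat hb hA
    obtain ⟨hp, hpb, hd, h1, h0⟩ := hF
    have hbp : 0 < b * p := Nat.mul_pos hb hp.pos
    by_cases hj0 : D.it j ∈ t₀.items
    · have hj1 : D.it j ∉ t₁.items := Finset.disjoint_right.1 hd hj0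
      rw [subt_br0 hpy hj0, mpc_br0 hpy hj0, ppc_br0 hpy hj0, ← mul_assoc, ← mul_assoc]
      show mult p _ _ _ _ _ j (c * x) * (D.toFT b (pr * p) t₁).U c j (p * x) +
        (D.toFT (b * p) pr t₀).U (c * p) j x ≤ _
      rw [D.U_zero t₁ _ _ _ j hj1, mul_zero, zero_add]
      exact ih₀ (b * p) pr (c * p) hbp h0 hW.br₀ (mul_dvd_mul_right hc p) j hj0 x
    · have hj1 : D.it j ∈ t₁.items := (Finset.mem_union.1 hj).resolve_right hj0
      rw [subt_br1 hpy hj0, mpc_br1 hpy hj0, ppc_br1 hpy hj0, ← mul_assoc]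
      show mult p _ _ _ _ _ j (c * x) * (D.toFT b (pr * p) t₁).U c j (p * x) +
        (D.toFT (b * p) pr t₀).U (c * p) j x ≤ _
      rw [D.U_zero t₀ _ _ _ j hj0, add_zero]
      have hU := (FT.pb hb hA.2.2.2.1 hc j).nonneg (p * x)
      have hm := mult_bounds (c := fun _ => D.rho p) (n := 1) hdat j (c * x)
      refine (mul_le_of_le_one_left hU hm.2).trans ?_
      refine (ih₁ b (pr * p) c hb h1 (hW.br₁ hd) hc j hj1 (p * x)).trans (le_of_eq ?_)
      have e : ((ppc y t₁ (D.it j) : ℕ) : ℝ) * ((p : ℝ) * x) =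
          ((p * ppc y t₁ (D.it j) : ℕ) : ℝ) * x := by push_cast; ring
      rw [e]
  | add p t₁ t₀ ih₁ ih₀ =>
    intro b pr c hb hF hW hc j hj x
    by_cases hpy : p < y
    · rw [subt_add_lt hpy, mpc_add_lt hpy, ppc_add_lt hpy, mul_one, mul_one, mul_one, Nat.cast_one,
        one_mul]
    obtain ⟨hd, h1, h0⟩ := hF
    by_cases hj0 : D.it j ∈ t₀.items
    · have hj1 : D.it j ∉ t₁.items := Finset.disjoint_right.1 hd hj0
      rw [subt_add0 hpy hj0, mpc_add0 hpy hj0, ppc_add0 hpy hj0]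
      show (D.toFT b pr t₁).U c j x + (D.toFT b pr t₀).U c j x ≤ _
      rw [D.U_zero t₁ _ _ _ j hj1, zero_add]
      exact ih₀ b pr c hb h0 hW.add₀ hc j hj0 x
    · have hj1 : D.it j ∈ t₁.items := (Finset.mem_union.1 hj).resolve_right hj0
      rw [subt_add1 hpy hj0, mpc_add1 hpy hj0, ppc_add1 hpy hj0]
      show (D.toFT b pr t₁).U c j x + (D.toFT b pr t₀).U c j x ≤ _
      rw [D.U_zero t₀ _ _ _ j hj0, add_zero]
      exact ih₁ b pr c hb h1 (hW.add₁ hd) hc j hj1 x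
  | up p Sp t ih =>
    intro b pr c hb hF hW hc j hj x
    by_cases hpy : p < y
    · rw [subt_up_lt hpy, mpc_up_lt hpy, ppc_up_lt hpy, mul_one, mul_one, mul_one, Nat.cast_one,
        one_mul]
    rw [subt_up hpy, mpc_up hpy, ppc_up hpy]
    exact ih b pr c hb hF hW hc j hj x
  | pl p t ih =>
    intro b pr c hb hF hW hc j hj x
    by_cases hpy : p < y
    · rw [subt_pl_lt hpy, mpc_pl_lt hpy, ppc_pl_lt hpy, mul_one, mul_one, mul_one, Nat.cast_one,
        one_mul]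
    obtain ⟨hp, hpb, h1⟩ := hF
    rw [subt_pl hpy, mpc_pl hpy, ppc_pl hpy, ← mul_assoc]
    show (D.toFT b (pr * p) t).U c j (p * x) ≤ _
    refine (ih b (pr * p) c hb h1 hW.pl hc j hj (p * x)).trans (le_of_eq ?_)
    have e : ((ppc y t (D.it j) : ℕ) : ℝ) * ((p : ℝ) * x) =
        ((p * ppc y t (D.it j) : ℕ) : ℝ) * x := by push_cast; ring
    rw [e]
  | far p t₁ t₀ ih₁ ih₀ =>
    intro b pr c hb hF hW hc j hj x
    by_cases hpy : p < y
    · rw [subt_far_lt hpy, mpc_far_lt hpy, ppc_far_lt hpy, mul_one, mul_one, mul_one, Nat.cast_one,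
        one_mul]
    obtain ⟨hd, h1, h0⟩ := hF
    by_cases hj0 : D.it j ∈ t₀.items
    · have hj1 : D.it j ∉ t₁.items := Finset.disjoint_right.1 hd hj0
      rw [subt_far0 hpy hj0, mpc_far0 hpy hj0, ppc_far0 hpy hj0]
      show (D.toFT b pr t₁).U c j x + (D.toFT b pr t₀).U c j x ≤ _
      rw [D.U_zero t₁ _ _ _ j hj1, zero_add]
      exact ih₀ b pr c hb h0 hW.far₀ hc j hj0 x
    · have hj1 : D.it j ∈ t₁.items := (Finset.mem_union.1 hj).resolve_right hj0
      rw [subt_far1 hpy hj0, mpc_far1 hpy hj0, ppc_far1 hpy hj0]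
      show (D.toFT b pr t₁).U c j x + (D.toFT b pr t₀).U c j x ≤ _
      rw [D.U_zero t₀ _ _ _ j hj0, add_zero]
      exact ih₁ b pr c hb h1 (hW.far₁ hd) hc j hj1 x

end

/-! ### (B3): missing ties -/

lemma mt_prime_lt (t : IT) : ∀ {n : ℕ}, t.Ok n → ∀ {q s : ℕ}, s ∈ t.mt q → s.Prime ∧ s < n := by
  induction t with
  | leaf S => intro n h q s hs; exact absurd hs (Finset.notMem_empty _)
  | br p Sp t₁ t₀ ih₁ ih₀ =>
    intro n h q s hs
    have e : (IT.br p Sp t₁ t₀).mt q = if q ∈ t₀.items then insert p (t₀.mt q) else t₁.mt q := rfl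
    rw [e] at hs
    by_cases hq : q ∈ t₀.items
    · rw [if_pos hq] at hs
      rcases Finset.mem_insert.1 hs with rfl | hs
      · exact ⟨h.1, h.2.1⟩
      · obtain ⟨a, b⟩ := ih₀ h.2.2.2.2.2 hs
        exact ⟨a, b.trans h.2.1⟩
    · rw [if_neg hq] at hs
      obtain ⟨a, b⟩ := ih₁ h.2.2.2.2.1 hs
      exact ⟨a, b.trans h.2.1⟩
  | add p t₁ t₀ ih₁ ih₀ =>
    intro n h q s hs
    have e : (IT.add p t₁ t₀).mt q = if q ∈ t₀.items then t₀.mt q else t₁.mt q := rfl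
    rw [e] at hs
    by_cases hq : q ∈ t₀.items
    · rw [if_pos hq] at hs
      obtain ⟨a, b⟩ := ih₀ h.2.2.2.2 hs
      exact ⟨a, b.trans_le h.2.1⟩
    · rw [if_neg hq] at hs
      obtain ⟨a, b⟩ := ih₁ h.2.2.2.1 hs
      exact ⟨a, b.trans_le h.2.1⟩
  | up p Sp t ih =>
    intro n h q s hs
    obtain ⟨a, b⟩ := ih h.2.2.2 (show s ∈ t.mt q from hs)
    exact ⟨a, b.trans h.2.1⟩
  | pl p t ih =>
    intro n h q s hs
    obtain ⟨a, b⟩ := ih h.2.2 (show s ∈ t.mt q from hs)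
    exact ⟨a, b.trans_le h.2.1⟩
  | far p t₁ t₀ ih₁ ih₀ =>
    intro n h q s hs
    have e : (IT.far p t₁ t₀).mt q = if q ∈ t₀.items then t₀.mt q else t₁.mt q := rfl
    rw [e] at hs
    by_cases hq : q ∈ t₀.items
    · rw [if_pos hq] at hs
      obtain ⟨a, b⟩ := ih₀ h.2.2.2.2 hs
      exact ⟨a, b.trans_le h.2.1⟩
    · rw [if_neg hq] at hs
      obtain ⟨a, b⟩ := ih₁ h.2.2.2.1 hs
      exact ⟨a, b.trans_le h.2.1⟩

lemma mt_filter_empty {t : IT} {n y : ℕ} (h : t.Ok n) (hy : n ≤ y) (q : ℕ) :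
    (t.mt q).filter (y ≤ ·) = ∅ := by
  refine Finset.filter_eq_empty_iff.2 fun s hs hys => ?_
  have := (mt_prime_lt t h hs).2
  omega

/-- `mpc` is the product of the missing ties `≥ y` -/
theorem mpc_eq (y : ℕ) (t : IT) (q : ℕ) : ∀ {n : ℕ}, t.Ok n →
    mpc y t q = ∏ s ∈ (t.mt q).filter (y ≤ ·), s := by
  induction t with
  | leaf S => intro n h; rfl
  | br p Sp t₁ t₀ ih₁ ih₀ =>
    intro n h
    have e : (IT.br p Sp t₁ t₀).mt q = if q ∈ t₀.items then insert p (t₀.mt q) else t₁.mt q := rfl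
    by_cases hp : p < y
    · rw [mpc_br_lt hp]
      have h' : (IT.br p Sp t₁ t₀).Ok y := ⟨h.1, hp, h.2.2⟩
      rw [mt_filter_empty h' le_rfl, Finset.prod_empty]
    · by_cases hq : q ∈ t₀.items
      · rw [mpc_br0 hp hq, e, if_pos hq, Finset.filter_insert, if_pos (not_lt.1 hp),
          Finset.prod_insert, ← ih₀ h.2.2.2.2.2]
        intro hmem
        exact absurd (mt_prime_lt t₀ h.2.2.2.2.2 (Finset.mem_filter.1 hmem).1).2 (lt_irrefl _)
      · rw [mpc_br1 hp hq, e, if_neg hq, ← ih₁ h.2.2.2.2.1]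
  | add p t₁ t₀ ih₁ ih₀ =>
    intro n h
    have e : (IT.add p t₁ t₀).mt q = if q ∈ t₀.items then t₀.mt q else t₁.mt q := rfl
    by_cases hp : p < y
    · rw [mpc_add_lt hp]
      have h' : (IT.add p t₁ t₀).Ok y := ⟨h.1, hp, h.2.2⟩
      rw [mt_filter_empty h' le_rfl, Finset.prod_empty]
    · by_cases hq : q ∈ t₀.items
      · rw [mpc_add0 hp hq, e, if_pos hq, ← ih₀ h.2.2.2.2]
      · rw [mpc_add1 hp hq, e, if_neg hq, ← ih₁ h.2.2.2.1]
  | up p Sp t ih =>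
    intro n h
    by_cases hp : p < y
    · rw [mpc_up_lt hp]
      have h' : (IT.up p Sp t).Ok y := ⟨h.1, hp, h.2.2⟩
      rw [mt_filter_empty h' le_rfl, Finset.prod_empty]
    · rw [mpc_up hp]
      exact ih h.2.2.2
  | pl p t ih =>
    intro n h
    by_cases hp : p < y
    · rw [mpc_pl_lt hp]
      have h' : (IT.pl p t).Ok y := ⟨h.1, hp, h.2.2⟩
      rw [mt_filter_empty h' le_rfl, Finset.prod_empty]
    · rw [mpc_pl hp]
      exact ih h.2.2
  | far p t₁ t₀ ih₁ ih₀ =>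
    intro n h
    have e : (IT.far p t₁ t₀).mt q = if q ∈ t₀.items then t₀.mt q else t₁.mt q := rfl
    by_cases hp : p < y
    · rw [mpc_far_lt hp]
      have h' : (IT.far p t₁ t₀).Ok y := ⟨h.1, hp, h.2.2⟩
      rw [mt_filter_empty h' le_rfl, Finset.prod_empty]
    · by_cases hq : q ∈ t₀.items
      · rw [mpc_far0 hp hq, e, if_pos hq, ← ih₀ h.2.2.2.2]
      · rw [mpc_far1 hp hq, e, if_neg hq, ← ih₁ h.2.2.2.1]

theorem mpc_le (y : ℕ) (t : IT) (q : ℕ) {n : ℕ} (h : t.Ok n) :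
    mpc y t q ≤ ∏ s ∈ (t.mt q).filter (y ≤ ·), s := (mpc_eq y t q h).le

lemma mpc_pos (y : ℕ) (t : IT) (q : ℕ) {n : ℕ} (h : t.Ok n) : 0 < mpc y t q := by
  rw [mpc_eq y t q h]
  exact Finset.prod_pos fun s hs => (mt_prime_lt t h (Finset.mem_filter.1 hs).1).1.pos

lemma ppc_pos (y : ℕ) (t : IT) (q : ℕ) : ∀ {n : ℕ}, t.Ok n → 0 < ppc y t q := by
  induction t with
  | leaf S => intro n h; exact one_pos
  | br p Sp t₁ t₀ ih₁ ih₀ =>
    intro n h
    by_cases hp : p < y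
    · rw [ppc_br_lt hp]; exact one_pos
    · by_cases hq : q ∈ t₀.items
      · rw [ppc_br0 hp hq]; exact ih₀ h.2.2.2.2.2
      · rw [ppc_br1 hp hq]; exact Nat.mul_pos h.1.pos (ih₁ h.2.2.2.2.1)
  | add p t₁ t₀ ih₁ ih₀ =>
    intro n h
    by_cases hp : p < y
    · rw [ppc_add_lt hp]; exact one_pos
    · by_cases hq : q ∈ t₀.items
      · rw [ppc_add0 hp hq]; exact ih₀ h.2.2.2.2
      · rw [ppc_add1 hp hq]; exact ih₁ h.2.2.2.1
  | up p Sp t ih =>
    intro n h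
    by_cases hp : p < y
    · rw [ppc_up_lt hp]; exact one_pos
    · rw [ppc_up hp]; exact ih h.2.2.2
  | pl p t ih =>
    intro n h
    by_cases hp : p < y
    · rw [ppc_pl_lt hp]; exact one_pos
    · rw [ppc_pl hp]; exact Nat.mul_pos h.1.pos (ih h.2.2)
  | far p t₁ t₀ ih₁ ih₀ =>
    intro n h
    by_cases hp : p < y
    · rw [ppc_far_lt hp]; exact one_pos
    · by_cases hq : q ∈ t₀.items
      · rw [ppc_far0 hp hq]; exact ih₀ h.2.2.2.2
      · rw [ppc_far1 hp hq]; exact ih₁ h.2.2.2.1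

/-! ### (B4): present ties, Mertens -/

export Crest.Agent.R4.Step588 (pY mem_pY fac_nonneg fac_le_one pr_anti prod_pY_ge)

theorem prfc_ge (y : ℕ) (t : IT) (q : ℕ) : ∀ {N : ℕ}, t.Ok N →
    ∏ s ∈ pY y N, (1 - 1 / (s : ℝ)) ≤ prfc y t q := by
  have hpY : ∀ N, ∀ s ∈ pY y N, s.Prime := fun N s hs => (mem_pY.1 hs).2
  have hle1 : ∀ N, ∏ s ∈ pY y N, (1 - 1 / (s : ℝ)) ≤ 1 := fun N =>
    Finset.prod_le_one (fun s hs => fac_nonneg (hpY N s hs)) fun s _ => fac_le_one s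
  have hmono : ∀ {p N : ℕ}, p < N → pY y p ⊆ pY y N := by
    intro p N h s hs
    obtain ⟨⟨a, b⟩, c⟩ := mem_pY.1 hs
    exact mem_pY.2 ⟨⟨a, b.trans h⟩, c⟩
  have hmono' : ∀ {p N : ℕ}, p < N → pY y (p + 1) ⊆ pY y N := by
    intro p N h s hs
    obtain ⟨⟨a, b⟩, c⟩ := mem_pY.1 hs
    exact mem_pY.2 ⟨⟨a, b.trans_le h⟩, c⟩
  induction t with
  | leaf S => intro N h; exact hle1 N
  | br p Sp t₁ t₀ ih₁ ih₀ =>
    intro N h
    by_cases hp : p < y
    · rw [prfc_br_lt hp]; exact hle1 N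
    · by_cases hq : q ∈ t₀.items
      · rw [prfc_br0 hp hq]
        exact (pr_anti (hpY N) (hmono h.2.1)).trans (ih₀ h.2.2.2.2.2)
      · rw [prfc_br1 hp hq]
        have h1 : insert p (pY y p) ⊆ pY y N := by
          refine Finset.insert_subset (mem_pY.2 ⟨⟨not_lt.1 hp, h.2.1⟩, h.1⟩) (hmono h.2.1)
        refine (pr_anti (hpY N) h1).trans ?_
        rw [Finset.prod_insert (fun hm => absurd (mem_pY.1 hm).1.2 (lt_irrefl _))]
        exact mul_le_mul_of_nonneg_left (ih₁ h.2.2.2.2.1) (fac_nonneg h.1)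
  | add p t₁ t₀ ih₁ ih₀ =>
    intro N h
    by_cases hp : p < y
    · rw [prfc_add_lt hp]; exact hle1 N
    · by_cases hq : q ∈ t₀.items
      · rw [prfc_add0 hp hq]
        exact (pr_anti (hpY N) (hmono' h.2.1)).trans (ih₀ h.2.2.2.2)
      · rw [prfc_add1 hp hq]
        exact (pr_anti (hpY N) (hmono' h.2.1)).trans (ih₁ h.2.2.2.1)
  | up p Sp t ih =>
    intro N h
    by_cases hp : p < y
    · rw [prfc_up_lt hp]; exact hle1 N
    · rw [prfc_up hp]
      exact (pr_anti (hpY N) (hmono h.2.1)).trans (ih h.2.2.2)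
  | pl p t ih =>
    intro N h
    by_cases hp : p < y
    · rw [prfc_pl_lt hp]; exact hle1 N
    · rw [prfc_pl hp]
      exact (pr_anti (hpY N) (hmono' h.2.1)).trans (ih h.2.2)
  | far p t₁ t₀ ih₁ ih₀ =>
    intro N h
    by_cases hp : p < y
    · rw [prfc_far_lt hp]; exact hle1 N
    · by_cases hq : q ∈ t₀.items
      · rw [prfc_far0 hp hq]
        exact (pr_anti (hpY N) (hmono' h.2.1)).trans (ih₀ h.2.2.2.2)
      · rw [prfc_far1 hp hq]
        exact (pr_anti (hpY N) (hmono' h.2.1)).trans (ih₁ h.2.2.2.1)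

lemma prfc_le_one (y : ℕ) (t : IT) (q : ℕ) : ∀ {N : ℕ}, t.Ok N → 0 ≤ prfc y t q ∧ prfc y t q ≤ 1 := by
  induction t with
  | leaf S => intro N h; exact ⟨zero_le_one, le_refl _⟩
  | br p Sp t₁ t₀ ih₁ ih₀ =>
    intro N h
    by_cases hp : p < y
    · rw [prfc_br_lt hp]; exact ⟨zero_le_one, le_refl _⟩
    · by_cases hq : q ∈ t₀.items
      · rw [prfc_br0 hp hq]; exact ih₀ h.2.2.2.2.2
      · rw [prfc_br1 hp hq]
        obtain ⟨a, b⟩ := ih₁ h.2.2.2.2.1
        exact ⟨mul_nonneg (fac_nonneg h.1) a, mul_le_one₀ (fac_le_one p) a b⟩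
  | add p t₁ t₀ ih₁ ih₀ =>
    intro N h
    by_cases hp : p < y
    · rw [prfc_add_lt hp]; exact ⟨zero_le_one, le_refl _⟩
    · by_cases hq : q ∈ t₀.items
      · rw [prfc_add0 hp hq]; exact ih₀ h.2.2.2.2
      · rw [prfc_add1 hp hq]; exact ih₁ h.2.2.2.1
  | up p Sp t ih =>
    intro N h
    by_cases hp : p < y
    · rw [prfc_up_lt hp]; exact ⟨zero_le_one, le_refl _⟩
    · rw [prfc_up hp]; exact ih h.2.2.2
  | pl p t ih =>
    intro N h
    by_cases hp : p < y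
    · rw [prfc_pl_lt hp]; exact ⟨zero_le_one, le_refl _⟩
    · rw [prfc_pl hp]; exact ih h.2.2
  | far p t₁ t₀ ih₁ ih₀ =>
    intro N h
    by_cases hp : p < y
    · rw [prfc_far_lt hp]; exact ⟨zero_le_one, le_refl _⟩
    · by_cases hq : q ∈ t₀.items
      · rw [prfc_far0 hp hq]; exact ih₀ h.2.2.2.2
      · rw [prfc_far1 hp hq]; exact ih₁ h.2.2.2.1

/-- **(B4)** -/
theorem prfc_mertens : ∃ C : ℝ, 0 < C ∧ ∀ y N : ℕ, 2 ≤ y → y ≤ N → ∀ t : IT, t.Ok N → ∀ q : ℕ,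
    1 ≤ C * (Real.log N / Real.log y) * prfc y t q := by
  refine ⟨2 * Real.exp (22 / Real.log 2), by positivity, fun y N hy hN t ht q => ?_⟩
  have h1 := prod_pY_ge hy hN
  have h2 := prfc_ge y t q ht
  have hyR : (2 : ℝ) ≤ y := by exact_mod_cast hy
  have hNR : (y : ℝ) ≤ N := by exact_mod_cast hN
  have hl2 : 0 < Real.log 2 := Real.log_pos one_lt_two
  have hly : 0 < Real.log y := lt_of_lt_of_le hl2 (Real.log_le_log (by norm_num) hyR)
  have hlN : 0 < Real.log N := lt_of_lt_of_le hly (Real.log_le_log (by linarith) hNR)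
  have h3 := h1.trans h2
  have hpos : 0 ≤ 2 * Real.exp (22 / Real.log 2) * (Real.log N / Real.log y) := by positivity
  have h4 := mul_le_mul_of_nonneg_left h3 hpos
  refine le_trans (le_of_eq ?_) h4
  rw [Real.exp_neg]
  have he : Real.exp (22 / Real.log 2) ≠ 0 := (Real.exp_pos _).ne'
  field_simp

end Crest.Agent.R4P.Step588
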