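import Crest.Agent.R4P.StepCf588

/-!
R4 (S0004), helper588: item sums at good points (`good_const`) and their periods (`per_const`). Port to
the tree with powers (helper504).
-/

set_option autoImplicit false
set_option linter.unusedSectionVars false
open MeasureTheory Filter

namespace Crest.Agent.R4P.Step588

open Crest.Agent.R4.Tour104 Crest.Agent.R4.Tour758 Crest.Agent.R4.Avg758 Crest.Agent.R4.Clos758
open Crest.Agent.R4.ClosL758 Crest.Agent.R4.ClosG758 Crest.Agent.R4.Lam368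
open Crest.Agent.R4.Piece464 Crest.Agent.R4.Fam464 Crest.Agent.R4P.Cnt588 Crest.Agent.R4P.Item758
open Crest.Agent.R4P.W363

section
variable {Λ κ : Type*} [Fintype Λ] [DecidableEq κ] [DecidableEq Λ]

/-- the item sum -/
noncomputable def Fq (D : Par Λ κ) (b pr : ℕ) (t : IT) (c q : ℕ) (x : ℝ) : ℝ :=
  ∑ j ∈ Finset.univ.filter (fun j => D.it j = q), (D.toFT b pr t).U c j x

/-- **weights of alive pieces agree** at points which are not separated by critical points -/
def OmC (D : Par Λ κ) (P : WP) (t : IT) (dm c sn pr B : ℕ) (R : ℕ → ℝ) (rp : ℕ → ℕ) (q : ℕ) :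
    Prop :=
  ∀ x x' : ℝ, (∀ r ∈ t.items, rp r = rp q → ∀ e ∈ crit P dm sn (R r) r,
      ⌊(B : ℝ) * (((r / pr : ℕ) : ℝ) * x - sn * D.γ - e)⌋ =
      ⌊(B : ℝ) * (((r / pr : ℕ) : ℝ) * x' - sn * D.γ - e)⌋) →
    ∀ j k M, D.it j ∈ t.items → rp (D.it j) = rp q → D.it k = D.it j →
      alv D sn pr B x j M → alv D sn pr B x' k M →
      ∀ z : ℤ, z * B = M * ((c * mp t (D.it j) : ℕ) : ℤ) → D.om j z = D.om k z

/-- weights which depend on the item only -/
lemma OmC.of_item {D : Par Λ κ} {P : WP} {t : IT} {dm c sn pr B : ℕ} {R : ℕ → ℝ} {rp : ℕ → ℕ}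
    {q : ℕ} (h : ∀ j k, D.it j = D.it k → D.om j = D.om k) : OmC D P t dm c sn pr B R rp q :=
  fun _ _ _ j k _ _ _ e _ _ z _ => by rw [h j k e.symm]

/-- **two points which are not separated by critical points** -/
theorem good_const {D : Par Λ κ} {P : WP} {stt : ℕ → ℕ → Option ℚ} {rtt : ℕ → ℕ → ℕ}
    {C : Finset ℕ} {dm sn : ℕ} {b pr c B : ℕ} {R : ℕ → ℝ} {t : IT} (hC : Cov D R)
    (hw : Wld D P stt rtt C) (ho : WOk D P stt C t.items dm (B * sn)) (hb : 0 < b)
    (hF : Fit b pr t) (hW : D.Wts pr t) (hbc : b = sn * c) (hB : 0 < B) (hNB : NB B t c)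
    (hfine : ∀ j, (sn : ℝ) * (D.be j - D.al j) * B ≤ 1) (hpr : 0 < pr) (hcols : cols t ⊆ C)
    {rp : ℕ → ℕ} (hrp : ∀ p ∈ cols t, ∀ q ∈ t.items, ∀ r ∈ t.items, rtt p q = rtt p r → rp q = rp r)
    {q : ℕ} (hq : q ∈ t.items) (hom : OmC D P t dm c sn pr B R rp q) {x x' : ℝ}
    (hfl : ∀ r ∈ t.items, rp r = rp q → ∀ e ∈ crit P dm sn (R r) r,
      ⌊(B : ℝ) * (((r / pr : ℕ) : ℝ) * x - sn * D.γ - e)⌋ =
      ⌊(B : ℝ) * (((r / pr : ℕ) : ℝ) * x' - sn * D.γ - e)⌋) :
    Fq D b pr t c q x = Fq D b pr t c q x' := by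
  have hc0 : 0 < c := Nat.pos_of_ne_zero (by rintro rfl; simp at hbc; omega)
  have hsn : 0 < sn := Nat.pos_of_ne_zero (by rintro rfl; simp at hbc; omega)
  have hcR : (0 : ℝ) < c := by exact_mod_cast hc0
  have hs : (sn : ℝ) = (b : ℝ) / c := by
    rw [hbc]; push_cast; field_simp
  have hT : ∀ q ∈ t.items, 0 < q ∧ pr ∣ q := fun q hq => by
    obtain ⟨a1, a2, -⟩ := hF.item q hq
    exact ⟨a1, a2⟩
  unfold Fq
  refine step_const D hC hb hF hW (Dvd.intro_left sn hbc.symm) hs hB hNB hfine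
    (fun j => rp (D.it j) = rp q) (fun j k e h => by rw [← e]; exact h) ?_ ?_ ?_
    (fun j k M h1 h2 h3 h4 h5 z hz => hom x x' hfl j k M h1 h2 h3 h4 h5 z hz)
    (fun j h => by rw [h]) hq
  · intro j hj hjt M
    have hmem1 : -((sn : ℝ) * R (D.it j)) ∈ crit P dm sn (R (D.it j)) (D.it j) := by
      unfold crit; exact Finset.mem_union_left _ (by simp)
    have hmem2 : (sn : ℝ) * R (D.it j) ∈ crit P dm sn (R (D.it j)) (D.it j) := by
      unfold crit; exact Finset.mem_union_left _ (by simp)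
    have c1 := cmp_iff (D := D) (j := j) hB (hfl _ hjt hj _ hmem1) M
    have c2 := cmp_iff (D := D) (j := j) hB (hfl _ hjt hj _ hmem2) M
    have e1 : (sn : ℝ) * -R (D.it j) = -(sn * R (D.it j)) := by ring
    rw [e1, c1, ← not_le, ← not_le, c2]
  · intro p hp j k hj hk e hrel
    have h1 := ((hw.rho p (hcols hp) k j).1 e).2
    show rp (D.it k) = rp q
    rw [hrp p hp _ hk _ hj h1]
    exact hrel
  · intro p hp j k j' k' hj hk hjt hkt ej ek M M' a1 a2 a3 a4
    exact cls_iff hC hw ho hsn hpr hB hT hjt hkt ej ek a1 a2 a3 a4 (hfl _ hjt hj) (hfl _ hkt hk)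
      (hcols hp)

/-- shift by a period -/
lemma same_shift (D : Par Λ κ) {A : Finset Λ} {x x' : ℝ} {pr₀ u : ℕ} {v : ℕ → ℕ} (hu : 0 < u)
    (hx : x' = x + 1 / u) (hv : ∀ j ∈ A, D.it j / pr₀ = u * v (D.it j))
    (hper : ∀ j ∈ A, ∀ a, D.om j (a + v (D.it j)) = D.om j a) {T P : Finset ℕ}
    (hAout : ∀ k, D.it k ∈ T → k ∉ A → ∀ p ∈ P, ∀ j ∈ A, D.rho p k ≠ D.rho p j) (t : IT) :
    ∀ {b pr N : ℕ} {X X' : ℝ}, cols t ⊆ P → t.items ⊆ T → Fit b pr t → 0 < N →
    X * pr₀ = N * pr * x → X' * pr₀ = N * pr * x' → pr₀ ∣ pr →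
    Same D A A id b pr t N X X' := by
  induction t with
  | leaf S =>
    intro b pr N X X' _ hT hF hN hX hX' hpr c hc j hj
    show D.L b pr S c j (X / c) = D.L b pr S c j (X' / c)
    by_cases hk : D.it j ∈ S
    · obtain ⟨a1, a2, a3⟩ := hF _ hk
      obtain ⟨m, rfl⟩ := hc
      have hc0 : 0 < c := Nat.pos_of_ne_zero (by rintro rfl; simp at hN)
      have hm0 : 0 < m := Nat.pos_of_ne_zero (by rintro rfl; simp at hN)
      have hcR : (0 : ℝ) < c := by exact_mod_cast hc0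
      have hmR : (0 : ℝ) < m := by exact_mod_cast hm0
      have hpr0 : 0 < pr := Nat.pos_of_dvd_of_pos a2 a1
      have hpr00 : 0 < pr₀ := Nat.pos_of_dvd_of_pos hpr hpr0
      have hprR : (0 : ℝ) < pr := by exact_mod_cast hpr0
      have hpr0R : (0 : ℝ) < pr₀ := by exact_mod_cast hpr00
      have huR : (0 : ℝ) < u := by exact_mod_cast hu
      have e1 : ((D.it j / pr : ℕ) : ℝ) = (D.it j : ℝ) / pr := Nat.cast_div a2 hprR.ne'
      have e2 : (D.it j : ℝ) / pr₀ = u * v (D.it j) := by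
        have := hv j hj
        have h2 : ((D.it j / pr₀ : ℕ) : ℝ) = (D.it j : ℝ) / pr₀ :=
          Nat.cast_div (hpr.trans a2) hpr0R.ne'
        rw [← h2, this]; push_cast; ring
      have eX : X = (c * m : ℕ) * pr * x / pr₀ := by rw [← hX]; field_simp
      have eX' : X' = (c * m : ℕ) * pr * x' / pr₀ := by rw [← hX']; field_simp
      have hshift : ((D.it j / pr : ℕ) : ℝ) * (X' / c) =
          ((D.it j / pr : ℕ) : ℝ) * (X / c) + ((m * v (D.it j) : ℕ) : ℝ) := by
        have h3 : (D.it j : ℝ) = u * v (D.it j) * pr₀ := by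
          rw [← e2]; field_simp
        rw [e1, eX, eX', hx, h3]
        push_cast
        field_simp
      unfold Par.L
      rw [if_pos hk, if_pos hk]
      unfold Par.pcs pc
      symm
      refine Finset.sum_bij (fun a _ => a - ((m * v (D.it j) : ℕ) : ℤ)) ?_ ?_ ?_ ?_
      · intro a ha
        rw [mem_pw] at ha ⊢
        rw [hshift] at ha
        push_cast at ha ⊢
        constructor <;> linarith [ha.1, ha.2]
      · intro a _ a' _ h; simpa using h
      · intro a ha
        refine ⟨a + ((m * v (D.it j) : ℕ) : ℤ), ?_, by ring⟩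
        rw [mem_pw] at ha ⊢
        rw [hshift]
        push_cast at ha ⊢
        constructor <;> linarith [ha.1, ha.2]
      · intro a _
        -- periodicity of the weight
        have hp1 : ∀ (n : ℕ) (a : ℤ), D.om j (a + n * v (D.it j)) = D.om j a := by
          intro n
          induction n with
          | zero => intro a; simp
          | succ n ih =>
            intro a
            have : a + ((n + 1 : ℕ) : ℤ) * v (D.it j) = (a + n * v (D.it j)) + v (D.it j) := by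
              push_cast; ring
            rw [this, hper j hj, ih]
        have := hp1 (c * m) ((c : ℤ) * (a - ((m * v (D.it j) : ℕ) : ℤ)))
        show D.om j (c * a) = D.om j (c * (a - ((m * v (D.it j) : ℕ) : ℤ)))
        rw [← this]
        congr 1
        push_cast
        ring
    · unfold Par.L
      rw [if_neg hk, if_neg hk]
  | br p Sp t₁ t₀ ih₁ ih₀ =>
    intro b pr N X X' hP hT hF hN hX hX' hpr
    obtain ⟨hp, hpb, hd, h1, h0⟩ := hF
    have hpP : p ∈ P := hP (Finset.mem_insert_self _ _)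
    have hpr1 : pr₀ ∣ pr * p := hpr.trans (Dvd.intro _ rfl)
    have hNp : 0 < N * p := Nat.mul_pos hN hp.pos
    have e1 : ∀ {X x : ℝ}, X * pr₀ = N * pr * x → (p : ℝ) * X * pr₀ = N * ((pr * p : ℕ) : ℝ) * x := by
      intro X x h; push_cast; linear_combination (p : ℝ) * h
    have e0 : ∀ {X x : ℝ}, X * pr₀ = N * pr * x → (p : ℝ) * X * pr₀ = ((N * p : ℕ) : ℝ) * pr * x := by
      intro X x h; push_cast; linear_combination (p : ℝ) * h
    have dd : ∀ {Y : ℝ} (k : Λ), D.it k ∉ T →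
        Dead D k b (pr * p) t₁ N (p * Y) ∧ Dead D k (b * p) pr t₀ (N * p) (p * Y) := by
      intro Y k hk
      have hk2 : D.it k ∉ t₁.items ∪ t₀.items := fun h => hk (hT h)
      exact ⟨dead_out D t₁ fun h => hk2 (Finset.mem_union_left _ h),
        dead_out D t₀ fun h => hk2 (Finset.mem_union_right _ h)⟩
    have hcase : ∀ {Y : ℝ}, ∀ j ∈ A, ∀ k, D.rho p k = D.rho p j → k ∈ A ∨
        (Dead D k b (pr * p) t₁ N (p * Y) ∧ Dead D k (b * p) pr t₀ (N * p) (p * Y)) := by
      intro Y j hj k hjk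
      by_cases hkA : k ∈ A
      · exact Or.inl hkA
      right
      by_cases hkT : D.it k ∈ T
      · exact absurd hjk (hAout k hkT hkA p hpP j hj)
      · exact dd k hkT
    refine ⟨fun _ _ _ _ => Iff.rfl, hcase, hcase, ?_, ?_⟩
    · exact ih₁ (fun q hq => hP (Finset.mem_insert_of_mem (Finset.mem_union_left _ hq)))
        (fun q hq => hT (Finset.mem_union_left _ hq)) h1 hN (e1 hX) (e1 hX') hpr1
    · exact ih₀ (fun q hq => hP (Finset.mem_insert_of_mem (Finset.mem_union_right _ hq)))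
        (fun q hq => hT (Finset.mem_union_right _ hq)) h0 hNp (e0 hX) (e0 hX') hpr
  | add p t₁ t₀ ih₁ ih₀ =>
    intro b pr N X X' hP hT hF hN hX hX' hpr
    obtain ⟨hd, h1, h0⟩ := hF
    exact ⟨ih₁ (fun q hq => hP (Finset.mem_union_left _ hq))
        (fun q hq => hT (Finset.mem_union_left _ hq)) h1 hN hX hX' hpr,
      ih₀ (fun q hq => hP (Finset.mem_union_right _ hq))
        (fun q hq => hT (Finset.mem_union_right _ hq)) h0 hN hX hX' hpr⟩
  | up p Sp t ih =>
    intro b pr N X X' hP hT hF hN hX hX' hpr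
    exact ih hP hT hF hN hX hX' hpr
  | pl p t ih =>
    intro b pr N X X' hP hT hF hN hX hX' hpr
    obtain ⟨hp, hpb, h1⟩ := hF
    have hpr1 : pr₀ ∣ pr * p := hpr.trans (Dvd.intro _ rfl)
    have e1 : ∀ {X x : ℝ}, X * pr₀ = N * pr * x → (p : ℝ) * X * pr₀ = N * ((pr * p : ℕ) : ℝ) * x := by
      intro X x h; push_cast; linear_combination (p : ℝ) * h
    exact ih hP hT h1 hN (e1 hX) (e1 hX') hpr1
  | far p t₁ t₀ ih₁ ih₀ =>
    intro b pr N X X' hP hT hF hN hX hX' hpr
    obtain ⟨hd, h1, h0⟩ := hF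
    exact ⟨ih₁ (fun q hq => hP (Finset.mem_union_left _ hq))
        (fun q hq => hT (Finset.mem_union_left _ hq)) h1 hN hX hX' hpr,
      ih₀ (fun q hq => hP (Finset.mem_union_right _ hq))
        (fun q hq => hT (Finset.mem_union_right _ hq)) h0 hN hX hX' hpr⟩

/-- **periodicity**: if all the relevant items have moduli `u v_r` and weights periodic modulo
`v_r`, the item sum is `1/u`-periodic -/
theorem per_const {D : Par Λ κ} {P : WP} {stt : ℕ → ℕ → Option ℚ} {rtt : ℕ → ℕ → ℕ}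
    {C : Finset ℕ} {b pr c : ℕ} {t : IT}
    (hw : Wld D P stt rtt C) (hb : 0 < b)
    (hF : Fit b pr t) (hW : D.Wts pr t) (hbc : c ∣ b) (hcols : cols t ⊆ C)
    {rp : ℕ → ℕ} (hrp : ∀ p ∈ cols t, ∀ q ∈ t.items, ∀ r ∈ t.items, rtt p q = rtt p r → rp q = rp r)
    {q : ℕ} (hq : q ∈ t.items) {u : ℕ} (hu : 0 < u) {v : ℕ → ℕ}
    (hv : ∀ r ∈ t.items, rp r = rp q → r / pr = u * v r)
    (hper : ∀ j, D.it j ∈ t.items → rp (D.it j) = rp q → ∀ a, D.om j (a + v (D.it j)) = D.om j a)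
    (x : ℝ) : Fq D b pr t c q (x + 1 / u) = Fq D b pr t c q x := by
  classical
  have hc0 : 0 < c := Nat.pos_of_dvd_of_pos hbc hb
  have hcR : (c : ℝ) ≠ 0 := by exact_mod_cast hc0.ne'
  set A : Finset Λ := Finset.univ.filter fun j => D.it j ∈ t.items ∧ rp (D.it j) = rp q with hA
  have memA : ∀ j, j ∈ A ↔ D.it j ∈ t.items ∧ rp (D.it j) = rp q := by intro j; rw [hA]; simp
  have hS : Same D A A id b pr t c (c * x) (c * (x + 1 / u)) := by
    refine same_shift D hu (x := x) (x' := x + 1 / u) rfl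
      (fun j hj => hv _ ((memA j).1 hj).1 ((memA j).1 hj).2)
      (fun j hj => hper j ((memA j).1 hj).1 ((memA j).1 hj).2) (T := t.items) (P := cols t) ?_ t
      (Finset.Subset.refl _) (Finset.Subset.refl _) hF hc0 (by ring) (by ring) (dvd_refl _)
    intro k hk hkA p hp j hj e
    obtain ⟨h1, h2⟩ := (memA j).1 hj
    have h3 := ((hw.rho p (hcols hp) k j).1 e).2
    exact hkA ((memA k).2 ⟨hk, by rw [hrp p hp _ hk _ h1 h3]; exact h2⟩)
  have hiso := iso_U D (Set.bijOn_id _) t hb hF hW hbc hS c (dvd_refl c)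
  have ecx : ∀ y : ℝ, (c : ℝ) * y / c = y := fun y => by field_simp
  unfold Fq
  symm
  refine Finset.sum_congr rfl fun j hj => ?_
  have hjq := (Finset.mem_filter.1 hj).2
  have := hiso j ((memA j).2 ⟨by rw [hjq]; exact hq, by rw [hjq]⟩)
  rw [ecx, ecx] at this
  exact this

end

end Crest.Agent.R4P.Step588
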