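import Crest.Agent.R4.StepFq693
import Crest.Agent.R4P.StepPer588
import Crest.Agent.R4P.AvgSymA710

/-!
(Port of `R4/StepFq693` to the item tree with powers; helper746. The tree-free half is exported.)
R4 (S0004), helper693, block (F1) of T9' (helper588): the item sum `Fq` as a periodic function, its
bound by one arc, its mass; pushing of window functions.
-/

set_option autoImplicit false
set_option linter.unusedSectionVars false
open MeasureTheory Filter

namespace Crest.Agent.R4P.Step588

open Crest.Agent.R4.Tour104 Crest.Agent.R4.Tour758 Crest.Agent.R4.Avg758 Crest.Agent.R4.Clos758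
open Crest.Agent.R4.ClosL758 Crest.Agent.R4.ClosG758 Crest.Agent.R4.Lam368
open Crest.Agent.R4.Piece464 Crest.Agent.R4.Fam464 Crest.Agent.R4P.Cnt588 Crest.Agent.R4P.Item758

export Crest.Agent.R4.Step588 (sum_pc_le_pc WF_push PB_WF I_WF_push)

section
variable {Λ κ : Type*} [Fintype Λ] [DecidableEq κ] [DecidableEq Λ]

/-- the item sum is a nonnegative bounded periodic function -/
theorem PB_Fq (D : Par Λ κ) {b pr : ℕ} {t : IT} {c : ℕ} (q : ℕ) (hb : 0 < b) (hF : Fit b pr t)
    (hW : D.Wts pr t) (hc : c ∣ b) : PB (Fq D b pr t c q) :=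
  PB.sum _ fun j _ => FT.pb hb (D.toFT_Adm t b pr hb hF hW) hc j

/-- **the item sum is bounded by one arc** -/
theorem Fq_le_arc {D : Par Λ κ} {R : ℕ → ℝ} (hC : Cov D R) (hom : ∀ j a, D.om j a ≤ 1)
    {b pr : ℕ} {t : IT} {c sn q : ℕ} (hb : 0 < b) (hF : Fit b pr t) (hW : D.Wts pr t)
    (hbc : b = sn * c) (hq : q ∈ t.items) (x : ℝ) :
    Fq D b pr t c q x ≤ pc (sn * D.γ) (-(sn * R q)) (sn * R q) (q / pr) (fun _ => 1) x := by
  have hc0 : 0 < c := Nat.pos_of_ne_zero (by rintro rfl; simp at hbc; omega)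
  have hsn : 0 < sn := Nat.pos_of_ne_zero (by rintro rfl; simp at hbc; omega)
  have hcR : (0 : ℝ) < c := by exact_mod_cast hc0
  have hsR : (0 : ℝ) < sn := by exact_mod_cast hsn
  have hs : (b : ℝ) / c = sn := by rw [hbc]; push_cast; field_simp
  have hc : c ∣ b := Dvd.intro_left sn hbc.symm
  unfold Fq
  have h1 : ∑ j ∈ Finset.univ.filter (fun j => D.it j = q), (D.toFT b pr t).U c j x ≤
      ∑ j ∈ Finset.univ.filter (fun j => D.it j = q), pc (sn * D.γ) (sn * D.al j) (sn * D.be j)
        (q / pr) (fun a => D.om j ((c * mp t q : ℕ) * a)) x := by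
    refine Finset.sum_le_sum fun j hj => ?_
    have hjq := (Finset.mem_filter.1 hj).2
    have := D.U_le t b pr c hb hF hW hc j (by rw [hjq]; exact hq) x
    rw [hs, hjq] at this
    exact this
  refine h1.trans (sum_pc_le_pc (fun j hj => ?_) (fun j hj => ?_) (fun i hi j hj z h2 h3 h4 h5 => ?_)
    (fun j _ a => hom j _) x)
  · have hjq := (Finset.mem_filter.1 hj).2
    have := hC.al j
    rw [hjq] at this
    have := mul_le_mul_of_nonneg_left this hsR.le
    linarith
  · have hjq := (Finset.mem_filter.1 hj).2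
    have := hC.be j
    rw [hjq] at this
    exact mul_le_mul_of_nonneg_left this hsR.le
  · have hiq := (Finset.mem_filter.1 hi).2
    have hjq := (Finset.mem_filter.1 hj).2
    refine hC.dj i j (z / sn) (hiq.trans hjq.symm) ?_ ?_ ?_ ?_
    · rw [le_div_iff₀ hsR]; linarith
    · rw [div_lt_iff₀ hsR]; linarith
    · rw [le_div_iff₀ hsR]; linarith
    · rw [div_lt_iff₀ hsR]; linarith

/-- **mass of the item sum** -/
theorem I_Fq (D : Par Λ κ) (hab : ∀ j, D.al j ≤ D.be j) {b pr : ℕ} {t : IT} {c sn q : ℕ}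
    (hb : 0 < b) (hF : Fit b pr t) (hW : D.Wts pr t) (hbc : b = sn * c) (hq : q ∈ t.items) :
    I (Fq D b pr t c q) = ∑ j ∈ Finset.univ.filter (fun j => D.it j = q),
      (sn : ℝ) * (D.be j - D.al j) * prf t q * mnw (q / (pr * pp t q)) (D.om j) := by
  have hc0 : 0 < c := Nat.pos_of_ne_zero (by rintro rfl; simp at hbc; omega)
  have hcR : (0 : ℝ) < c := by exact_mod_cast hc0
  have hs : (b : ℝ) / c = sn := by rw [hbc]; push_cast; field_simp
  have hc : c ∣ b := Dvd.intro_left sn hbc.symm
  have e : Fq D b pr t c q = fun x =>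
      ∑ j ∈ Finset.univ.filter (fun j => D.it j = q), (D.toFT b pr t).U c j x := rfl
  rw [e, I_sum _ fun j _ => (FT.pb hb (D.toFT_Adm t b pr hb hF hW) hc j).integrableOn]
  refine Finset.sum_congr rfl fun j hj => ?_
  have hjq := (Finset.mem_filter.1 hj).2
  have := D.I_U hab t b pr c hb hF hW hc j (by rw [hjq]; exact hq)
  rw [hs, hjq] at this
  exact this

end

end Crest.Agent.R4P.Step588
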