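import Crest.Agent.R4.StepFlat588
import Crest.Agent.R4P.StepFq693
import Crest.Agent.R4P.StepPer588

/-!
(Port of `R4/StepFlat588` to the item tree with powers; helper746. The tree-free half is exported.)
R4 (S0004), helper588: **flat weights** (T9'): only the local weights at the selected primes are kept.

* `Par.flat`, `Cov.flat`, `Wld.flat`, `WOk.flat`, `Wts_flat`.
* `leaf_maj` : the majorant when the subtree is a leaf (one window).
-/

set_option autoImplicit false
set_option linter.unusedSectionVars false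
set_option linter.unusedVariables false
open MeasureTheory Filter

namespace Crest.Agent.R4P.Step588

open Crest.Agent.R4.Tour104 Crest.Agent.R4.Tour758 Crest.Agent.R4.Avg758 Crest.Agent.R4.Clos758
open Crest.Agent.R4.ClosL758 Crest.Agent.R4.ClosG758 Crest.Agent.R4.Lam368
open Crest.Agent.R4.Piece464 Crest.Agent.R4.Fam464 Crest.Agent.R4P.Cnt588 Crest.Agent.R4P.Item758
open Crest.Agent.R4P.W363 Crest.Agent.R4.Om532 Crest.Agent.R4.Ovl560 Crest.Agent.R4.Item464

export Crest.Agent.R4.Step588 (flw LW_sub flw_Wt flw_Wt_self flw_le_one omw_le_flw flw_mean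
  flw_mean_le sum_pc_le)

/-! ### the flat family -/

section
variable {Λ κ : Type*}

/-- the family with other (piece-dependent) weights -/
def _root_.Crest.Agent.R4P.Item758.Par.flat (D : Par Λ κ) (f : Λ → ℤ → ℝ) : Par Λ κ :=
  { D with om := f }

variable {D : Par Λ κ} {f : Λ → ℤ → ℝ}

@[simp] lemma flat_it (j : Λ) : (D.flat f).it j = D.it j := rfl
@[simp] lemma flat_al (j : Λ) : (D.flat f).al j = D.al j := rfl
@[simp] lemma flat_be (j : Λ) : (D.flat f).be j = D.be j := rfl
@[simp] lemma flat_γ : (D.flat f).γ = D.γ := rfl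
@[simp] lemma flat_om (j : Λ) : (D.flat f).om j = f j := rfl
@[simp] lemma flat_rho (p : ℕ) : (D.flat f).rho p = D.rho p := rfl

lemma Cov.flat {R : ℕ → ℝ} (h : Cov D R) : Cov (D.flat f) R where
  cov := h.cov
  al := h.al
  be := h.be
  dj := h.dj

lemma Wld.flat {P : WP} {stt : ℕ → ℕ → Option ℚ} {rtt : ℕ → ℕ → ℕ} {C : Finset ℕ}
    (h : Wld D P stt rtt C) : Wld (D.flat f) P stt rtt C := ⟨h.rho, h.pt⟩

lemma WOk.flat {P : WP} {stt : ℕ → ℕ → Option ℚ} {C T : Finset ℕ} {dm N : ℕ}
    (h : WOk D P stt C T dm N) : WOk (D.flat f) P stt C T dm N := ⟨h.dep, h.δ, h.snap, h.rng⟩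

lemma Wts_flat {pr : ℕ} {t : IT}
    (h : ∀ j, D.it j ∈ t.items → Wt (D.it j / (pr * pp t (D.it j))) (f j)) :
    (D.flat f).Wts pr t := h

/-! ### the leaf case -/

variable [Fintype Λ] [DecidableEq κ] [DecidableEq Λ]

/-- **the majorant of a leaf** -/
theorem leaf_maj {R : ℕ → ℝ} (hC : Cov D R) (hab : ∀ j, D.al j ≤ D.be j) {b pr c sn v q : ℕ}
    {S : Finset ℕ} {g : ℤ → ℝ} (hb : 0 < b) (hF : Fit b pr (.leaf S)) (hbc : b = sn * c)
    (hq : q ∈ S) (hR : 0 < R q) (hv : 0 < v) (hvw : v ∣ q / pr) (hf : Wt v g)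
    (hf1 : ∀ a, g a ≤ 1) (hle : ∀ j, D.it j = q → ∀ a, D.om j a ≤ g a) :
    ∃ κ' : ℕ → ℤ → ℝ, WFOk (sn * R q) 1 v (q / pr) (wl (sn * R q) 1)
        (fun i => wl (sn * R q) 1 (i + 1)) κ' ∧
      (∀ x, Fq D b pr (.leaf S) c q x ≤ WF (sn * D.γ) 1 (wl (sn * R q) 1)
        (fun i => wl (sn * R q) 1 (i + 1)) (q / pr) κ' x) ∧
      I (WF (sn * D.γ) 1 (wl (sn * R q) 1) (fun i => wl (sn * R q) 1 (i + 1)) (q / pr) κ') =
        2 * (sn * R q) * mnw (q / pr) (g) := by
  have hc0 : 0 < c := Nat.pos_of_ne_zero (by rintro rfl; simp at hbc; omega)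
  have hsn : 0 < sn := Nat.pos_of_ne_zero (by rintro rfl; simp at hbc; omega)
  have hcR : (0 : ℝ) < c := by exact_mod_cast hc0
  have hsR : (0 : ℝ) < sn := by exact_mod_cast hsn
  have hs : (b : ℝ) / c = sn := by rw [hbc]; push_cast; field_simp
  obtain ⟨a1, a2, a3⟩ := hF q hq
  have w0 : 0 < q / pr := Nat.div_pos (Nat.le_of_dvd a1 a2) (Nat.pos_of_dvd_of_pos a2 a1)
  have hr : 0 < sn * R q := mul_pos hsR hR
  have e0 : wl (sn * R q) 1 0 = -(sn * R q) := by unfold wl; simp
  have e1 : wl (sn * R q) 1 (0 + 1) = sn * R q := by unfold wl; push_cast; ring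
  have hwt : Wt v fun a => g (c * a) := Wt_scale hf c
  refine ⟨fun _ a => g (c * a), ⟨hr, w0, hv, hvw, ?_, ?_, ?_, fun _ => hwt, fun _ a => hf1 _⟩,
    ?_, ?_⟩
  · intro i hi
    obtain rfl : i = 0 := by omega
    rw [e0]
  · intro i hi
    obtain rfl : i = 0 := by omega
    rw [e0]
    show -(sn * R q) ≤ wl (sn * R q) 1 (0 + 1)
    rw [e1]; linarith
  · intro i hi
    obtain rfl : i = 0 := by omega
    show wl (sn * R q) 1 (0 + 1) ≤ sn * R q
    rw [e1]
  · intro x
    have eW : WF (sn * D.γ) 1 (wl (sn * R q) 1) (fun i => wl (sn * R q) 1 (i + 1)) (q / pr)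
        (fun _ a => g (c * a)) x =
        pc (sn * D.γ) (-(sn * R q)) (sn * R q) (q / pr) (fun a => g (c * a)) x := by
      unfold WF
      rw [Finset.sum_range_one, e0]
      show pc _ _ (wl (sn * R q) 1 (0 + 1)) _ _ _ = _
      rw [e1]
    rw [eW]
    unfold Fq
    have h1 : ∀ j ∈ Finset.univ.filter (fun j => D.it j = q), (D.toFT b pr (.leaf S)).U c j x ≤
        pc (sn * D.γ) (sn * D.al j) (sn * D.be j) (q / pr) (fun a => g (c * a)) x := by
      intro j hj
      have hjq := (Finset.mem_filter.1 hj).2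
      show D.L b pr S c j x ≤ _
      unfold Par.L
      rw [if_pos (by rw [hjq]; exact hq)]
      unfold Par.pcs
      rw [hs, hjq]
      exact pc_mono (fun a => hle j hjq _) x
    refine (Finset.sum_le_sum h1).trans ?_
    refine sum_pc_le (fun j hj => ?_) (fun j hj => ?_) (fun i hi j hj z h1 h2 h3 h4 => ?_)
      hwt.nonneg x
    · have hjq := (Finset.mem_filter.1 hj).2
      have := hC.al j
      rw [hjq] at this
      have := mul_le_mul_of_nonneg_left this hsR.le
      linarith
    · have hjq := (Finset.mem_filter.1 hj).2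
      have := hC.be j
      rw [hjq] at this
      exact mul_le_mul_of_nonneg_left this hsR.le
    · have hiq := (Finset.mem_filter.1 hi).2
      have hjq := (Finset.mem_filter.1 hj).2
      refine hC.dj i j (z / sn) (hiq.trans hjq.symm) ?_ ?_ ?_ ?_
      · rw [le_div_iff₀ hsR]; linarith
      · rw [div_lt_iff₀ hsR]; linarith
      · rw [le_div_iff₀ hsR]; linarith
      · rw [div_lt_iff₀ hsR]; linarith
  · have eW : WF (sn * D.γ) 1 (wl (sn * R q) 1) (fun i => wl (sn * R q) 1 (i + 1)) (q / pr)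
        (fun _ a => g (c * a)) =
        pc (sn * D.γ) (-(sn * R q)) (sn * R q) (q / pr) (fun a => g (c * a)) := by
      funext x
      unfold WF
      rw [Finset.sum_range_one, e0]
      show pc _ _ (wl (sn * R q) 1 (0 + 1)) _ _ _ = _
      rw [e1]
    have hwt' : Wt (q / pr) (g) := hf.dvd hvw
    rw [eW, I_pc (by linarith) w0 (Wt_scale hwt' _)]
    have hco : Nat.Coprime c (q / pr) :=
      (a3.coprime_dvd_right (Dvd.intro_left sn hbc.symm)).symm
    have hm : mnw (q / pr) (fun a => g (c * a)) = mnw (q / pr) (g) := by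
      have h3 := mnw_rs w0 hco (Wt_scale hwt' (c : ℤ))
      have h4 : rs (q / pr) c (fun a => g (c * a)) = g := by
        symm
        refine rs_unique hco fun a m ham => ?_
        exact hwt'.congr ham.symm
      rw [h4] at h3
      exact h3.symm
    rw [hm]; ring

end

end Crest.Agent.R4P.Step588
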