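import Crest.Agent.R4P.StepIso588
import Crest.Agent.R4.StepIso2_588

/-!
R4 (S0004), local isomorphism of **two families** on one item tree: port of helper588's
`R4/StepIso2_588` to the tree with powers (helper504).
-/

set_option autoImplicit false
set_option linter.unusedSectionVars false
open MeasureTheory Filter

namespace Crest.Agent.R4P.Step588

export Crest.Agent.R4.Step588 (mult_congr2 sum_cls2)

open Crest.Agent.R4.Tour104 Crest.Agent.R4.Tour758 Crest.Agent.R4.Avg758 Crest.Agent.R4.Clos758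
open Crest.Agent.R4.ClosL758 Crest.Agent.R4.ClosG758 Crest.Agent.R4.Lam368
open Crest.Agent.R4.Piece464 Crest.Agent.R4.Fam464 Crest.Agent.R4P.Cnt588 Crest.Agent.R4P.Item758

section
variable {Λ κ : Type*} [Fintype Λ] [DecidableEq κ]

/-- the two families are locally isomorphic at the two points -/
def Same2 (D D' : Par Λ κ) (A A' : Finset Λ) (σ : Λ → Λ) : ℕ → ℕ → IT → ℕ → ℝ → ℝ → Prop
  | b, pr, .leaf S, N, X, X' =>
      ∀ c, c ∣ N → ∀ j ∈ A, D.L b pr S c j (X / c) = D'.L b pr S c (σ j) (X' / c)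
  | b, pr, .br p _ t₁ t₀, N, X, X' =>
      (∀ j ∈ A, ∀ k ∈ A, (D.rho p j = D.rho p k ↔ D'.rho p (σ j) = D'.rho p (σ k))) ∧
      (∀ j ∈ A, ∀ k, D.rho p k = D.rho p j → k ∈ A ∨
        (Dead D k b (pr * p) t₁ N (p * X) ∧ Dead D k (b * p) pr t₀ (N * p) (p * X))) ∧
      (∀ j ∈ A', ∀ k, D'.rho p k = D'.rho p j → k ∈ A' ∨
        (Dead D' k b (pr * p) t₁ N (p * X') ∧ Dead D' k (b * p) pr t₀ (N * p) (p * X'))) ∧
      Same2 D D' A A' σ b (pr * p) t₁ N (p * X) (p * X') ∧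
      Same2 D D' A A' σ (b * p) pr t₀ (N * p) (p * X) (p * X')
  | b, pr, .add _ t₁ t₀, N, X, X' =>
      Same2 D D' A A' σ b pr t₁ N X X' ∧ Same2 D D' A A' σ b pr t₀ N X X'
  | b, pr, .up _ _ t, N, X, X' => Same2 D D' A A' σ b pr t N X X'
  | b, pr, .pl p t, N, X, X' => Same2 D D' A A' σ b (pr * p) t N (p * X) (p * X')
  | b, pr, .far _ t₁ t₀, N, X, X' =>
      Same2 D D' A A' σ b pr t₁ N X X' ∧ Same2 D D' A A' σ b pr t₀ N X X'

variable [DecidableEq Λ]

/-- **local isomorphism, two families** -/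
theorem iso_U2 (D D' : Par Λ κ) {A A' : Finset Λ} {σ : Λ → Λ} (hσ : Set.BijOn σ A A') (t : IT) :
    ∀ {b pr N : ℕ} {X X' : ℝ}, 0 < b → Fit b pr t → D.Wts pr t → D'.Wts pr t → N ∣ b →
      Same2 D D' A A' σ b pr t N X X' → ∀ c, c ∣ N → ∀ j ∈ A,
        (D.toFT b pr t).U c j (X / c) = (D'.toFT b pr t).U c (σ j) (X' / c) := by
  induction t with
  | leaf S => intro b pr N X X' _ _ _ _ _ h c hc j hj; exact h c hc j hj
  | br p Sp t₁ t₀ ih₁ ih₀ =>
    intro b pr N X X' hb hF hW hW' hNb h c hc j hj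
    have hA : (D.toFT b pr (.br p Sp t₁ t₀)).Adm b := D.toFT_Adm _ b pr hb hF hW
    have hdat := FT.dat hb hA
    have hA' : (D'.toFT b pr (.br p Sp t₁ t₀)).Adm b := D'.toFT_Adm _ b pr hb hF hW'
    have hdat' := FT.dat hb hA'
    obtain ⟨hp, hpb, hd, h1, h0⟩ := hF
    obtain ⟨r1, r2, r3, s1, s0⟩ := h
    have hN : 0 < N := Nat.pos_of_dvd_of_pos hNb hb
    have hNp : 0 < N * p := Nat.mul_pos hN hp.pos
    have hbp : 0 < b * p := Nat.mul_pos hb hp.pos
    have hpR : (p : ℝ) ≠ 0 := by exact_mod_cast hp.ne_zero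
    have hc0 : 0 < c := Nat.pos_of_dvd_of_pos hc hN
    have hcR : (c : ℝ) ≠ 0 := by exact_mod_cast hc0.ne'
    have i1 := ih₁ hb h1 (hW.br₁ hd) (hW'.br₁ hd) hNb s1
    have i0 := ih₀ hbp h0 hW.br₀ hW'.br₀ (mul_dvd_mul_right hNb p) s0
    have a1 : ∀ X : ℝ, (p : ℝ) * X / c = p * (X / c) := fun X => by ring
    have a0 : ∀ X : ℝ, (p : ℝ) * X / ((c * p : ℕ) : ℝ) = X / c := fun X => by push_cast; field_simp
    have a2 : ∀ X : ℝ, (p : ℝ) * X / ((1 : ℕ) : ℝ) = p * X := fun X => by push_cast; ring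
    have a3 : ∀ X : ℝ, (p : ℝ) * X / (p : ℝ) = X := fun X => by field_simp
    have v1 := i1 c hc j hj
    rw [a1, a1] at v1
    have v0 := i0 (c * p) (mul_dvd_mul_right hc p) j hj
    rw [a0, a0] at v0
    have f1 : ∀ k ∈ A, (D.toFT b (pr * p) t₁).U 1 k (p * X) =
        (D'.toFT b (pr * p) t₁).U 1 (σ k) (p * X') := by
      intro k hk
      have := i1 1 (one_dvd _) k hk
      rwa [a2, a2] at this
    have f2 : ∀ k ∈ A, (D.toFT (b * p) pr t₀).U 1 k (p * X) =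
        (D'.toFT (b * p) pr t₀).U 1 (σ k) (p * X') := by
      intro k hk
      have := i0 1 (one_dvd _) k hk
      rwa [a2, a2] at this
    have f3 : ∀ k ∈ A, (D.toFT (b * p) pr t₀).U p k X =
        (D'.toFT (b * p) pr t₀).U p (σ k) X' := by
      intro k hk
      have := i0 p (Dvd.intro_left N rfl) k hk
      rwa [a3, a3] at this
    have d1 : ∀ (E : Par Λ κ) {Y : ℝ} {k : Λ}, Dead E k b (pr * p) t₁ N (p * Y) →
        (E.toFT b (pr * p) t₁).U 1 k (p * Y) = 0 := by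
      intro E Y k hk
      have := dead_U E t₁ h1 hN hk 1 (one_dvd _)
      rwa [a2] at this
    have d2 : ∀ (E : Par Λ κ) {Y : ℝ} {k : Λ}, Dead E k (b * p) pr t₀ (N * p) (p * Y) →
        (E.toFT (b * p) pr t₀).U 1 k (p * Y) = 0 := by
      intro E Y k hk
      have := dead_U E t₀ h0 hNp hk 1 (one_dvd _)
      rwa [a2] at this
    have d3 : ∀ (E : Par Λ κ) {Y : ℝ} {k : Λ}, Dead E k (b * p) pr t₀ (N * p) (p * Y) →
        (E.toFT (b * p) pr t₀).U p k Y = 0 := by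
      intro E Y k hk
      have := dead_U E t₀ h0 hNp hk p (Dvd.intro_left N rfl)
      rwa [a3] at this
    have hσj : σ j ∈ A' := hσ.mapsTo hj
    have c1 := sum_cls2 hσ r1 f1 hj (fun k hk => (r2 j hj k hk).imp id fun h => d1 D h.1)
      (fun k hk => (r3 _ hσj k hk).imp id fun h => d1 D' h.1)
    have c2 := sum_cls2 hσ r1 f2 hj (fun k hk => (r2 j hj k hk).imp id fun h => d2 D h.2)
      (fun k hk => (r3 _ hσj k hk).imp id fun h => d2 D' h.2)
    have c3 := sum_cls2 hσ r1 f3 hj (fun k hk => (r2 j hj k hk).imp id fun h => d3 D h.2)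
      (fun k hk => (r3 _ hσj k hk).imp id fun h => d3 D' h.2)
    have hm := mult_congr2 (r := D.rho p) (r' := D'.rho p) (w := j) (w' := σ j) (x := X)
      (x' := X') hdat hdat' (f1 j hj) c1 c2 c3
    show mult p (fun j => (D.toFT b (pr * p) t₁).U 1 j) (fun j => (D.toFT (b * p) pr t₀).U p j)
        (fun j => (D.toFT (b * p) pr t₀).U 1 j) (fun _ => D.rho p) (0 + 1) j (c * (X / c)) *
        (D.toFT b (pr * p) t₁).U c j (p * (X / c)) + (D.toFT (b * p) pr t₀).U (c * p) j (X / c) =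
      mult p (fun j => (D'.toFT b (pr * p) t₁).U 1 j) (fun j => (D'.toFT (b * p) pr t₀).U p j)
        (fun j => (D'.toFT (b * p) pr t₀).U 1 j) (fun _ => D'.rho p) (0 + 1) (σ j) (c * (X' / c)) *
        (D'.toFT b (pr * p) t₁).U c (σ j) (p * (X' / c)) +
        (D'.toFT (b * p) pr t₀).U (c * p) (σ j) (X' / c)
    have b1 : (c : ℝ) * (X / c) = X := by field_simp
    have b2 : (c : ℝ) * (X' / c) = X' := by field_simp
    rw [b1, b2, v1, v0, hm]
  | add p t₁ t₀ ih₁ ih₀ =>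
    intro b pr N X X' hb hF hW hW' hNb h c hc j hj
    obtain ⟨hd, h1, h0⟩ := hF
    show (D.toFT b pr t₁).U c j (X / c) + (D.toFT b pr t₀).U c j (X / c) =
      (D'.toFT b pr t₁).U c (σ j) (X' / c) + (D'.toFT b pr t₀).U c (σ j) (X' / c)
    rw [ih₁ hb h1 (hW.add₁ hd) (hW'.add₁ hd) hNb h.1 c hc j hj,
      ih₀ hb h0 hW.add₀ hW'.add₀ hNb h.2 c hc j hj]
  | up p Sp t ih =>
    intro b pr N X X' hb hF hW hW' hNb h c hc j hj
    exact ih hb hF hW hW' hNb h c hc j hj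
  | pl p t ih =>
    intro b pr N X X' hb hF hW hW' hNb h c hc j hj
    obtain ⟨hp, hpb, h1⟩ := hF
    have v1 := ih hb h1 hW.pl hW'.pl hNb h c hc j hj
    have a1 : ∀ X : ℝ, (p : ℝ) * X / c = p * (X / c) := fun X => by ring
    rw [a1, a1] at v1
    exact v1
  | far p t₁ t₀ ih₁ ih₀ =>
    intro b pr N X X' hb hF hW hW' hNb h c hc j hj
    obtain ⟨hd, h1, h0⟩ := hF
    show (D.toFT b pr t₁).U c j (X / c) + (D.toFT b pr t₀).U c j (X / c) =
      (D'.toFT b pr t₁).U c (σ j) (X' / c) + (D'.toFT b pr t₀).U c (σ j) (X' / c)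
    rw [ih₁ hb h1 (hW.far₁ hd) (hW'.far₁ hd) hNb h.1 c hc j hj,
      ih₀ hb h0 hW.far₀ hW'.far₀ hNb h.2 c hc j hj]

/-- one point, one set `A` of pieces closed under the classes up to dead pieces, leaf values agree on
`A`: the values agree -/
theorem iso_agree (D D' : Par Λ κ) (hrho : D'.rho = D.rho) {A : Finset Λ} (t : IT) {b pr N : ℕ}
    {X : ℝ} (hb : 0 < b) (hF : Fit b pr t) (hW : D.Wts pr t) (hW' : D'.Wts pr t) (hN : N ∣ b)
    (h : Same2 D D' A A id b pr t N X X) (c : ℕ) (hc : c ∣ N) {j : Λ} (hj : j ∈ A) :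
    (D.toFT b pr t).U c j (X / c) = (D'.toFT b pr t).U c j (X / c) :=
  iso_U2 D D' (Set.bijOn_id _) t hb hF hW hW' hN h c hc j hj

end

end Crest.Agent.R4P.Step588
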