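import Crest.Agent.R4P.Chi464a
import Crest.Agent.R4P.StepIso2_588
import Crest.Agent.R4P.StepFlat588
import Crest.Agent.R4P.StepFq693
import Crest.Agent.R4P.BldF542

/-!
R4 (S0004), powers, port of helper464's `Chi464b` (helper393): closed exclusion, part 2: **the item sums are pointwise at most the flat ones**
(T9', #15076 (a)).

* `cut_cut`, `CutOk.of_root` : the cut nodes.
* `zp_leaf` : the position of a leaf numerator is the position of the point.
* `Bd_mates` : mates have the same closed set.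
* `Fq_le_flat` : `Fq D ≤ Fq D♭`.
-/

set_option autoImplicit false
set_option linter.unusedSectionVars false
set_option linter.unusedVariables false

namespace Crest.Agent.R4P.Chi464

open Crest.Agent.R4.Step588 (pml pml_dvd mul_pml_dvd pml_pos)
open Crest.Agent.R4P.Fac393 (Fac)
open Crest.Agent.R4.Piece464 Crest.Agent.R4.Clos758 Crest.Agent.R4.ClosL758 Crest.Agent.R4.ClosR758
open Crest.Agent.R4.Tour104 Crest.Agent.R4.Tour758 Crest.Agent.R4.Avg758 Crest.Agent.R4.Fam464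
open Crest.Agent.R4.ClosG758 Crest.Agent.R4.Lam368
open Crest.Agent.R4P.Cnt588 Crest.Agent.R4P.Item758 Crest.Agent.R4P.Step588 Crest.Agent.R4P.Om532

/-! ### cut nodes -/

/-- cutting twice -/
lemma cut_cut {y P : ℕ} (hyP : y ≤ P) (q : ℕ) (T : IT) :
    subt y (subt P T q) q = subt y T q ∧ ppc y T q = ppc P T q * ppc y (subt P T q) q ∧
      mpc y T q = mpc P T q * mpc y (subt P T q) q := by
  induction T with
  | leaf S => exact ⟨rfl, rfl, rfl⟩
  | br p Sp t₁ t₀ ih₁ ih₀ =>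
    by_cases hP : p < P
    · rw [subt_br_lt hP, ppc_br_lt hP, mpc_br_lt hP, one_mul, one_mul]
      exact ⟨rfl, rfl, rfl⟩
    · have hy : ¬ p < y := fun h => hP (lt_of_lt_of_le h hyP)
      by_cases hq : q ∈ t₀.items
      · rw [subt_br0 hP hq, ppc_br0 hP hq, mpc_br0 hP hq, subt_br0 hy hq, ppc_br0 hy hq,
          mpc_br0 hy hq]
        exact ⟨ih₀.1, ih₀.2.1, by rw [ih₀.2.2]; ring⟩
      · rw [subt_br1 hP hq, ppc_br1 hP hq, mpc_br1 hP hq, subt_br1 hy hq, ppc_br1 hy hq,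
          mpc_br1 hy hq]
        exact ⟨ih₁.1, by rw [ih₁.2.1]; ring, ih₁.2.2⟩
  | add p t₁ t₀ ih₁ ih₀ =>
    by_cases hP : p < P
    · rw [subt_add_lt hP, ppc_add_lt hP, mpc_add_lt hP, one_mul, one_mul]
      exact ⟨rfl, rfl, rfl⟩
    · have hy : ¬ p < y := fun h => hP (lt_of_lt_of_le h hyP)
      by_cases hq : q ∈ t₀.items
      · rw [subt_add0 hP hq, ppc_add0 hP hq, mpc_add0 hP hq, subt_add0 hy hq, ppc_add0 hy hq,
          mpc_add0 hy hq]
        exact ih₀
      · rw [subt_add1 hP hq, ppc_add1 hP hq, mpc_add1 hP hq, subt_add1 hy hq, ppc_add1 hy hq,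
          mpc_add1 hy hq]
        exact ih₁
  | up p Sp t ih =>
    by_cases hP : p < P
    · rw [subt_up_lt hP, ppc_up_lt hP, mpc_up_lt hP, one_mul, one_mul]
      exact ⟨rfl, rfl, rfl⟩
    · have hy : ¬ p < y := fun h => hP (lt_of_lt_of_le h hyP)
      rw [subt_up hP, ppc_up hP, mpc_up hP, subt_up hy, ppc_up hy, mpc_up hy]
      exact ih
  | pl p t ih =>
    by_cases hP : p < P
    · rw [subt_pl_lt hP, ppc_pl_lt hP, mpc_pl_lt hP, one_mul, one_mul]
      exact ⟨rfl, rfl, rfl⟩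
    · have hy : ¬ p < y := fun h => hP (lt_of_lt_of_le h hyP)
      rw [subt_pl hP, ppc_pl hP, mpc_pl hP, subt_pl hy, ppc_pl hy, mpc_pl hy]
      exact ⟨ih.1, by rw [ih.2.1]; ring, ih.2.2⟩
  | far p t₁ t₀ ih₁ ih₀ =>
    by_cases hP : p < P
    · rw [subt_far_lt hP, ppc_far_lt hP, mpc_far_lt hP, one_mul, one_mul]
      exact ⟨rfl, rfl, rfl⟩
    · have hy : ¬ p < y := fun h => hP (lt_of_lt_of_le h hyP)
      by_cases hq : q ∈ t₀.items
      · rw [subt_far0 hP hq, ppc_far0 hP hq, mpc_far0 hP hq, subt_far0 hy hq, ppc_far0 hy hq,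
          mpc_far0 hy hq]
        exact ih₀
      · rw [subt_far1 hP hq, ppc_far1 hP hq, mpc_far1 hP hq, subt_far1 hy hq, ppc_far1 hy hq,
          mpc_far1 hy hq]
        exact ih₁

/-- the primes of the product of the present columns above the cut are `≥ y` -/
lemma ppc_prime {y q l : ℕ} (hl : l.Prime) (t : IT) : ∀ {n : ℕ}, t.Ok n → l ∣ ppc y t q → y ≤ l := by
  induction t with
  | leaf S => intro n _ h; exact absurd h hl.not_dvd_one
  | br p Sp t₁ t₀ ih₁ ih₀ =>
    intro n ho h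
    by_cases hp : p < y
    · rw [ppc_br_lt hp] at h; exact absurd h hl.not_dvd_one
    · by_cases hq : q ∈ t₀.items
      · rw [ppc_br0 hp hq] at h; exact ih₀ ho.2.2.2.2.2 h
      · rw [ppc_br1 hp hq] at h
        rcases hl.dvd_mul.1 h with h1 | h1
        · rw [(Nat.prime_dvd_prime_iff_eq hl ho.1).1 h1]; exact not_lt.1 hp
        · exact ih₁ ho.2.2.2.2.1 h1
  | add p t₁ t₀ ih₁ ih₀ =>
    intro n ho h
    by_cases hp : p < y
    · rw [ppc_add_lt hp] at h; exact absurd h hl.not_dvd_one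
    · by_cases hq : q ∈ t₀.items
      · rw [ppc_add0 hp hq] at h; exact ih₀ ho.2.2.2.2 h
      · rw [ppc_add1 hp hq] at h; exact ih₁ ho.2.2.2.1 h
  | up p Sp t ih =>
    intro n ho h
    by_cases hp : p < y
    · rw [ppc_up_lt hp] at h; exact absurd h hl.not_dvd_one
    · rw [ppc_up hp] at h; exact ih ho.2.2.2 h
  | pl p t ih =>
    intro n ho h
    by_cases hp : p < y
    · rw [ppc_pl_lt hp] at h; exact absurd h hl.not_dvd_one
    · rw [ppc_pl hp] at h
      rcases hl.dvd_mul.1 h with h1 | h1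
      · rw [(Nat.prime_dvd_prime_iff_eq hl ho.1).1 h1]; exact not_lt.1 hp
      · exact ih ho.2.2 h1
  | far p t₁ t₀ ih₁ ih₀ =>
    intro n ho h
    by_cases hp : p < y
    · rw [ppc_far_lt hp] at h; exact absurd h hl.not_dvd_one
    · by_cases hq : q ∈ t₀.items
      · rw [ppc_far0 hp hq] at h; exact ih₀ ho.2.2.2.2 h
      · rw [ppc_far1 hp hq] at h; exact ih₁ ho.2.2.2.1 h

/-- the product of the missing ties divides the product of the primes below the level -/
lemma mp_dvd_pml {t : IT} {y : ℕ} (h : t.Ok y) (q : ℕ) : mp t q ∣ pml y := by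
  rw [BldF542.mp_eq_prod t y h q]
  unfold pml
  refine Finset.prod_dvd_prod_of_subset _ _ _ fun p hp => ?_
  obtain ⟨h1, h2⟩ := mt_prime_lt t h hp
  exact Finset.mem_filter.2 ⟨Finset.mem_range.2 h2, h1⟩

lemma Ok_cut {T : IT} {n : ℕ} (h : T.Ok n) (y q : ℕ) : (subt y T q).Ok y :=
  Ok_subt y T q (Ok_mono h (le_max_left n y)) (le_max_right n y)

/-- facts about the root tree -/
structure Root (T : IT) (n : ℕ) : Prop where
  ok : T.Ok n
  fit : Fit 1 1 T

variable {T : IT} {n : ℕ}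

lemma Root.fit' (h : Root T n) (y q : ℕ) : Fit (mpc y T q) (ppc y T q) (subt y T q) := by
  have := Fit_subt y T q h.fit
  rwa [one_mul, one_mul] at this

lemma Root.cutOk (h : Root T n) (y : ℕ) {q : ℕ} (hq : q ∈ T.items) : CutOk T y q where
  mem := hq
  ne := fun r hr => by
    have h1 := (h.fit' y q).item r hr
    exact (Nat.div_pos (Nat.le_of_dvd h1.1 h1.2.1) (ppc_pos y T q h.ok)).ne'
  mdvd := fun r hr => mp_dvd_pml (Ok_cut h.ok y q) r
  cut := fun r hr => by
    obtain ⟨e1, e2, -, -⟩ := subt_same y T (Ok_dj h.ok) hq hr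
    rw [mp_cut y T r, e1, e2]
  mpos := mpc_pos y T q h.ok

/-- the items of a deeper cut node -/
lemma cut_sub {y P : ℕ} (hyP : y ≤ P) (q : ℕ) : (subt y T q).items ⊆ (subt P T q).items := by
  rw [← (cut_cut hyP q T).1]
  exact subt_items _ _ _

/-! ### mates have the same closed set -/

section
variable {Fc : Fac} {γ : ℝ} {R : ℕ → ℝ} {S' : Finset ℕ} {Tc : ℕ → ℕ → Finset ℚ} {y b q : ℕ}

/-- the rough parts above `P ≥ y` -/
lemma rgh_up (h : Root T n) {P : ℕ} (hyP : y ≤ P) (hq : q ∈ T.items) {r r' : ℕ}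
    (hr : r ∈ (subt y T q).items) (hr' : r' ∈ (subt y T q).items)
    (e : Fc.uc y (r / ppc y T q) = Fc.uc y (r' / ppc y T q)) :
    Fc.uc P (r / ppc P T q) = Fc.uc P (r' / ppc P T q) := by
  have hc := (h.cutOk y hq)
  have hP := (h.cutOk P hq)
  have hrP := cut_sub hyP q hr
  have hrP' := cut_sub hyP q hr'
  obtain ⟨-, e2, -⟩ := cut_cut hyP q T
  have key : ∀ s ∈ (subt y T q).items,
      s / ppc P T q = s / ppc y T q * ppc y (subt P T q) q := by
    intro s hs
    have h1 := ((h.fit' y q).item s hs).2.1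
    have h0 := ((h.fit' y q).item s hs).1
    have h2 := ppc_pos y T q h.ok
    have h3 := ppc_pos P T q h.ok
    obtain ⟨k, hk⟩ := h1
    rw [hk, Nat.mul_div_cancel_left k h2, e2, mul_assoc, Nat.mul_div_cancel_left _ h3]
    ring
  rw [key r hr, key r' hr']
  have n1 := (hc.pos hr).ne'
  have n2 := (hc.pos hr').ne'
  have n3 : ppc y (subt P T q) q ≠ 0 := by
    intro h0
    have := ppc_pos y T q h.ok
    rw [e2, h0] at this; simp at this
  exact Fc.up hyP n1 n2 n3 (fun l hl hd => ppc_prime hl (subt P T q) (Ok_cut h.ok P q) hd) e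

/-- **mates have the same closed set** -/
lemma Bd_mates (h : Root T n) {P : ℕ} (hyP : y ≤ P) (hq : q ∈ T.items) {r r' : ℕ}
    (hr : r ∈ (subt y T q).items) (hr' : r' ∈ (subt y T q).items)
    (e : Fc.uc y (r / ppc y T q) = Fc.uc y (r' / ppc y T q)) (z : ℝ) :
    Bd Fc γ R S' Tc T P b r z → Bd Fc γ R S' Tc T P b r' z := by
  have hd := Ok_dj h.ok
  obtain ⟨a1, a2, a3, -⟩ := subt_same P T hd hq (cut_sub hyP q hr)
  obtain ⟨b1, b2, b3, -⟩ := subt_same P T hd hq (cut_sub hyP q hr')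
  have e' := rgh_up h hyP hq hr hr' e
  unfold Bd
  rw [a1, a2, a3, b1, b2, b3, e']
  exact id

end

/-! ### positions at the leaves -/

section
variable {Λ κ : Type*} {γ : ℝ} {y b q : ℕ}

/-- position of a leaf numerator, `B = mp T r`, `A = pp T r` -/
lemma zp_leaf (h : Root T n) (P : ℕ) {r : ℕ} (hr : r ∈ T.items) {A B c : ℕ} (hB : B = mp T r)
    (hA : A = pp T r) (hc : c ∣ B) {X o : ℝ} {a : ℤ}
    (ho : ((B : ℝ) / c) * o = ((r / A : ℕ) : ℝ) * (X / c) - (B : ℝ) / c * γ - a) :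
    zp γ T P r o (c * a) = X * ((ppc P T r : ℝ) * mpc P T r) / ((A : ℝ) * B) := by
  have hP := h.cutOk P hr
  have hdp := pp_cut P T r
  have hB0 : 0 < B := by
    rw [hB, hP.cut r hP.self]; exact Nat.mul_pos hP.mpos (hP.mp_pos hP.self)
  have hc0 : 0 < c := Nat.pos_of_dvd_of_pos hc hB0
  have hrA : A ∣ r := by
    have := (BldF542.pp_dvd T 1 1 h.fit r hr).2.1
    rw [one_mul] at this
    rw [hA]; exact this
  have hr0 : 0 < r := (h.fit.item r hr).1
  have hA0 : 0 < A := Nat.pos_of_dvd_of_pos hrA hr0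
  have hpd := ((h.fit' P r).item r hP.self).2.1
  have hp0 := ppc_pos P T r h.ok
  have cR : (0 : ℝ) < c := by exact_mod_cast hc0
  have BR : (0 : ℝ) < B := by exact_mod_cast hB0
  have AR : (0 : ℝ) < A := by exact_mod_cast hA0
  have rR : (0 : ℝ) < r := by exact_mod_cast hr0
  have pR : (0 : ℝ) < ppc P T r := by exact_mod_cast hp0
  have mR : (0 : ℝ) < mpc P T r := by exact_mod_cast hP.mpos
  have sR : (0 : ℝ) < mp (subt P T r) r := by exact_mod_cast hP.mp_pos hP.self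
  have e1 : ((r / A : ℕ) : ℝ) = (r : ℝ) / A := Nat.cast_div hrA AR.ne'
  have e2 : ((r / ppc P T r : ℕ) : ℝ) = (r : ℝ) / ppc P T r := Nat.cast_div hpd pR.ne'
  have e3 : (B : ℝ) = mpc P T r * mp (subt P T r) r := by
    rw [hB, hP.cut r hP.self]; push_cast; ring
  have e4 : (mp T r : ℝ) = B := by rw [hB]
  rw [e1] at ho
  have e5 : (B : ℝ) * o = r / A * X - B * γ - c * a := by
    have : (c : ℝ) * ((B : ℝ) / c * o) = c * (r / A * (X / c) - (B : ℝ) / c * γ - a) := by rw [ho]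
    field_simp at this ⊢
    linarith
  unfold zp
  rw [e2, e4]
  have e6 : (((c * a : ℤ)) : ℝ) + (B : ℝ) * (γ + o) = r / A * X := by
    push_cast; linarith
  rw [e6, e3]
  field_simp

end

/-! ### the comparison -/

section
variable {Λ κ : Type*} [Fintype Λ] [DecidableEq κ] [DecidableEq Λ]
variable {Fc : Fac} {R : ℕ → ℝ} {S' : Finset ℕ} {Tc : ℕ → ℕ → Finset ℚ} {y q : ℕ}

/-- the status of the item `r` at the point `X` of the circle of the node `(A, B)`:
no large `up` prime is in the closed set -/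
def Fr (Fc : Fac) (γ : ℝ) (R : ℕ → ℝ) (S' : Finset ℕ) (Tc : ℕ → ℕ → Finset ℚ) (T : IT) (PP : ℕ → ℕ)
    (y A B : ℕ) (X : ℝ) (r : ℕ) : Prop :=
  ∀ b ∈ T.uq r, y ≤ PP b →
    ¬ Bd Fc γ R S' Tc T (PP b) b r (X * ((ppc (PP b) T r : ℝ) * mpc (PP b) T r) / ((A : ℝ) * B))

/-- relation of the weights `om` (with the closed exclusion) and `f` (without, at the primes `b`
with `y ≤ PP b`), for the items of `T'` -/
structure OmRel (Fc : Fac) (D : Par Λ κ) (R : ℕ → ℝ) (S' : Finset ℕ) (Tc : ℕ → ℕ → Finset ℚ) (T : IT)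
    (PP : ℕ → ℕ) (y : ℕ) (T' : Finset ℕ) (f : Λ → ℤ → ℝ) : Prop where
  /-- excluded numerators: weight `0` -/
  bad : ∀ j a, D.it j ∈ T' → D.al j < D.be j → ∀ b ∈ T.uq (D.it j), y ≤ PP b →
    Bd Fc D.γ R S' Tc T (PP b) b (D.it j) (zp D.γ T (PP b) (D.it j) (D.al j) a) → D.om j a = 0
  /-- the other numerators: the flat weight -/
  good : ∀ j a, D.it j ∈ T' → D.al j < D.be j → (∀ b ∈ T.uq (D.it j), y ≤ PP b →
    ¬ Bd Fc D.γ R S' Tc T (PP b) b (D.it j) (zp D.γ T (PP b) (D.it j) (D.al j) a)) →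
    D.om j a = f j a
  /-- constancy on pieces -/
  cst : ∀ j, D.it j ∈ T.items → ∀ b ∈ T.uq (D.it j), ∀ o a, D.al j ≤ o → o < D.be j →
    (Bd Fc D.γ R S' Tc T (PP b) b (D.it j) (zp D.γ T (PP b) (D.it j) o a) ↔
      Bd Fc D.γ R S' Tc T (PP b) b (D.it j) (zp D.γ T (PP b) (D.it j) (D.al j) a))

variable {D : Par Λ κ} {PP : ℕ → ℕ} {f : Λ → ℤ → ℝ}

/-- the leaf: status of the window members -/
lemma leaf_status (h : Root T n) {PP : ℕ → ℕ} {T' : Finset ℕ}
    (hO : OmRel Fc D R S' Tc T PP y T' f) {A B c : ℕ} {S : Finset ℕ} {j : Λ} (hj : D.it j ∈ S) (hjT : D.it j ∈ T.items)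
    (hB : B = mp T (D.it j)) (hA : A = pp T (D.it j)) (hc : c ∣ B) {X : ℝ} {a : ℤ}
    (ha : a ∈ Finset.Ioc
      ⌊((D.it j / A : ℕ) : ℝ) * (X / c) - (B : ℝ) / c * D.γ - (B : ℝ) / c * D.be j⌋
      ⌊((D.it j / A : ℕ) : ℝ) * (X / c) - (B : ℝ) / c * D.γ - (B : ℝ) / c * D.al j⌋)
    {b : ℕ} (hb : b ∈ T.uq (D.it j)) :
    D.al j < D.be j ∧
    (Bd Fc D.γ R S' Tc T (PP b) b (D.it j) (zp D.γ T (PP b) (D.it j) (D.al j) (c * a)) ↔
      Bd Fc D.γ R S' Tc T (PP b) b (D.it j)
        (X * ((ppc (PP b) T (D.it j) : ℝ) * mpc (PP b) T (D.it j)) / ((A : ℝ) * B))) := by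
  have hP := h.cutOk 0 hjT
  have hB0 : 0 < B := by
    rw [hB, hP.cut _ hP.self]; exact Nat.mul_pos hP.mpos (hP.mp_pos hP.self)
  have hc0 : 0 < c := Nat.pos_of_dvd_of_pos hc hB0
  have cR : (0 : ℝ) < c := by exact_mod_cast hc0
  have BR : (0 : ℝ) < B := by exact_mod_cast hB0
  have hs : (0 : ℝ) < (B : ℝ) / c := by positivity
  rw [mem_pw] at ha
  set o : ℝ := (((D.it j / A : ℕ) : ℝ) * (X / c) - (B : ℝ) / c * D.γ - a) / ((B : ℝ) / c) with ho
  have ho' : (B : ℝ) / c * o = ((D.it j / A : ℕ) : ℝ) * (X / c) - (B : ℝ) / c * D.γ - a := by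
    rw [ho]; field_simp
  have h1 : D.al j ≤ o := by
    rw [ho, le_div_iff₀ hs]; linarith [ha.1]
  have h2 : o < D.be j := by
    rw [ho, div_lt_iff₀ hs]; linarith [ha.2]
  refine ⟨h1.trans_lt h2, ?_⟩
  rw [← hO.cst j hjT b hb o (c * a) h1 h2, zp_leaf h (PP b) hjT hB hA hc ho']

/-- **same structure** on the pieces which are free at the point -/
lemma same_chi (h : Root T n) {T' : Finset ℕ} (hO : OmRel Fc D R S' Tc T PP y T' f) {C : Finset ℕ}
    (hT' : T' ⊆ T.items) {A0 B0 : ℕ} {X0 : ℝ} (hA0 : 0 < A0) (hB0 : 0 < B0)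
    {F : Finset Λ} (hF : ∀ j, j ∈ F ↔ D.it j ∈ T' ∧ Fr Fc D.γ R S' Tc T PP y A0 B0 X0 (D.it j))
    (hcl : ∀ p ∈ C, ∀ j ∈ F, ∀ k, D.it k ∈ T' → D.rho p k = D.rho p j → k ∈ F) (t : IT) :
    ∀ {b pr N : ℕ} {X : ℝ}, 0 < b → cols t ⊆ C → t.items ⊆ T' → Fit b pr t → N ∣ b →
    (∀ r ∈ t.items, b * mp t r = mp T r ∧ pr * pp t r = pp T r) →
    X * ((A0 : ℝ) * B0) = X0 * ((pr : ℝ) * b) →
    Same2 D (D.flat f) F F id b pr t N X X := by
  induction t with
  | leaf S =>
    intro b pr N X hb _ hT hfit hN hmp hX c hc j hj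
    show D.L b pr S c j (X / c) = (D.flat f).L b pr S c j (X / c)
    by_cases hk : D.it j ∈ S
    · obtain ⟨e1, e2⟩ := hmp _ hk
      have e1' : b = mp T (D.it j) := by rw [← e1]; exact (mul_one b).symm
      have e2' : pr = pp T (D.it j) := by rw [← e2]; exact (mul_one pr).symm
      have hjT : D.it j ∈ T.items := hT' (hT hk)
      have hpr0 : 0 < pr := Nat.pos_of_dvd_of_pos (hfit _ hk).2.1 (hfit _ hk).1
      have hAR : (0 : ℝ) < A0 := by exact_mod_cast hA0
      have hBR : (0 : ℝ) < B0 := by exact_mod_cast hB0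
      have hbR : (0 : ℝ) < b := by exact_mod_cast hb
      have hpR : (0 : ℝ) < pr := by exact_mod_cast hpr0
      have hfree := ((hF j).1 hj).2
      unfold Par.L
      rw [if_pos hk, if_pos (show (D.flat f).it j ∈ S from hk)]
      unfold Par.pcs pc
      refine Finset.sum_congr rfl fun a ha => ?_
      show D.om j (c * a) = f j (c * a)
      have hlt : D.al j < D.be j := by
        rw [mem_pw] at ha
        have hc0 : 0 < c := Nat.pos_of_dvd_of_pos (hc.trans hN) hb
        have cR : (0 : ℝ) < c := by exact_mod_cast hc0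
        have hs : (0 : ℝ) < (b : ℝ) / c := by positivity
        exact lt_of_mul_lt_mul_left (ha.1.trans_lt ha.2) hs.le
      refine hO.good j (c * a) (hT hk) hlt fun b' hb' hyb' hBd => ?_
      rw [(leaf_status h hO hk hjT e1' e2' (hc.trans hN) ha hb').2] at hBd
      refine hfree b' hb' hyb' ?_
      have e3 : X * ((ppc (PP b') T (D.it j) : ℝ) * mpc (PP b') T (D.it j)) / ((pr : ℝ) * b) =
          X0 * ((ppc (PP b') T (D.it j) : ℝ) * mpc (PP b') T (D.it j)) / ((A0 : ℝ) * B0) := by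
        rw [div_eq_div_iff (by positivity) (by positivity)]
        linear_combination ((ppc (PP b') T (D.it j) : ℝ) * mpc (PP b') T (D.it j)) * hX
      rwa [e3] at hBd
    · unfold Par.L
      rw [if_neg hk, if_neg (show ¬ (D.flat f).it j ∈ S from hk)]
  | br p Sp t₁ t₀ ih₁ ih₀ =>
    intro b pr N X hb hC hT hfit hN hmp hX
    obtain ⟨hp, hpb, hd, h1, h0⟩ := hfit
    have hpC : p ∈ C := hC (Finset.mem_insert_self _ _)
    have hbp : 0 < b * p := Nat.mul_pos hb hp.pos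
    have dd : ∀ (E : Par Λ κ) (k : Λ), E.it k ∉ T' →
        Dead E k b (pr * p) t₁ N (p * X) ∧ Dead E k (b * p) pr t₀ (N * p) (p * X) := by
      intro E k hk
      have hk2 : E.it k ∉ t₁.items ∪ t₀.items := fun h => hk (hT h)
      exact ⟨dead_out E t₁ fun h => hk2 (Finset.mem_union_left _ h),
        dead_out E t₀ fun h => hk2 (Finset.mem_union_right _ h)⟩
    refine ⟨fun _ _ _ _ => Iff.rfl, ?_, ?_, ?_, ?_⟩
    · intro j hj k hjk
      by_cases hkT : D.it k ∈ T'
      · exact Or.inl (hcl p hpC j hj k hkT hjk)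
      · exact Or.inr (dd D k hkT)
    · intro j hj k hjk
      by_cases hkT : D.it k ∈ T'
      · exact Or.inl (hcl p hpC j hj k hkT hjk)
      · exact Or.inr (dd (D.flat f) k hkT)
    · refine ih₁ hb (fun q hq => hC (Finset.mem_insert_of_mem (Finset.mem_union_left _ hq)))
        (fun q hq => hT (Finset.mem_union_left _ hq)) h1 hN (fun r hr => ?_) ?_
      · have hn : r ∉ t₀.items := Finset.disjoint_left.1 hd hr
        obtain ⟨e1, e2⟩ := hmp r (Finset.mem_union_left _ hr)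
        have g1 : mp (.br p Sp t₁ t₀) r = mp t₁ r := if_neg hn
        have g2 : pp (.br p Sp t₁ t₀) r = p * pp t₁ r := if_neg hn
        rw [g1] at e1; rw [g2] at e2
        exact ⟨e1, by rw [← e2]; ring⟩
      · push_cast; linear_combination (p : ℝ) * hX
    · refine ih₀ hbp (fun q hq => hC (Finset.mem_insert_of_mem (Finset.mem_union_right _ hq)))
        (fun q hq => hT (Finset.mem_union_right _ hq)) h0 (mul_dvd_mul_right hN p)
        (fun r hr => ?_) ?_
      · obtain ⟨e1, e2⟩ := hmp r (Finset.mem_union_right _ hr)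
        have g1 : mp (.br p Sp t₁ t₀) r = p * mp t₀ r := if_pos hr
        have g2 : pp (.br p Sp t₁ t₀) r = pp t₀ r := if_pos hr
        rw [g1] at e1; rw [g2] at e2
        exact ⟨by rw [← e1]; ring, e2⟩
      · push_cast; linear_combination (p : ℝ) * hX
  | add p t₁ t₀ ih₁ ih₀ =>
    intro b pr N X hb hC hT hfit hN hmp hX
    obtain ⟨hd, h1, h0⟩ := hfit
    refine ⟨ih₁ hb (fun q hq => hC (Finset.mem_union_left _ hq))
        (fun q hq => hT (Finset.mem_union_left _ hq)) h1 hN (fun r hr => ?_) hX,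
      ih₀ hb (fun q hq => hC (Finset.mem_union_right _ hq))
        (fun q hq => hT (Finset.mem_union_right _ hq)) h0 hN (fun r hr => ?_) hX⟩
    · have hn : r ∉ t₀.items := Finset.disjoint_left.1 hd hr
      obtain ⟨e1, e2⟩ := hmp r (Finset.mem_union_left _ hr)
      have g1 : mp (.add p t₁ t₀) r = mp t₁ r := if_neg hn
      have g2 : pp (.add p t₁ t₀) r = pp t₁ r := if_neg hn
      rw [g1] at e1; rw [g2] at e2
      exact ⟨e1, e2⟩
    · obtain ⟨e1, e2⟩ := hmp r (Finset.mem_union_right _ hr)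
      have g1 : mp (.add p t₁ t₀) r = mp t₀ r := if_pos hr
      have g2 : pp (.add p t₁ t₀) r = pp t₀ r := if_pos hr
      rw [g1] at e1; rw [g2] at e2
      exact ⟨e1, e2⟩
  | up p Sp t ih =>
    intro b pr N X hb hC hT hfit hN hmp hX
    exact ih hb hC hT hfit hN hmp hX
  | pl p t ih =>
    intro b pr N X hb hC hT hfit hN hmp hX
    obtain ⟨hp, hpb, h1⟩ := hfit
    refine ih hb hC hT h1 hN (fun r hr => ?_) ?_
    · obtain ⟨e1, e2⟩ := hmp r hr
      have g2 : pp (.pl p t) r = p * pp t r := rfl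
      rw [g2] at e2
      exact ⟨e1, by rw [← e2]; ring⟩
    · push_cast; linear_combination (p : ℝ) * hX
  | far p t₁ t₀ ih₁ ih₀ =>
    intro b pr N X hb hC hT hfit hN hmp hX
    obtain ⟨hd, h1, h0⟩ := hfit
    refine ⟨ih₁ hb (fun q hq => hC (Finset.mem_union_left _ hq))
        (fun q hq => hT (Finset.mem_union_left _ hq)) h1 hN (fun r hr => ?_) hX,
      ih₀ hb (fun q hq => hC (Finset.mem_union_right _ hq))
        (fun q hq => hT (Finset.mem_union_right _ hq)) h0 hN (fun r hr => ?_) hX⟩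
    · have hn : r ∉ t₀.items := Finset.disjoint_left.1 hd hr
      obtain ⟨e1, e2⟩ := hmp r (Finset.mem_union_left _ hr)
      have g1 : mp (.far p t₁ t₀) r = mp t₁ r := if_neg hn
      have g2 : pp (.far p t₁ t₀) r = pp t₁ r := if_neg hn
      rw [g1] at e1; rw [g2] at e2
      exact ⟨e1, e2⟩
    · obtain ⟨e1, e2⟩ := hmp r (Finset.mem_union_right _ hr)
      have g1 : mp (.far p t₁ t₀) r = mp t₀ r := if_pos hr
      have g2 : pp (.far p t₁ t₀) r = pp t₀ r := if_pos hr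
      rw [g1] at e1; rw [g2] at e2
      exact ⟨e1, e2⟩

/-- pieces which are not free at the point are dead -/
lemma dead_chi (h : Root T n) {T' : Finset ℕ} (hO : OmRel Fc D R S' Tc T PP y T' f)
    (hT' : T' ⊆ T.items) {A0 B0 : ℕ} {X0 : ℝ} (hA0 : 0 < A0) (hB0 : 0 < B0) {j : Λ}
    (hj : ¬ Fr Fc D.γ R S' Tc T PP y A0 B0 X0 (D.it j)) (t : IT) :
    ∀ {b pr N : ℕ} {X : ℝ}, 0 < b → t.items ⊆ T' → Fit b pr t → N ∣ b →
    (∀ r ∈ t.items, b * mp t r = mp T r ∧ pr * pp t r = pp T r) →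
    X * ((A0 : ℝ) * B0) = X0 * ((pr : ℝ) * b) → Dead D j b pr t N X := by
  induction t with
  | leaf S =>
    intro b pr N X hb hT hfit hN hmp hX c hc
    by_cases hk : D.it j ∈ S
    · obtain ⟨e1, e2⟩ := hmp _ hk
      have e1' : b = mp T (D.it j) := by rw [← e1]; exact (mul_one b).symm
      have e2' : pr = pp T (D.it j) := by rw [← e2]; exact (mul_one pr).symm
      have hjT : D.it j ∈ T.items := hT' (hT hk)
      have hpr0 : 0 < pr := Nat.pos_of_dvd_of_pos (hfit _ hk).2.1 (hfit _ hk).1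
      have hAR : (0 : ℝ) < A0 := by exact_mod_cast hA0
      have hBR : (0 : ℝ) < B0 := by exact_mod_cast hB0
      have hbR : (0 : ℝ) < b := by exact_mod_cast hb
      have hpR : (0 : ℝ) < pr := by exact_mod_cast hpr0
      unfold Fr at hj
      push Not at hj
      obtain ⟨b', hb', hyb', hBd⟩ := hj
      unfold Par.L
      rw [if_pos hk]
      unfold Par.pcs pc
      refine Finset.sum_eq_zero fun a ha => ?_
      show D.om j (c * a) = 0
      obtain ⟨hlt, hst⟩ := leaf_status h hO hk hjT e1' e2' (hc.trans hN) ha hb'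
      refine hO.bad j (c * a) (hT hk) hlt b' hb' hyb' ?_
      rw [hst]
      have e3 : X * ((ppc (PP b') T (D.it j) : ℝ) * mpc (PP b') T (D.it j)) / ((pr : ℝ) * b) =
          X0 * ((ppc (PP b') T (D.it j) : ℝ) * mpc (PP b') T (D.it j)) / ((A0 : ℝ) * B0) := by
        rw [div_eq_div_iff (by positivity) (by positivity)]
        linear_combination ((ppc (PP b') T (D.it j) : ℝ) * mpc (PP b') T (D.it j)) * hX
      rwa [e3]
    · exact if_neg hk
  | br p Sp t₁ t₀ ih₁ ih₀ =>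
    intro b pr N X hb hT hfit hN hmp hX
    obtain ⟨hp, hpb, hd, h1, h0⟩ := hfit
    have hbp : 0 < b * p := Nat.mul_pos hb hp.pos
    refine ⟨?_, ?_⟩
    · refine ih₁ hb (fun q hq => hT (Finset.mem_union_left _ hq)) h1 hN (fun r hr => ?_) ?_
      · have hn : r ∉ t₀.items := Finset.disjoint_left.1 hd hr
        obtain ⟨e1, e2⟩ := hmp r (Finset.mem_union_left _ hr)
        have g1 : mp (.br p Sp t₁ t₀) r = mp t₁ r := if_neg hn
        have g2 : pp (.br p Sp t₁ t₀) r = p * pp t₁ r := if_neg hn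
        rw [g1] at e1; rw [g2] at e2
        exact ⟨e1, by rw [← e2]; ring⟩
      · push_cast; linear_combination (p : ℝ) * hX
    · refine ih₀ hbp (fun q hq => hT (Finset.mem_union_right _ hq)) h0 (mul_dvd_mul_right hN p)
        (fun r hr => ?_) ?_
      · obtain ⟨e1, e2⟩ := hmp r (Finset.mem_union_right _ hr)
        have g1 : mp (.br p Sp t₁ t₀) r = p * mp t₀ r := if_pos hr
        have g2 : pp (.br p Sp t₁ t₀) r = pp t₀ r := if_pos hr
        rw [g1] at e1; rw [g2] at e2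
        exact ⟨by rw [← e1]; ring, e2⟩
      · push_cast; linear_combination (p : ℝ) * hX
  | add p t₁ t₀ ih₁ ih₀ =>
    intro b pr N X hb hT hfit hN hmp hX
    obtain ⟨hd, h1, h0⟩ := hfit
    refine ⟨ih₁ hb (fun q hq => hT (Finset.mem_union_left _ hq)) h1 hN (fun r hr => ?_) hX,
      ih₀ hb (fun q hq => hT (Finset.mem_union_right _ hq)) h0 hN (fun r hr => ?_) hX⟩
    · have hn : r ∉ t₀.items := Finset.disjoint_left.1 hd hr
      obtain ⟨e1, e2⟩ := hmp r (Finset.mem_union_left _ hr)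
      have g1 : mp (.add p t₁ t₀) r = mp t₁ r := if_neg hn
      have g2 : pp (.add p t₁ t₀) r = pp t₁ r := if_neg hn
      rw [g1] at e1; rw [g2] at e2
      exact ⟨e1, e2⟩
    · obtain ⟨e1, e2⟩ := hmp r (Finset.mem_union_right _ hr)
      have g1 : mp (.add p t₁ t₀) r = mp t₀ r := if_pos hr
      have g2 : pp (.add p t₁ t₀) r = pp t₀ r := if_pos hr
      rw [g1] at e1; rw [g2] at e2
      exact ⟨e1, e2⟩
  | up p Sp t ih =>
    intro b pr N X hb hT hfit hN hmp hX
    exact ih hb hT hfit hN hmp hX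
  | pl p t ih =>
    intro b pr N X hb hT hfit hN hmp hX
    obtain ⟨hp, hpb, h1⟩ := hfit
    refine ih hb hT h1 hN (fun r hr => ?_) ?_
    · obtain ⟨e1, e2⟩ := hmp r hr
      have g2 : pp (.pl p t) r = p * pp t r := rfl
      rw [g2] at e2
      exact ⟨e1, by rw [← e2]; ring⟩
    · push_cast; linear_combination (p : ℝ) * hX
  | far p t₁ t₀ ih₁ ih₀ =>
    intro b pr N X hb hT hfit hN hmp hX
    obtain ⟨hd, h1, h0⟩ := hfit
    refine ⟨ih₁ hb (fun q hq => hT (Finset.mem_union_left _ hq)) h1 hN (fun r hr => ?_) hX,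
      ih₀ hb (fun q hq => hT (Finset.mem_union_right _ hq)) h0 hN (fun r hr => ?_) hX⟩
    · have hn : r ∉ t₀.items := Finset.disjoint_left.1 hd hr
      obtain ⟨e1, e2⟩ := hmp r (Finset.mem_union_left _ hr)
      have g1 : mp (.far p t₁ t₀) r = mp t₁ r := if_neg hn
      have g2 : pp (.far p t₁ t₀) r = pp t₁ r := if_neg hn
      rw [g1] at e1; rw [g2] at e2
      exact ⟨e1, e2⟩
    · obtain ⟨e1, e2⟩ := hmp r (Finset.mem_union_right _ hr)
      have g1 : mp (.far p t₁ t₀) r = mp t₀ r := if_pos hr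
      have g2 : pp (.far p t₁ t₀) r = pp t₀ r := if_pos hr
      rw [g1] at e1; rw [g2] at e2
      exact ⟨e1, e2⟩

/-- **POINTWISE COMPARISON** on the cut tree of `q` at the level `y`: the classes (closed
exclusion) at the `up` primes `b` with `y ≤ PP b` may be dropped. -/
theorem Fq_le_flat (h : Root T n) (hO : OmRel Fc D R S' Tc T PP y (subt y T q).items f)
    (hq : q ∈ T.items)
    (hW : D.Wts (ppc y T q) (subt y T q)) (hWf : (D.flat f).Wts (ppc y T q) (subt y T q))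
    (huq : ∀ r ∈ (subt y T q).items, ∀ r' ∈ (subt y T q).items,
      Fc.uc y (r / ppc y T q) = Fc.uc y (r' / ppc y T q) → ∀ b, y ≤ PP b → b ∈ T.uq r → b ∈ T.uq r')
    (hrp : ∀ p ∈ cols (subt y T q), ∀ j k, D.it j ∈ (subt y T q).items →
      D.it k ∈ (subt y T q).items → D.rho p k = D.rho p j →
      Fc.uc y (D.it k / ppc y T q) = Fc.uc y (D.it j / ppc y T q))
    {c : ℕ} (hc : c ∣ mpc y T q) (x : ℝ) :
    Fq D (mpc y T q) (ppc y T q) (subt y T q) c q x ≤
      Fq (D.flat f) (mpc y T q) (ppc y T q) (subt y T q) c q x := by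
  classical
  have hcut := h.cutOk y hq
  have hb0 : 0 < mpc y T q := hcut.mpos
  have hp0 : 0 < ppc y T q := ppc_pos y T q h.ok
  have hc0 : 0 < c := Nat.pos_of_dvd_of_pos hc hb0
  have cR : (0 : ℝ) < c := by exact_mod_cast hc0
  have hfit := h.fit' y q
  have hmp : ∀ r ∈ (subt y T q).items, mpc y T q * mp (subt y T q) r = mp T r ∧
      ppc y T q * pp (subt y T q) r = pp T r := by
    intro r hr
    obtain ⟨e1, e2, e3, -⟩ := subt_same y T (Ok_dj h.ok) hq hr
    exact ⟨(hcut.cut r hr).symm, by rw [pp_cut y T r, e1, e3]⟩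
  set F : Finset Λ := Finset.univ.filter fun j => D.it j ∈ (subt y T q).items ∧
    Fr Fc D.γ R S' Tc T PP y (ppc y T q) (mpc y T q) (c * x) (D.it j) with hFdef
  have hF : ∀ j, j ∈ F ↔ D.it j ∈ (subt y T q).items ∧
      Fr Fc D.γ R S' Tc T PP y (ppc y T q) (mpc y T q) (c * x) (D.it j) := by
    intro j; rw [hFdef]; simp
  -- mates have the same status
  have hmates : ∀ r ∈ (subt y T q).items, ∀ r' ∈ (subt y T q).items,
      Fc.uc y (r / ppc y T q) = Fc.uc y (r' / ppc y T q) →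
      Fr Fc D.γ R S' Tc T PP y (ppc y T q) (mpc y T q) (c * x) r →
      Fr Fc D.γ R S' Tc T PP y (ppc y T q) (mpc y T q) (c * x) r' := by
    intro r hr r' hr' e hfr b hb hyb hBd
    have hb' : b ∈ T.uq r := huq r' hr' r hr e.symm b hyb hb
    obtain ⟨a1, a2, a3, -⟩ := subt_same (PP b) T (Ok_dj h.ok) hq (cut_sub hyb q hr)
    obtain ⟨b1, b2, b3, -⟩ := subt_same (PP b) T (Ok_dj h.ok) hq (cut_sub hyb q hr')
    refine hfr b hb' hyb ?_
    rw [a2, a3]
    rw [b2, b3] at hBd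
    exact Bd_mates h hyb hq hr' hr e.symm _ hBd
  have hcl : ∀ p ∈ cols (subt y T q), ∀ j ∈ F, ∀ k, D.it k ∈ (subt y T q).items →
      D.rho p k = D.rho p j → k ∈ F := by
    intro p hp j hj k hk e
    obtain ⟨h1, h2⟩ := (hF j).1 hj
    exact (hF k).2 ⟨hk, hmates _ h1 _ hk (hrp p hp j k h1 hk e).symm h2⟩
  have hsame : Same2 D (D.flat f) F F id (mpc y T q) (ppc y T q) (subt y T q) c (c * x) (c * x) :=
    same_chi h hO (subt_items y T q) hp0 hb0 hF hcl (subt y T q) hb0 (Finset.Subset.refl _)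
      (Finset.Subset.refl _) hfit hc hmp (by ring)
  have ecx : (c : ℝ) * x / c = x := by field_simp
  unfold Fq
  refine Finset.sum_le_sum fun j hj => ?_
  have hjq : D.it j = q := (Finset.mem_filter.1 hj).2
  have hjt : D.it j ∈ (subt y T q).items := by rw [hjq]; exact hcut.self
  by_cases hjF : j ∈ F
  · have h1 := iso_agree D (D.flat f) rfl (subt y T q) hb0 hfit hW hWf hc hsame c (dvd_refl c) hjF
    rw [ecx] at h1
    exact h1.le
  · have hnf : ¬ Fr Fc D.γ R S' Tc T PP y (ppc y T q) (mpc y T q) (c * x) (D.it j) :=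
      fun hh => hjF ((hF j).2 ⟨hjt, hh⟩)
    have h1 := dead_U D (subt y T q) hfit hc0
      (dead_chi h hO (subt_items y T q) hp0 hb0 hnf (subt y T q) (X := c * x) hb0
        (Finset.Subset.refl _) hfit hc hmp (by ring)) c (dvd_refl c)
    rw [ecx] at h1
    rw [h1]
    exact (FT.pb hb0 ((D.flat f).toFT_Adm _ _ _ hb0 hfit hWf) hc j).nonneg x

end

end Crest.Agent.R4P.Chi464
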