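import Crest.Agent.R4P.StepAlv588
import Crest.Agent.R4P.World2_363
import Crest.Agent.R4.StepCf588

/-!
R4 (S0004), helper588: **the worlds W* and the critical points** (T9').

`crit` = critical offsets of an item. If no critical point of a relevant item separates `x` and `x'`
(equal floors), the item sums at `x` and `x'` agree (`good_const`). `per_const`: periodicity.
Port to the tree with powers (helper504).
-/

set_option autoImplicit false
set_option linter.unusedSectionVars false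
open MeasureTheory Filter

namespace Crest.Agent.R4P.Step588

open Crest.Agent.R4.Tour104 Crest.Agent.R4.Tour758 Crest.Agent.R4.Avg758 Crest.Agent.R4.Clos758
open Crest.Agent.R4.ClosL758 Crest.Agent.R4.ClosG758 Crest.Agent.R4.Lam368
open Crest.Agent.R4.Piece464 Crest.Agent.R4.Fam464 Crest.Agent.R4P.Cnt588 Crest.Agent.R4P.Item758
open Crest.Agent.R4P.W363

export Crest.Agent.R4.Step588 (snap)

section
variable {Λ κ : Type*}

/-- the classes of the columns of `C` are given by the worlds `W*` -/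
structure Wld (D : Par Λ κ) (P : WP) (stt : ℕ → ℕ → Option ℚ) (rtt : ℕ → ℕ → ℕ)
    (C : Finset ℕ) : Prop where
  rho : ∀ p ∈ C, ∀ j k, (D.rho p j = D.rho p k ↔
    (P.ix D.γ p (D.it j) (stt p (D.it j)) (D.al j) =
      P.ix D.γ p (D.it k) (stt p (D.it k)) (D.al k) ∧ rtt p (D.it j) = rtt p (D.it k)))
  pt : ∀ p ∈ C, ∀ j z, D.al j ≤ z → z < D.be j →
    P.ix D.γ p (D.it j) (stt p (D.it j)) z = P.ix D.γ p (D.it j) (stt p (D.it j)) (D.al j)

/-- critical offsets of the item `q` (depth `dm`, scale `s`, radius `R`) -/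
noncomputable def crit (P : WP) (dm : ℕ) (s R : ℝ) (q : ℕ) : Finset ℝ :=
  {-(s * R), s * R} ∪ ((brk P.ρ₀ P.n₀ dm).image (fun e => s * q * e)).filter (fun e => |e| ≤ s * R)

lemma off_ofs {D : Par Λ κ} {s x c : ℝ} {pr B : ℕ} {j : Λ} {M : ℤ} (hs : 0 < s) (hpr : 0 < pr)
    (hd : pr ∣ D.it j) (hq : 0 < D.it j) (hB : 0 < B) :
    off D.γ c (D.it j) (ofs D s pr B x j M / s) = x / (s * pr) - ((M : ℝ) / (B * s) + c) / D.it j := by
  have h1 : ((D.it j / pr : ℕ) : ℝ) = (D.it j : ℝ) / pr :=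
    Nat.cast_div hd (by exact_mod_cast hpr.ne')
  have h2 : (D.it j : ℝ) ≠ 0 := by exact_mod_cast hq.ne'
  have h3 : (pr : ℝ) ≠ 0 := by exact_mod_cast hpr.ne'
  have h4 : (B : ℝ) ≠ 0 := by exact_mod_cast hB.ne'
  unfold off ofs
  rw [h1]
  field_simp
  ring

/-- equal floors: the same comparisons -/
lemma cmp_iff {D : Par Λ κ} {s x x' e : ℝ} {pr B : ℕ} {j : Λ} (hB : 0 < B)
    (hf : ⌊(B : ℝ) * (((D.it j / pr : ℕ) : ℝ) * x - s * D.γ - e)⌋ =
      ⌊(B : ℝ) * (((D.it j / pr : ℕ) : ℝ) * x' - s * D.γ - e)⌋) (M : ℤ) :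
    e ≤ ofs D s pr B x j M ↔ e ≤ ofs D s pr B x' j M := by
  have hB' : (0 : ℝ) < B := by exact_mod_cast hB
  have key : ∀ y : ℝ, e ≤ ofs D s pr B y j M ↔
      M ≤ ⌊(B : ℝ) * (((D.it j / pr : ℕ) : ℝ) * y - s * D.γ - e)⌋ := by
    intro y
    rw [Int.le_floor]
    unfold ofs
    have : (M : ℝ) = B * ((M : ℝ) / B) := by field_simp
    constructor
    · intro h
      rw [this]
      exact mul_le_mul_of_nonneg_left (by linarith) hB'.le
    · intro h
      rw [this] at h
      have := le_of_mul_le_mul_left h hB'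
      linarith
  rw [key, key, hf]

/-- hypotheses on the worlds at the node (`s = b/c`) -/
structure WOk (D : Par Λ κ) (P : WP) (stt : ℕ → ℕ → Option ℚ) (C : Finset ℕ) (T : Finset ℕ)
    (dm N : ℕ) : Prop where
  dep : ∀ p ∈ C, P.dep p ≤ dm
  δ : 0 < P.δ₀
  snap : ∀ p ∈ C, ∀ q ∈ T, ∀ r ∈ T, ∀ σ τ : ℚ, stt p q = some σ → stt p r = some τ →
    P.δ₀ * (N * (σ.den * q * (τ.den * r))) ≤ 1
  rng : ∀ p ∈ C, ∀ j, D.it j ∈ T → ∀ σ : ℚ, stt p (D.it j) = some σ → ∀ z, D.al j ≤ z → z < D.be j →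
    |off D.γ σ (D.it j) z| < P.n₁ * P.δ₀

/-- **the classes of alive pieces are preserved** -/
theorem cls_iff {D : Par Λ κ} {P : WP} {stt : ℕ → ℕ → Option ℚ} {rtt : ℕ → ℕ → ℕ}
    {C T : Finset ℕ} {dm sn : ℕ} {pr B : ℕ} {R : ℕ → ℝ} (hC : Cov D R)
    (hw : Wld D P stt rtt C) (ho : WOk D P stt C T dm (B * sn)) (hs : 0 < sn) (hpr : 0 < pr)
    (hB : 0 < B) (hT : ∀ q ∈ T, 0 < q ∧ pr ∣ q)
    {x x' : ℝ} {j k j' k' : Λ} (hj : D.it j ∈ T) (hk : D.it k ∈ T) (ej : D.it j' = D.it j)
    (ek : D.it k' = D.it k) {M M' : ℤ} (a1 : alv D sn pr B x j M) (a2 : alv D sn pr B x' j' M)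
    (a3 : alv D sn pr B x k M') (a4 : alv D sn pr B x' k' M')
    (f1 : ∀ e ∈ crit P dm sn (R (D.it j)) (D.it j),
      ⌊(B : ℝ) * (((D.it j / pr : ℕ) : ℝ) * x - sn * D.γ - e)⌋ =
      ⌊(B : ℝ) * (((D.it j / pr : ℕ) : ℝ) * x' - sn * D.γ - e)⌋)
    (f2 : ∀ e ∈ crit P dm sn (R (D.it k)) (D.it k),
      ⌊(B : ℝ) * (((D.it k / pr : ℕ) : ℝ) * x - sn * D.γ - e)⌋ =
      ⌊(B : ℝ) * (((D.it k / pr : ℕ) : ℝ) * x' - sn * D.γ - e)⌋) {p : ℕ} (hp : p ∈ C) :
    D.rho p j = D.rho p k ↔ D.rho p j' = D.rho p k' := by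
  have hsR : (0 : ℝ) < sn := by exact_mod_cast hs
  have hBR : (0 : ℝ) < B := by exact_mod_cast hB
  have hprR : (0 : ℝ) < pr := by exact_mod_cast hpr
  -- points of the pieces
  have pt : ∀ {y : ℝ} {i : Λ} {L : ℤ}, alv D sn pr B y i L →
      D.al i ≤ ofs D sn pr B y i L / sn ∧ ofs D sn pr B y i L / sn < D.be i := by
    intro y i L h
    have h1 : (sn : ℝ) * D.al i ≤ ofs D sn pr B y i L := h.1
    have h2 : ofs D sn pr B y i L < sn * D.be i := h.2
    refine ⟨?_, ?_⟩
    · rw [le_div_iff₀ hsR]; linarith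
    · rw [div_lt_iff₀ hsR]; linarith
  have ixp : ∀ {y : ℝ} {i : Λ} {L : ℤ}, alv D sn pr B y i L →
      P.ix D.γ p (D.it i) (stt p (D.it i)) (D.al i) =
      P.ix D.γ p (D.it i) (stt p (D.it i)) (ofs D sn pr B y i L / sn) := by
    intro y i L h
    obtain ⟨h1, h2⟩ := pt h
    exact (hw.pt p hp i _ h1 h2).symm
  rw [hw.rho p hp, hw.rho p hp, ixp a1, ixp a2, ixp a3, ixp a4, ej, ek]
  refine and_congr_left fun _ => ?_
  have hqj := hT _ hj
  have hqk := hT _ hk
  have ob : ∀ (c : ℝ) (y : ℝ) (i : Λ) (L : ℤ), D.it i ∈ T →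
      off D.γ c (D.it i) (ofs D sn pr B y i L / sn) =
        y / (sn * pr) - ((L : ℝ) / (B * sn) + c) / D.it i := by
    intro c y i L hi
    exact off_ofs hsR hpr (hT _ hi).2 (hT _ hi).1 hB
  have hj' : D.it j' ∈ T := by rw [ej]; exact hj
  have hk' : D.it k' ∈ T := by rw [ek]; exact hk
  rcases hsj : stt p (D.it j) with _ | σ <;> rcases hsk : stt p (D.it k) with _ | τ
  · -- both unlabelled
    have cellc : ∀ {i i' : Λ} {L : ℤ}, D.it i ∈ T → D.it i' = D.it i →
        alv D sn pr B x i L → alv D sn pr B x' i' L →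
        (∀ e ∈ crit P dm sn (R (D.it i)) (D.it i),
          ⌊(B : ℝ) * (((D.it i / pr : ℕ) : ℝ) * x - sn * D.γ - e)⌋ =
          ⌊(B : ℝ) * (((D.it i / pr : ℕ) : ℝ) * x' - sn * D.γ - e)⌋) →
        P.ix D.γ p (D.it i) none (ofs D sn pr B x i L / sn) =
        P.ix D.γ p (D.it i) none (ofs D sn pr B x' i' L / sn) := by
      intro i i' L hi ei h1 h2 hf
      have hqi := hT _ hi
      have hqR : (0 : ℝ) < D.it i := by exact_mod_cast hqi.1
      unfold WP.ix
      refine Prod.ext rfl ?_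
      show cell (brk P.ρ₀ P.n₀ (P.dep p)) _ = cell (brk P.ρ₀ P.n₀ (P.dep p)) _
      refine cell_mono_set (brk_mono P.ρ₀ P.n₀ (ho.dep p hp)) ?_
      rw [cell_eq_iff]
      intro e he
      unfold off ctr
      rw [sub_self, add_zero, add_zero, le_div_iff₀ hqR, le_div_iff₀ hqR, le_div_iff₀ hsR,
        le_div_iff₀ hsR]
      have ee : e * D.it i * sn = sn * D.it i * e := by ring
      rw [ee]
      have e2 : ofs D sn pr B x' i' L = ofs D sn pr B x' i L := by unfold ofs; rw [ei]
      rw [e2]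
      have b1 : |ofs D sn pr B x i L| ≤ sn * R (D.it i) ∧ ofs D sn pr B x i L < sn * R (D.it i) := by
        obtain ⟨g1, g2⟩ := pt h1
        have g3 := hC.al i
        have g4 := hC.be i
        have g5 : -(sn * R (D.it i)) ≤ ofs D sn pr B x i L := by
          rw [le_div_iff₀ hsR] at g1
          nlinarith
        have g6 : ofs D sn pr B x i L < sn * R (D.it i) := by
          rw [div_lt_iff₀ hsR] at g2
          nlinarith
        exact ⟨abs_le.2 ⟨g5, g6.le⟩, g6⟩
      have b2 : |ofs D sn pr B x' i L| ≤ sn * R (D.it i) ∧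
          ofs D sn pr B x' i L < sn * R (D.it i) := by
        rw [← e2]
        obtain ⟨g1, g2⟩ := pt h2
        have g3 := hC.al i'
        have g4 := hC.be i'
        rw [ei] at g3 g4
        have g5 : -(sn * R (D.it i)) ≤ ofs D sn pr B x' i' L := by
          rw [le_div_iff₀ hsR] at g1
          nlinarith
        have g6 : ofs D sn pr B x' i' L < sn * R (D.it i) := by
          rw [div_lt_iff₀ hsR] at g2
          nlinarith
        exact ⟨abs_le.2 ⟨g5, g6.le⟩, g6⟩
      by_cases hin : |(sn : ℝ) * D.it i * e| ≤ sn * R (D.it i)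
      · refine cmp_iff hB (hf _ ?_) L
        unfold crit
        exact Finset.mem_union_right _ (Finset.mem_filter.2
          ⟨Finset.mem_image.2 ⟨e, he, rfl⟩, hin⟩)
      · push Not at hin
        rcases lt_abs.1 hin with h | h
        · constructor
          · intro h3; linarith [(abs_le.1 b1.1).2]
          · intro h3; linarith [(abs_le.1 b2.1).2]
        · constructor
          · intro _; linarith [(abs_le.1 b2.1).1]
          · intro _; linarith [(abs_le.1 b1.1).1]
    have c1 := cellc hj ej a1 a2 f1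
    have c2 := cellc hk ek a3 a4 f2
    rw [c1, c2]
  · constructor
    · intro h
      have := P.isSome_eq h
      simp at this
    · intro h
      have := P.isSome_eq h
      simp at this
  · constructor
    · intro h
      have := P.isSome_eq h
      simp at this
    · intro h
      have := P.isSome_eq h
      simp at this
  · -- both labelled
    have hcd : (((B * sn : ℕ)) : ℝ) = B * sn := by push_cast; ring
    have hsnap := ho.snap p hp _ hj _ hk σ τ hsj hsk
    have main : ∀ {y y' : ℝ} {i l i' l' : Λ} {L L' : ℤ}, D.it i = D.it j → D.it l = D.it k →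
        D.it i' = D.it j → D.it l' = D.it k →
        alv D sn pr B y i L → alv D sn pr B y l L' →
        P.ix D.γ p (D.it j) (some σ) (ofs D sn pr B y i L / sn) =
          P.ix D.γ p (D.it k) (some τ) (ofs D sn pr B y l L' / sn) →
        P.ix D.γ p (D.it j) (some σ) (ofs D sn pr B y' i' L / sn) =
          P.ix D.γ p (D.it k) (some τ) (ofs D sn pr B y' l' L' / sn) := by
      intro y y' i l i' l' L L' ei el ei' el' h1 h2 h
      have hi : D.it i ∈ T := by rw [ei]; exact hj
      have hl : D.it l ∈ T := by rw [el]; exact hk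
      have hi' : D.it i' ∈ T := by rw [ei']; exact hj
      have hl' : D.it l' ∈ T := by rw [el']; exact hk
      obtain ⟨u1, u2⟩ := pt h1
      obtain ⟨v1, v2⟩ := pt h2
      have r1 := ho.rng p hp i hi σ (by rw [ei]; exact hsj) _ u1 u2
      have r2 := ho.rng p hp l hl τ (by rw [el]; exact hsk) _ v1 v2
      rw [ei] at r1
      rw [el] at r2
      have h3 : cell (grd P.δ₀ P.n₁) (off D.γ σ (D.it j) (ofs D sn pr B y i L / sn)) =
          cell (grd P.δ₀ P.n₁) (off D.γ τ (D.it k) (ofs D sn pr B y l L' / sn)) :=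
        congrArg Prod.snd h
      have h4 := grd_close ho.δ r1 r2 h3
      have o1 := ob σ y i L hi
      have o2 := ob τ y l L' hl
      rw [ei] at o1
      rw [el] at o2
      rw [o1, o2] at h4
      have h5 := snap (T := B * sn) (Nat.mul_pos hB hs) hqj.1 hqk.1 (σ := σ) (τ := τ) (M := L)
        (M' := L') hsnap (by
          rw [hcd, abs_sub_comm]
          have e : y / (sn * pr) - ((L : ℝ) / (B * sn) + σ) / D.it j -
              (y / (sn * pr) - ((L' : ℝ) / (B * sn) + τ) / D.it k) =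
              ((L' : ℝ) / (B * sn) + τ) / D.it k - ((L : ℝ) / (B * sn) + σ) / D.it j := by ring
          rwa [e] at h4)
      rw [hcd] at h5
      apply P.ix_same_some
      have o3 := ob σ y' i' L hi'
      have o4 := ob τ y' l' L' hl'
      rw [ei'] at o3
      rw [el'] at o4
      rw [o3, o4, h5]
    constructor
    · exact fun h => main rfl rfl ej ek a1 a3 h
    · exact fun h => main ej ek rfl rfl a2 a4 h

end

end Crest.Agent.R4P.Step588
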