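import Crest.Agent.R4P.Chi464b
import Crest.Agent.R4P.StepCf588

/-!
R4 (S0004), powers, port of helper464's `Chi464c` (helper393): closed exclusion, part 3: **the closed exclusion at the small `up` primes is
decided by the critical floors** (T9', #15076 (c)).

* `Bd_small` : equal floors at `x`, `x'` (circle of the cut node): the same status at `b`, `PP b ≤ y`.
* `zp_alive` : position of the leaf numerator of an alive piece.
* `OmC_chi` : `OmC` / `OmCA` for weights which see the small `up` primes through the closed set.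
-/

set_option autoImplicit false
set_option linter.unusedSectionVars false
set_option linter.unusedVariables false

namespace Crest.Agent.R4P.Chi464

open Crest.Agent.R4.Step588 (pml pml_dvd mul_pml_dvd pml_pos)
open Crest.Agent.R4P.Fac393 (Fac)
open Crest.Agent.R4.Piece464 Crest.Agent.R4.Clos758 Crest.Agent.R4.ClosL758 Crest.Agent.R4.ClosR758
open Crest.Agent.R4.Tour104 Crest.Agent.R4.Tour758 Crest.Agent.R4.Avg758 Crest.Agent.R4.Fam464
open Crest.Agent.R4.ClosG758 Crest.Agent.R4.Lam368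
open Crest.Agent.R4P.Cnt588 Crest.Agent.R4P.Item758 Crest.Agent.R4P.Step588 Crest.Agent.R4P.Om532
open Crest.Agent.R4P.W363

variable {T : IT} {n : ℕ}

/-- the missing ties in `[P, y)` and the primes below `P` -/
lemma mpc_mul_pml_dvd {t : IT} {y P : ℕ} (h : t.Ok y) (hP : P ≤ y) (r : ℕ) :
    mpc P t r * pml P ∣ pml y := by
  classical
  rw [mpc_eq P t r h]
  unfold pml
  rw [← Finset.prod_union]
  · refine Finset.prod_dvd_prod_of_subset _ _ _ fun p hp => ?_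
    rcases Finset.mem_union.1 hp with hp | hp
    · obtain ⟨h1, h2⟩ := mt_prime_lt t h (Finset.mem_filter.1 hp).1
      exact Finset.mem_filter.2 ⟨Finset.mem_range.2 h2, h1⟩
    · obtain ⟨h1, h2⟩ := Finset.mem_filter.1 hp
      exact Finset.mem_filter.2 ⟨Finset.mem_range.2 ((Finset.mem_range.1 h1).trans_le hP), h2⟩
  · rw [Finset.disjoint_left]
    intro p hp hp'
    have h1 := (Finset.mem_filter.1 hp).2
    have h2 := Finset.mem_range.1 (Finset.mem_filter.1 hp').1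
    omega

section
variable {Fc : Fac} {γ : ℝ} {R : ℕ → ℝ} {S' : Finset ℕ} {Tc : ℕ → ℕ → Finset ℚ} {y P b q : ℕ}

/-- **equal floors: the same status** at a small prime -/
theorem Bd_small (h : Root T n) (hPy : P ≤ y) (hq : q ∈ T.items) {r0 : ℕ}
    (hr0 : r0 ∈ (subt y T q).items)
    (hrel : Fc.uc y (r0 / ppc y T q) = Fc.uc y (q / ppc y T q)) {sn c2 : ℕ} (hc2 : 0 < c2)
    (hsc : sn * c2 = mpc y T q) {x x' : ℝ}
    (hfl : ∀ r ∈ (subt y T q).items, r ∈ S' → Fc.uc y (r / ppc y T q) = Fc.uc y (q / ppc y T q) →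
      ∀ e : ℝ, (e = -((sn : ℝ) * R r) ∨ e = (sn : ℝ) * R r) →
      ⌊((c2 * Fc.PV y : ℕ) : ℝ) * (((r / ppc y T q : ℕ) : ℝ) * x - sn * γ - e)⌋ =
      ⌊((c2 * Fc.PV y : ℕ) : ℝ) * (((r / ppc y T q : ℕ) : ℝ) * x' - sn * γ - e)⌋)
    (hB : Bd Fc γ R S' Tc T P b r0
      (x * (c2 * ((mpc P (subt y T q) r0 : ℝ) * ppc P (subt y T q) r0)))) :
    Bd Fc γ R S' Tc T P b r0
      (x' * (c2 * ((mpc P (subt y T q) r0 : ℝ) * ppc P (subt y T q) r0))) := by
  have hd := Ok_dj h.ok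
  obtain ⟨s1, s2, s3, -⟩ := subt_same y T hd hq hr0
  have hr0T : r0 ∈ T.items := subt_items y T q hr0
  obtain ⟨c1, c3, c4⟩ := cut_cut hPy r0 T
  -- `subt P (subt y T q) r0 = subt P T r0` needs the cut at the larger level first
  have k1 : subt P (subt y T q) r0 = subt P T r0 := by rw [← s1]; exact c1
  have k2 : ppc P T r0 = ppc y T q * ppc P (subt y T q) r0 := by rw [c3, s3, s1]
  have k3 : mpc P T r0 = mpc y T q * mpc P (subt y T q) r0 := by rw [c4, s2, s1]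
  obtain ⟨r, hr, hrS, hrg, M, ρ, hρ, w1, w2, w3⟩ := hB
  have hrT2 : r ∈ (subt y T q).items := by
    have : r ∈ (subt y T r0).items := by
      rw [← c1] at hr
      exact subt_items _ _ _ hr
    rwa [s1] at this
  have hcy := h.cutOk y hq
  have hcP := h.cutOk P hr0T
  -- arithmetic
  have hA2 := ppc_pos y T q h.ok
  have hAP := ppc_pos P T r0 h.ok
  have hπ : 0 < ppc P (subt y T q) r0 := by
    rcases Nat.eq_zero_or_pos (ppc P (subt y T q) r0) with h0 | h0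
    · rw [k2, h0, mul_zero] at hAP; omega
    · exact h0
  have hμ : 0 < mpc P (subt y T q) r0 := by
    have := hcP.mpos
    rcases Nat.eq_zero_or_pos (mpc P (subt y T q) r0) with h0 | h0
    · rw [k3, h0, mul_zero] at this; omega
    · exact h0
  have hdr : ppc P T r0 ∣ r := ((h.fit' P r0).item r hr).2.1
  have hdr2 : ppc y T q ∣ r := ((h.fit' y q).item r hrT2).2.1
  have pA2 : (0 : ℝ) < ppc y T q := by exact_mod_cast hA2
  have pπ : (0 : ℝ) < ppc P (subt y T q) r0 := by exact_mod_cast hπ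
  have pμ : (0 : ℝ) < mpc P (subt y T q) r0 := by exact_mod_cast hμ
  have pc : (0 : ℝ) < c2 := by exact_mod_cast hc2
  have pAP : (0 : ℝ) < ppc P T r0 := by exact_mod_cast hAP
  have e1 : ((r / ppc P T r0 : ℕ) : ℝ) = (r : ℝ) / ppc P T r0 := Nat.cast_div hdr pAP.ne'
  have e2 : ((r / ppc y T q : ℕ) : ℝ) = (r : ℝ) / ppc y T q := Nat.cast_div hdr2 pA2.ne'
  have e3 : (ppc P T r0 : ℝ) = ppc y T q * ppc P (subt y T q) r0 := by exact_mod_cast k2
  have e4 : (mpc P T r0 : ℝ) = sn * c2 * mpc P (subt y T q) r0 := by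
    rw [k3, ← hsc]; push_cast; ring
  have hO2 : (subt y T q).Ok y := Ok_cut h.ok y q
  obtain ⟨K, hK⟩ := Fc.PVm hPy (mpc_mul_pml_dvd hO2 hPy r0)
  have p4 : (0 : ℝ) < (Fc.PV P : ℕ) := by exact_mod_cast Fc.PV0 P
  have p5 : (0 : ℝ) < (Fc.PV y : ℕ) := by exact_mod_cast Fc.PV0 y
  have hK' : ((Fc.PV y : ℕ) : ℝ) = mpc P (subt y T q) r0 * (Fc.PV P : ℕ) * K := by exact_mod_cast hK
  have hK0 : (0 : ℝ) < K := by
    rw [hK'] at p5
    exact (pos_iff_pos_of_mul_pos p5).1 (by positivity)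
  -- relevance
  have hrel' : Fc.uc y (r / ppc y T q) = Fc.uc y (q / ppc y T q) := by
    rw [← hrel]
    have n1 : r / ppc y T q ≠ 0 := (hcy.pos hrT2).ne'
    have n2 : r0 / ppc y T q ≠ 0 := (hcy.pos hr0).ne'
    have key : ∀ s ∈ (subt P T r0).items, s ∈ (subt y T q).items →
        s / ppc y T q = s / ppc P T r0 * ppc P (subt y T q) r0 := by
      intro s hs _
      obtain ⟨k, hk⟩ := ((h.fit' P r0).item s hs).2.1
      rw [hk, Nat.mul_div_cancel_left k hAP, k2, mul_assoc, Nat.mul_div_cancel_left _ hA2]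
      ring
    rw [key r hr hrT2, key r0 hcP.self hr0]
    exact Fc.up hPy (hcP.pos hr).ne' (hcP.pos hcP.self).ne' hπ.ne'
      (fun l hl hd => ppc_prime hl (subt y T q) hO2 hd) hrg
  -- comparison of the windows
  have key : ∀ X : ℝ, ((r / ppc P T r0 : ℕ) : ℝ) *
      (X * (c2 * ((mpc P (subt y T q) r0 : ℝ) * ppc P (subt y T q) r0))) -
      (mpc P T r0 : ℝ) * γ - (M : ℝ) / (Fc.PV P : ℕ) =
      (c2 * mpc P (subt y T q) r0 : ℝ) * (((r / ppc y T q : ℕ) : ℝ) * X - sn * γ -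
        ((M * K : ℤ) : ℝ) / ((c2 * Fc.PV y : ℕ) : ℝ)) := by
    intro X
    rw [e1, e2, e3, e4]
    push_cast
    rw [hK']
    field_simp
  have hL : (0 : ℝ) < ((c2 * Fc.PV y : ℕ) : ℝ) := by push_cast; positivity
  have cmp : ∀ (e X : ℝ), (e ≤ ((r / ppc y T q : ℕ) : ℝ) * X - sn * γ -
      ((M * K : ℤ) : ℝ) / ((c2 * Fc.PV y : ℕ) : ℝ) ↔
      (M * K : ℤ) ≤ ⌊((c2 * Fc.PV y : ℕ) : ℝ) * (((r / ppc y T q : ℕ) : ℝ) * X - sn * γ - e)⌋) := by
    intro e X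
    rw [Int.le_floor]
    have e5 : ((M * K : ℤ) : ℝ) = ((c2 * Fc.PV y : ℕ) : ℝ) *
        (((M * K : ℤ) : ℝ) / ((c2 * Fc.PV y : ℕ) : ℝ)) := by field_simp
    constructor
    · intro hh
      rw [e5]
      exact mul_le_mul_of_nonneg_left (by linarith) hL.le
    · intro hh
      rw [e5] at hh
      have := le_of_mul_le_mul_left hh hL
      linarith
  have cc : (0 : ℝ) < c2 * mpc P (subt y T q) r0 := by positivity
  have f1 := hfl r hrT2 hrS hrel' (-((sn : ℝ) * R r)) (Or.inl rfl)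
  have f2 := hfl r hrT2 hrS hrel' ((sn : ℝ) * R r) (Or.inr rfl)
  rw [key, e4] at w1 w2
  refine ⟨r, hr, hrS, hrg, M, ρ, hρ, ?_, ?_, w3⟩
  · rw [key, e4]
    have g1 : -((sn : ℝ) * R r) ≤ ((r / ppc y T q : ℕ) : ℝ) * x - sn * γ -
        ((M * K : ℤ) : ℝ) / ((c2 * Fc.PV y : ℕ) : ℝ) := by
      refine le_of_mul_le_mul_left ?_ cc
      linarith
    rw [cmp, f1, ← cmp] at g1
    have := mul_le_mul_of_nonneg_left g1 cc.le
    linarith
  · rw [key, e4]
    have g1 : ¬ (sn : ℝ) * R r ≤ ((r / ppc y T q : ℕ) : ℝ) * x - sn * γ -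
        ((M * K : ℤ) : ℝ) / ((c2 * Fc.PV y : ℕ) : ℝ) := by
      intro hh
      have := mul_le_mul_of_nonneg_left hh cc.le
      linarith
    rw [cmp, f2, ← cmp, not_le] at g1
    have := mul_lt_mul_of_pos_left g1 cc
    linarith

/-- position of the leaf numerator of an alive piece -/
lemma zp_alive (h : Root T n) (hPy : P ≤ y) (hq : q ∈ T.items) {r0 : ℕ}
    (hr0 : r0 ∈ (subt y T q).items) {sn c2 : ℕ} (hc2 : 0 < c2) (hsc : sn * c2 = mpc y T q)
    {x o : ℝ} {M z : ℤ}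
    (ho : (sn : ℝ) * o = ((r0 / ppc y T q : ℕ) : ℝ) * x - sn * γ -
      (M : ℝ) / ((c2 * Fc.PV y : ℕ) : ℝ))
    (hz : z * ((c2 * Fc.PV y : ℕ) : ℤ) = M * ((c2 * mp (subt y T q) r0 : ℕ) : ℤ)) :
    zp γ T P r0 o z =
      x * (c2 * ((mpc P (subt y T q) r0 : ℝ) * ppc P (subt y T q) r0)) := by
  have hd := Ok_dj h.ok
  obtain ⟨s1, s2, s3, -⟩ := subt_same y T hd hq hr0
  have hr0T : r0 ∈ T.items := subt_items y T q hr0
  obtain ⟨c1, c3, c4⟩ := cut_cut hPy r0 T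
  have k1 : subt P (subt y T q) r0 = subt P T r0 := by rw [← s1]; exact c1
  have k2 : ppc P T r0 = ppc y T q * ppc P (subt y T q) r0 := by rw [c3, s3, s1]
  have hcy := h.cutOk y hq
  have hcP := h.cutOk P hr0T
  have hA2 := ppc_pos y T q h.ok
  have hAP := ppc_pos P T r0 h.ok
  have hm : mp (subt y T q) r0 = mpc P (subt y T q) r0 * mp (subt P T r0) r0 := by
    rw [mp_cut P (subt y T q) r0, k1]
  have hdr : ppc P T r0 ∣ r0 := ((h.fit' P r0).item r0 hcP.self).2.1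
  have hdr2 : ppc y T q ∣ r0 := ((h.fit' y q).item r0 hr0).2.1
  have r0R : (0 : ℝ) < r0 := by exact_mod_cast (h.fit.item r0 hr0T).1
  have pA2 : (0 : ℝ) < ppc y T q := by exact_mod_cast hA2
  have pAP : (0 : ℝ) < ppc P T r0 := by exact_mod_cast hAP
  have pc : (0 : ℝ) < c2 := by exact_mod_cast hc2
  have p5 : (0 : ℝ) < (Fc.PV y : ℕ) := by exact_mod_cast Fc.PV0 y
  have pm : (0 : ℝ) < mp (subt P T r0) r0 := by exact_mod_cast hcP.mp_pos hcP.self
  have e1 : ((r0 / ppc P T r0 : ℕ) : ℝ) = (r0 : ℝ) / ppc P T r0 := Nat.cast_div hdr pAP.ne'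
  have e2 : ((r0 / ppc y T q : ℕ) : ℝ) = (r0 : ℝ) / ppc y T q := Nat.cast_div hdr2 pA2.ne'
  have e3 : (ppc P T r0 : ℝ) = ppc y T q * ppc P (subt y T q) r0 := by exact_mod_cast k2
  have e5 : (mp T r0 : ℝ) = sn * c2 * (mpc P (subt y T q) r0 * mp (subt P T r0) r0) := by
    have := hcy.cut r0 hr0
    rw [this, ← hsc, hm]; push_cast; ring
  have e6 : (z : ℝ) = M * (mpc P (subt y T q) r0 * mp (subt P T r0) r0) / (Fc.PV y : ℕ) := by
    have h1 : (z : ℝ) * (c2 * (Fc.PV y : ℕ)) =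
        M * (c2 * (mpc P (subt y T q) r0 * mp (subt P T r0) r0)) := by
      have := congrArg (fun i : ℤ => (i : ℝ)) hz
      rw [hm] at this
      push_cast at this
      linarith
    field_simp at h1 ⊢
    linarith
  have pπ : (0 : ℝ) < ppc P (subt y T q) r0 := by
    rw [e3] at pAP
    exact (pos_iff_pos_of_mul_pos pAP).1 pA2
  unfold zp
  rw [e1, e5, e6]
  have e7 : (M : ℝ) * (mpc P (subt y T q) r0 * mp (subt P T r0) r0) / (Fc.PV y : ℕ) +
      sn * c2 * (mpc P (subt y T q) r0 * mp (subt P T r0) r0) * (γ + o) =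
      c2 * (mpc P (subt y T q) r0 * mp (subt P T r0) r0) * (((r0 / ppc y T q : ℕ) : ℝ) * x) := by
    have h1 : (M : ℝ) / (Fc.PV y : ℕ) = c2 * ((M : ℝ) / ((c2 * Fc.PV y : ℕ) : ℝ)) := by
      push_cast; field_simp
    have h2 : (c2 : ℝ) * (sn * o) = c2 * (((r0 / ppc y T q : ℕ) : ℝ) * x - sn * γ -
      (M : ℝ) / ((c2 * Fc.PV y : ℕ) : ℝ)) := by rw [ho]
    linear_combination (mpc P (subt y T q) r0 * mp (subt P T r0) r0 : ℝ) * h1 +
      (mpc P (subt y T q) r0 * mp (subt P T r0) r0 : ℝ) * h2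
  rw [e7, e2, e3]
  field_simp

end

/-! ### `OmC` -/

section
variable {Λ κ : Type*}
variable {Fc : Fac} {R : ℕ → ℝ} {S' : Finset ℕ} {Tc : ℕ → ℕ → Finset ℚ} {y q : ℕ}

/-- the weights `f` see the pieces only through the closed sets at the small `up` primes -/
structure OmSm (Fc : Fac) (D : Par Λ κ) (R : ℕ → ℝ) (S' : Finset ℕ) (Tc : ℕ → ℕ → Finset ℚ) (T : IT)
    (PP : ℕ → ℕ) (y : ℕ) : Prop where
  eq : ∀ j k, D.it j ∈ T.items → D.it k = D.it j → D.al j < D.be j → D.al k < D.be k → ∀ a,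
    (∀ b ∈ T.uq (D.it j), PP b ≤ y →
      (Bd Fc D.γ R S' Tc T (PP b) b (D.it j) (zp D.γ T (PP b) (D.it j) (D.al j) a) ↔
       Bd Fc D.γ R S' Tc T (PP b) b (D.it j) (zp D.γ T (PP b) (D.it j) (D.al k) a))) →
    D.om j a = D.om k a
  /-- constancy on pieces -/
  cst : ∀ j, D.it j ∈ T.items → ∀ b ∈ T.uq (D.it j), ∀ o a, D.al j ≤ o → o < D.be j →
    (Bd Fc D.γ R S' Tc T (PP b) b (D.it j) (zp D.γ T (PP b) (D.it j) o a) ↔
      Bd Fc D.γ R S' Tc T (PP b) b (D.it j) (zp D.γ T (PP b) (D.it j) (D.al j) a))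

/-- **`OmCA` for the closed exclusion** -/
theorem OmCA_chi {D : Par Λ κ} {PP : ℕ → ℕ} (h : Root T n) (hO : OmSm Fc D R S' Tc T PP y)
    (hq : q ∈ T.items) (P : WP) (dm : ℕ) {sn c2 : ℕ} (hsn : 0 < sn) (hc2 : 0 < c2)
    (hsc : sn * c2 = mpc y T q) :
    ∀ x x' : ℝ, (∀ r ∈ (subt y T q).items, r ∈ S' →
        Fc.uc y (r / ppc y T q) = Fc.uc y (q / ppc y T q) → ∀ e ∈ crit P dm sn (R r) r,
        ⌊((c2 * Fc.PV y : ℕ) : ℝ) * (((r / ppc y T q : ℕ) : ℝ) * x - sn * D.γ - e)⌋ =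
        ⌊((c2 * Fc.PV y : ℕ) : ℝ) * (((r / ppc y T q : ℕ) : ℝ) * x' - sn * D.γ - e)⌋) →
      ∀ j k M, D.it j ∈ (subt y T q).items → D.it j ∈ S' →
        Fc.uc y (D.it j / ppc y T q) = Fc.uc y (q / ppc y T q) → D.it k = D.it j →
        alv D sn (ppc y T q) (c2 * Fc.PV y) x j M → alv D sn (ppc y T q) (c2 * Fc.PV y) x' k M →
        ∀ z : ℤ, z * ((c2 * Fc.PV y : ℕ) : ℤ) = M * ((c2 * mp (subt y T q) (D.it j) : ℕ) : ℤ) →
          D.om j z = D.om k z := by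
  intro x x' hfl j k M hjt hjS hjr hkj a1 a2 z hz
  have hjT : D.it j ∈ T.items := subt_items y T q hjt
  have sR : (0 : ℝ) < sn := by exact_mod_cast hsn
  have hmem : ∀ r : ℕ, ∀ e : ℝ, (e = -((sn : ℝ) * R r) ∨ e = (sn : ℝ) * R r) →
      e ∈ crit P dm sn (R r) r := by
    intro r e he
    unfold crit
    refine Finset.mem_union_left _ ?_
    rcases he with he | he <;> simp [he]
  have hfl1 : ∀ r ∈ (subt y T q).items, r ∈ S' →
      Fc.uc y (r / ppc y T q) = Fc.uc y (q / ppc y T q) →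
      ∀ e : ℝ, (e = -((sn : ℝ) * R r) ∨ e = (sn : ℝ) * R r) →
      ⌊((c2 * Fc.PV y : ℕ) : ℝ) * (((r / ppc y T q : ℕ) : ℝ) * x - sn * D.γ - e)⌋ =
      ⌊((c2 * Fc.PV y : ℕ) : ℝ) * (((r / ppc y T q : ℕ) : ℝ) * x' - sn * D.γ - e)⌋ :=
    fun r h1 h2 h3 e he => hfl r h1 h2 h3 e (hmem r e he)
  have hfl2 : ∀ r ∈ (subt y T q).items, r ∈ S' →
      Fc.uc y (r / ppc y T q) = Fc.uc y (q / ppc y T q) →
      ∀ e : ℝ, (e = -((sn : ℝ) * R r) ∨ e = (sn : ℝ) * R r) →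
      ⌊((c2 * Fc.PV y : ℕ) : ℝ) * (((r / ppc y T q : ℕ) : ℝ) * x' - sn * D.γ - e)⌋ =
      ⌊((c2 * Fc.PV y : ℕ) : ℝ) * (((r / ppc y T q : ℕ) : ℝ) * x - sn * D.γ - e)⌋ :=
    fun r h1 h2 h3 e he => (hfl r h1 h2 h3 e (hmem r e he)).symm
  -- offsets
  have pt : ∀ (i : Λ) (X : ℝ), D.it i = D.it j → alv D sn (ppc y T q) (c2 * Fc.PV y) X i M →
      ∃ o, D.al i ≤ o ∧ o < D.be i ∧ (sn : ℝ) * o = ((D.it j / ppc y T q : ℕ) : ℝ) * X -
        sn * D.γ - (M : ℝ) / ((c2 * Fc.PV y : ℕ) : ℝ) := by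
    intro i X ei hal
    obtain ⟨g1, g2⟩ := hal
    rw [ei] at g1 g2
    refine ⟨(((D.it j / ppc y T q : ℕ) : ℝ) * X - sn * D.γ -
      (M : ℝ) / ((c2 * Fc.PV y : ℕ) : ℝ)) / sn, ?_, ?_, by field_simp⟩
    · rw [le_div_iff₀ sR]; linarith
    · rw [div_lt_iff₀ sR]; linarith
  obtain ⟨o, o1, o2, o3⟩ := pt j x rfl a1
  obtain ⟨o', o1', o2', o3'⟩ := pt k x' hkj a2
  refine hO.eq j k hjT hkj (o1.trans_lt o2) (o1'.trans_lt o2') z fun b hb hPb => ?_
  have c1 := hO.cst j hjT b hb o z o1 o2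
  have hkT : D.it k ∈ T.items := by rw [hkj]; exact hjT
  have c2' := hO.cst k hkT b (by rw [hkj]; exact hb) o' z o1' o2'
  rw [hkj] at c2'
  rw [← c1, ← c2', zp_alive h hPb hq hjt hc2 hsc o3 hz, zp_alive h hPb hq hjt hc2 hsc o3' hz]
  exact ⟨Bd_small h hPb hq hjt hjr hc2 hsc hfl1, Bd_small h hPb hq hjt hjr hc2 hsc hfl2⟩

end

end Crest.Agent.R4P.Chi464
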