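import Crest.Agent.R4P.Chi464b

/-!
R4 (S0004), powers, port of helper464's `Chi464d` (helper393): closed exclusion, part 4: **the number of new classes**.
-/

set_option autoImplicit false
set_option linter.unusedSectionVars false
set_option linter.unusedVariables false

namespace Crest.Agent.R4P.Chi464

open Crest.Agent.R4.Step588 (pml pml_dvd mul_pml_dvd pml_pos)
open Crest.Agent.R4P.Fac393 (Fac)
open Crest.Agent.R4.Piece464 Crest.Agent.R4.Clos758 Crest.Agent.R4.ClosL758 Crest.Agent.R4.ClosR758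
open Crest.Agent.R4.Tour104 Crest.Agent.R4.Tour758 Crest.Agent.R4.Avg758 Crest.Agent.R4.Fam464
open Crest.Agent.R4.ClosG758 Crest.Agent.R4.Lam368
open Crest.Agent.R4P.Cnt588 Crest.Agent.R4P.Item758 Crest.Agent.R4P.Step588 Crest.Agent.R4P.Om532

variable {Fc : Fac} {T : IT} {n : ℕ} {γ : ℝ} {R : ℕ → ℝ} {S' : Finset ℕ} {Tc : ℕ → ℕ → Finset ℚ} {y b q : ℕ}

open Classical in
/-- the mates of `q` -/
noncomputable def mates (Fc : Fac) (S' : Finset ℕ) (T : IT) (y q : ℕ) : Finset ℕ :=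
  (subt y T q).items.filter fun r => r ∈ S' ∧ Fc.uc y (r / ppc y T q) = Fc.uc y (q / ppc y T q)

lemma mem_mates {r : ℕ} : r ∈ mates Fc S' T y q ↔ r ∈ (subt y T q).items ∧ r ∈ S' ∧
    Fc.uc y (r / ppc y T q) = Fc.uc y (q / ppc y T q) := by
  classical
  unfold mates
  rw [Finset.mem_filter]

lemma card_mates_le (h : Root T n) (hq : q ∈ T.items) :
    (mates Fc S' T y q).card ≤ Fc.PV y := by
  classical
  have hc := h.cutOk y hq
  have e : (Finset.Icc 1 (Fc.PV y)).card = Fc.PV y := by rw [Nat.card_Icc]; omega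
  rw [← e]
  refine Finset.card_le_card_of_injOn (fun r => Fc.vc y (r / ppc y T q)) ?_ ?_
  · intro r hr
    have hr' := (mem_mates.1 (Finset.mem_coe.1 hr)).1
    have h1 : Fc.vc y (r / ppc y T q) ∣ Fc.PV y :=
      (Dvd.intro _ rfl).trans (Fc.vdvd (hc.ne r hr') (one_dvd (pml y)))
    exact Finset.mem_coe.2 (Finset.mem_Icc.2 ⟨vc_pos Fc (hc.ne r hr'),
      Nat.le_of_dvd (Fc.PV0 y) h1⟩)
  · intro a ha b hb e
    have ha' := mem_mates.1 (Finset.mem_coe.1 ha)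
    have hb' := mem_mates.1 (Finset.mem_coe.1 hb)
    have h1 := ((h.fit' y q).item a ha'.1).2.1
    have h2 := ((h.fit' y q).item b hb'.1).2.1
    have e0 : Fc.vc y (a / ppc y T q) = Fc.vc y (b / ppc y T q) := e
    have e' : a / ppc y T q = b / ppc y T q := by
      rw [← Fc.mul y _ (hc.ne a ha'.1), ← Fc.mul y _ (hc.ne b hb'.1), e0, ha'.2.2, hb'.2.2]
    rw [← Nat.div_mul_cancel h1, ← Nat.div_mul_cancel h2, e']

lemma kN_coprime (h : CutOk T y q) (hb : b.Prime) (hyb : y ≤ b) {r : ℕ}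
    (hr : r ∈ (subt y T q).items) : Nat.Coprime b (kN Fc T y q r) := by
  unfold kN
  refine Nat.Coprime.mul_right ?_ ?_
  · exact (Fc.cop hb hyb).coprime_dvd_right (Nat.div_dvd_of_dvd h.dvd_pml)
  · exact (Fc.cop hb hyb).coprime_dvd_right
      ((Dvd.intro _ rfl).trans (Fc.vdvd (h.ne r hr) (one_dvd (pml y))))

/-- one class: at most one numerator -/
lemma one_class {b κ k : ℕ} (hb : b.Prime) (h1 : Nat.Coprime b κ) (h2 : Nat.Coprime b k) (ρ : ℚ)
    (d : ℤ) : ((Finset.range b).filter fun a : ℕ =>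
      (b : ℤ) ∣ ρ.den * (κ * a + d) + k * ρ.num).card ≤ 1 := by
  classical
  rw [Finset.card_le_one]
  intro a ha a' ha'
  obtain ⟨ha1, ha2⟩ := Finset.mem_filter.1 ha
  obtain ⟨ha3, ha4⟩ := Finset.mem_filter.1 ha'
  have hbz : Prime (b : ℤ) := Nat.prime_iff_prime_int.1 hb
  have hden : ¬ (b : ℤ) ∣ ρ.den := by
    intro hd
    have h3 : (b : ℤ) ∣ k * ρ.num := by
      have := (Int.dvd_add_right (hd.mul_right (κ * a + d))).1 ha2
      exact this
    rcases hbz.dvd_or_dvd h3 with h4 | h4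
    · have h5 : b ∣ k := by exact_mod_cast h4
      exact (hb.coprime_iff_not_dvd.1 h2) h5
    · have h5 : b ∣ ρ.den := by exact_mod_cast hd
      have h6 : b ∣ ρ.num.natAbs := Int.natCast_dvd.1 h4
      have h7 := Nat.dvd_gcd h6 h5
      rw [ρ.reduced] at h7
      exact hb.one_lt.ne' (Nat.dvd_one.1 h7)
  have h3 : (b : ℤ) ∣ ρ.den * (κ * ((a : ℤ) - a')) := by
    have := dvd_sub ha2 ha4
    have e : (ρ.den : ℤ) * (κ * a + d) + k * ρ.num - (ρ.den * (κ * a' + d) + k * ρ.num) =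
      ρ.den * (κ * ((a : ℤ) - a')) := by ring
    rwa [e] at this
  have h4 : (b : ℤ) ∣ κ * ((a : ℤ) - a') := (hbz.dvd_or_dvd h3).resolve_left hden
  have h5 : (b : ℤ) ∣ (a : ℤ) - a' := by
    refine (hbz.dvd_or_dvd h4).resolve_left fun h6 => ?_
    have h7 : b ∣ κ := by exact_mod_cast h6
    exact (hb.coprime_iff_not_dvd.1 h1) h7
  have h6 := Finset.mem_range.1 ha1
  have h7 := Finset.mem_range.1 ha3
  have h8 : |(a : ℤ) - a'| < b := by
    rw [abs_lt]; constructor <;> omega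
  have h9 := Int.eq_zero_of_abs_lt_dvd h5 h8
  omega

open Classical in
/-- **the number of new classes** -/
theorem card_Bd (h : Root T n) (hq : q ∈ T.items) (hb : b.Prime) (hyb : y ≤ b) {J : ℕ} {Rb : ℝ}
    (hJ : ∀ r ∈ mates Fc S' T y q, (Tc r b).card ≤ J)
    (hR : ∀ r ∈ mates Fc S' T y q, (mpc y T q : ℝ) * R r ≤ Rb) (hRb : 0 ≤ Rb) (o : ℝ) :
    (((Finset.range b).filter fun a : ℕ => Bd Fc γ R S' Tc T y b q (zp γ T y q o a)).card : ℝ) ≤
      (Fc.PV y : ℝ) * (J * (2 * ((Fc.PV y : ℝ) * Rb) + 1)) := by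
  have hc := h.cutOk y hq
  have p4 : (0 : ℝ) < (Fc.PV y : ℕ) := by exact_mod_cast Fc.PV0 y
  -- the interval of `d = M - κ a`
  set lo : ℕ → ℤ := fun r => ⌊(kN Fc T y q r : ℝ) * mp T q * o + ((kN Fc T y q r : ℝ) * (mp T q * γ) -
    (Fc.PV y : ℕ) * (mpc y T q * γ) - (Fc.PV y : ℕ) * (mpc y T q * R r))⌋ with hlo
  set hi : ℕ → ℤ := fun r => ⌊(kN Fc T y q r : ℝ) * mp T q * o + ((kN Fc T y q r : ℝ) * (mp T q * γ) -
    (Fc.PV y : ℕ) * (mpc y T q * γ) + (Fc.PV y : ℕ) * (mpc y T q * R r))⌋ with hhi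
  set U : Finset ℕ := (mates Fc S' T y q).biUnion fun r => (Tc r b).biUnion fun ρ =>
    (Finset.Ioc (lo r) (hi r)).biUnion fun d => (Finset.range b).filter fun a : ℕ =>
      (b : ℤ) ∣ ρ.den * ((kN Fc T y q r : ℕ) * a + d) +
        ((Fc.PV y / mp (subt y T q) r : ℕ) : ℤ) * ρ.num with hU
  have hsub : ((Finset.range b).filter fun a : ℕ => Bd Fc γ R S' Tc T y b q (zp γ T y q o a)) ⊆ U := by
    intro a ha
    obtain ⟨ha1, r, hr, hrS, hrg, M, ρ, hρ, w1, w2, w3⟩ := Finset.mem_filter.1 ha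
    have g1 := win_floor (M := (M : ℝ)) (m := (mpc y T q : ℝ)) (Rr := R r) p4
      (hc.zp_mul hr hrg (γ := γ) o (a : ℤ))
    have c1 : ((M : ℝ) - (kN Fc T y q r : ℝ) * ((a : ℤ) : ℝ)) =
        ((M - (kN Fc T y q r : ℕ) * (a : ℤ) : ℤ) : ℝ) := by push_cast; ring
    rw [c1, ← Int.le_floor, ← Int.floor_lt] at g1
    rw [hU]
    refine Finset.mem_biUnion.2 ⟨r, mem_mates.2 ⟨hr, hrS, hrg⟩, Finset.mem_biUnion.2 ⟨ρ, hρ,
      Finset.mem_biUnion.2 ⟨M - (kN Fc T y q r : ℕ) * (a : ℤ), Finset.mem_Ioc.2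
        ⟨g1.2.1 w2, g1.1.1 w1⟩, Finset.mem_filter.2 ⟨ha1, ?_⟩⟩⟩⟩
    have e : ((kN Fc T y q r : ℕ) : ℤ) * (a : ℤ) + (M - (kN Fc T y q r : ℕ) * (a : ℤ)) = M := by ring
    rw [e]
    exact w3
  have h1 : ((U.card : ℕ) : ℝ) ≤ ∑ r ∈ mates Fc S' T y q, (J : ℝ) * (2 * ((Fc.PV y : ℝ) * Rb) + 1) := by
    have h2 : U.card ≤ ∑ r ∈ mates Fc S' T y q, ∑ ρ ∈ Tc r b, (Finset.Ioc (lo r) (hi r)).card := by
      rw [hU]
      refine Finset.card_biUnion_le.trans (Finset.sum_le_sum fun r hr => ?_)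
      refine Finset.card_biUnion_le.trans (Finset.sum_le_sum fun ρ hρ => ?_)
      refine Finset.card_biUnion_le.trans ?_
      have h3 : ∀ d ∈ Finset.Ioc (lo r) (hi r), ((Finset.range b).filter fun a : ℕ =>
          (b : ℤ) ∣ ρ.den * ((kN Fc T y q r : ℕ) * a + d) +
          ((Fc.PV y / mp (subt y T q) r : ℕ) : ℤ) * ρ.num).card ≤ 1 := fun d _ =>
        one_class hb (kN_coprime hc hb hyb (mem_mates.1 hr).1)
          ((Fc.cop hb hyb).coprime_dvd_right (Nat.div_dvd_of_dvd (hc.mp_dvd_PV (mem_mates.1 hr).1))) ρ d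
      exact (Finset.sum_le_sum h3).trans (by simp)
    have h3 : ((U.card : ℕ) : ℝ) ≤
        ∑ r ∈ mates Fc S' T y q, ∑ ρ ∈ Tc r b, ((Finset.Ioc (lo r) (hi r)).card : ℝ) := by
      exact_mod_cast h2
    refine h3.trans (Finset.sum_le_sum fun r hr => ?_)
    have h4 : ((Finset.Ioc (lo r) (hi r)).card : ℝ) ≤ 2 * ((Fc.PV y : ℝ) * Rb) + 1 := by
      rw [Int.card_Ioc]
      have h5 : (hi r : ℝ) ≤ (kN Fc T y q r : ℝ) * mp T q * o + ((kN Fc T y q r : ℝ) * (mp T q * γ) -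
        (Fc.PV y : ℕ) * (mpc y T q * γ) + (Fc.PV y : ℕ) * (mpc y T q * R r)) := Int.floor_le _
      have h6 : (kN Fc T y q r : ℝ) * mp T q * o + ((kN Fc T y q r : ℝ) * (mp T q * γ) -
        (Fc.PV y : ℕ) * (mpc y T q * γ) - (Fc.PV y : ℕ) * (mpc y T q * R r)) < (lo r : ℝ) + 1 :=
        Int.lt_floor_add_one _
      have h7 : (Fc.PV y : ℝ) * (mpc y T q * R r) ≤ (Fc.PV y : ℝ) * Rb :=
        mul_le_mul_of_nonneg_left (hR r hr) p4.le
      have h10 : (0 : ℝ) ≤ (Fc.PV y : ℝ) * Rb := by positivity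
      rcases le_total (hi r - lo r) 0 with h11 | h11
      · rw [Int.toNat_of_nonpos h11]
        push_cast; linarith
      · have h12 : (((hi r - lo r).toNat : ℕ) : ℝ) = (hi r : ℝ) - lo r := by
          have : (((hi r - lo r).toNat : ℕ) : ℤ) = hi r - lo r := Int.toNat_of_nonneg h11
          have h13 := congrArg (fun i : ℤ => (i : ℝ)) this
          push_cast at h13
          exact_mod_cast h13
        rw [h12]
        linarith
    rw [Finset.sum_const, nsmul_eq_mul]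
    have h5 : ((Tc r b).card : ℝ) ≤ J := by exact_mod_cast hJ r hr
    exact mul_le_mul h5 h4 (Nat.cast_nonneg _) (Nat.cast_nonneg _)
  have h2 := Finset.card_le_card hsub
  have h3 : (((Finset.range b).filter fun a : ℕ =>
      Bd Fc γ R S' Tc T y b q (zp γ T y q o a)).card : ℝ) ≤ U.card := by exact_mod_cast h2
  refine h3.trans (h1.trans ?_)
  rw [Finset.sum_const, nsmul_eq_mul]
  have h4 : ((mates Fc S' T y q).card : ℝ) ≤ (Fc.PV y : ℝ) := by exact_mod_cast card_mates_le h hq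
  exact mul_le_mul_of_nonneg_right h4 (by positivity)

/-- the number of the classes of a piece -/
theorem card_Tz (h : Root T n) (hq : q ∈ T.items) (PP : ℕ → ℕ) (hb : b.Prime) (hyb : PP b ≤ b)
    {J : ℕ} {Rb : ℝ} (hJ : ∀ r ∈ mates Fc S' T (PP b) q, (Tc r b).card ≤ J)
    (hJq : (Tc q b).card ≤ J)
    (hR : ∀ r ∈ mates Fc S' T (PP b) q, (mpc (PP b) T q : ℝ) * R r ≤ Rb) (hRb : 0 ≤ Rb) (o : ℝ) :
    ((Tz Fc γ R S' Tc T PP o q b).card : ℝ) ≤
      J + (Fc.PV (PP b) : ℝ) * (J * (2 * ((Fc.PV (PP b) : ℝ) * Rb) + 1)) := by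
  classical
  have hJq' : ((Tc q b).card : ℝ) ≤ J := by exact_mod_cast hJq
  have h0 : (0 : ℝ) ≤ (Fc.PV (PP b) : ℝ) * (J * (2 * ((Fc.PV (PP b) : ℝ) * Rb) + 1)) := by positivity
  unfold Tz
  split_ifs
  · have h1 : ((Tc q b ∪ Cl Fc γ R S' Tc T (PP b) o q b).card : ℝ) ≤
        (Tc q b).card + (Cl Fc γ R S' Tc T (PP b) o q b).card := by
      exact_mod_cast Finset.card_union_le _ _
    have h2 : ((Cl Fc γ R S' Tc T (PP b) o q b).card : ℝ) ≤
        (Fc.PV (PP b) : ℝ) * (J * (2 * ((Fc.PV (PP b) : ℝ) * Rb) + 1)) := by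
      refine le_trans ?_ (card_Bd (γ := γ) h hq hb hyb hJ hR hRb o)
      unfold Cl
      exact_mod_cast Finset.card_image_le
    linarith
  · linarith

end Crest.Agent.R4P.Chi464
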