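import Crest.Agent.R4P.BldF542

/-!
R4 (S0004), POWERS: **`φ(q)/q` against the tree**.  With `w = q / pp t q`,
`φ(q)/q ≤ (∏_{p ∈ U} (1-1/p))⁻¹ * prf t q * φ(w)/w`, `U ⊇` the present ties `p` of `q` with `p ∣ w`
(these are up-present primes in the sense of `IT.uq`, `Sp` of the `br` nodes).
-/

set_option autoImplicit false

namespace Crest.Agent.R4P.Phi542

open Crest.Agent.R4P.Cnt588 Crest.Agent.R4P.Item758 Crest.Agent.R4P.Bld532
open Crest.Agent.R4P.BldF542

/-- present ties of `q` (the pulls do not count) -/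
def tp : IT → ℕ → Finset ℕ
  | .leaf _, _ => ∅
  | .br p _ t₁ t₀, q => if q ∈ t₀.items then tp t₀ q else insert p (tp t₁ q)
  | .add _ t₁ t₀, q => if q ∈ t₀.items then tp t₀ q else tp t₁ q
  | .up _ _ t, q => tp t q
  | .pl _ t, q => tp t q
  | .far _ t₁ t₀, q => if q ∈ t₀.items then tp t₀ q else tp t₁ q

theorem tp_lt : ∀ (t : IT) (n : ℕ), t.Ok n → ∀ q, ∀ p ∈ tp t q, p.Prime ∧ p < n := by
  intro t
  induction t with
  | leaf S => intro n _ q p hp; simp [tp] at hp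
  | br r Sp t₁ t₀ ih1 ih0 =>
    intro n h q p hp
    obtain ⟨h1, h2, h3, h3', h4, h5⟩ := h
    simp only [tp] at hp
    split_ifs at hp with hq
    · exact ⟨(ih0 r h5 q p hp).1, (ih0 r h5 q p hp).2.trans h2⟩
    · rcases Finset.mem_insert.1 hp with rfl | hp
      · exact ⟨h1, h2⟩
      · exact ⟨(ih1 r h4 q p hp).1, (ih1 r h4 q p hp).2.trans h2⟩
  | add b t₁ t₀ ih1 ih0 =>
    intro n h q p hp
    obtain ⟨h1, h2, h3, h4, h5⟩ := h
    simp only [tp] at hp
    split_ifs at hp with hq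
    · have := ih0 _ h5 q p hp
      exact ⟨this.1, by omega⟩
    · have := ih1 _ h4 q p hp
      exact ⟨this.1, by omega⟩
  | up b Sp t ih =>
    intro n h q p hp
    obtain ⟨h1, h2, h3, h4⟩ := h
    have := ih _ h4 q p hp
    exact ⟨this.1, by omega⟩
  | pl r t ih =>
    intro n h q p hp
    obtain ⟨h1, h2, h4⟩ := h
    have := ih _ h4 q p hp
    exact ⟨this.1, by omega⟩
  | far b t₁ t₀ ih1 ih0 =>
    intro n h q p hp
    obtain ⟨h1, h2, h3, h4, h5⟩ := h
    simp only [tp] at hp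
    split_ifs at hp with hq
    · have := ih0 _ h5 q p hp
      exact ⟨this.1, by omega⟩
    · have := ih1 _ h4 q p hp
      exact ⟨this.1, by omega⟩

/-- `prf` is the product over the present ties -/
theorem prf_eq_prod : ∀ (t : IT) (n : ℕ), t.Ok n → ∀ q,
    prf t q = ∏ p ∈ tp t q, (1 - 1 / (p : ℝ)) := by
  intro t
  induction t with
  | leaf S => intro n _ q; simp [prf, tp]
  | br r Sp t₁ t₀ ih1 ih0 =>
    intro n h q
    obtain ⟨h1, h2, h3, h3', h4, h5⟩ := h
    simp only [prf, tp]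
    split_ifs with hq
    · exact ih0 _ h5 q
    · rw [Finset.prod_insert, ih1 _ h4 q]
      intro hm
      exact lt_irrefl r (tp_lt t₁ r h4 q r hm).2
  | add b t₁ t₀ ih1 ih0 =>
    intro n h q
    obtain ⟨h1, h2, h3, h4, h5⟩ := h
    simp only [prf, tp]
    split_ifs with hq
    · exact ih0 _ h5 q
    · exact ih1 _ h4 q
  | up b Sp t ih => intro n h q; exact ih _ h.2.2.2 q
  | pl r t ih => intro n h q; exact ih _ h.2.2 q
  | far b t₁ t₀ ih1 ih0 =>
    intro n h q
    obtain ⟨h1, h2, h3, h4, h5⟩ := h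
    simp only [prf, tp]
    split_ifs with hq
    · exact ih0 _ h5 q
    · exact ih1 _ h4 q

/-- the present ties divide `pp` -/
theorem tp_dvd : ∀ (t : IT) (q : ℕ), ∀ p ∈ tp t q, p ∣ pp t q := by
  intro t
  induction t with
  | leaf S => intro q p hp; simp [tp] at hp
  | br r Sp t₁ t₀ ih1 ih0 =>
    intro q p hp
    simp only [tp] at hp
    simp only [pp]
    split_ifs at hp ⊢ with hq
    · exact ih0 q p hp
    · rcases Finset.mem_insert.1 hp with rfl | hp
      · exact Dvd.intro _ rfl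
      · exact (ih1 q p hp).mul_left r
  | add b t₁ t₀ ih1 ih0 =>
    intro q p hp
    simp only [tp] at hp
    simp only [pp]
    split_ifs at hp ⊢ with hq
    · exact ih0 q p hp
    · exact ih1 q p hp
  | up b Sp t ih => intro q p hp; exact ih q p hp
  | pl r t ih => intro q p hp; exact (ih q p hp).mul_left r
  | far b t₁ t₀ ih1 ih0 =>
    intro q p hp
    simp only [tp] at hp
    simp only [pp]
    split_ifs at hp ⊢ with hq
    · exact ih0 q p hp
    · exact ih1 q p hp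

/-- at `br` nodes the items still divisible by the column after the pull are in `Sp` -/
def UqN (s : NS) : IT → Prop
  | .br p Sp t₁ _ => ∀ q ∈ t₁.items, p ∣ q / (s.A * p) → q ∈ Sp
  | _ => True

/-- the present ties which still divide the rest are in `uq` -/
theorem tp_uq : ∀ (t : IT) (s : NS), All UqN s t → Fit s.B s.A t → ∀ q ∈ t.items, ∀ p ∈ tp t q,
    p ∣ q / (s.A * pp t q) → p ∈ t.uq q := by
  intro t
  induction t with
  | leaf S => intro s _ _ q _ p hp; simp [tp] at hp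
  | br r Sp t₁ t₀ ih1 ih0 =>
    intro s h hF q hq p hp hd
    obtain ⟨hu, h1, h0⟩ := h
    obtain ⟨hr, hrb, hdis, F1, F0⟩ := hF
    simp only [tp] at hp
    simp only [IT.uq]
    split_ifs at hp with hq0
    · rw [if_pos hq0]
      have e : pp (.br r Sp t₁ t₀) q = pp t₀ q := if_pos hq0
      rw [e] at hd
      exact ih0 ⟨r, _, s.A, s.B * r⟩ h0 F0 q hq0 p hp hd
    · rw [if_neg hq0]
      have hq1 : q ∈ t₁.items := (Finset.mem_union.1 hq).resolve_right hq0
      have e : pp (.br r Sp t₁ t₀) q = r * pp t₁ q := if_neg hq0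
      rw [e, ← mul_assoc] at hd
      rcases Finset.mem_insert.1 hp with rfl | hp
      · obtain ⟨a1, a2, -⟩ := pp_dvd t₁ _ _ F1 q hq1
        have hS : q ∈ Sp := by
          refine hu q hq1 (hd.trans ?_)
          obtain ⟨k, hk⟩ := a2
          have hA : 0 < s.A * p * pp t₁ q := Nat.pos_of_dvd_of_pos ⟨k, hk⟩ a1
          have hA0 : 0 < s.A * p := Nat.pos_of_mul_pos_right hA
          have e1 : q / (s.A * p * pp t₁ q) = k := by
            nth_rewrite 1 [hk]
            exact Nat.mul_div_cancel_left k hA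
          have e2 : q / (s.A * p) = pp t₁ q * k := by
            nth_rewrite 1 [hk]
            rw [mul_assoc (s.A * p)]
            exact Nat.mul_div_cancel_left _ hA0
          rw [e1, e2]
          exact Dvd.intro_left _ rfl
        rw [if_pos hS]
        exact Finset.mem_insert_self _ _
      · have := ih1 ⟨r, _, s.A * r, s.B⟩ h1 F1 q hq1 p hp hd
        split_ifs
        · exact Finset.mem_insert_of_mem this
        · exact this
  | add b t₁ t₀ ih1 ih0 =>
    intro s h hF q hq p hp hd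
    obtain ⟨-, h1, h0⟩ := h
    obtain ⟨hdis, F1, F0⟩ := hF
    simp only [tp] at hp
    simp only [IT.uq]
    split_ifs at hp with hq0
    · rw [if_pos hq0]
      have e : pp (.add b t₁ t₀) q = pp t₀ q := if_pos hq0
      rw [e] at hd
      exact ih0 _ h0 F0 q hq0 p hp hd
    · rw [if_neg hq0]
      have hq1 : q ∈ t₁.items := (Finset.mem_union.1 hq).resolve_right hq0
      have e : pp (.add b t₁ t₀) q = pp t₁ q := if_neg hq0
      rw [e] at hd
      exact ih1 _ h1 F1 q hq1 p hp hd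
  | up b Sp t ih =>
    intro s h hF q hq p hp hd
    have := ih _ h.2 hF q hq p hp hd
    simp only [IT.uq]
    split_ifs
    · exact Finset.mem_insert_of_mem this
    · exact this
  | pl r t ih =>
    intro s h hF q hq p hp hd
    have e : pp (.pl r t) q = r * pp t q := rfl
    rw [e, ← mul_assoc] at hd
    exact ih _ h.2 hF.2.2 q hq p hp hd
  | far b t₁ t₀ ih1 ih0 =>
    intro s h hF q hq p hp hd
    obtain ⟨-, h1, h0⟩ := h
    obtain ⟨hdis, F1, F0⟩ := hF
    simp only [tp] at hp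
    simp only [IT.uq]
    split_ifs at hp with hq0
    · rw [if_pos hq0]
      have e : pp (.far b t₁ t₀) q = pp t₀ q := if_pos hq0
      rw [e] at hd
      exact ih0 _ h0 F0 q hq0 p hp hd
    · rw [if_neg hq0]
      have hq1 : q ∈ t₁.items := (Finset.mem_union.1 hq).resolve_right hq0
      have e : pp (.far b t₁ t₀) q = pp t₁ q := if_neg hq0
      rw [e] at hd
      exact ih1 _ h1 F1 q hq1 p hp hd

/-! ### `φ` -/

lemma phi_prod {n : ℕ} (hn : 0 < n) :
    (n.totient : ℝ) / n = ∏ p ∈ n.primeFactors, (1 - 1 / (p : ℝ)) := by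
  have h := Nat.totient_eq_mul_prod_factors n
  have h' : (n.totient : ℝ) = n * ∏ p ∈ n.primeFactors, (1 - (p : ℝ)⁻¹) := by
    have h2 := congrArg (fun x : ℚ => (x : ℝ)) h
    push_cast at h2
    exact h2
  have hn' : (n : ℝ) ≠ 0 := by exact_mod_cast hn.ne'
  rw [h', mul_div_cancel_left₀ _ hn']
  exact Finset.prod_congr rfl fun p _ => by rw [one_div]

lemma fac_bounds {p : ℕ} (hp : p.Prime) : 0 < 1 - 1 / (p : ℝ) ∧ 1 - 1 / (p : ℝ) ≤ 1 := by
  have h1 : (1 : ℝ) < p := by exact_mod_cast hp.one_lt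
  have h2 : 1 / (p : ℝ) < 1 := by rw [div_lt_one (by linarith)]; exact h1
  have h3 : 0 ≤ 1 / (p : ℝ) := by positivity
  exact ⟨by linarith, by linarith⟩

lemma prod_mono_sub {s t : Finset ℕ} (hst : s ⊆ t) (ht : ∀ p ∈ t, p.Prime) :
    ∏ p ∈ t, (1 - 1 / (p : ℝ)) ≤ ∏ p ∈ s, (1 - 1 / (p : ℝ)) := by
  rw [← Finset.prod_sdiff hst]
  refine mul_le_of_le_one_left (Finset.prod_nonneg fun p hp => (fac_bounds (ht p (hst hp))).1.le) ?_
  exact Finset.prod_le_one (fun p hp => (fac_bounds (ht p (Finset.mem_sdiff.1 hp).1)).1.le)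
    fun p hp => (fac_bounds (ht p (Finset.mem_sdiff.1 hp).1)).2

/-- **`φ(q)/q` against the tree** -/
theorem phi_le (t : IT) {n : ℕ} (hO : t.Ok n) (hF : Fit 1 1 t) {q : ℕ} (hq : q ∈ t.items)
    {U : Finset ℕ} (hUp : ∀ p ∈ U, p.Prime) (hU : ∀ p ∈ tp t q, p ∣ q / pp t q → p ∈ U) :
    (∏ p ∈ U, (1 - 1 / (p : ℝ))) * ((q.totient : ℝ) / q) ≤
      prf t q * (((q / pp t q).totient : ℝ) / ((q / pp t q : ℕ) : ℝ)) := by
  obtain ⟨q0, hd, -⟩ := pp_dvd t 1 1 hF q hq
  rw [one_mul] at hd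
  have hw0 : 0 < q / pp t q := Nat.div_pos (Nat.le_of_dvd q0 hd) (Nat.pos_of_dvd_of_pos hd q0)
  set w := q / pp t q with hw
  rw [phi_prod q0, phi_prod hw0, prf_eq_prod t n hO q]
  set T := tp t q with hT
  have hTp : ∀ p ∈ T, p.Prime := fun p hp => (tp_lt t n hO q p hp).1
  have hWp : ∀ p ∈ w.primeFactors, p.Prime := fun p hp => Nat.prime_of_mem_primeFactors hp
  have hsub : T ∪ w.primeFactors ⊆ q.primeFactors := by
    intro p hp
    rcases Finset.mem_union.1 hp with h | h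
    · exact Nat.mem_primeFactors.2 ⟨hTp p h, (tp_dvd t q p h).trans hd, q0.ne'⟩
    · refine Nat.mem_primeFactors.2 ⟨hWp p h, ?_, q0.ne'⟩
      exact (Nat.dvd_of_mem_primeFactors h).trans (Nat.div_dvd_of_dvd hd)
  have h1 := prod_mono_sub hsub fun p hp => Nat.prime_of_mem_primeFactors hp
  have hint : T ∩ w.primeFactors ⊆ U := by
    intro p hp
    obtain ⟨h1, h2⟩ := Finset.mem_inter.1 hp
    exact hU p h1 (Nat.dvd_of_mem_primeFactors h2)
  have h2 := prod_mono_sub hint hUp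
  have h3 : (∏ p ∈ T ∪ w.primeFactors, (1 - 1 / (p : ℝ))) *
      ∏ p ∈ T ∩ w.primeFactors, (1 - 1 / (p : ℝ)) =
      (∏ p ∈ T, (1 - 1 / (p : ℝ))) * ∏ p ∈ w.primeFactors, (1 - 1 / (p : ℝ)) :=
    Finset.prod_union_inter
  have h4 : 0 ≤ ∏ p ∈ T ∪ w.primeFactors, (1 - 1 / (p : ℝ)) :=
    Finset.prod_nonneg fun p hp => by
      rcases Finset.mem_union.1 hp with h | h
      · exact (fac_bounds (hTp p h)).1.le
      · exact (fac_bounds (hWp p h)).1.le
  have h5 : 0 ≤ ∏ p ∈ U, (1 - 1 / (p : ℝ)) :=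
    Finset.prod_nonneg fun p hp => (fac_bounds (hUp p hp)).1.le
  calc (∏ p ∈ U, (1 - 1 / (p : ℝ))) * ∏ p ∈ q.primeFactors, (1 - 1 / (p : ℝ))
      ≤ (∏ p ∈ U, (1 - 1 / (p : ℝ))) * ∏ p ∈ T ∪ w.primeFactors, (1 - 1 / (p : ℝ)) :=
        mul_le_mul_of_nonneg_left h1 h5
    _ ≤ (∏ p ∈ T ∩ w.primeFactors, (1 - 1 / (p : ℝ))) *
        ∏ p ∈ T ∪ w.primeFactors, (1 - 1 / (p : ℝ)) := mul_le_mul_of_nonneg_right h2 h4
    _ = _ := by rw [mul_comm, h3]

/-- `∏ (1 - 1/p) ≥ 1 - Σ 1/p` -/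
lemma one_sub_sum_le {U : Finset ℕ} (hU : ∀ p ∈ U, p.Prime) :
    1 - ∑ p ∈ U, 1 / (p : ℝ) ≤ ∏ p ∈ U, (1 - 1 / (p : ℝ)) := by
  classical
  induction U using Finset.induction_on with
  | empty => simp
  | insert a s ha ih =>
    rw [Finset.sum_insert ha, Finset.prod_insert ha]
    have h1 := ih fun p hp => hU p (Finset.mem_insert_of_mem hp)
    obtain ⟨h2, h3⟩ := fac_bounds (hU a (Finset.mem_insert_self _ _))
    have h4 : 0 ≤ ∑ p ∈ s, 1 / (p : ℝ) := Finset.sum_nonneg fun p _ => by positivity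
    have h5 : 0 ≤ 1 / (a : ℝ) := by positivity
    nlinarith [mul_le_mul_of_nonneg_left h1 h2.le, mul_nonneg h5 h4]

/-- **the form used in the assembly**: `Σ_{p ∈ uq q} 1/p ≤ 1/2` is supplied by pruning -/
theorem phi_le_two (t : IT) {n : ℕ} {c : ℝ} (hO : t.Ok n) (hF : Fit 1 1 t)
    (hN : All UqN ⟨n, c, 1, 1⟩ t) {q : ℕ} (hq : q ∈ t.items) (hp : ∀ p ∈ t.uq q, p.Prime)
    (hs : ∑ p ∈ t.uq q, 1 / (p : ℝ) ≤ 1 / 2) :
    (q.totient : ℝ) / q ≤
      2 * (prf t q * (((q / pp t q).totient : ℝ) / ((q / pp t q : ℕ) : ℝ))) := by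
  have h1 := phi_le t hO hF hq hp fun p hpt hd =>
    tp_uq t ⟨n, c, 1, 1⟩ hN hF q hq p hpt (by rw [one_mul]; exact hd)
  have h2 := one_sub_sum_le hp
  have h3 : (0 : ℝ) ≤ (q.totient : ℝ) / q := by positivity
  nlinarith [mul_le_mul_of_nonneg_right (show (1 : ℝ) / 2 ≤ ∏ p ∈ t.uq q, (1 - 1 / (p : ℝ)) by
    linarith) h3]

end Crest.Agent.R4P.Phi542
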