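import Crest.Agent.R4P.PrunePar33

/-!
R4 (S0004), helper532: **path functionals of the SEP nodes and their pruning**.

`pth F c t q` = `∑` over the SEP nodes (`add b t₁ t₀`, factor `c`) on the path of `q` of
`F b c (own child) (other child)`.  If at every node
`Ws T₁ · F b c T₁ T₀ + Ws T₀ · F b c T₀ T₁ ≤ G · min (Ws T₁) (Ws T₀)` then the `W`-mean of `pth` is at
most `G · cmin ≤ G · KE`.  Powers form, for ANY tree with `Ok`, `Alive`, `SepRule` (no builder); the
SEP rule has the constant `cL`.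
-/

set_option autoImplicit false

namespace Crest.Agent.R4P.PruneSep532

open Crest.Agent.R4P.Cnt588 Crest.Agent.R4P.PrunePar33

/-- path functional over the SEP nodes -/
noncomputable def pth (F : ℕ → ℝ → Finset ℕ → Finset ℕ → ℝ) : ℝ → IT → ℕ → ℝ
  | _, .leaf _, _ => 0
  | c, .br p _ t₁ t₀, q => if q ∈ t₀.items then pth F (c * p) t₀ q
      else pth F (c / (1 - 1 / (p : ℝ))) t₁ q
  | c, .add b t₁ t₀, q => if q ∈ t₀.items then F b c t₀.items t₁.items + pth F c t₀ q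
      else F b c t₁.items t₀.items + pth F c t₁ q
  | c, .up _ _ t, q => pth F c t q
  | c, .pl _ t, q => pth F c t q
  | c, .far _ t₁ t₀, q => if q ∈ t₀.items then pth F c t₀ q else pth F c t₁ q

lemma pos_div {p : ℕ} (hp : p.Prime) {c : ℝ} (hc : 0 < c) : 0 < c / (1 - 1 / (p : ℝ)) := by
  have h2 : (2 : ℝ) ≤ p := by exact_mod_cast hp.two_le
  have : 1 / (p : ℝ) ≤ 1 / 2 := one_div_le_one_div_of_le (by norm_num) h2
  exact div_pos hc (by linarith)

lemma pth_nonneg {F : ℕ → ℝ → Finset ℕ → Finset ℕ → ℝ}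
    (hF : ∀ b c T T', 0 < c → 0 ≤ F b c T T') : ∀ (t : IT) (n : ℕ), t.Ok n → ∀ (c : ℝ), 0 < c →
    ∀ q, 0 ≤ pth F c t q := by
  intro t
  induction t with
  | leaf S => intro n _ c _ q; exact le_rfl
  | br p _ t₁ t₀ ih₁ ih₀ =>
    intro n h c hc q
    obtain ⟨h1, h2, h3, _, h4, h5⟩ := h
    simp only [pth]
    split_ifs
    · exact ih₀ p h5 _ (mul_pos hc (by exact_mod_cast h1.pos)) q
    · exact ih₁ p h4 _ (pos_div h1 hc) q
  | add b t₁ t₀ ih₁ ih₀ =>
    intro n h c hc q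
    obtain ⟨h1, h2, h3, h4, h5⟩ := h
    simp only [pth]
    split_ifs
    · exact add_nonneg (hF _ _ _ _ hc) (ih₀ _ h5 _ hc q)
    · exact add_nonneg (hF _ _ _ _ hc) (ih₁ _ h4 _ hc q)
  | up b Sp t ih =>
    intro n h c hc q
    obtain ⟨h1, h2, h3, h4⟩ := h
    exact ih _ h4 c hc q
  | pl b t ih =>
    intro n h c hc q
    obtain ⟨h1, h2, h4⟩ := h
    exact ih _ h4 c hc q
  | far p t₁ t₀ ih₁ ih₀ =>
    intro n h c hc q
    obtain ⟨h1, h2, h3, h4, h5⟩ := h
    simp only [pth]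
    split_ifs
    · exact ih₀ _ h5 _ hc q
    · exact ih₁ _ h4 _ hc q

lemma pth_sum {ι : Type*} (s : Finset ι) (F : ι → ℕ → ℝ → Finset ℕ → Finset ℕ → ℝ) :
    ∀ (t : IT) (c : ℝ) (q : ℕ), pth (fun b c T T' => ∑ i ∈ s, F i b c T T') c t q =
      ∑ i ∈ s, pth (F i) c t q := by
  intro t
  induction t with
  | leaf S => intro c q; simp [pth]
  | br p _ t₁ t₀ ih₁ ih₀ =>
    intro c q
    simp only [pth]
    split_ifs
    · exact ih₀ _ q
    · exact ih₁ _ q
  | add b t₁ t₀ ih₁ ih₀ =>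
    intro c q
    simp only [pth]
    split_ifs
    · rw [ih₀, Finset.sum_add_distrib]
    · rw [ih₁, Finset.sum_add_distrib]
  | up b Sp t ih => intro c q; exact ih c q
  | pl b t ih => intro c q; exact ih c q
  | far p t₁ t₀ ih₁ ih₀ =>
    intro c q
    simp only [pth]
    split_ifs
    · exact ih₀ _ q
    · exact ih₁ _ q

/-- monotone in the summand: only the SEP columns of the item matter -/
theorem pth_mono {F F' : ℕ → ℝ → Finset ℕ → Finset ℕ → ℝ} {q : ℕ} :
    ∀ (t : IT) (n : ℕ), t.Ok n →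
    (∀ b ∈ t.sp q, ∀ c T T', 0 < c → F b c T T' ≤ F' b c T T') →
    ∀ c : ℝ, 0 < c → pth F c t q ≤ pth F' c t q := by
  intro t
  induction t with
  | leaf S => intro n _ _ c _; exact le_rfl
  | br p _ t₁ t₀ ih₁ ih₀ =>
    intro n h H c hc
    obtain ⟨h1, h2, h3, _, h4, h5⟩ := h
    simp only [pth]
    simp only [IT.sp] at H
    split_ifs with hq
    · rw [if_pos hq] at H
      exact ih₀ p h5 H _ (mul_pos hc (by exact_mod_cast h1.pos))
    · rw [if_neg hq] at H
      exact ih₁ p h4 H _ (pos_div h1 hc)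
  | add b t₁ t₀ ih₁ ih₀ =>
    intro n h H c hc
    obtain ⟨h1, h2, h3, h4, h5⟩ := h
    simp only [pth]
    simp only [IT.sp] at H
    have hF := H b (Finset.mem_insert_self _ _)
    split_ifs with hq
    · rw [if_pos hq] at H
      exact add_le_add (hF _ _ _ hc)
        (ih₀ _ h5 (fun b' hb' => H b' (Finset.mem_insert_of_mem hb')) _ hc)
    · rw [if_neg hq] at H
      exact add_le_add (hF _ _ _ hc)
        (ih₁ _ h4 (fun b' hb' => H b' (Finset.mem_insert_of_mem hb')) _ hc)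
  | up b Sp t ih =>
    intro n h H c hc
    obtain ⟨h1, h2, h3, h4⟩ := h
    exact ih _ h4 H c hc
  | pl b t ih =>
    intro n h H c hc
    obtain ⟨h1, h2, h4⟩ := h
    exact ih _ h4 H c hc
  | far p t₁ t₀ ih₁ ih₀ =>
    intro n h H c hc
    obtain ⟨h1, h2, h3, h4, h5⟩ := h
    simp only [pth]
    simp only [IT.sp] at H
    split_ifs with hq
    · rw [if_pos hq] at H
      exact ih₀ _ h5 H _ hc
    · rw [if_neg hq] at H
      exact ih₁ _ h4 H _ hc

/-- node condition for the summand `F` on the block `I` -/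
def NodeB (W : ℕ → ℝ) (I : Finset ℕ) (lam Lam L G : ℝ)
    (F : ℕ → ℝ → Finset ℕ → Finset ℕ → ℝ) : Prop :=
  ∀ b ∈ I, ∀ c : ℝ, 0 < c → ∀ T₁ T₀ : Finset ℕ,
    lam ≤ c * (Ws W T₁ + Ws W T₀) → c * (Ws W T₁ + Ws W T₀) ≤ Lam →
    L / b * (Ws W T₁ + Ws W T₀) ≤ Ws W T₀ → L / b * (Ws W T₁ + Ws W T₀) ≤ Ws W T₁ →
    Ws W T₁ * F b c T₁ T₀ + Ws W T₀ * F b c T₀ T₁ ≤ G * min (Ws W T₁) (Ws W T₀)

open Classical in
/-- restriction of the summand to a set of columns -/
noncomputable def rst (R : ℕ → Prop) (F : ℕ → ℝ → Finset ℕ → Finset ℕ → ℝ) :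
    ℕ → ℝ → Finset ℕ → Finset ℕ → ℝ := fun b c T T' => if R b then F b c T T' else 0

lemma rst_nonneg {R : ℕ → Prop} {F : ℕ → ℝ → Finset ℕ → Finset ℕ → ℝ}
    (hF : ∀ b c T T', 0 < c → 0 ≤ F b c T T') (b : ℕ) (c : ℝ) (T T' : Finset ℕ) (hc : 0 < c) :
    0 ≤ rst R F b c T T' := by
  unfold rst; split_ifs
  · exact hF _ _ _ _ hc
  · exact le_rfl

/-- **mean of a path functional** -/
theorem pth_le (W : ℕ → ℝ) (I : Finset ℕ) {lam Lam L G : ℝ}
    {F : ℕ → ℝ → Finset ℕ → Finset ℕ → ℝ} (hF : NodeB W I lam Lam L G F) :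
    ∀ (t : IT) (n : ℕ), t.Ok n → ∀ (c : ℝ), 0 < c → t.Alive W I lam Lam c → t.SepRule W I L →
      ∑ q ∈ t.items, W q * pth (rst (· ∈ I) F) c t q ≤ G * t.cmin W I := by
  classical
  intro t
  induction t with
  | leaf S => intro n _ c _ _ _; simp [pth, IT.cmin]
  | br p Sp t₁ t₀ ih₁ ih₀ =>
    intro n h c hc hal hsep
    obtain ⟨h1, h2, h3, _, h4, h5⟩ := h
    obtain ⟨-, a1, a0⟩ := hal
    obtain ⟨s1, s0⟩ := hsep
    have e1 := ih₁ p h4 _ (pos_div h1 hc) a1 s1
    have e0 := ih₀ p h5 _ (mul_pos hc (by exact_mod_cast h1.pos : (0 : ℝ) < p)) a0 s0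
    have hs : ∑ q ∈ (IT.br p Sp t₁ t₀).items, W q * pth (rst (· ∈ I) F) c (.br p Sp t₁ t₀) q =
        ∑ q ∈ t₁.items, W q * pth (rst (· ∈ I) F) (c / (1 - 1 / (p : ℝ))) t₁ q +
          ∑ q ∈ t₀.items, W q * pth (rst (· ∈ I) F) (c * p) t₀ q := by
      show ∑ q ∈ t₁.items ∪ t₀.items, _ = _
      rw [Finset.sum_union h3]
      congr 1
      · refine Finset.sum_congr rfl fun q hq => ?_
        simp only [pth, if_neg (Finset.disjoint_left.1 h3 hq)]
      · refine Finset.sum_congr rfl fun q hq => ?_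
        simp only [pth, if_pos hq]
    rw [hs]
    simp only [IT.cmin]
    linarith
  | add b t₁ t₀ ih₁ ih₀ =>
    intro n h c hc hal hsep
    obtain ⟨h1, h2, h3, h4, h5⟩ := h
    obtain ⟨a, a1, a0⟩ := hal
    obtain ⟨s, s1, s0⟩ := hsep
    have e1 := ih₁ _ h4 _ hc a1 s1
    have e0 := ih₀ _ h5 _ hc a0 s0
    have hs : ∑ q ∈ (IT.add b t₁ t₀).items, W q * pth (rst (· ∈ I) F) c (.add b t₁ t₀) q =
        (Ws W t₁.items * rst (· ∈ I) F b c t₁.items t₀.items +
          ∑ q ∈ t₁.items, W q * pth (rst (· ∈ I) F) c t₁ q) +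
        (Ws W t₀.items * rst (· ∈ I) F b c t₀.items t₁.items +
          ∑ q ∈ t₀.items, W q * pth (rst (· ∈ I) F) c t₀ q) := by
      show ∑ q ∈ t₁.items ∪ t₀.items, _ = _
      rw [Finset.sum_union h3]
      congr 1
      · rw [Ws, Finset.sum_mul, ← Finset.sum_add_distrib]
        refine Finset.sum_congr rfl fun q hq => ?_
        simp only [pth, if_neg (Finset.disjoint_left.1 h3 hq)]
        ring
      · rw [Ws, Finset.sum_mul, ← Finset.sum_add_distrib]
        refine Finset.sum_congr rfl fun q hq => ?_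
        simp only [pth, if_pos hq]
        ring
    have hU : Ws W (IT.add b t₁ t₀).items = Ws W t₁.items + Ws W t₀.items := Ws_union33 W h3
    rw [hs]
    simp only [IT.cmin]
    by_cases hb : b ∈ I
    · have h6 := a hb
      rw [hU] at h6
      have h7 := s hb
      have h8 := hF b hb c hc t₁.items t₀.items h6.1 h6.2 h7.1 h7.2
      have r1 : rst (· ∈ I) F b c t₁.items t₀.items = F b c t₁.items t₀.items := by
        unfold rst; rw [if_pos hb]
      have r0 : rst (· ∈ I) F b c t₀.items t₁.items = F b c t₀.items t₁.items := by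
        unfold rst; rw [if_pos hb]
      rw [r1, r0, if_pos hb]
      linarith
    · have r1 : rst (· ∈ I) F b c t₁.items t₀.items = 0 := by
        unfold rst; rw [if_neg hb]
      have r0 : rst (· ∈ I) F b c t₀.items t₁.items = 0 := by
        unfold rst; rw [if_neg hb]
      rw [r1, r0, if_neg hb]
      linarith
  | up b Sp t ih =>
    intro n h c hc hal hsep
    obtain ⟨h1, h2, h3, h4⟩ := h
    exact ih _ h4 c hc hal.2 hsep
  | pl b t ih =>
    intro n h c hc hal hsep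
    obtain ⟨h1, h2, h4⟩ := h
    exact ih _ h4 c hc hal hsep
  | far p t₁ t₀ ih₁ ih₀ =>
    intro n h c hc hal hsep
    obtain ⟨h1, h2, h3, h4, h5⟩ := h
    obtain ⟨-, a1, a0⟩ := hal
    obtain ⟨s1, s0⟩ := hsep
    have e1 := ih₁ _ h4 _ hc a1 s1
    have e0 := ih₀ _ h5 _ hc a0 s0
    have hs : ∑ q ∈ (IT.far p t₁ t₀).items, W q * pth (rst (· ∈ I) F) c (.far p t₁ t₀) q =
        ∑ q ∈ t₁.items, W q * pth (rst (· ∈ I) F) c t₁ q +
          ∑ q ∈ t₀.items, W q * pth (rst (· ∈ I) F) c t₀ q := by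
      show ∑ q ∈ t₁.items ∪ t₀.items, _ = _
      rw [Finset.sum_union h3]
      congr 1
      · refine Finset.sum_congr rfl fun q hq => ?_
        simp only [pth, if_neg (Finset.disjoint_left.1 h3 hq)]
      · refine Finset.sum_congr rfl fun q hq => ?_
        simp only [pth, if_pos hq]
    rw [hs]
    simp only [IT.cmin]
    linarith

/-- `∑_{j ≤ k < n} 2^{-(k-j+1)} ≤ 1` -/
lemma geo_tail (j n : ℕ) :
    ∑ k ∈ (Finset.range n).filter (j ≤ ·), (1 / 2 : ℝ) ^ (k - j + 1) ≤ 1 - (1 / 2) ^ (n - j) := by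
  induction n with
  | zero => simp
  | succ n ih =>
    rw [Finset.range_add_one, Finset.filter_insert]
    split_ifs with h
    · rw [Finset.sum_insert (by simp)]
      have e : n + 1 - j = n - j + 1 := by omega
      rw [e]
      have e2 : (1 / 2 : ℝ) ^ (n - j) = 2 * (1 / 2) ^ (n - j + 1) := by
        rw [pow_succ]; ring
      linarith
    · have e1 : n - j = 0 := by omega
      have e2 : n + 1 - j = 0 := by omega
      rw [e1] at ih
      rw [e2]
      exact ih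

/-- **pruning of a finite family of path functionals.**  `K X^(-(A+C+2))` is the node constant of the
block with `X = log (upper end)`. -/
theorem prune_pth (B C1 c2 A ε K cL : ℝ) (m : ℕ) (hε : 0 < ε) (hC1 : 0 ≤ C1) (hc2 : 0 ≤ c2)
    (hA : 1 ≤ A) (hK : 0 ≤ K) :
    ∃ p₁ : ℕ, ∀ p0 ≥ p₁, ∀ W : ℕ → ℝ, (∀ q, 0 ≤ W q) →
      ∀ F : Fin m → ℕ → ℝ → Finset ℕ → Finset ℕ → ℝ, (∀ i b c T T', 0 < c → 0 ≤ F i b c T T') →
      (∀ i k, NodeB W (blk (Pk p0 k) (Pk p0 (k + 1))) (Real.log (Pk p0 (k + 1)) ^ (-C1))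
        (Real.log (Pk p0 (k + 1)) ^ c2) (cL * Real.log (Pk p0 k) ^ B)
        (K * Real.log (Pk p0 (k + 1)) ^ (-(A + (C1 + c2) + 2))) (F i)) →
      ∀ (n : ℕ) (t : IT), t.Ok n → (∀ q, ∀ b ∈ t.sp q, b.Prime ∧ p0 < b ∧ b < n) →
      (∀ k, t.Alive W (blk (Pk p0 k) (Pk p0 (k + 1))) (Real.log (Pk p0 (k + 1)) ^ (-C1))
        (Real.log (Pk p0 (k + 1)) ^ c2) 1) →
      (∀ k, t.SepRule W (blk (Pk p0 k) (Pk p0 (k + 1))) (cL * Real.log (Pk p0 k) ^ B)) →
      ∃ S' ⊆ t.items, (1 - ε) * Ws W t.items ≤ Ws W S' ∧ ∀ q ∈ S', ∀ i,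
        ∀ P : ℕ, p0 ≤ P → pth (rst (P < ·) (F i)) 1 t q ≤ Real.log P ^ (-A) := by
  classical
  set C := C1 + c2 with hC
  have hC0 : 0 ≤ C := by positivity
  set T1 := 20 * (1 + C) * K * (m + 1) / ε with hT1
  have hT1' : 0 ≤ T1 := by positivity
  set T := 24 + T1 with hT
  refine ⟨⌈Real.exp T⌉₊ + 3, fun p0 hp0 W hW F hF0 hFB n t hOk hcol hAl hSep => ?_⟩
  have hp2 : 2 ≤ p0 := by omega
  have hpT : Real.exp T ≤ p0 := by
    have h1 : Real.exp T ≤ ⌈Real.exp T⌉₊ := Nat.le_ceil _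
    have h2 : ((⌈Real.exp T⌉₊ : ℕ) : ℝ) ≤ p0 := by
      have : ⌈Real.exp T⌉₊ ≤ p0 := by omega
      exact_mod_cast this
    linarith
  have hp0R : (0 : ℝ) < p0 := lt_of_lt_of_le (Real.exp_pos _) hpT
  have hl : T ≤ Real.log p0 := (Real.le_log_iff_exp_le hp0R).2 hpT
  have hl24 : 24 ≤ Real.log p0 := by linarith
  have hl0 : 0 < Real.log p0 := by linarith
  have hXk : ∀ k, 24 ≤ Real.log (Pk p0 k) := by
    intro k
    rw [log_Pk]
    have : (1 : ℝ) ≤ 2 ^ k := one_le_pow₀ (by norm_num)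
    nlinarith
  have hX2 : ∀ k, (2 : ℝ) ^ (k + 1) = Real.log (Pk p0 (k + 1)) / Real.log p0 := by
    intro k; rw [log_Pk]; field_simp
  have hPk2 : ∀ k, 2 ≤ Pk p0 k := fun k => hp2.trans (Pk_ge (by omega) k)
  set I : ℕ → Finset ℕ := fun k => blk (Pk p0 k) (Pk p0 (k + 1)) with hI
  -- Markov
  let J : Finset (Fin m × ℕ) := Finset.univ ×ˢ Finset.range n
  let f : Fin m × ℕ → ℕ → ℝ := fun i q => pth (rst (· ∈ I i.2) (F i.1)) 1 t q
  let G : ℕ → ℝ := fun k => K * Real.log (Pk p0 (k + 1)) ^ (-(A + C + 2))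
  let Ac : Fin m × ℕ → ℝ := fun i => G i.2 * KE (I i.2) (Real.log (Pk p0 (i.2 + 1)) ^ (-C1))
    (Real.log (Pk p0 (i.2 + 1)) ^ c2)
  let δ : Fin m × ℕ → ℝ := fun i => ε / (m + 1) * (1 / 2) ^ (i.2 + 1)
  have hδ : ∀ i ∈ J, 0 < δ i := fun i _ => by positivity
  have hf : ∀ i ∈ J, ∀ q ∈ t.items, 0 ≤ f i q := fun i _ q _ =>
    pth_nonneg (rst_nonneg (hF0 i.1)) t n hOk 1 one_pos q
  have hG0 : ∀ k, 0 ≤ G k := fun k => by
    have := hXk (k + 1)
    have : 0 ≤ Real.log (Pk p0 (k + 1)) ^ (-(A + C + 2)) := Real.rpow_nonneg (by linarith) _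
    positivity
  have hAc : ∀ i ∈ J, ∑ q ∈ t.items, W q * f i q ≤ Ac i * Ws W t.items := by
    rintro ⟨i, k⟩ hi
    have hXp : 0 < Real.log (Pk p0 (k + 1)) := by have := hXk (k + 1); linarith
    have hal : t.Alive W (I k) (Real.log (Pk p0 (k + 1)) ^ (-C1))
        (Real.log (Pk p0 (k + 1)) ^ c2) 1 := hAl k
    have hsep : t.SepRule W (I k) (cL * Real.log (Pk p0 k) ^ B) := hSep k
    have h1 := pth_le W (I k) (hFB i k) t n hOk 1 one_pos hal hsep
    have h2 := cmin_le W hW _ _ (Real.rpow_pos_of_pos hXp _)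
      (Real.rpow_le_rpow_of_exponent_le (by have := hXk (k + 1); linarith) (by linarith)) t n 1
      one_pos hOk hal
    refine h1.trans ?_
    have h3 := mul_le_mul_of_nonneg_left h2 (hG0 k)
    refine h3.trans (le_of_eq ?_)
    show G k * (_ * _) = G k * _ * _
    ring
  obtain ⟨S', hsub, hmass, hbd⟩ := markov33 J W hW t.items f hf Ac δ hδ hAc
  refine ⟨S', hsub, ?_, ?_⟩
  · refine le_trans ?_ hmass
    apply mul_le_mul_of_nonneg_right _ (Ws_nonneg33 hW _)
    have : ∑ i ∈ J, δ i ≤ ε := by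
      have h1 : ∑ i ∈ J, δ i = ∑ _a : Fin m, ∑ k ∈ Finset.range n,
          ε / (m + 1) * (1 / 2) ^ (k + 1) := Finset.sum_product _ _ _
      rw [h1, Finset.sum_const, Finset.card_univ, Fintype.card_fin, ← Finset.mul_sum]
      have h2 := geo33 n
      rw [nsmul_eq_mul]
      have h3 : (0 : ℝ) ≤ (m : ℝ) * (ε / (m + 1)) := by positivity
      have h4 := mul_le_mul_of_nonneg_left h2 h3
      have h5 : (m : ℝ) * (ε / (m + 1)) ≤ ε := by
        rw [mul_div_assoc', div_le_iff₀ (by positivity)]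
        nlinarith
      nlinarith
    linarith
  · intro q hq i P hP
    obtain ⟨j, hj, hj'⟩ := exists_blk' hp2 hP
    have hPR : (0 : ℝ) < P := by
      have : 0 < P := by omega
      exact_mod_cast this
    have hLP : Real.log p0 ≤ Real.log P := Real.log_le_log hp0R (by exact_mod_cast hP)
    have hLP0 : 0 < Real.log P := by linarith
    -- one block
    have hone : ∀ k < n, pth (rst (· ∈ I k) (F i)) 1 t q ≤
        1 / 2 * Real.log (Pk p0 (k + 1)) ^ (-A) := by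
      intro k hk
      have h1 := hbd q hq (i, k) (Finset.mem_product.2 ⟨Finset.mem_univ _, Finset.mem_range.2 hk⟩)
      refine h1.trans ?_
      set X := Real.log (Pk p0 (k + 1)) with hX
      have hX24 : 24 ≤ X := hXk (k + 1)
      have hXp : 0 < X := by linarith
      have h2 := KE_le (blk_sum_le hl24 hp2 k) (X := X) (by linarith) hC1 hc2
      have e1 : Ac (i, k) / δ (i, k) = (m + 1) * 2 ^ (k + 1) / ε * (K * X ^ (-(A + C + 2)) *
          KE (I k) (X ^ (-C1)) (X ^ c2)) := by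
        show G k * KE (I k) (X ^ (-C1)) (X ^ c2) / (ε / (m + 1) * (1 / 2) ^ (k + 1)) = _
        show K * X ^ (-(A + C + 2)) * KE (I k) (X ^ (-C1)) (X ^ c2) /
          (ε / (m + 1) * (1 / 2) ^ (k + 1)) = _
        rw [one_div, inv_pow]
        have : (0 : ℝ) < 2 ^ (k + 1) := by positivity
        field_simp
      rw [e1]
      have hKX : 0 ≤ K * X ^ (-(A + C + 2)) := mul_nonneg hK (Real.rpow_nonneg hXp.le _)
      calc (m + 1) * 2 ^ (k + 1) / ε * (K * X ^ (-(A + C + 2)) * KE (I k) (X ^ (-C1)) (X ^ c2))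
          ≤ (m + 1) * 2 ^ (k + 1) / ε * (K * X ^ (-(A + C + 2)) *
            (10 * (1 + C) * X ^ (C + 1))) := by
            refine mul_le_mul_of_nonneg_left ?_ (by positivity)
            exact mul_le_mul_of_nonneg_left h2 hKX
        _ = (T1 / 2) / Real.log p0 * (X * X ^ (-(A + C + 2)) * X ^ (C + 1)) := by
            rw [hX2 k, ← hX, hT1]
            field_simp
            ring
        _ = (T1 / 2) / Real.log p0 * X ^ (-A) := by
            have h4 : X * X ^ (-(A + C + 2)) * X ^ (C + 1) = X ^ (-A) := by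
              have h5 : X * X ^ (-(A + C + 2)) = X ^ (1 + -(A + C + 2)) := by
                rw [Real.rpow_add hXp, Real.rpow_one]
              rw [h5, ← Real.rpow_add hXp]
              congr 1; ring
            rw [h4]
        _ ≤ 1 / 2 * X ^ (-A) := by
            refine mul_le_mul_of_nonneg_right ?_ (Real.rpow_nonneg hXp.le _)
            rw [div_le_iff₀ hl0]
            linarith
    -- domination by the blocks
    have hmono : pth (rst (P < ·) (F i)) 1 t q ≤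
        pth (fun b c T T' => ∑ k ∈ (Finset.range n).filter (j ≤ ·),
          rst (· ∈ I k) (F i) b c T T') 1 t q := by
      refine pth_mono t n hOk ?_ 1 one_pos
      intro b hbs c' T T' hc'
      obtain ⟨hb, hb0, hbn⟩ := hcol q b hbs
      by_cases hPb : P < b
      · have e : rst (P < ·) (F i) b c' T T' = F i b c' T T' := by unfold rst; rw [if_pos hPb]
        rw [e]
        have hb0' : p0 < b := hb0
        obtain ⟨k, hk1, hk2⟩ := exists_blk hp2 hb0'
        have hkn : k < n := by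
          have := lt_Pk hp2 k
          omega
        have hjk : j ≤ k := by
          by_contra hc
          have : Pk p0 (k + 1) ≤ Pk p0 j := Pk_mono (by omega) (by omega)
          omega
        have hbI : b ∈ I k := Finset.mem_filter.2 ⟨Finset.mem_Ioc.2 ⟨hk1, hk2⟩, hb⟩
        have h1 : rst (· ∈ I k) (F i) b c' T T' = F i b c' T T' := by
          unfold rst; rw [if_pos hbI]
        rw [← h1]
        exact Finset.single_le_sum (f := fun k => rst (· ∈ I k) (F i) b c' T T')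
          (fun k _ => rst_nonneg (hF0 i) b c' T T' hc')
          (Finset.mem_filter.2 ⟨Finset.mem_range.2 hkn, hjk⟩)
      · have e : rst (P < ·) (F i) b c' T T' = 0 := by unfold rst; rw [if_neg hPb]
        rw [e]
        exact Finset.sum_nonneg fun k _ => rst_nonneg (hF0 i) b c' T T' hc'
    refine hmono.trans ?_
    rw [pth_sum]
    have hterm : ∀ k ∈ (Finset.range n).filter (j ≤ ·), pth (rst (· ∈ I k) (F i)) 1 t q ≤
        (1 / 2) ^ (k - j + 1) * Real.log P ^ (-A) := by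
      intro k hk
      obtain ⟨hk1, hk2⟩ := Finset.mem_filter.1 hk
      refine (hone k (Finset.mem_range.1 hk1)).trans ?_
      have hjP : Real.log P ≤ Real.log (Pk p0 (j + 1)) :=
        Real.log_le_log hPR (by exact_mod_cast hj'.le)
      have e1 : Real.log (Pk p0 (k + 1)) = 2 ^ (k - j) * Real.log (Pk p0 (j + 1)) := by
        rw [log_Pk, log_Pk, ← mul_assoc, ← pow_add]
        congr 2; omega
      have h2 : (2 : ℝ) ^ (k - j) * Real.log P ≤ Real.log (Pk p0 (k + 1)) := by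
        rw [e1]; exact mul_le_mul_of_nonneg_left hjP (by positivity)
      have h3 : Real.log (Pk p0 (k + 1)) ^ (-A) ≤ (2 ^ (k - j) * Real.log P) ^ (-A) :=
        Real.rpow_le_rpow_of_nonpos (by positivity) h2 (by linarith)
      have h4 : ((2 : ℝ) ^ (k - j) * Real.log P) ^ (-A) =
          ((2 : ℝ) ^ (k - j)) ^ (-A) * Real.log P ^ (-A) :=
        Real.mul_rpow (by positivity) hLP0.le
      have h5 : ((2 : ℝ) ^ (k - j)) ^ (-A) ≤ ((2 : ℝ) ^ (k - j)) ^ (-1 : ℝ) :=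
        Real.rpow_le_rpow_of_exponent_le (one_le_pow₀ (by norm_num)) (by linarith)
      have h6 : ((2 : ℝ) ^ (k - j)) ^ (-1 : ℝ) = (1 / 2) ^ (k - j) := by
        rw [Real.rpow_neg_one, one_div, inv_pow]
      rw [h6] at h5
      have h7 : 0 ≤ Real.log P ^ (-A) := Real.rpow_nonneg hLP0.le _
      calc 1 / 2 * Real.log (Pk p0 (k + 1)) ^ (-A)
          ≤ 1 / 2 * (((2 : ℝ) ^ (k - j)) ^ (-A) * Real.log P ^ (-A)) := by
            rw [← h4]; exact mul_le_mul_of_nonneg_left h3 (by norm_num)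
        _ ≤ 1 / 2 * ((1 / 2) ^ (k - j) * Real.log P ^ (-A)) := by
            refine mul_le_mul_of_nonneg_left ?_ (by norm_num)
            exact mul_le_mul_of_nonneg_right h5 h7
        _ = (1 / 2) ^ (k - j + 1) * Real.log P ^ (-A) := by rw [pow_succ]; ring
    refine (Finset.sum_le_sum hterm).trans ?_
    rw [← Finset.sum_mul]
    have h8 := geo_tail j n
    have h9 : (0 : ℝ) ≤ (1 / 2) ^ (n - j) := by positivity
    have h10 : 0 ≤ Real.log P ^ (-A) := Real.rpow_nonneg hLP0.le _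
    nlinarith

/-! ### the two functionals -/

/-- `g b / (b · ν(own child))` -/
noncomputable def betF (W : ℕ → ℝ) (g : ℕ → ℝ) (b : ℕ) (c : ℝ) (T _T' : Finset ℕ) : ℝ :=
  g b / (b * (c * Ws W T))

/-- `g b · ν(other child)` -/
noncomputable def bnuF (W : ℕ → ℝ) (g : ℕ → ℝ) (b : ℕ) (c : ℝ) (_T T' : Finset ℕ) : ℝ :=
  g b * (c * Ws W T')

lemma betF_nonneg {W g : ℕ → ℝ} (hW : ∀ q, 0 ≤ W q) (hg : ∀ b, 0 ≤ g b) (b : ℕ) (c : ℝ)
    (T T' : Finset ℕ) (hc : 0 < c) : 0 ≤ betF W g b c T T' := by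
  have := Ws_nonneg33 hW T
  have := hg b
  unfold betF
  positivity

lemma bnuF_nonneg {W g : ℕ → ℝ} (hW : ∀ q, 0 ≤ W q) (hg : ∀ b, 0 ≤ g b) (b : ℕ) (c : ℝ)
    (T T' : Finset ℕ) (hc : 0 < c) : 0 ≤ bnuF W g b c T T' := by
  have := Ws_nonneg33 hW T'
  have := hg b
  unfold bnuF
  positivity

lemma NodeB_bet {W g : ℕ → ℝ} (hW : ∀ q, 0 ≤ W q) (hg : ∀ b, 0 ≤ g b) {I : Finset ℕ}
    {lam Lam L gm G : ℝ} (hI : ∀ b ∈ I, 0 < b) (hlam : 0 < lam) (hL : 0 < L)
    (hgm : ∀ b ∈ I, g b ≤ gm) (hG : 2 * gm ≤ G * (lam * L)) :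
    NodeB W I lam Lam L G (betF W g) := by
  intro b hb c hc T₁ T₀ h1 _ h3 h4
  have hb0 : (0 : ℝ) < b := by exact_mod_cast hI b hb
  have w1 := Ws_nonneg33 hW T₁
  have w0 := Ws_nonneg33 hW T₀
  have key : ∀ T : Finset ℕ, 0 ≤ Ws W T → Ws W T * betF W g b c T T ≤ g b / (b * c) := by
    intro T hT
    unfold betF
    rcases hT.eq_or_lt with h | h
    · rw [← h]
      have := hg b
      simp only [zero_mul]
      positivity
    · refine le_of_eq ?_
      field_simp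
  have k1 : Ws W T₁ * betF W g b c T₁ T₀ ≤ g b / (b * c) := key T₁ w1
  have k0 : Ws W T₀ * betF W g b c T₀ T₁ ≤ g b / (b * c) := key T₀ w0
  have hmin : L / b * (Ws W T₁ + Ws W T₀) ≤ min (Ws W T₁) (Ws W T₀) := le_min h4 h3
  have hm0 : 0 ≤ min (Ws W T₁) (Ws W T₀) := le_min w1 w0
  -- `lam L / (b c) ≤ min`
  have h5 : lam * L / (b * c) ≤ min (Ws W T₁) (Ws W T₀) := by
    refine le_trans ?_ hmin
    rw [div_le_iff₀ (by positivity)]
    have e : L / b * (Ws W T₁ + Ws W T₀) * (b * c) = L * (c * (Ws W T₁ + Ws W T₀)) := by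
      field_simp
    rw [e]
    nlinarith
  have hgm0 : 0 ≤ gm := (hg b).trans (hgm b hb)
  have h6 : g b / (b * c) ≤ gm / (b * c) := div_le_div_of_nonneg_right (hgm b hb) (by positivity)
  have hG0 : 0 ≤ G := by
    by_contra hc'
    push Not at hc'
    have : G * (lam * L) < 0 := mul_neg_of_neg_of_pos hc' (mul_pos hlam hL)
    linarith
  have h7 : 2 * (gm / (b * c)) ≤ G * (lam * L / (b * c)) := by
    have : G * (lam * L / (b * c)) = G * (lam * L) / (b * c) := by ring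
    rw [this, mul_div_assoc']
    exact div_le_div_of_nonneg_right hG (by positivity)
  have h8 := mul_le_mul_of_nonneg_left h5 hG0
  linarith

lemma NodeB_bnu {W g : ℕ → ℝ} (hW : ∀ q, 0 ≤ W q) (hg : ∀ b, 0 ≤ g b) {I : Finset ℕ}
    {lam Lam L gm G : ℝ} (hgm : ∀ b ∈ I, g b ≤ gm) (hG : 2 * gm * Lam ≤ G) :
    NodeB W I lam Lam L G (bnuF W g) := by
  intro b hb c hc T₁ T₀ _ h2 _ _
  have w1 := Ws_nonneg33 hW T₁
  have w0 := Ws_nonneg33 hW T₀
  have hm0 : 0 ≤ min (Ws W T₁) (Ws W T₀) := le_min w1 w0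
  have hM0 : 0 ≤ max (Ws W T₁) (Ws W T₀) := w1.trans (le_max_left _ _)
  have e1 : Ws W T₁ * Ws W T₀ = max (Ws W T₁) (Ws W T₀) * min (Ws W T₁) (Ws W T₀) :=
    (max_mul_min _ _).symm
  have e2 : Ws W T₁ * bnuF W g b c T₁ T₀ + Ws W T₀ * bnuF W g b c T₀ T₁ =
      2 * g b * (c * max (Ws W T₁) (Ws W T₀)) * min (Ws W T₁) (Ws W T₀) := by
    unfold bnuF
    have : 2 * g b * (c * max (Ws W T₁) (Ws W T₀)) * min (Ws W T₁) (Ws W T₀) =
        2 * g b * c * (max (Ws W T₁) (Ws W T₀) * min (Ws W T₁) (Ws W T₀)) := by ring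
    rw [this, ← e1]; ring
  rw [e2]
  have h3 : c * max (Ws W T₁) (Ws W T₀) ≤ Lam := by
    refine le_trans ?_ h2
    refine mul_le_mul_of_nonneg_left ?_ hc.le
    exact max_le (by linarith) (by linarith)
  have hLam0 : 0 ≤ Lam := le_trans (mul_nonneg hc.le hM0) h3
  have h4 : 2 * g b * (c * max (Ws W T₁) (Ws W T₀)) ≤ 2 * gm * Lam := by
    have := hg b
    exact mul_le_mul (by linarith [hgm b hb]) h3 (mul_nonneg hc.le hM0)
      (by linarith [hgm b hb])
  exact mul_le_mul_of_nonneg_right (h4.trans hG) hm0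

/-- **pruning of the SEP functionals**: `S'` such that, for every `q ∈ S'` and `P ≥ p0`,
`∑ (log b)^a / (b ν(own)) ≤ (log P)^(-A)` and `∑ (log b)^(-a') ν(other) ≤ (log P)^(-A)` (sums over
the SEP nodes on the path of `q` with column `> P`). -/
theorem prune_sep (B C1 c2 a a' A ε cL : ℝ) (hε : 0 < ε) (hC1 : 0 ≤ C1) (hc2 : 0 ≤ c2)
    (hcL : 0 < cL) (ha : 0 ≤ a)
    (hA : 1 ≤ A) (hB : A + a + 2 * C1 + c2 + 2 ≤ B) (ha' : A + C1 + 2 * c2 + 2 ≤ a') :
    ∃ p₁ : ℕ, ∀ p0 ≥ p₁, ∀ W : ℕ → ℝ, (∀ q, 0 ≤ W q) → ∀ (n : ℕ) (t : IT), t.Ok n →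
      (∀ q, ∀ b ∈ t.sp q, b.Prime ∧ p0 < b ∧ b < n) →
      (∀ k, t.Alive W (blk (Pk p0 k) (Pk p0 (k + 1))) (Real.log (Pk p0 (k + 1)) ^ (-C1))
        (Real.log (Pk p0 (k + 1)) ^ c2) 1) →
      (∀ k, t.SepRule W (blk (Pk p0 k) (Pk p0 (k + 1))) (cL * Real.log (Pk p0 k) ^ B)) →
      ∃ S' ⊆ t.items, (1 - ε) * Ws W t.items ≤ Ws W S' ∧ ∀ q ∈ S', ∀ P : ℕ, p0 ≤ P →
        pth (rst (P < ·) (betF W fun b => Real.log b ^ a)) 1 t q ≤ Real.log P ^ (-A) ∧
        pth (rst (P < ·) (bnuF W fun b => Real.log b ^ (-a'))) 1 t q ≤ Real.log P ^ (-A) := by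
  have ha0 : 0 ≤ a' := by linarith
  set K : ℝ := 2 * 2 ^ B / cL + 2 * 2 ^ a' with hK
  have hK0 : 0 ≤ K := by positivity
  obtain ⟨p₁, h⟩ := prune_pth B C1 c2 A ε K cL 2 hε hC1 hc2 hA hK0
  refine ⟨p₁ + 3, fun p0 hp0 W hW n t hOk hcol hAl hSep => ?_⟩
  have hg1 : ∀ b : ℕ, (0 : ℝ) ≤ Real.log b ^ a := fun b =>
    Real.rpow_nonneg (Real.log_natCast_nonneg b) _
  have hg2 : ∀ b : ℕ, (0 : ℝ) ≤ Real.log b ^ (-a') := fun b =>
    Real.rpow_nonneg (Real.log_natCast_nonneg b) _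
  have hlp : 1 ≤ Real.log p0 := one_le_log_nat (by omega)
  -- scales
  have hscale : ∀ k, 2 ≤ Real.log (Pk p0 (k + 1)) ∧
      Real.log (Pk p0 k) = Real.log (Pk p0 (k + 1)) / 2 := by
    intro k
    have h1 : (1 : ℝ) ≤ 2 ^ k := one_le_pow₀ (by norm_num)
    rw [log_Pk, log_Pk, pow_succ]
    constructor
    · nlinarith
    · ring
  have hblk : ∀ k, ∀ b ∈ blk (Pk p0 k) (Pk p0 (k + 1)), 0 < b ∧
      Real.log (Pk p0 (k + 1)) / 2 ≤ Real.log b ∧ Real.log b ≤ Real.log (Pk p0 (k + 1)) := by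
    intro k b hb
    have h1 := Finset.mem_Ioc.1 (Finset.mem_filter.1 hb).1
    have h2 : 0 < Pk p0 k := lt_of_lt_of_le (by omega) (Pk_ge (by omega : 1 ≤ p0) k)
    have hb0 : 0 < b := by omega
    refine ⟨hb0, ?_, ?_⟩
    · rw [← (hscale k).2]
      exact Real.log_le_log (by exact_mod_cast h2) (by exact_mod_cast h1.1.le)
    · exact Real.log_le_log (by exact_mod_cast hb0) (by exact_mod_cast h1.2)
  obtain ⟨S', h1, h2, h3⟩ := h p0 (by omega) W hW
    (fun i => if i = 0 then betF W (fun b => Real.log b ^ a)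
      else bnuF W (fun b => Real.log b ^ (-a')))
    (by
      intro i b c T T' hc
      by_cases hi : i = 0
      · simp only [hi, if_true]; exact betF_nonneg hW hg1 b c T T' hc
      · simp only [hi, if_false]; exact bnuF_nonneg hW hg2 b c T T' hc)
    (by
      intro i k
      set X := Real.log (Pk p0 (k + 1)) with hX
      have hX2 : 2 ≤ X := (hscale k).1
      have hXp : 0 < X := by linarith
      have hX1 : 1 ≤ X := by linarith
      rw [(hscale k).2]
      by_cases hi : i = 0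
      · simp only [hi, if_true]
        refine NodeB_bet hW hg1 (gm := X ^ a) (fun b hb => (hblk k b hb).1)
          (Real.rpow_pos_of_pos hXp _) (mul_pos hcL (Real.rpow_pos_of_pos (by linarith) _)) ?_ ?_
        · intro b hb
          have h4 := hblk k b hb
          exact Real.rpow_le_rpow (by linarith) h4.2.2 ha
        · rw [Real.div_rpow hXp.le (by norm_num)]
          have h5 : X ^ a ≤ X ^ (-(A + (C1 + c2) + 2)) * (X ^ (-C1) * X ^ B) := by
            rw [← Real.rpow_add hXp, ← Real.rpow_add hXp]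
            exact Real.rpow_le_rpow_of_exponent_le hX1 (by linarith)
          have h6 : (0 : ℝ) < 2 ^ B := by positivity
          have h7 : 2 * 2 ^ B / cL ≤ K := by rw [hK]; have : (0 : ℝ) < 2 ^ a' := by positivity
                                             linarith
          have e : K * X ^ (-(A + (C1 + c2) + 2)) * (X ^ (-C1) * (cL * (X ^ B / 2 ^ B))) =
              (K * cL / 2 ^ B) * (X ^ (-(A + (C1 + c2) + 2)) * (X ^ (-C1) * X ^ B)) := by
            field_simp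
          rw [e]
          have h8 : 2 ≤ K * cL / 2 ^ B := by
            rw [le_div_iff₀ h6]
            rw [div_le_iff₀ hcL] at h7
            exact h7
          have h9 : 0 ≤ X ^ a := Real.rpow_nonneg hXp.le _
          calc 2 * X ^ a ≤ (K * cL / 2 ^ B) * X ^ a := mul_le_mul_of_nonneg_right h8 h9
            _ ≤ _ := mul_le_mul_of_nonneg_left h5 (by linarith)
      · simp only [hi, if_false]
        refine NodeB_bnu hW hg2 (gm := (X / 2) ^ (-a')) ?_ ?_
        · intro b hb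
          have h4 := hblk k b hb
          exact Real.rpow_le_rpow_of_nonpos (by linarith) h4.2.1 (by linarith)
        · rw [Real.div_rpow hXp.le (by norm_num)]
          have e : (2 : ℝ) ^ (-a') = (2 ^ a')⁻¹ := Real.rpow_neg (by norm_num) _
          rw [e, div_inv_eq_mul]
          have h5 : X ^ (-a') * X ^ c2 ≤ X ^ (-(A + (C1 + c2) + 2)) := by
            rw [← Real.rpow_add hXp]
            exact Real.rpow_le_rpow_of_exponent_le hX1 (by linarith)
          have h6 : (0 : ℝ) < 2 ^ a' := by positivity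
          have h7 : 2 * 2 ^ a' ≤ K := by
            rw [hK]
            have : (0 : ℝ) < 2 * 2 ^ B / cL := by positivity
            linarith
          have h9 : 0 ≤ X ^ (-(A + (C1 + c2) + 2)) := Real.rpow_nonneg hXp.le _
          calc 2 * (X ^ (-a') * 2 ^ a') * X ^ c2 = (2 * 2 ^ a') * (X ^ (-a') * X ^ c2) := by ring
            _ ≤ (2 * 2 ^ a') * X ^ (-(A + (C1 + c2) + 2)) :=
              mul_le_mul_of_nonneg_left h5 (by positivity)
            _ ≤ K * X ^ (-(A + (C1 + c2) + 2)) := mul_le_mul_of_nonneg_right h7 h9)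
    n t hOk hcol hAl hSep
  refine ⟨S', h1, h2, fun q hq P hP => ⟨?_, ?_⟩⟩
  · have := h3 q hq 0 P hP
    simpa using this
  · have := h3 q hq 1 P hP
    simpa using this

/-- intersection of two prunings -/
lemma inter_mass {W : ℕ → ℝ} (hW : ∀ q, 0 ≤ W q) {S S₁ S₂ : Finset ℕ} {ε₁ ε₂ : ℝ} (h₁ : S₁ ⊆ S)
    (h₂ : S₂ ⊆ S) (m₁ : (1 - ε₁) * Ws W S ≤ Ws W S₁) (m₂ : (1 - ε₂) * Ws W S ≤ Ws W S₂) :
    (1 - (ε₁ + ε₂)) * Ws W S ≤ Ws W (S₁ ∩ S₂) := by
  classical
  have h1 : Ws W (S₁ ∪ S₂) ≤ Ws W S :=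
    Finset.sum_le_sum_of_subset_of_nonneg (Finset.union_subset h₁ h₂) fun q _ _ => hW q
  have h2 : Ws W (S₁ ∪ S₂) + Ws W (S₁ ∩ S₂) = Ws W S₁ + Ws W S₂ :=
    Finset.sum_union_inter
  linarith

end Crest.Agent.R4P.PruneSep532
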