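import Crest.Agent.R4P.OmSt532
import Crest.Agent.R4P.PruneSep532
import Crest.Agent.R4P.DataA758
import Crest.Agent.R4P.Phi542
import Crest.Agent.R4.Max709

/-!
R4 (S0004), powers pass, port of helper532's `R4/OmData532`: the concrete leaf weights satisfy all the
conditions on the pruned set.

* `omT_cond_tree`: for ANY tree (columns above `p0`, `pp t q ∣ q`, `Pr` on `S'`); no `Squarefree`;
* `omT_cond`: for the built tree (interface of R4);
* `exists_pruned`: the pruned set for the built tree.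
-/

set_option autoImplicit false

namespace Crest.Agent.R4P.OmData532

open Crest.Agent.R4P.W363 Crest.Agent.R4P.Om532 Crest.Agent.R4P.OmSt532 Crest.Agent.R4P.Item758
open Crest.Agent.R4P.Cnt588 Crest.Agent.R4.Max709 Crest.Agent.R4.Tour104
open Crest.Agent.R4.Item464 Crest.Agent.R4.Piece464 Crest.Agent.R4.Ovl560
open Crest.Agent.R4P.Bld532 Crest.Agent.R4P.PrunePar33 Crest.Agent.R4.LF363
open Crest.Agent.R4P.Data758
open Crest.Agent.R4.Soft104 Crest.Agent.R4P.PruneSep532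

/-- **the weight of the item `q`** (leaf coordinates): classes of the labels `T q b` at the retained
primes `b`, leaf rule `uw (th q) (ph q) (lab q)` at the others; `0` for pruned items -/
noncomputable def omT (t : IT) (S' : Finset ℕ) (T : ℕ → ℕ → Finset ℚ) (th ph : ℕ → ℝ)
    (lab : ℕ → Option ℚ) (q : ℕ) : ℤ → ℝ :=
  omw (q ∈ S') (rt t q) (T q) (uw (th q) (ph q) (lab q)) (q / pp t q)

lemma omT_of_not_mem {t : IT} {S' : Finset ℕ} {T : ℕ → ℕ → Finset ℚ} {th ph : ℕ → ℝ}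
    {lab : ℕ → Option ℚ} {q : ℕ} (h : q ∉ S') (a : ℤ) : omT t S' T th ph lab q a = 0 := by
  unfold omT Crest.Agent.R4.Om532.omw; rw [if_neg h]

open Classical in
/-- **the classes**: at the primes of `E q` all the states of `q` at the levels `≤ b` and the leaf
label `lab q`; no class at the other retained primes -/
noncomputable def TE (P : WP) (γ : ℝ) (r : ℕ → ℝ) (t : IT) (E : ℕ → Finset ℕ)
    (lab : ℕ → Option ℚ) (q b : ℕ) : Finset ℚ :=
  if b ∈ E q then TB P γ r t q b ∪ (lab q).toFinset else ∅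

lemma card_TE (P : WP) (γ : ℝ) (r : ℕ → ℝ) (t : IT) (E : ℕ → Finset ℕ) (lab : ℕ → Option ℚ)
    (q b : ℕ) : (TE P γ r t E lab q b).card ≤ 3 + ((t.mt q).filter (· ≤ b)).card := by
  classical
  unfold TE
  split_ifs
  · refine (Finset.card_union_le _ _).trans ?_
    have h1 := card_TB P γ r t q b
    have h2 : (lab q).toFinset.card ≤ 1 := by
      cases lab q with
      | none => simp
      | some ρ => simp
    omega
  · simp

/-- the label of the state at any level `p ≤ b` -/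
lemma mem_TE {P : WP} {γ : ℝ} {r : ℕ → ℝ} {t : IT} {E : ℕ → Finset ℕ} {lab : ℕ → Option ℚ}
    {q b p : ℕ} (hb : b ∈ E q) (hp : p ≤ b) {σ : ℚ} (h : P.st γ r t p q = some σ) :
    (mp t q : ℚ) * σ ∈ TE P γ r t E lab q b := by
  classical
  unfold TE
  rw [if_pos hb]
  exact Finset.mem_union_left _ (mem_TB hp h)

/-- the leaf label -/
lemma lab_mem_TE {P : WP} {γ : ℝ} {r : ℕ → ℝ} {t : IT} {E : ℕ → Finset ℕ} {lab : ℕ → Option ℚ}
    {q b : ℕ} (hb : b ∈ E q) {ρ : ℚ} (h : lab q = some ρ) : ρ ∈ TE P γ r t E lab q b := by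
  classical
  unfold TE
  rw [if_pos hb, h]
  exact Finset.mem_union_right _ (by simp)

/-- **all conditions on the weights**, for ANY tree and any set `S' ⊆ S` of items with 33's `Pr`,
every choice of class sets with at most `7 + #{missing ties ≤ b}` labels -/
theorem omT_cond_tree (B C : ℝ) (hC0 : 0 ≤ C) (hB : 2 * C + 5 ≤ B) :
    ∃ p₁ : ℕ, ∀ p0 ≥ p₁, ∀ (t : IT) (S : Finset ℕ), (∀ q ∈ S, 0 < q) → (∀ q ∈ S, pp t q ∣ q) →
      (∀ q b, b ∈ rt t q → b.Prime ∧ p0 < b) → ∀ S' ⊆ S, (∀ q ∈ S', Pr t p0 C B q) →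
        ∀ (T : ℕ → ℕ → Finset ℚ) (th ph : ℕ → ℝ) (lab : ℕ → Option ℚ),
          (∀ q ∈ S', ∀ b ∈ rt t q, (T q b).card ≤ 7 + ((t.mt q).filter (· ≤ b)).card) →
          (∀ q ∈ S, Wt (q / pp t q) (omT t S' T th ph lab q)) ∧
          (∀ q ∈ S, ∀ a, omT t S' T th ph lab q a ≤ 1) ∧
          (∀ q ∈ S, q ≠ 1 → pp t q = 1 → TopW q (omT t S' T th ph lab q)) ∧
          ∀ q ∈ S', 1 / 2 * (((q / pp t q).totient : ℝ) / ((q / pp t q : ℕ) : ℝ)) ≤
            mnw (q / pp t q) (omT t S' T th ph lab q) := by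
  obtain ⟨p2, h2⟩ := Pr_tails B C (C + 1) 1 1 (by norm_num) (by linarith) (by norm_num)
    (by linarith)
  obtain ⟨b₀, hb₀, h3⟩ := exists_sqrt (C + 1) (K := 8) (by norm_num)
  refine ⟨p2 + b₀ + ⌈Real.exp 16⌉₊, fun p0 hp0 t S hS hpp hgt S' hsub hPr' => ?_⟩
  have hp6 : 16 ≤ Real.log p0 := by
    have h4 : Real.exp 16 ≤ p0 := by
      have h5 : Real.exp 16 ≤ ⌈Real.exp 16⌉₊ := Nat.le_ceil _
      have h6 : ((⌈Real.exp 16⌉₊ : ℕ) : ℝ) ≤ p0 := by
        have : ⌈Real.exp 16⌉₊ ≤ p0 := by omega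
        exact_mod_cast this
      linarith
    have hp : (0 : ℝ) < p0 := lt_of_lt_of_le (Real.exp_pos 16) h4
    rwa [Real.le_log_iff_exp_le hp]
  have hw1 : ∀ q ∈ S, 0 < q / pp t q := by
    intro q hq
    have h4 := hpp q hq
    have hq0 := hS q hq
    exact Nat.div_pos (Nat.le_of_dvd hq0 h4) (Nat.pos_of_dvd_of_pos h4 hq0)
  have hcard : ∀ q ∈ S', ∀ b ∈ rt t q,
      (((t.mt q).filter (· ≤ b)).card : ℝ) ≤ Real.log b ^ (C + 1) := by
    intro q hq b hb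
    exact (hPr' q hq).mt b (hgt q b hb).2.le
  intro T th ph lab hT
  have hT' : ∀ q ∈ S', ∀ b ∈ rt t q,
      ((T q b).card : ℝ) ≤ 7 + (((t.mt q).filter (· ≤ b)).card : ℝ) := by
    intro q hq b hb
    exact_mod_cast hT q hq b hb
  have hLW : ∀ q, LW (q / pp t q).primeFactors (uw (th q) (ph q) (lab q)) := fun q =>
    LW_uw _ _ _ _
  have hle : ∀ q, ∀ l ∈ (q / pp t q).primeFactors, ∀ a, uw (th q) (ph q) (lab q) l a ≤ 1 :=
    fun q l _ a => uw_le_one _ _ _ _ _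
  have hmn : ∀ q, ∀ l ∈ (q / pp t q).primeFactors, l ∉ rt t q →
      1 - 1 / (l : ℝ) ≤ mn (uw (th q) (ph q) (lab q)) l := fun q l hl _ =>
    (mn_uw _ _ _ (Nat.prime_of_mem_primeFactors hl)).ge
  refine ⟨fun q _ => omw_Wt (hLW q), fun q _ a => omw_le_one (hLW q) (hle q) a, ?_, ?_⟩
  · intro q hq hq1 hpp1
    have e : q / pp t q = q := by rw [hpp1, Nat.div_one]
    have key := omw_TopW (good := q ∈ S') (ret := rt t q) (T := T q)
      (u := uw (th q) (ph q) (lab q)) (w := q / pp t q)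
      (hw1 q hq) (by rw [e]; exact hq1) (hLW q) (hle q) (hmn q)
      (fun hg l hl hr => om_sqrt (K := 7) (by norm_num) (by linarith)
        (by have := (hgt q l hr).2; omega)
        (by have := h3 l (by have := (hgt q l hr).2; omega)
            norm_num; exact this) (hT' q hg l hr) (hcard q hg l hr))
    unfold omT
    rw [e] at key ⊢
    exact key
  · intro q hq
    refine omw_mean hq (hw1 q (hsub hq)) (hLW q) (hmn q) ?_
    have h4 : ∑ b ∈ rt t q, ((T q b).card : ℝ) / b ≤ 1 / 2 := by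
      refine om_sum_le (M := t.mt q) (a := C + 1) (K := 7) (by norm_num) (by linarith)
        (fun b hb => ?_) (hT' q hq) (hcard q hq) ?_
      · have := (hgt q b hb).2; omega
      · have h5 := (h2 p0 (by omega) t q (hPr' q hq) p0 le_rfl).2.2
        have h6 : rt t q ⊆ (t.sp q ∪ t.uq q).filter (fun b => p0 < b) := by
          intro b hb
          refine Finset.mem_filter.2 ⟨Finset.mem_union_right _ hb, (hgt q b hb).2⟩
        have h7 : ∑ b ∈ rt t q, Real.log b ^ (C + 1) / b ≤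
            ∑ b ∈ (t.sp q ∪ t.uq q).filter (fun b => p0 < b), Real.log b ^ (C + 1) / b := by
          refine Finset.sum_le_sum_of_subset_of_nonneg h6 fun b _ _ => ?_
          have := Real.log_natCast_nonneg b
          positivity
        refine h7.trans (h5.trans ?_)
        rw [Real.rpow_neg_one]
        rw [inv_eq_one_div]
        exact one_div_le_one_div_of_le (by norm_num) (by norm_num; exact hp6)
    refine le_trans ?_ h4
    refine Finset.sum_le_sum_of_subset_of_nonneg ?_ fun i _ _ => by positivity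
    intro l hl
    exact (Finset.mem_filter.1 hl).2

/-- facts about the columns of a tree with `All NodeOk` -/
theorem rt_gt {P : Bld532.Par} {W : ℕ → ℝ} {t : IT} {s : NS} (h : All (NodeOk P W) s t) :
    ∀ q b, b ∈ rt t q → b.Prime ∧ P.p0 < b := fun q b hb =>
  ⟨(cols_of_All P W t s h q b (Or.inr (Or.inr hb))).1,
    (cols_of_All P W t s h q b (Or.inr (Or.inr hb))).2.1⟩

/-- the pulled part divides the item -/
theorem pp_dvd_of_All {P : Bld532.Par} {W : ℕ → ℝ} {t : IT} {n : ℕ}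
    (h : All (NodeOk P W) ⟨n, 1, 1, 1⟩ t) : ∀ q ∈ t.items, pp t q ∣ q := fun q hq => by
  have := (BldF542.pp_dvd t 1 1 (Fit_of_NodeOk h) q hq).2.1
  simpa using this

/-- **all conditions on the weights**, built tree -/
theorem omT_cond (B C1 c2 : ℝ) (hC1 : 0 ≤ C1) (hc2 : 0 ≤ c2) (hB : 2 * (C1 + c2) + 5 ≤ B) :
    ∃ p₁ : ℕ, ∀ p0 ≥ p₁, ∀ (ψ : ℕ → ℝ) (S : Finset ℕ),
      ∀ P₀ : ℕ, 2 ≤ P₀ → SysM P₀ ψ S → ∀ n : ℕ, ∀ S' ⊆ S,
        (∀ q ∈ S', Pr (bld (par B C1 c2 p0) (w ψ) n 1 1 S) p0 (C1 + c2) B q) →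
        ∀ (T : ℕ → ℕ → Finset ℚ) (th ph : ℕ → ℝ) (lab : ℕ → Option ℚ),
          (∀ q ∈ S', ∀ b ∈ rt (bld (par B C1 c2 p0) (w ψ) n 1 1 S) q, (T q b).card ≤
            7 + (((bld (par B C1 c2 p0) (w ψ) n 1 1 S).mt q).filter (· ≤ b)).card) →
          (∀ q ∈ S, Wt (q / pp (bld (par B C1 c2 p0) (w ψ) n 1 1 S) q)
            (omT (bld (par B C1 c2 p0) (w ψ) n 1 1 S) S' T th ph lab q)) ∧
          (∀ q ∈ S, ∀ a, omT (bld (par B C1 c2 p0) (w ψ) n 1 1 S) S' T th ph lab q a ≤ 1) ∧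
          (∀ q ∈ S, pp (bld (par B C1 c2 p0) (w ψ) n 1 1 S) q = 1 →
            TopW q (omT (bld (par B C1 c2 p0) (w ψ) n 1 1 S) S' T th ph lab q)) ∧
          ∀ q ∈ S', 1 / 2 * (((q / pp (bld (par B C1 c2 p0) (w ψ) n 1 1 S) q).totient : ℝ) /
            ((q / pp (bld (par B C1 c2 p0) (w ψ) n 1 1 S) q : ℕ) : ℝ)) ≤
            mnw (q / pp (bld (par B C1 c2 p0) (w ψ) n 1 1 S) q)
              (omT (bld (par B C1 c2 p0) (w ψ) n 1 1 S) S' T th ph lab q) := by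
  obtain ⟨p1, h1⟩ := omT_cond_tree B (C1 + c2) (by positivity) hB
  obtain ⟨p2, h2⟩ := par_Good B C1 c2 (by linarith) hC1 hc2
  refine ⟨p1 + p2, fun p0 hp0 ψ S P₀ hP₀ hS n S' hsub hPr T th ph lab hT => ?_⟩
  have hG := h2 p0 (by omega)
  have hw0 : ∀ q, 0 ≤ w ψ q := fun q => w_nonneg hS.nonneg q
  have hAll := bld_All_root (par B C1 c2 p0) (w ψ) hw0 hG n S hS.pos
  have hit : (bld (par B C1 c2 p0) (w ψ) n 1 1 S).items = S :=
    bld_items _ _ hw0 hG n 1 1 1 S (Bk.root S hS.pos n)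
  obtain ⟨a1, a2, a3, a4⟩ := h1 p0 (by omega) (bld (par B C1 c2 p0) (w ψ) n 1 1 S) S hS.pos
    (fun q hq => pp_dvd_of_All hAll q (by rw [hit]; exact hq)) (fun q b hb => rt_gt hAll q b hb)
    S' hsub hPr T th ph lab hT
  refine ⟨a1, a2, fun q hq h => a3 q hq ?_ h, a4⟩
  have := hS.large q hq
  omega

/-- **THE PRUNED SET**: `Pr`, the SEP functionals, positivity, any further pruned set `S₂`, mass. -/
theorem exists_pruned (B C1 c2 a a' A : ℝ) (hC1 : 0 ≤ C1) (hc2 : 0 ≤ c2) (ha : 0 ≤ a)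
    (hA : 1 ≤ A) (hB : A + a + 2 * C1 + c2 + 2 ≤ B) (ha' : A + C1 + 2 * c2 + 2 ≤ a') :
    ∃ p₁ : ℕ, ∀ p0 ≥ p₁, (par B C1 c2 p0).Good ∧
      ∀ (ψ : ℕ → ℝ) (S : Finset ℕ), ∀ P₀ : ℕ, SysM P₀ ψ S → ∀ n : ℕ,
      ∀ S₂ ⊆ S, (1 - 1 / 4) * Ws (w ψ) S ≤ Ws (w ψ) S₂ →
      ∃ S' ⊆ S₂, (∀ q ∈ S', 0 < ψ q) ∧ 1 / 4 ≤ ∑ q ∈ S', w ψ q ∧
        (∀ q ∈ S', Pr (bld (par B C1 c2 p0) (w ψ) n 1 1 S) p0 (C1 + c2) B q) ∧
        ∀ q ∈ S', ∀ P : ℕ, p0 ≤ P →
          pth (rst (P < ·) (betF (w ψ) fun b => Real.log b ^ a)) 1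
            (bld (par B C1 c2 p0) (w ψ) n 1 1 S) q ≤ Real.log P ^ (-A) ∧
          pth (rst (P < ·) (bnuF (w ψ) fun b => Real.log b ^ (-a'))) 1
            (bld (par B C1 c2 p0) (w ψ) n 1 1 S) q ≤ Real.log P ^ (-A) := by
  have hB0 : 0 ≤ B := by linarith
  obtain ⟨p1, h1⟩ := prune_bld B C1 c2 0 0 1 (1 / 8) (by norm_num) (by norm_num) le_rfl le_rfl hC1 hc2
    (by linarith)
  obtain ⟨p2, h2⟩ := prune_sep B C1 c2 a a' A (1 / 8) 1 (by norm_num) hC1 hc2 one_pos ha hA hB ha'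
  refine ⟨p1 + p2 + 2, fun p0 hp0 => ⟨(h1 p0 (by omega)).1, fun ψ S P₀ hS n S₂ hS₂ hm₂ => ?_⟩⟩
  classical
  have hG := (h1 p0 (by omega)).1
  have hw0 : ∀ q, 0 ≤ w ψ q := fun q => w_nonneg hS.nonneg q
  have hAll := bld_All_root (par B C1 c2 p0) (w ψ) hw0 hG n S hS.pos
  have hit : (bld (par B C1 c2 p0) (w ψ) n 1 1 S).items = S :=
    bld_items _ _ hw0 hG n 1 1 1 S (Bk.root S hS.pos n)
  have hP : ∀ k, 1 ≤ Pk p0 k := fun k => le_trans (by omega) (Pk_ge (by omega : 1 ≤ p0) k)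
  obtain ⟨Sa, hSa, hma, hPa⟩ := (h1 p0 (by omega)).2 (w ψ) hw0 n S hS.pos
  obtain ⟨Sb, hSb, hmb, hPb⟩ := h2 p0 (by omega) (w ψ) hw0 n (bld (par B C1 c2 p0) (w ψ) n 1 1 S)
    (Ok_of_All _ _ _ _ hAll)
    (fun q b hb => cols_of_All _ _ _ _ hAll q b (Or.inr (Or.inl hb)))
    (fun k => par_Alive B C1 c2 p0 hC1 hc2 (by omega) _ _ _ _ _ hAll)
    (fun k => by
      have := par_SepRule B C1 c2 p0 hB0 (w ψ) hw0 (Pk p0 k) (Pk p0 (k + 1)) (hP k) _ _ hAll
      simpa using this)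
  rw [hit] at hSb hmb
  have hm1 := inter_mass hw0 hSa hSb hma hmb
  have hm2 := inter_mass hw0 ((Finset.inter_subset_left).trans hSa) hS₂ hm1 hm₂
  set S₁ := (Sa ∩ Sb) ∩ S₂ with hS₁
  set S' := S₁.filter (fun q => 0 < ψ q) with hS'
  have hsum : ∑ q ∈ S', w ψ q = ∑ q ∈ S₁, w ψ q := by
    apply Finset.sum_subset (Finset.filter_subset _ _)
    intro q hq hq'
    have h4 : ¬ 0 < ψ q := fun h => hq' (Finset.mem_filter.2 ⟨hq, h⟩)
    have h5 : ψ q = 0 := le_antisymm (not_lt.1 h4) (hS.nonneg q)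
    unfold w; rw [h5]; ring
  have hmem : ∀ q ∈ S', q ∈ Sa ∧ q ∈ Sb ∧ q ∈ S₂ := by
    intro q hq
    have h := Finset.mem_inter.1 (Finset.mem_filter.1 hq).1
    have h' := Finset.mem_inter.1 h.1
    exact ⟨h'.1, h'.2, h.2⟩
  refine ⟨S', fun q hq => (hmem q hq).2.2, fun q hq => (Finset.mem_filter.1 hq).2, ?_,
    fun q hq => (hPa q (hmem q hq).1).1, fun q hq => hPb q (hmem q hq).2.1⟩
  rw [hsum]
  have h4 : Ws (w ψ) S₁ = ∑ q ∈ S₁, w ψ q := rfl
  have h5 : Ws (w ψ) S = ∑ q ∈ S, w ψ q := rfl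
  have h6 := hS.mass_lo
  rw [← h4]
  rw [← h5] at h6
  linarith

end Crest.Agent.R4P.OmData532
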