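import Crest.Agent.R4P.Chi464d
import Crest.Agent.R4P.OmData532
import Crest.Agent.R4P.StepFlat588

/-!
R4 (S0004), powers, port of helper464's `Chi464e` (helper393): closed exclusion, part 5: **the weights
of the pieces**: `omT_cond4_tree`, `omT_cond4` : all conditions on the weights from `card ≤ b^(1/4)` at
the retained (`up`) primes, no squarefree hypothesis.
-/

set_option autoImplicit false
set_option linter.unusedSectionVars false
set_option linter.unusedVariables false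

namespace Crest.Agent.R4P.Chi464

open Crest.Agent.R4P.W363 Crest.Agent.R4P.Om532 Crest.Agent.R4P.OmSt532 Crest.Agent.R4P.Item758
open Crest.Agent.R4P.Cnt588 Crest.Agent.R4.Max709 Crest.Agent.R4.Tour104 Crest.Agent.R4P.Step588
open Crest.Agent.R4.Item464 Crest.Agent.R4.Piece464 Crest.Agent.R4.Ovl560
open Crest.Agent.R4P.Bld532 Crest.Agent.R4P.PrunePar33 Crest.Agent.R4.LF363
open Crest.Agent.R4P.Data758
open Crest.Agent.R4.Soft104 Crest.Agent.R4P.PruneSep532 Crest.Agent.R4P.OmData532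

/-- **all the conditions on the weights**, `card ≤ b^(1/4)` at the `up` primes, any tree -/
theorem omT_cond4_tree (B C : ℝ) (hC0 : 0 ≤ C) (hB : C + 3 ≤ B) :
    ∃ p₁ : ℕ, ∀ p0 ≥ p₁, ∀ (t : IT) (S : Finset ℕ), (∀ q ∈ S, 0 < q) → (∀ q ∈ S, pp t q ∣ q) →
      (∀ q b, b ∈ rt t q → b.Prime ∧ p0 < b) → ∀ S' ⊆ S, (∀ q ∈ S', Pr t p0 C B q) →
        ∀ (T : ℕ → ℕ → Finset ℚ) (th ph : ℕ → ℝ) (lab : ℕ → Option ℚ),
          (∀ q ∈ S', ∀ b ∈ t.uq q, ((T q b).card : ℝ) ≤ (b : ℝ) ^ (1 / 4 : ℝ)) →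
          (∀ q ∈ S, Wt (q / pp t q) (omT t S' T th ph lab q)) ∧
          (∀ q ∈ S, ∀ a, omT t S' T th ph lab q a ≤ 1) ∧
          (∀ q ∈ S, q ≠ 1 → pp t q = 1 → TopW q (omT t S' T th ph lab q)) ∧
          (∀ q ∈ S', 1 / 2 * (((q / pp t q).totient : ℝ) / ((q / pp t q : ℕ) : ℝ)) ≤
            mnw (q / pp t q) (omT t S' T th ph lab q)) ∧
          (∀ q ∈ S', ∀ T' : ℕ → ℕ → Finset ℚ, mnw (q / pp t q) (omT t S' T' th ph lab q) ≤
            2 * mnw (q / pp t q) (omT t S' T th ph lab q)) ∧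
          (∀ q ∈ S', ∑ l ∈ (q / pp t q).primeFactors.filter
            (· ∈ rt t q), ((T q l).card : ℝ) / l ≤ 1 / 2) := by
  classical
  obtain ⟨p2, h2⟩ := Pr_tails B C 0 0 (3 / 4) (by norm_num) le_rfl le_rfl (by linarith)
  refine ⟨p2 + 16, fun p0 hp0 t S hS hpp hgt S' hsub hPr' => ?_⟩
  have hw1 : ∀ q ∈ S, 0 < q / pp t q := by
    intro q hq
    have h4 := hpp q hq
    have hq0 := hS q hq
    exact Nat.div_pos (Nat.le_of_dvd hq0 h4) (Nat.pos_of_dvd_of_pos h4 hq0)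
  intro T th ph lab hT
  have hLW : ∀ q, LW (q / pp t q).primeFactors (uw (th q) (ph q) (lab q)) := fun q =>
    LW_uw _ _ _ _
  have hle : ∀ q, ∀ l ∈ (q / pp t q).primeFactors, ∀ a, uw (th q) (ph q) (lab q) l a ≤ 1 :=
    fun q l _ a => uw_le_one _ _ _ _ _
  have hmn : ∀ q, ∀ l ∈ (q / pp t q).primeFactors, l ∉ rt t q →
      1 - 1 / (l : ℝ) ≤ mn (uw (th q) (ph q) (lab q)) l := fun q l hl _ =>
    (mn_uw _ _ _ (Nat.prime_of_mem_primeFactors hl)).ge
  have hsqrt : ∀ q ∈ S', ∀ l ∈ rt t q, ((T q l).card : ℝ) ≤ Real.sqrt l := by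
    intro q hq l hl
    refine (hT q hq l hl).trans ?_
    rw [Real.sqrt_eq_rpow]
    have h1 : (1 : ℝ) ≤ l := by exact_mod_cast (hgt q l hl).1.one_lt.le
    exact Real.rpow_le_rpow_of_exponent_le h1 (by norm_num)
  have hsum : ∀ q ∈ S', ∑ l ∈ (q / pp t q).primeFactors.filter (· ∈ rt t q),
      ((T q l).card : ℝ) / l ≤ 1 / 2 := by
    intro q hq
    have h5 := (h2 p0 (by omega) t q (hPr' q hq) p0 le_rfl).2.1
    have h6 : (t.uq q).filter (fun b => p0 < b) = t.uq q :=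
      Finset.filter_true_of_mem fun b hb => (hgt q b hb).2
    rw [h6] at h5
    have h7 : (p0 : ℝ) ^ (-((3 / 4 : ℝ) / 2)) ≤ 1 / 2 := by
      have h8 : (16 : ℝ) ≤ p0 := by
        have : 16 ≤ p0 := by omega
        exact_mod_cast this
      have h9 : (p0 : ℝ) ^ (-((3 / 4 : ℝ) / 2)) ≤ (16 : ℝ) ^ (-((3 / 4 : ℝ) / 2)) :=
        Real.rpow_le_rpow_of_nonpos (by norm_num) h8 (by norm_num)
      refine h9.trans ?_
      have h10 : (16 : ℝ) ^ (-((3 / 4 : ℝ) / 2)) ≤ (16 : ℝ) ^ (-(1 / 4 : ℝ)) :=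
        Real.rpow_le_rpow_of_exponent_le (by norm_num) (by norm_num)
      refine h10.trans ?_
      rw [Real.rpow_neg (by norm_num)]
      have h11 : (16 : ℝ) ^ (1 / 4 : ℝ) = 2 := by
        rw [show (16 : ℝ) = 2 ^ (4 : ℝ) by norm_num, ← Real.rpow_mul (by norm_num)]
        norm_num
      rw [h11]; norm_num
    refine le_trans ?_ (h5.trans h7)
    refine (Finset.sum_le_sum_of_subset_of_nonneg (t := rt t q) ?_
      (fun i _ _ => by positivity)).trans (Finset.sum_le_sum fun l hl => ?_)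
    · intro l hl
      exact (Finset.mem_filter.1 hl).2
    · have h13 := hT q hq l hl
      have hl0 : (0 : ℝ) < l := by exact_mod_cast (hgt q l hl).1.pos
      have h14 : (l : ℝ) ^ (-(3 / 4 : ℝ)) = (l : ℝ) ^ (1 / 4 : ℝ) / l := by
        rw [show (-(3 / 4 : ℝ)) = 1 / 4 - 1 by norm_num, Real.rpow_sub hl0, Real.rpow_one]
      rw [h14]
      exact div_le_div_of_nonneg_right h13 hl0.le
  refine ⟨fun q _ => omw_Wt (hLW q), fun q _ a => omw_le_one (hLW q) (hle q) a, ?_, ?_, ?_, hsum⟩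
  · intro q hq hq1 hpp1
    have e : q / pp t q = q := by rw [hpp1, Nat.div_one]
    have key := omw_TopW (good := q ∈ S') (ret := rt t q) (T := T q)
      (u := uw (th q) (ph q) (lab q)) (w := q / pp t q)
      (hw1 q hq) (by rw [e]; exact hq1) (hLW q) (hle q) (hmn q)
      (fun hg l hl hr => hsqrt q hg l hr)
    unfold omT
    rw [e] at key ⊢
    exact key
  · intro q hq
    exact omw_mean hq (hw1 q (hsub hq)) (hLW q) (hmn q) (hsum q hq)
  · intro q hq T'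
    have hw := hw1 q (hsub hq)
    have k1 := flw_mean_le (good := q ∈ S') (ret := rt t q) (T := T q)
      (u := uw (th q) (ph q) (lab q)) (w := q / pp t q) (sel := fun l => l ∉ rt t q) hw (hLW q)
      (hmn q) (by
        refine le_trans (le_of_eq ?_) (hsum q hq)
        refine Finset.sum_congr ?_ fun _ _ => rfl
        ext l
        simp only [Finset.mem_filter, not_not]
        tauto) (lam := 1) zero_le_one (by
        refine le_of_eq (Eq.symm (Finset.prod_eq_one fun l hl => ?_))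
        simp only [Finset.mem_filter] at hl
        exact absurd hl.2.2 hl.2.1)
    rw [one_mul] at k1
    refine le_trans ?_ k1
    have k2 : flw (q ∈ S') (rt t q) (T q) (uw (th q) (ph q) (lab q)) (q / pp t q)
        (fun l => l ∉ rt t q) = flw (q ∈ S') (rt t q) (T' q) (uw (th q) (ph q) (lab q))
        (q / pp t q) (fun l => l ∉ rt t q) := by
      funext a
      unfold flw
      split_ifs
      · unfold nw
        refine Finset.prod_congr rfl fun l hl => ?_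
        have h3 : l ∉ rt t q := by
          simp only [Finset.mem_filter] at hl
          exact hl.2
        unfold locw
        rw [if_neg h3, if_neg h3]
    rw [k2]
    unfold mnw
    refine div_le_div_of_nonneg_right ?_ (Nat.cast_nonneg _)
    refine Finset.sum_le_sum fun a _ => ?_
    exact omw_le_flw (hLW q) (hle q) _

/-- **all the conditions on the weights**, built tree -/
theorem omT_cond4 (B C1 c2 : ℝ) (hC1 : 0 ≤ C1) (hc2 : 0 ≤ c2) (hB : 2 * (C1 + c2) + 5 ≤ B) :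
    ∃ p₁ : ℕ, ∀ p0 ≥ p₁, ∀ (ψ : ℕ → ℝ) (S : Finset ℕ),
      ∀ P₀ : ℕ, 2 ≤ P₀ → SysM P₀ ψ S → ∀ n : ℕ, ∀ S' ⊆ S,
        (∀ q ∈ S', Pr (bld (par B C1 c2 p0) (w ψ) n 1 1 S) p0 (C1 + c2) B q) →
        ∀ (T : ℕ → ℕ → Finset ℚ) (th ph : ℕ → ℝ) (lab : ℕ → Option ℚ),
          (∀ q ∈ S', ∀ b ∈ (bld (par B C1 c2 p0) (w ψ) n 1 1 S).uq q,
            ((T q b).card : ℝ) ≤ (b : ℝ) ^ (1 / 4 : ℝ)) →
          (∀ q ∈ S, Wt (q / pp (bld (par B C1 c2 p0) (w ψ) n 1 1 S) q)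
            (omT (bld (par B C1 c2 p0) (w ψ) n 1 1 S) S' T th ph lab q)) ∧
          (∀ q ∈ S, ∀ a, omT (bld (par B C1 c2 p0) (w ψ) n 1 1 S) S' T th ph lab q a ≤ 1) ∧
          (∀ q ∈ S, pp (bld (par B C1 c2 p0) (w ψ) n 1 1 S) q = 1 →
            TopW q (omT (bld (par B C1 c2 p0) (w ψ) n 1 1 S) S' T th ph lab q)) ∧
          (∀ q ∈ S', 1 / 2 * (((q / pp (bld (par B C1 c2 p0) (w ψ) n 1 1 S) q).totient : ℝ) /
            ((q / pp (bld (par B C1 c2 p0) (w ψ) n 1 1 S) q : ℕ) : ℝ)) ≤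
            mnw (q / pp (bld (par B C1 c2 p0) (w ψ) n 1 1 S) q)
              (omT (bld (par B C1 c2 p0) (w ψ) n 1 1 S) S' T th ph lab q)) ∧
          (∀ q ∈ S', ∀ T' : ℕ → ℕ → Finset ℚ,
            mnw (q / pp (bld (par B C1 c2 p0) (w ψ) n 1 1 S) q)
              (omT (bld (par B C1 c2 p0) (w ψ) n 1 1 S) S' T' th ph lab q) ≤
            2 * mnw (q / pp (bld (par B C1 c2 p0) (w ψ) n 1 1 S) q)
              (omT (bld (par B C1 c2 p0) (w ψ) n 1 1 S) S' T th ph lab q)) ∧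
          (∀ q ∈ S', ∑ l ∈ (q / pp (bld (par B C1 c2 p0) (w ψ) n 1 1 S) q).primeFactors.filter
            (· ∈ rt (bld (par B C1 c2 p0) (w ψ) n 1 1 S) q), ((T q l).card : ℝ) / l ≤ 1 / 2) := by
  obtain ⟨p1, h1⟩ := omT_cond4_tree B (C1 + c2) (by positivity) (by linarith)
  obtain ⟨p2, h2⟩ := par_Good B C1 c2 (by linarith) hC1 hc2
  refine ⟨p1 + p2, fun p0 hp0 ψ S P₀ hP₀ hS n S' hsub hPr T th ph lab hT => ?_⟩
  have hG := h2 p0 (by omega)
  have hw0 : ∀ q, 0 ≤ w ψ q := fun q => w_nonneg hS.nonneg q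
  have hAll := bld_All_root (par B C1 c2 p0) (w ψ) hw0 hG n S hS.pos
  have hit : (bld (par B C1 c2 p0) (w ψ) n 1 1 S).items = S :=
    bld_items _ _ hw0 hG n 1 1 1 S (Bk.root S hS.pos n)
  obtain ⟨a1, a2, a3, a4, a5, a6⟩ := h1 p0 (by omega) (bld (par B C1 c2 p0) (w ψ) n 1 1 S) S
    hS.pos (fun q hq => pp_dvd_of_All hAll q (by rw [hit]; exact hq))
    (fun q b hb => rt_gt hAll q b hb) S' hsub hPr T th ph lab hT
  refine ⟨a1, a2, fun q hq h => a3 q hq ?_ h, a4, a5, a6⟩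
  have := hS.large q hq
  omega

end Crest.Agent.R4P.Chi464
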