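import Crest.Agent.R4P.BldF542
import Crest.Agent.R4.ItemDT758

/-!
R4 (S0004), POWERS (port of `R4/Frame758`, helper758), first part: **leaves and masses** (no walk).

The factor of a node is explicit: `c` (= `NS.c`), `cx := clf t 1` = the factors of the leaves.
-/

set_option autoImplicit false
set_option linter.unusedSectionVars false
set_option linter.unusedVariables false
open MeasureTheory Filter

namespace Crest.Agent.R4P.Frame758

open Crest.Agent.R4.Tour104 Crest.Agent.R4.Tour758 Crest.Agent.R4.Avg758 Crest.Agent.R4.Clos758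
open Crest.Agent.R4.ClosL758 Crest.Agent.R4.ClosG758 Crest.Agent.R4.ClosR758
open Crest.Agent.R4.Fam464 Crest.Agent.R4P.Cnt588 Crest.Agent.R4P.Item758
open Crest.Agent.R4.Item758 (IL AdS AdI)


section
variable {Λ κ₀ : Type*} [Fintype Λ] [DecidableEq Λ] [Fintype κ₀] [DecidableEq κ₀]
  {X : Finset (ℕ × ℕ × Finset ℕ)} [Fintype (Lb κ₀ X)] [DecidableEq (Lb κ₀ X)]

/-- the closure tree of a node (`X` = leaf data of the root) -/
noncomputable def tG (D : Par0 Λ κ₀) (X : Finset (ℕ × ℕ × Finset ℕ)) [Fintype (Lb κ₀ X)]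
    [DecidableEq (Lb κ₀ X)] (b pr : ℕ) (t : IT) : TrG Λ (Lb κ₀ X) := (D.par X).toG b pr t

/-- raw mass of a population (`cx` = factors of the leaves) -/
noncomputable def tM (D : Par0 Λ κ₀) (W : Λ → ℝ) (cx : Finset ℕ → ℝ) (j₀ : Λ)
    (X : Finset (ℕ × ℕ × Finset ℕ)) (r : TrG Λ (Lb κ₀ X)) (A : Finset Λ) : ℝ :=
  muR (D.dec W cx X) j₀ r A

/-- raw mass of a node -/
noncomputable def tN (D : Par0 Λ κ₀) (W : Λ → ℝ) (cx : Finset ℕ → ℝ) (j₀ : Λ)
    (X : Finset (ℕ × ℕ × Finset ℕ)) (r : TrG Λ (Lb κ₀ X)) : ℝ := tM D W cx j₀ X r Finset.univ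

/-- `cx` gives the factors of the leaves of `t` (`c` = factor of `t`) -/
def CxOk (cx : Finset ℕ → ℝ) (c : ℝ) (t : IT) : Prop :=
  ∀ S, S ⊆ t.items → S.Nonempty → cx S = clf t c S

lemma CxOk.two {cx : Finset ℕ → ℝ} {t₁ t₀ : IT} {F G H : Finset ℕ → ℝ}
    (hd : Disjoint t₁.items t₀.items) (hF : ∀ S, F S = if S ⊆ t₀.items then H S else G S)
    (h : ∀ S, S ⊆ t₁.items ∪ t₀.items → S.Nonempty → cx S = F S) :
    (∀ S, S ⊆ t₁.items → S.Nonempty → cx S = G S) ∧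
      (∀ S, S ⊆ t₀.items → S.Nonempty → cx S = H S) := by
  refine ⟨fun S hS hn => ?_, fun S hS hn => ?_⟩
  · rw [h S (hS.trans Finset.subset_union_left) hn, hF, if_neg]
    intro h0
    obtain ⟨q, hq⟩ := hn
    exact Finset.disjoint_left.1 hd (hS hq) (h0 hq)
  · rw [h S (hS.trans Finset.subset_union_right) hn, hF, if_pos hS]

lemma CxOk.br {cx : Finset ℕ → ℝ} {c : ℝ} {p : ℕ} {Sp : Finset ℕ} {t₁ t₀ : IT}
    (hd : Disjoint t₁.items t₀.items) (h : CxOk cx c (.br p Sp t₁ t₀)) :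
    CxOk cx (c / (1 - 1 / (p : ℝ))) t₁ ∧ CxOk cx (c * p) t₀ :=
  CxOk.two hd (fun S => rfl) h

lemma CxOk.add {cx : Finset ℕ → ℝ} {c : ℝ} {p : ℕ} {t₁ t₀ : IT}
    (hd : Disjoint t₁.items t₀.items) (h : CxOk cx c (.add p t₁ t₀)) :
    CxOk cx c t₁ ∧ CxOk cx c t₀ :=
  CxOk.two hd (fun S => rfl) h

lemma CxOk.far {cx : Finset ℕ → ℝ} {c : ℝ} {p : ℕ} {t₁ t₀ : IT}
    (hd : Disjoint t₁.items t₀.items) (h : CxOk cx c (.far p t₁ t₀)) :
    CxOk cx c t₁ ∧ CxOk cx c t₀ :=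
  CxOk.two hd (fun S => rfl) h

lemma CxOk.clf (t : IT) (c : ℝ) : CxOk (clf t c) c t := fun _ _ _ => rfl

/-- raw mass of a node of the tree in terms of the items -/
theorem tM_eq (D : Par0 Λ κ₀) (W : Λ → ℝ) {cx : Finset ℕ → ℝ} (j₀ : Λ) {c : ℝ} {b pr : ℕ} {t : IT}
    (hF : Fit b pr t) (hX : leafs b pr t ⊆ X) (hc : CxOk cx c t) (A : Finset Λ) :
    tM D W cx j₀ X (tG D X b pr t) A =
      c * ∑ j ∈ A.filter (fun j => D.it j ∈ t.items), W j :=
  (D.par X).muR_toG A t c b pr hF (D.decOk W cx X j₀ t c b pr hF hX hc)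

/-! ### leaves -/

/-- the predicate `F` holds at every leaf (`c` = factor, `b` = missing ties above, `pr` = present
ties and pulls above) -/
def LeafAll (F : ℝ → ℕ → ℕ → Finset ℕ → Prop) : ℝ → ℕ → ℕ → IT → Prop
  | c, b, pr, .leaf S => F c b pr S
  | c, b, pr, .br p _ t₁ t₀ => LeafAll F (c / (1 - 1 / (p : ℝ))) b (pr * p) t₁ ∧
      LeafAll F (c * p) (b * p) pr t₀
  | c, b, pr, .add _ t₁ t₀ => LeafAll F c b pr t₁ ∧ LeafAll F c b pr t₀
  | c, b, pr, .up _ _ t => LeafAll F c b pr t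
  | c, b, pr, .pl p t => LeafAll F c b (pr * p) t
  | c, b, pr, .far _ t₁ t₀ => LeafAll F c b pr t₁ ∧ LeafAll F c b pr t₀

/-- `LeafAll` from a node-wise property -/
lemma LeafAll_of_All {F : ℝ → ℕ → ℕ → Finset ℕ → Prop} {Qp : Bld532.NS → IT → Prop}
    (hQ : ∀ s S, Qp s (.leaf S) → F s.c s.B s.A S) (t : IT) : ∀ s : Bld532.NS,
    Bld532.All Qp s t → LeafAll F s.c s.B s.A t := by
  induction t with
  | leaf S => intro s h; exact hQ s S h
  | br p Sp t₁ t₀ ih₁ ih₀ =>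
    intro s h
    exact ⟨ih₁ ⟨p, s.c / (1 - 1 / (p : ℝ)), s.A * p, s.B⟩ h.2.1,
      ih₀ ⟨p, s.c * p, s.A, s.B * p⟩ h.2.2⟩
  | add b t₁ t₀ ih₁ ih₀ =>
    intro s h
    exact ⟨by simpa using ih₁ _ h.2.1, by simpa using ih₀ _ h.2.2⟩
  | up b Sp t ih => intro s h; exact ih ⟨b, s.c, s.A, s.B⟩ h.2
  | pl p t ih => intro s h; exact ih ⟨p + 1, s.c, s.A * p, s.B⟩ h.2
  | far b t₁ t₀ ih₁ ih₀ =>
    intro s h
    exact ⟨ih₁ ⟨b + 1, s.c, s.A, s.B⟩ h.2.1, ih₀ ⟨b + 1, s.c, s.A, s.B⟩ h.2.2⟩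

/-- the function of the piece `j` at the leaf `(b, pr)` -/
noncomputable def lf (D : Par0 Λ κ₀) (b pr : ℕ) (j : Λ) : ℝ → ℝ :=
  Crest.Agent.R4.Piece464.pc (b * D.γ) (b * D.al j) (b * D.be j) (D.it j / pr) (D.om j)

/-- **module J, energy of a leaf**: every item-level population saturated for the leaf classes -/
def LeafE (D : Par0 Λ κ₀) (W : Λ → ℝ) (C : ℝ) (c : ℝ) (b pr : ℕ) (S : Finset ℕ) : Prop :=
  ∀ A : Finset Λ, IL D.it A → Sat A D.rhoL →
    I (fun x => (∑ j ∈ A.filter (fun j => D.it j ∈ S), lf D b pr j x) ^ 2) ≤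
      C * (c * ∑ j ∈ A.filter (fun j => D.it j ∈ S), W j +
        (c * ∑ j ∈ A.filter (fun j => D.it j ∈ S), W j) *
          (c * ∑ j ∈ Finset.univ.filter (fun j => D.it j ∈ S), W j))

/-- **module J, in-class energy of a leaf** -/
def LeafI (D : Par0 Λ κ₀) (W : Λ → ℝ) (C₀ : ℝ) (c : ℝ) (b pr : ℕ) (S : Finset ℕ) : Prop :=
  ∀ A : Finset Λ, IL D.it A → Sat A D.rhoL →
    ∑ j ∈ A.filter (fun j => D.it j ∈ S),
      ∑ j' ∈ A.filter (fun j' => D.it j' ∈ S ∧ D.rhoL j = D.rhoL j'),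
        I (fun x => lf D b pr j x * lf D b pr j' x) ≤
      C₀ * (c * ∑ j ∈ A.filter (fun j => D.it j ∈ S), W j)

lemma L_eq (D : Par0 Λ κ₀) (b pr : ℕ) (S : Finset ℕ) (j : Λ) :
    (D.par X).L b pr S 1 j = fun x => if D.it j ∈ S then lf D b pr j x else 0 := by
  funext x
  unfold Item758.Par.L Item758.Par.pcs lf
  simp only [Nat.cast_one, div_one, one_mul]
  rfl

lemma rv_L (D : Par0 Λ κ₀) (b pr : ℕ) (S : Finset ℕ) (A : Finset Λ) (j : Λ) :
    rv A ((D.par X).L b pr S 1) j =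
      fun x => if j ∈ A.filter (fun j => D.it j ∈ S) then lf D b pr j x else 0 := by
  by_cases hj : j ∈ A
  · rw [rv_of_mem hj, L_eq]
    funext x
    by_cases hS : D.it j ∈ S
    · rw [if_pos hS, if_pos (Finset.mem_filter.2 ⟨hj, hS⟩)]
    · rw [if_neg hS, if_neg (fun h : j ∈ A.filter (fun j => D.it j ∈ S) => hS (Finset.mem_filter.1 h).2)]
  · rw [rv_of_not_mem hj]
    funext x
    rw [if_neg fun h => hj (Finset.mem_filter.1 h).1]

/-! ### the zero leaves of the pulls -/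

lemma rv_zero (A : Finset Λ) (j : Λ) : rv A (fun (_ : Λ) (_ : ℝ) => (0 : ℝ)) j = fun _ => 0 := by
  unfold rv; split_ifs <;> rfl

lemma I_zero' : I (fun _ : ℝ => (0 : ℝ)) = 0 := by unfold I; simp

lemma tt_zero {κ : Type*} (r : Λ → κ) (A : Finset Λ) (x : ℝ) :
    tt A (TrG.leaf r (fun _ _ => 0) : TrG Λ κ) x = 0 := by
  show ∑ j, rv A (fun (_ : Λ) (_ : ℝ) => (0 : ℝ)) j x = 0
  exact Finset.sum_eq_zero fun j _ => by rw [rv_zero]

/-- any admissible family for which leaf populations are item-level and saturated -/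
def AdL (it : Λ → ℕ) {κ : Type*} (Ad : TrG Λ κ → Finset Λ → Prop) : Prop :=
  ∀ (r : Λ → κ) (f : Λ → ℝ → ℝ) A, Ad (.leaf r f) A → Sat A r ∧ IL it A

lemma AdL_AdI (it : Λ → ℕ) {κ : Type*} [Fintype κ] [DecidableEq κ] :
    AdL (κ := κ) it (AdI it) := fun r f A h => ⟨h.1, h.2⟩

lemma leafSMR_zero {κ : Type*} [Fintype κ] [DecidableEq κ] {Ad : TrG Λ κ → Finset Λ → Prop}
    {dec : κ → Finset Λ → ℝ} (h0 : ∀ k A, 0 ≤ dec k A) (j₀ : Λ) {C : ℝ} (hC : 0 ≤ C)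
    (r : Λ → κ) : LeafSMR Ad (muR dec j₀) (fun t => muR dec j₀ t Finset.univ) C
      (.leaf r fun _ _ => 0) := by
  intro A _
  have e : (fun x => tt A (TrG.leaf r (fun _ _ => 0) : TrG Λ κ) x ^ 2) = fun _ => 0 := by
    funext x; rw [tt_zero]; ring
  rw [e, I_zero']
  exact mul_nonneg hC (add_nonneg (h0 _ _) (mul_nonneg (h0 _ _) (h0 _ _)))

lemma leafIn_zero {κ : Type*} [Fintype κ] [DecidableEq κ] {Ad : TrG Λ κ → Finset Λ → Prop}
    {dec : κ → Finset Λ → ℝ} (h0 : ∀ k A, 0 ≤ dec k A) (j₀ : Λ) {C₀ : ℝ} (hC : 0 ≤ C₀)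
    (r : Λ → κ) : Crest.Agent.R4.ClosR758.LeafIn Ad (muR dec j₀) C₀ (.leaf r fun _ _ => 0) := by
  intro A _
  have e : Q (Dr r) (rv A fun (_ : Λ) (_ : ℝ) => (0 : ℝ)) (rv A fun (_ : Λ) (_ : ℝ) => (0 : ℝ)) =
      0 := by
    unfold Q
    refine Finset.sum_eq_zero fun e _ => ?_
    have : (fun x => rv A (fun (_ : Λ) (_ : ℝ) => (0 : ℝ)) e.1 x *
        rv A (fun (_ : Λ) (_ : ℝ) => (0 : ℝ)) e.2 x) = fun _ => 0 := by
      funext x; rw [rv_zero]; ring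
    rw [this, I_zero']
  rw [e]
  exact mul_nonneg hC (h0 _ _)

theorem leafSMR_of {Ad : TrG Λ (Lb κ₀ X) → Finset Λ → Prop} (D : Par0 Λ κ₀)
    (hAd : AdL D.it Ad) {W : Λ → ℝ} (hW0 : ∀ j, 0 ≤ W j) {cx : Finset ℕ → ℝ} (hcx : ∀ S, 0 ≤ cx S)
    (j₀ : Λ) {C : ℝ} (hC : 0 ≤ C) (t : IT) :
    ∀ (c : ℝ) (b pr : ℕ), Fit b pr t → leafs b pr t ⊆ X → CxOk cx c t →
    LeafAll (LeafE D W C) c b pr t →
    (tG D X b pr t).All (LeafSMR Ad (tM D W cx j₀ X) (tN D W cx j₀ X) C) := by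
  induction t with
  | leaf S =>
    intro c b pr hF hX hc h A hA
    obtain ⟨hA1, hA2⟩ := hAd _ _ A hA
    have hA' : Sat A D.rhoL := fun j j' e =>
      (show Sat A ((D.par X).rhoL b pr S) from hA1) j j' ((D.rhoL_eq X b pr S j j').2 e)
    have h1 := h A hA2 hA'
    have e1 : (fun x => tt A (tG D X b pr (.leaf S)) x ^ 2) = fun x =>
        (∑ j ∈ A.filter (fun j => D.it j ∈ S), lf D b pr j x) ^ 2 := by
      funext x
      congr 1
      show ∑ j, rv A ((D.par X).L b pr S 1) j x = _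
      rw [Finset.sum_congr rfl fun j _ => congrFun (rv_L D b pr S A j) x]
      rw [← Finset.sum_filter]
      congr 1
      ext j; simp
    have e2 := tM_eq (X := X) D W j₀ hF hX hc A
    have e3 := tM_eq (X := X) D W j₀ hF hX hc Finset.univ
    show I (fun x => tt A (tG D X b pr (.leaf S)) x ^ 2) ≤
      C * (tM D W cx j₀ X (tG D X b pr (.leaf S)) A +
        tM D W cx j₀ X (tG D X b pr (.leaf S)) A * tM D W cx j₀ X (tG D X b pr (.leaf S)) Finset.univ)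
    rw [e1, e2, e3]
    exact h1
  | br p Sp t₁ t₀ ih₁ ih₀ =>
    intro c b pr hF hX hc h
    obtain ⟨c1, c0⟩ := CxOk.br hF.2.2.1 hc
    exact ⟨trivial, ih₁ _ _ _ hF.2.2.2.1 (Finset.union_subset_left hX) c1 h.1,
      ih₀ _ _ _ hF.2.2.2.2 (Finset.union_subset_right hX) c0 h.2⟩
  | add b' t₁ t₀ ih₁ ih₀ =>
    intro c b pr hF hX hc h
    obtain ⟨c1, c0⟩ := CxOk.add hF.1 hc
    exact ⟨trivial, ih₁ _ _ _ hF.2.1 (Finset.union_subset_left hX) c1 h.1,
      ih₀ _ _ _ hF.2.2 (Finset.union_subset_right hX) c0 h.2⟩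
  | up b' Sp t ih => intro c b pr hF hX hc h; exact ih c b pr hF hX hc h
  | pl p t ih =>
    intro c b pr hF hX hc h
    exact ⟨trivial, ih c b (pr * p) hF.2.2 hX hc h,
      leafSMR_zero (D.dec_nonneg hW0 hcx X) j₀ hC _⟩
  | far b' t₁ t₀ ih₁ ih₀ =>
    intro c b pr hF hX hc h
    obtain ⟨c1, c0⟩ := CxOk.far hF.1 hc
    exact ⟨trivial, ih₁ _ _ _ hF.2.1 (Finset.union_subset_left hX) c1 h.1,
      ih₀ _ _ _ hF.2.2 (Finset.union_subset_right hX) c0 h.2⟩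

theorem leafIn_of {Ad : TrG Λ (Lb κ₀ X) → Finset Λ → Prop} (D : Par0 Λ κ₀)
    (hAd : AdL D.it Ad) {W : Λ → ℝ} (hW0 : ∀ j, 0 ≤ W j) {cx : Finset ℕ → ℝ} (hcx : ∀ S, 0 ≤ cx S)
    (j₀ : Λ) {C₀ : ℝ} (hC₀ : 0 ≤ C₀) (t : IT) :
    ∀ (c : ℝ) (b pr : ℕ), Fit b pr t → leafs b pr t ⊆ X → CxOk cx c t →
    LeafAll (LeafI D W C₀) c b pr t →
    (tG D X b pr t).All (Crest.Agent.R4.ClosR758.LeafIn Ad (tM D W cx j₀ X) C₀) := by
  induction t with
  | leaf S =>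
    intro c b pr hF hX hc h A hA
    obtain ⟨hA1, hA2⟩ := hAd _ _ A hA
    have hA' : Sat A D.rhoL := fun j j' e =>
      (show Sat A ((D.par X).rhoL b pr S) from hA1) j j' ((D.rhoL_eq X b pr S j j').2 e)
    have h1 := h A hA2 hA'
    have e2 := tM_eq (X := X) D W j₀ hF hX hc A
    show Q (Dr ((D.par X).rhoL b pr S)) (rv A ((D.par X).L b pr S 1))
      (rv A ((D.par X).L b pr S 1)) ≤ C₀ * tM D W cx j₀ X (tG D X b pr (.leaf S)) A
    rw [e2]
    refine le_trans (le_of_eq ?_) h1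
    have e4 : Dr ((D.par X).rhoL b pr S) = Dr D.rhoL := by
      ext e
      simp only [Dr, Finset.mem_filter, Finset.mem_univ, true_and]
      exact D.rhoL_eq X b pr S e.1 e.2
    rw [e4]
    have hz : I (fun _ : ℝ => (0 : ℝ)) = 0 := by unfold I; simp
    have e5 : ∀ j j' : Λ, I (fun x => rv A ((D.par X).L b pr S 1) j x *
        rv A ((D.par X).L b pr S 1) j' x) =
        if (j ∈ A ∧ D.it j ∈ S) ∧ (j' ∈ A ∧ D.it j' ∈ S) then
          I (fun x => lf D b pr j x * lf D b pr j' x) else 0 := by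
      intro j j'
      rw [rv_L, rv_L]
      by_cases hj : j ∈ A ∧ D.it j ∈ S
      · by_cases hj' : j' ∈ A ∧ D.it j' ∈ S
        · rw [if_pos ⟨hj, hj'⟩]
          congr 1; funext x
          show (if j ∈ A.filter (fun j => D.it j ∈ S) then lf D b pr j x else 0) *
            (if j' ∈ A.filter (fun j => D.it j ∈ S) then lf D b pr j' x else 0) = _
          rw [if_pos (show j ∈ A.filter (fun j => D.it j ∈ S) from Finset.mem_filter.2 hj),
            if_pos (show j' ∈ A.filter (fun j => D.it j ∈ S) from Finset.mem_filter.2 hj')]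
        · rw [if_neg fun h => hj' h.2]
          refine Eq.trans ?_ hz
          congr 1; funext x
          show _ * (if j' ∈ A.filter (fun j => D.it j ∈ S) then lf D b pr j' x else 0) = _
          rw [if_neg (fun h : j' ∈ A.filter (fun j => D.it j ∈ S) => hj' (Finset.mem_filter.1 h)),
            mul_zero]
      · rw [if_neg fun h => hj h.1]
        refine Eq.trans ?_ hz
        congr 1; funext x
        show (if j ∈ A.filter (fun j => D.it j ∈ S) then lf D b pr j x else 0) * _ = _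
        rw [if_neg (fun h : j ∈ A.filter (fun j => D.it j ∈ S) => hj (Finset.mem_filter.1 h)),
          zero_mul]
    unfold Q Dr
    rw [Finset.sum_congr rfl fun e _ => e5 e.1 e.2, ← Finset.sum_filter, Finset.filter_filter]
    rw [Finset.sum_sigma']
    refine Finset.sum_bij' (fun e _ => (⟨e.1, e.2⟩ : (_ : Λ) × Λ)) (fun e _ => (e.1, e.2)) ?_ ?_
      (fun _ _ => rfl) (fun _ _ => rfl) (fun _ _ => rfl)
    · rintro ⟨j, j'⟩ he
      simp only [Finset.mem_filter, Finset.mem_univ, true_and] at he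
      simp only [Finset.mem_sigma, Finset.mem_filter]
      tauto
    · rintro ⟨j, j'⟩ he
      simp only [Finset.mem_sigma, Finset.mem_filter] at he
      simp only [Finset.mem_filter, Finset.mem_univ, true_and]
      tauto
  | br p Sp t₁ t₀ ih₁ ih₀ =>
    intro c b pr hF hX hc h
    obtain ⟨c1, c0⟩ := CxOk.br hF.2.2.1 hc
    exact ⟨trivial, ih₁ _ _ _ hF.2.2.2.1 (Finset.union_subset_left hX) c1 h.1,
      ih₀ _ _ _ hF.2.2.2.2 (Finset.union_subset_right hX) c0 h.2⟩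
  | add b' t₁ t₀ ih₁ ih₀ =>
    intro c b pr hF hX hc h
    obtain ⟨c1, c0⟩ := CxOk.add hF.1 hc
    exact ⟨trivial, ih₁ _ _ _ hF.2.1 (Finset.union_subset_left hX) c1 h.1,
      ih₀ _ _ _ hF.2.2 (Finset.union_subset_right hX) c0 h.2⟩
  | up b' Sp t ih => intro c b pr hF hX hc h; exact ih c b pr hF hX hc h
  | pl p t ih =>
    intro c b pr hF hX hc h
    exact ⟨trivial, ih c b (pr * p) hF.2.2 hX hc h,
      leafIn_zero (D.dec_nonneg hW0 hcx X) j₀ hC₀ _⟩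
  | far b' t₁ t₀ ih₁ ih₀ =>
    intro c b pr hF hX hc h
    obtain ⟨c1, c0⟩ := CxOk.far hF.1 hc
    exact ⟨trivial, ih₁ _ _ _ hF.2.1 (Finset.union_subset_left hX) c1 h.1,
      ih₀ _ _ _ hF.2.2 (Finset.union_subset_right hX) c0 h.2⟩

end

end Crest.Agent.R4P.Frame758
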