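import Crest.Agent.R4P.Bld532
import Crest.Agent.R4P.BldF542
import Crest.Agent.R4P.DataA758
import Crest.Agent.R4P.FrameL758

/-!
R4 (S0004), powers pass, port of helper734's `R4/LfDat734`, part A: facts about the leaves of a tree
(no weights).

* `lv`: level of the leaf of an item,
* `LeafF`: facts about a leaf of a tree with `All NodeOk`,
* `leafF_of_All`, `bld_leafF'`, `bld_leafF`.

Nothing is retained at the SEP primes (`rt t q = t.uq q`), so `G = 1` (kept as an argument).
-/

set_option autoImplicit false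
set_option linter.unusedSectionVars false

namespace Crest.Agent.R4P.LfDat734

open Crest.Agent.R4P.Cnt588 Crest.Agent.R4P.Item758
open Crest.Agent.R4P.Bld532 (NS All NodeOk Bk)
open Crest.Agent.R4P.Data758
open Crest.Agent.R4P.Frame758 (LeafAll)

/-- level of the leaf of `q`: below all its ties and retained primes -/
noncomputable def lv (t : IT) (n : ℕ) (q : ℕ) : ℕ := (Bld532.lst t ⟨n, 1, 1, 1⟩ q).n - 1

/-! ### leaves -/

theorem leafAll_of {F : ℝ → ℕ → ℕ → Finset ℕ → Prop} {Q : NS → IT → Prop}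
    (h : ∀ u S, Q u (.leaf S) → F u.c u.B u.A S) (t : IT) (u : NS) (hu : All Q u t) :
    LeafAll F u.c u.B u.A t :=
  Frame758.LeafAll_of_All h t u hu

/-- the node of an item -/
theorem All_lst {t' : IT} {s₀ : NS} : ∀ (t : IT) (n : ℕ) (u : NS), t.Ok n →
    (∀ q ∈ t.items, q ∈ t'.items ∧ Bld532.lst t' s₀ q = Bld532.lst t u q) →
    All (fun u τ => ∀ q ∈ τ.items, q ∈ t'.items ∧ Bld532.lst t' s₀ q = Bld532.lst τ u q) u t := by
  intro t
  induction t with
  | leaf S => intro n u _ h; exact h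
  | br p Sp t₁ t₀ ih₁ ih₀ =>
    intro n u hO h
    obtain ⟨h1, h2, h3, -, h4, h5⟩ := hO
    refine ⟨h, ih₁ _ _ h4 fun q hq => ?_, ih₀ _ _ h5 fun q hq => ?_⟩
    · have := h q (Finset.mem_union_left _ hq)
      have hn : q ∉ t₀.items := Finset.disjoint_left.1 h3 hq
      simp only [Bld532.lst, if_neg hn] at this
      exact this
    · have := h q (Finset.mem_union_right _ hq)
      simp only [Bld532.lst, if_pos hq] at this
      exact this
  | add b t₁ t₀ ih₁ ih₀ =>
    intro n u hO h
    obtain ⟨h1, h2, h3, h4, h5⟩ := hO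
    refine ⟨h, ih₁ _ _ h4 fun q hq => ?_, ih₀ _ _ h5 fun q hq => ?_⟩
    · have := h q (Finset.mem_union_left _ hq)
      have hn : q ∉ t₀.items := Finset.disjoint_left.1 h3 hq
      simp only [Bld532.lst, if_neg hn] at this
      exact this
    · have := h q (Finset.mem_union_right _ hq)
      simp only [Bld532.lst, if_pos hq] at this
      exact this
  | up b Sp t ih =>
    intro n u hO h
    obtain ⟨h1, h2, h3, h4⟩ := hO
    refine ⟨h, ih _ _ h4 fun q hq => ?_⟩
    have := h q hq
    simpa only [Bld532.lst] using this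
  | pl b t ih =>
    intro n u hO h
    obtain ⟨h1, h2, h4⟩ := hO
    refine ⟨h, ih _ _ h4 fun q hq => ?_⟩
    have := h q hq
    simpa only [Bld532.lst] using this
  | far b t₁ t₀ ih₁ ih₀ =>
    intro n u hO h
    obtain ⟨h1, h2, h3, h4, h5⟩ := hO
    refine ⟨h, ih₁ _ _ h4 fun q hq => ?_, ih₀ _ _ h5 fun q hq => ?_⟩
    · have := h q (Finset.mem_union_left _ hq)
      have hn : q ∉ t₀.items := Finset.disjoint_left.1 h3 hq
      simp only [Bld532.lst, if_neg hn] at this
      exact this
    · have := h q (Finset.mem_union_right _ hq)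
      simp only [Bld532.lst, if_pos hq] at this
      exact this

/-- retained primes of an item are at least the level of the node, or retained inside -/
theorem All_rt {t' : IT} : ∀ (t : IT) (n : ℕ) (u : NS), t.Ok n → t.items ⊆ t'.items → n ≤ u.n →
    (∀ q ∈ t.items, ∀ l ∈ rt t' q, u.n ≤ l ∨ l ∈ rt t q) →
    All (fun u τ => ∀ q ∈ τ.items, ∀ l ∈ rt t' q, u.n ≤ l ∨ l ∈ rt τ q) u t := by
  intro t
  induction t with
  | leaf S => intro n u _ _ _ h; exact h
  | br p Sp t₁ t₀ ih₁ ih₀ =>
    intro n u hO hs hn h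
    obtain ⟨h1, h2, h3, -, h4, h5⟩ := hO
    refine ⟨h, ih₁ _ _ h4 (fun q hq => hs (Finset.mem_union_left _ hq)) le_rfl fun q hq l hl => ?_,
      ih₀ _ _ h5 (fun q hq => hs (Finset.mem_union_right _ hq)) le_rfl fun q hq l hl => ?_⟩
    · have hn' : q ∉ t₀.items := Finset.disjoint_left.1 h3 hq
      rcases h q (Finset.mem_union_left _ hq) l hl with h6 | h6
      · left; show p ≤ l; omega
      · unfold rt at h6 ⊢
        simp only [IT.uq, if_neg hn'] at h6
        split_ifs at h6 with hS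
        · rcases Finset.mem_insert.1 h6 with h6 | h6
          · left; exact h6.ge
          · right; exact h6
        · right; exact h6
    · rcases h q (Finset.mem_union_right _ hq) l hl with h6 | h6
      · left; show p ≤ l; omega
      · right
        unfold rt at h6 ⊢
        simpa only [IT.uq, if_pos hq] using h6
  | add b t₁ t₀ ih₁ ih₀ =>
    intro n u hO hs hn h
    obtain ⟨h1, h2, h3, h4, h5⟩ := hO
    refine ⟨h, ih₁ _ _ h4 (fun q hq => hs (Finset.mem_union_left _ hq)) le_rfl fun q hq l hl => ?_,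
      ih₀ _ _ h5 (fun q hq => hs (Finset.mem_union_right _ hq)) le_rfl fun q hq l hl => ?_⟩
    · have hn' : q ∉ t₀.items := Finset.disjoint_left.1 h3 hq
      rcases h q (Finset.mem_union_left _ hq) l hl with h6 | h6
      · left; show b + 1 ≤ l; omega
      · right
        unfold rt at h6 ⊢
        simpa only [IT.uq, if_neg hn'] using h6
    · rcases h q (Finset.mem_union_right _ hq) l hl with h6 | h6
      · left; show b + 1 ≤ l; omega
      · right
        unfold rt at h6 ⊢
        simpa only [IT.uq, if_pos hq] using h6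
  | up b Sp t ih =>
    intro n u hO hs hn h
    obtain ⟨h1, h2, h3, h4⟩ := hO
    refine ⟨h, ih _ _ h4 hs le_rfl fun q hq l hl => ?_⟩
    rcases h q hq l hl with h6 | h6
    · left; show b ≤ l; omega
    · unfold rt at h6 ⊢
      simp only [IT.uq] at h6
      split_ifs at h6 with hS
      · rcases Finset.mem_insert.1 h6 with h6 | h6
        · left; exact h6.ge
        · right; exact h6
      · right; exact h6
  | pl b t ih =>
    intro n u hO hs hn h
    obtain ⟨h1, h2, h4⟩ := hO
    refine ⟨h, ih _ _ h4 hs le_rfl fun q hq l hl => ?_⟩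
    rcases h q hq l hl with h6 | h6
    · left; show b + 1 ≤ l; omega
    · right
      unfold rt at h6 ⊢
      simpa only [IT.uq] using h6
  | far b t₁ t₀ ih₁ ih₀ =>
    intro n u hO hs hn h
    obtain ⟨h1, h2, h3, h4, h5⟩ := hO
    refine ⟨h, ih₁ _ _ h4 (fun q hq => hs (Finset.mem_union_left _ hq)) le_rfl fun q hq l hl => ?_,
      ih₀ _ _ h5 (fun q hq => hs (Finset.mem_union_right _ hq)) le_rfl fun q hq l hl => ?_⟩
    · have hn' : q ∉ t₀.items := Finset.disjoint_left.1 h3 hq
      rcases h q (Finset.mem_union_left _ hq) l hl with h6 | h6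
      · left; show b + 1 ≤ l; omega
      · right
        unfold rt at h6 ⊢
        simpa only [IT.uq, if_neg hn'] using h6
    · rcases h q (Finset.mem_union_right _ hq) l hl with h6 | h6
      · left; show b + 1 ≤ l; omega
      · right
        unfold rt at h6 ⊢
        simpa only [IT.uq, if_pos hq] using h6

/-- **the primes of an item (above `A`) which are at least the level of a node are retained**
(including the tie primes `p ∣ A` of the items of `Sp`) -/
theorem All_ge {t' : IT} {P : Bld532.Par} {W : ℕ → ℝ} : ∀ (t : IT) (u : NS),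
    All (NodeOk P W) u t → (∀ q ∈ t.items, rt t q ⊆ rt t' q) →
    (∀ q ∈ t.items, ∀ l : ℕ, l.Prime → u.n ≤ l → l ∣ q / u.A → l ∈ rt t' q) →
    All (fun u τ => ∀ q ∈ τ.items, ∀ l : ℕ, l.Prime → u.n ≤ l → l ∣ q / u.A → l ∈ rt t' q) u t := by
  intro t
  induction t with
  | leaf S => intro u _ _ h; exact h
  | br p Sp t₁ t₀ ih₁ ih₀ =>
    intro u hN hs h
    obtain ⟨⟨a1, a2, a3, a4, a5, a6, a7, a8, -⟩, hN1, hN0⟩ := hN
    have hd : Disjoint t₁.items t₀.items := by
      have := Bld532.disj_dv_nd u.A p (t₁.items ∪ t₀.items)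
      rw [← a6, ← a7] at this; exact this
    have key : ∀ l : ℕ, l.Prime → p ≤ l → l ≠ p → u.n ≤ l := by
      intro l hl h1 h2
      by_contra hc
      have := a4 l hl (not_le.1 hc)
      omega
    refine ⟨h, ih₁ _ hN1 (fun q hq => ?_) (fun q hq l hl h1 h2 => ?_),
      ih₀ _ hN0 (fun q hq => ?_) (fun q hq l hl h1 h2 => ?_)⟩
    · have hq' := Finset.mem_union_left t₀.items hq
      have h0 : q ∉ t₀.items := Finset.disjoint_left.1 hd hq
      refine subset_trans ?_ (hs q hq')
      unfold rt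
      simp only [IT.uq, if_neg h0]
      split_ifs
      · exact Finset.subset_insert _ _
      · exact Finset.Subset.refl _
    · have hq' := Finset.mem_union_left t₀.items hq
      have h0 : q ∉ t₀.items := Finset.disjoint_left.1 hd hq
      have hpq : p ∣ q / u.A := by
        rw [a6] at hq; exact (Bld532.mem_dv.1 hq).2
      have h2' : l ∣ q / (u.A * p) := h2
      by_cases hlp : l = p
      · subst hlp
        apply hs q hq'
        have h3 : l ^ 2 ∣ q / u.A := by
          rw [Bld532.dvd_div_mul a1.pos hpq] at h2'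
          rw [pow_two]; exact h2'
        have hqS : q ∈ Sp := by
          rw [a8]; exact Bld532.mem_dv.2 ⟨hq', h3⟩
        unfold rt
        simp only [IT.uq, if_neg h0, if_pos hqS]
        exact Finset.mem_insert_self _ _
      · refine h q hq' l hl (key l hl h1 hlp) ?_
        rw [Bld532.div_mul_pow] at h2'
        exact h2'.trans (Nat.div_dvd_of_dvd hpq)
    · have hq' := Finset.mem_union_right t₁.items hq
      refine subset_trans ?_ (hs q hq')
      unfold rt
      simp only [IT.uq, if_pos hq]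
      exact Finset.Subset.refl _
    · have hq' := Finset.mem_union_right t₁.items hq
      have hpq : ¬ p ∣ q / u.A := by rw [a7] at hq; exact (Bld532.mem_nd.1 hq).2
      have h2' : l ∣ q / u.A := h2
      refine h q hq' l hl (key l hl h1 ?_) h2'
      rintro rfl
      exact hpq h2'
  | add b t₁ t₀ ih₁ ih₀ =>
    intro u hN hs h
    obtain ⟨⟨a1, a2, a3, a4, a5, ⟨j, t'', a6, a7, a8, a9, -⟩, -⟩, hN1, hN0⟩ := hN
    have hd : Disjoint t₁.items t₀.items := by
      have := Bld532.disj_dv_nd u.A (b ^ j) (t₁.items ∪ t₀.items)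
      rw [← a8, ← a9] at this; exact this
    have key : ∀ l : ℕ, l.Prime → b + 1 ≤ l → u.n ≤ l := by
      intro l hl h1
      by_contra hc
      have := a4 l hl (not_le.1 hc)
      omega
    refine ⟨h, ih₁ _ hN1 (fun q hq => ?_) (fun q hq l hl h1 h2 => ?_),
      ih₀ _ hN0 (fun q hq => ?_) (fun q hq l hl h1 h2 => ?_)⟩
    · have hq' := Finset.mem_union_left t₀.items hq
      have h0 : q ∉ t₀.items := Finset.disjoint_left.1 hd hq
      refine subset_trans ?_ (hs q hq')
      unfold rt
      simp only [IT.uq, if_neg h0]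
      exact Finset.Subset.refl _
    · exact h q (Finset.mem_union_left t₀.items hq) l hl (key l hl h1) h2
    · have hq' := Finset.mem_union_right t₁.items hq
      refine subset_trans ?_ (hs q hq')
      unfold rt
      simp only [IT.uq, if_pos hq]
      exact Finset.Subset.refl _
    · exact h q (Finset.mem_union_right t₁.items hq) l hl (key l hl h1) h2
  | up b Sp t ih =>
    intro u hN hs h
    obtain ⟨⟨a1, a2, a3, a4, a5, a6, -⟩, hN1⟩ := hN
    have key : ∀ l : ℕ, l.Prime → b ≤ l → l ≠ b → u.n ≤ l := by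
      intro l hl h1 h2
      by_contra hc
      have := a4 l hl (not_le.1 hc)
      omega
    refine ⟨h, ih _ hN1 (fun q hq => ?_) (fun q hq l hl h1 h2 => ?_)⟩
    · refine subset_trans ?_ (hs q hq)
      unfold rt
      simp only [IT.uq]
      split_ifs
      · exact Finset.subset_insert _ _
      · exact Finset.Subset.refl _
    · have h2' : l ∣ q / u.A := h2
      by_cases hlb : l = b
      · subst hlb
        have hqS : q ∈ Sp := by
          rw [a6]
          exact Bld532.mem_dv.2 ⟨hq, h2'⟩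
        apply hs q hq
        unfold rt
        simp only [IT.uq, if_pos hqS]
        exact Finset.mem_insert_self _ _
      · exact h q hq l hl (key l hl h1 hlb) h2'
  | pl b t ih =>
    intro u hN hs h
    obtain ⟨⟨a1, a2, a3, a4, a5, a6, -⟩, hN1⟩ := hN
    have key : ∀ l : ℕ, l.Prime → b + 1 ≤ l → u.n ≤ l := by
      intro l hl h1
      by_contra hc
      have := a4 l hl (not_le.1 hc)
      omega
    refine ⟨h, ih _ hN1 (fun q hq => ?_) (fun q hq l hl h1 h2 => ?_)⟩
    · refine subset_trans ?_ (hs q hq)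
      unfold rt
      simp only [IT.uq]
      exact Finset.Subset.refl _
    · have h2' : l ∣ q / (u.A * b) := h2
      rw [Bld532.div_mul_pow] at h2'
      exact h q hq l hl (key l hl h1) (h2'.trans (Nat.div_dvd_of_dvd (a6 q hq)))
  | far b t₁ t₀ ih₁ ih₀ =>
    intro u hN hs h
    obtain ⟨⟨a1, a2, a3, a4, a5, ⟨K, a7, a8, -⟩, -⟩, hN1, hN0⟩ := hN
    have hd : Disjoint t₁.items t₀.items := by
      have h5 : t₁.items = Bld532.farS b u.A K (t₁.items ∪ t₀.items) := by
        conv_lhs => rw [a7]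
        rfl
      have := Bld532.disj_far_near b u.A K (t₁.items ∪ t₀.items)
      rw [← h5, ← a8] at this; exact this
    have key : ∀ l : ℕ, l.Prime → b + 1 ≤ l → u.n ≤ l := by
      intro l hl h1
      by_contra hc
      have := a4 l hl (not_le.1 hc)
      omega
    refine ⟨h, ih₁ _ hN1 (fun q hq => ?_) (fun q hq l hl h1 h2 => ?_),
      ih₀ _ hN0 (fun q hq => ?_) (fun q hq l hl h1 h2 => ?_)⟩
    · have hq' := Finset.mem_union_left t₀.items hq
      have h0 : q ∉ t₀.items := Finset.disjoint_left.1 hd hq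
      refine subset_trans ?_ (hs q hq')
      unfold rt
      simp only [IT.uq, if_neg h0]
      exact Finset.Subset.refl _
    · exact h q (Finset.mem_union_left t₀.items hq) l hl (key l hl h1) h2
    · have hq' := Finset.mem_union_right t₁.items hq
      refine subset_trans ?_ (hs q hq')
      unfold rt
      simp only [IT.uq, if_pos hq]
      exact Finset.Subset.refl _
    · exact h q (Finset.mem_union_right t₁.items hq) l hl (key l hl h1) h2

/-- **facts about a leaf** `(u.B, u.A, Sl)` of the tree `t` of level `n`; `G` = product of the common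
retained SEP primes (here always `1`) -/
structure LeafF (P : Bld532.Par) (W : ℕ → ℝ) (t : IT) (n : ℕ) (u : NS) (Sl : Finset ℕ) (G : ℕ) :
    Prop where
  node : NodeOk P W u (.leaf Sl)
  pos : ∀ q ∈ Sl, 0 < q
  it : ∀ q ∈ Sl, q ∈ t.items
  lstA : ∀ q ∈ Sl, Bld532.lst t ⟨n, 1, 1, 1⟩ q = u
  A : ∀ q ∈ Sl, pp t q = u.A
  B : ∀ q ∈ Sl, mp t q = u.B
  lvl : ∀ q ∈ Sl, LfDat734.lv t n q = u.n - 1
  mt : ∀ q ∈ Sl, t.mt q = u.B.primeFactors
  G0 : 0 < G
  Gd : ∀ q ∈ Sl, G ∣ q / u.A
  Gc : ∀ q ∈ Sl, Nat.Coprime G (q / u.A / G)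
  Gr : ∀ q ∈ Sl, ∀ l ∈ G.primeFactors, l ∈ rt t q
  Gu : ∀ q ∈ Sl, ∀ l : ℕ, l.Prime → l ∣ q / u.A / G → u.n ≤ l → l ∈ t.uq q
  rtn : ∀ q ∈ Sl, ∀ l ∈ rt t q, u.n ≤ l

lemma LeafF.bk {P : Bld532.Par} {W : ℕ → ℝ} {t : IT} {n : ℕ} {u : NS} {Sl : Finset ℕ} {G : ℕ}
    (h : LeafF P W t n u Sl G) : Bk Sl u := h.node.1

theorem LeafF.lst {P : Bld532.Par} {W : ℕ → ℝ} {t : IT} {n : ℕ} {u : NS} {Sl : Finset ℕ} {G : ℕ}
    (h : LeafF P W t n u Sl G) : ∀ q ∈ Sl, Bld532.lst t ⟨n, 1, 1, 1⟩ q = u := h.lstA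

/-- **every leaf of a tree with `All NodeOk` has all the facts** (and any further node fact `Q`) -/
theorem leafF_of_All {P : Bld532.Par} {W : ℕ → ℝ} {n : ℕ} {t : IT}
    (hN : All (NodeOk P W) ⟨n, 1, 1, 1⟩ t)
    (hn : ∀ q ∈ t.items, ∀ l : ℕ, l.Prime → l ∣ q → l < n)
    {Q : NS → IT → Prop} (hQ0 : All Q ⟨n, 1, 1, 1⟩ t)
    {F : ℝ → ℕ → ℕ → Finset ℕ → Prop}
    (H : ∀ u Sl G, LeafF P W t n u Sl G → Q u (.leaf Sl) → F u.c u.B u.A Sl) :
    LeafAll F 1 1 1 t := by
  have hO : t.Ok n := Bld532.Ok_of_All P W t _ hN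
  have h2 := All_lst (t' := t) (s₀ := ⟨n, 1, 1, 1⟩) t n ⟨n, 1, 1, 1⟩ hO (fun q hq => ⟨hq, rfl⟩)
  have h3 := All_rt (t' := t) t n ⟨n, 1, 1, 1⟩ hO (Finset.Subset.refl _) le_rfl
    (fun q hq l hl => Or.inr hl)
  have h4 := All_ge (t' := t) t ⟨n, 1, 1, 1⟩ hN (fun q _ => Finset.Subset.refl _)
    (fun q hq l hl h5 h6 => by
      have h7 : l ∣ q := h6.trans (Nat.div_dvd_of_dvd (one_dvd _))
      have h8 : n ≤ l := h5
      exact absurd (hn q hq l hl h7) (not_lt.2 h8))
  have h := (((hN.and h2).and h3).and h4).and hQ0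
  refine leafAll_of (F := F) (fun u Sl hQ => ?_) t ⟨n, 1, 1, 1⟩ h
  obtain ⟨⟨⟨⟨hnode, hl⟩, hr⟩, hg⟩, hQu⟩ := hQ
  have hAq : ∀ q ∈ Sl, Bld532.lst t ⟨n, 1, 1, 1⟩ q = u := fun q hq => by
    have := (hl q hq).2
    simpa only [Bld532.lst] using this
  have hA : ∀ q ∈ Sl, pp t q = u.A := fun q hq => by
    have := BldF542.lst_A t ⟨n, 1, 1, 1⟩ q
    rw [hAq q hq] at this
    simpa using this.symm
  have hB : ∀ q ∈ Sl, mp t q = u.B := fun q hq => by
    have := BldF542.lst_Bmp t ⟨n, 1, 1, 1⟩ q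
    rw [hAq q hq] at this
    simpa using this.symm
  have bk : Bk Sl u := hnode.1
  refine H u Sl 1 ?_ hQu
  refine
    { node := hnode
      pos := bk.pos
      it := fun q hq => (hl q hq).1
      lstA := hAq
      A := hA
      B := hB
      lvl := fun q hq => by unfold lv; rw [hAq q hq]
      mt := fun q hq => ?_
      G0 := Nat.one_pos
      Gd := fun q hq => one_dvd _
      Gc := fun q hq => Nat.coprime_one_left _
      Gr := fun q hq l hlG => by simp at hlG
      Gu := fun q hq l hlp hld hln => ?_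
      rtn := fun q hq l hlr => ?_ }
  · have h5 := BldF542.mp_eq_prod t n hO q
    rw [hB q hq] at h5
    rw [h5]
    exact (Nat.primeFactors_prod fun p hp => (BldF542.mt_lt t n hO q p hp).1).symm
  · exact hg q hq l hlp hln (by simpa using hld)
  · rcases hr q hq l hlr with h5 | h5
    · exact h5
    · exfalso
      unfold rt at h5
      simp [IT.uq] at h5

/-- **every leaf of the built tree has all the facts** (and any further node fact `Q`) -/
theorem bld_leafF' (P : Bld532.Par) (W : ℕ → ℝ) (hW : ∀ q, 0 ≤ W q) (hP : P.Good) (n : ℕ)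
    (S : Finset ℕ) (hS : ∀ q ∈ S, 0 < q) (hn : ∀ q ∈ S, ∀ l : ℕ, l.Prime → l ∣ q → l < n)
    {Q : NS → IT → Prop} (hQ0 : All Q ⟨n, 1, 1, 1⟩ (Bld532.bld P W n 1 1 S))
    {F : ℝ → ℕ → ℕ → Finset ℕ → Prop}
    (H : ∀ u Sl G, LeafF P W (Bld532.bld P W n 1 1 S) n u Sl G → Q u (.leaf Sl) →
      F u.c u.B u.A Sl) :
    LeafAll F 1 1 1 (Bld532.bld P W n 1 1 S) := by
  refine leafF_of_All (Bld532.bld_All_root P W hW hP n S hS) (fun q hq => ?_) hQ0 H
  rw [Bld532.bld_items P W hW hP n 1 1 1 S (Bk.root S hS n)] at hq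
  exact hn q hq

/-- **every leaf of the built tree has all the facts** -/
theorem bld_leafF (P : Bld532.Par) (W : ℕ → ℝ) (hW : ∀ q, 0 ≤ W q) (hP : P.Good) (n : ℕ)
    (S : Finset ℕ) (hS : ∀ q ∈ S, 0 < q) (hn : ∀ q ∈ S, ∀ l : ℕ, l.Prime → l ∣ q → l < n)
    {F : ℝ → ℕ → ℕ → Finset ℕ → Prop}
    (H : ∀ u Sl G, LeafF P W (Bld532.bld P W n 1 1 S) n u Sl G → F u.c u.B u.A Sl) :
    LeafAll F 1 1 1 (Bld532.bld P W n 1 1 S) :=
  bld_leafF' P W hW hP n S hS hn (Bld532.bld_All_root P W hW hP n S hS) fun u Sl G h _ => H u Sl G h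

section
variable {P : Bld532.Par} {W : ℕ → ℝ} {t : IT} {n : ℕ} {u : NS} {Sl : Finset ℕ} {G : ℕ}

/-- the list of the missing ties at the leaf -/
theorem LeafF.lst_eq (h : LeafF P W t n u Sl G) {q q' : ℕ} (hq : q ∈ Sl) (hq' : q' ∈ Sl) :
    W363.lst (t.mt q) (LfDat734.lv t n q) = W363.lst (t.mt q') (LfDat734.lv t n q') := by
  rw [h.mt q hq, h.mt q' hq', h.lvl q hq, h.lvl q' hq']

/-- the product of the list is `u.B` -/
theorem LeafF.lst_prod (h : LeafF P W t n u Sl G) :
    (W363.lst u.B.primeFactors (u.n - 1)).prod = u.B := by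
  classical
  have bk := h.bk
  have e1 : u.B.primeFactors.filter (u.n - 1 < ·) = u.B.primeFactors := by
    apply Finset.filter_true_of_mem
    intro p hp
    have hpp := Nat.prime_of_mem_primeFactors hp
    have h1 := bk.geB p hpp (Nat.dvd_of_mem_primeFactors hp)
    have h2 := hpp.pos
    omega
  unfold Crest.Agent.R4.W363.lst
  rw [e1]
  have h2 : (u.B.primeFactors.sort (· ≤ ·)).prod = ∏ p ∈ u.B.primeFactors, p := by
    rw [Finset.prod_eq_multiset_prod, ← Finset.sort_eq u.B.primeFactors (· ≤ ·), Multiset.map_coe,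
      Multiset.prod_coe, List.map_id']
  rw [h2]
  exact Nat.prod_primeFactors_of_squarefree bk.sfB

/-- entries of the list -/
theorem LeafF.lst_mem {s : ℕ} (hs : s ∈ W363.lst u.B.primeFactors (u.n - 1)) :
    s.Prime ∧ s ∣ u.B := by
  unfold Crest.Agent.R4.W363.lst at hs
  have h1 : s ∈ u.B.primeFactors.filter (u.n - 1 < ·) := (Finset.mem_sort _).1 hs
  have h2 := (Finset.mem_filter.1 h1).1
  exact ⟨Nat.prime_of_mem_primeFactors h2, Nat.dvd_of_mem_primeFactors h2⟩

end

end Crest.Agent.R4P.LfDat734
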