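import Crest.Agent.R4P.Bld532

/-!
R4 (S0004), powers pass: top column of a node (the node half of helper579's `R4/WalkIT579`, which
needs no walk files): `bk_of_nodeOk`, `tp`, `isL`, `top_of_nodeOk`, `tp_eq`, `prime_ge`, `nodeOk_hi`.
-/

set_option autoImplicit false

namespace Crest.Agent.R4P.WalkIT579

open Crest.Agent.R4P.Cnt588
open Crest.Agent.R4P.Bld532 (NS All NodeOk Bk)

lemma bk_of_nodeOk {P : Bld532.Par} {W : ℕ → ℝ} {u : NS} {τ : IT} (h : Bld532.NodeOk P W u τ) :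
    Bk τ.items u := by
  cases τ with
  | leaf S => exact h.1
  | br p Sp t₁ t₀ => exact h.2.2.2.2.1
  | add b t₁ t₀ => exact h.2.2.2.2.1
  | up b Sp t => exact h.2.2.2.2.1
  | pl b t => exact h.2.2.2.2.1
  | far b t₁ t₀ => exact h.2.2.2.2.1

/-- top column of an item tree -/
def tp : IT → ℕ
  | .leaf _ => 0
  | .br p _ _ _ => p
  | .add b _ _ => b
  | .up b _ _ => b
  | .pl b _ => b
  | .far b _ _ => b

def isL : IT → Prop
  | .leaf _ => True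
  | _ => False

/-- the top column is the largest prime below the level -/
lemma top_of_nodeOk {P : Bld532.Par} {W : ℕ → ℝ} {u : NS} {τ : IT} (h : Bld532.NodeOk P W u τ)
    (hl : ¬ isL τ) : (tp τ).Prime ∧ tp τ < u.n ∧ ∀ r : ℕ, r.Prime → r < u.n → r ≤ tp τ := by
  cases τ with
  | leaf S => exact absurd trivial hl
  | br p Sp t₁ t₀ => exact ⟨h.1, h.2.1, h.2.2.2.1⟩
  | add b t₁ t₀ => exact ⟨h.1, h.2.1, h.2.2.2.1⟩
  | up b Sp t => exact ⟨h.1, h.2.1, h.2.2.2.1⟩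
  | pl b t => exact ⟨h.1, h.2.1, h.2.2.2.1⟩
  | far b t₁ t₀ => exact ⟨h.1, h.2.1, h.2.2.2.1⟩

lemma tp_eq {P : Bld532.Par} {W : ℕ → ℝ} {u u' : NS} {τ τ' : IT} (h : Bld532.NodeOk P W u τ)
    (h' : Bld532.NodeOk P W u' τ') (hl : ¬ isL τ) (hl' : ¬ isL τ') (hn : u.n = u'.n) :
    tp τ = tp τ' := by
  obtain ⟨a1, a2, a3⟩ := top_of_nodeOk h hl
  obtain ⟨b1, b2, b3⟩ := top_of_nodeOk h' hl'
  exact le_antisymm (b3 _ a1 (hn ▸ a2)) (a3 _ b1 (hn ▸ b2))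

/-- a prime at least the top column is the top column or at least the level -/
lemma prime_ge {P : Bld532.Par} {W : ℕ → ℝ} {u : NS} {τ : IT} (h : Bld532.NodeOk P W u τ)
    (hl : ¬ isL τ) {l : ℕ} (hl' : l.Prime) (hp : tp τ ≤ l) : l = tp τ ∨ u.n ≤ l := by
  obtain ⟨a1, a2, a3⟩ := top_of_nodeOk h hl
  rcases lt_or_ge l u.n with h1 | h1
  · exact Or.inl (le_antisymm (a3 _ hl' h1) hp)
  · exact Or.inr h1

/-- the mass of a non-leaf node is at most `hi`, its column is `> p0` and all the primes below the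
level are at most the column -/
lemma nodeOk_hi {P : Bld532.Par} {W : ℕ → ℝ} {u : NS} {τ : IT} (h : NodeOk P W u τ)
    (hl : ¬ isL τ) : u.c * Ws W τ.items ≤ P.hi (tp τ) ∧
      P.p0 < tp τ ∧ tp τ < u.n ∧ ∀ r : ℕ, r.Prime → r < u.n → r ≤ tp τ := by
  cases τ with
  | leaf S => exact absurd trivial hl
  | br p Sp t₁ t₀ => exact ⟨h.2.2.2.2.2.2.2.2.2.2.1, h.2.2.1, h.2.1, h.2.2.2.1⟩
  | add b t₁ t₀ => exact ⟨h.2.2.2.2.2.2.2.1, h.2.2.1, h.2.1, h.2.2.2.1⟩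
  | up b Sp t => exact ⟨h.2.2.2.2.2.2.2.2.1, h.2.2.1, h.2.1, h.2.2.2.1⟩
  | pl b t => exact ⟨h.2.2.2.2.2.2, h.2.2.1, h.2.1, h.2.2.2.1⟩
  | far b t₁ t₀ => exact ⟨h.2.2.2.2.2.2.2.1, h.2.2.1, h.2.1, h.2.2.2.1⟩

end Crest.Agent.R4P.WalkIT579
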