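import Crest.Agent.R4P.StepDataA2_83
import Crest.Agent.R4P.Top546
import Crest.Agent.R4P.BldF542
import Crest.Agent.R4P.LfDatA734
import Crest.Agent.R4.StepData189

/-!
R4 (S0004), powers pass: port of helper189's `R4/StepData189`, second part (helper546): facts about
the node of a subtree of a tree with `All NodeOk`.

* `ND1`, `NDt`, `NDt_of_All`, `bld_NDt`
* `NDt.subt` : the cut, with its level
* `NDt.prime_iff`, `NDt.rgh_eq`, `NDt.rt_dvd`, `NDt.uq_ge`, `NDt.uq_iff`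

With powers: the items need not be squarefree; above the level of a node every prime divides `q / A`
at most once (`ND1.rad`) and is retained (`ND1.ge`, `rt = uq`).
-/

set_option autoImplicit false
set_option linter.unusedSectionVars false
set_option linter.unusedVariables false

namespace Crest.Agent.R4P.Step588

open Crest.Agent.R4P.Cnt588 Crest.Agent.R4P.Item758
open Crest.Agent.R4P.Data758 (rt rt_prime dvd_ret)
open Crest.Agent.R4P.Bld532 (NS All NodeOk Bk)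

export Crest.Agent.R4.Step588 (rgh smt rgh_pos smt_pos rgh_congr)

/-! ### divisibility -/

/-- a divisor prime to `m` does not see the factor `m` -/
lemma dvd_div_cop {k q A m : ℕ} (h : m ∣ q / A) (hc : Nat.Coprime k m) :
    k ∣ q / (A * m) ↔ k ∣ q / A := by
  rw [← Nat.div_div_eq_div_mul]
  obtain ⟨v, hv⟩ := h
  rcases Nat.eq_zero_or_pos m with h0 | h0
  · subst h0
    rw [Nat.coprime_zero_right] at hc
    subst hc
    simp
  · rw [hv, Nat.mul_div_cancel_left _ h0]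
    exact ⟨fun h1 => h1.mul_left _, fun h1 => hc.dvd_of_dvd_mul_left h1⟩

/-- the primes of `pp` are below the level -/
lemma pp_prime_lt : ∀ (t : IT) {n : ℕ}, t.Ok n → ∀ q l : ℕ, l.Prime → l ∣ pp t q → l < n := by
  intro t
  induction t with
  | leaf S =>
    intro n _ q l hl h
    have e : pp (.leaf S) q = 1 := rfl
    rw [e] at h
    exact absurd (Nat.dvd_one.1 h) hl.one_lt.ne'
  | br p Sp t₁ t₀ ih₁ ih₀ =>
    intro n hO q l hl h
    obtain ⟨hp, hpn, -, -, h1, h0⟩ := hO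
    simp only [pp] at h
    split_ifs at h with hq
    · exact (ih₀ h0 q l hl h).trans hpn
    · rcases (Nat.Prime.dvd_mul hl).1 h with h2 | h2
      · rw [(Nat.prime_dvd_prime_iff_eq hl hp).1 h2]; exact hpn
      · exact (ih₁ h1 q l hl h2).trans hpn
  | add p t₁ t₀ ih₁ ih₀ =>
    intro n hO q l hl h
    obtain ⟨hp, hpn, -, h1, h0⟩ := hO
    simp only [pp] at h
    split_ifs at h with hq
    · exact lt_of_lt_of_le (ih₀ h0 q l hl h) hpn
    · exact lt_of_lt_of_le (ih₁ h1 q l hl h) hpn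
  | up p Sp t ih =>
    intro n hO q l hl h
    obtain ⟨hp, hpn, -, h1⟩ := hO
    exact (ih h1 q l hl h).trans hpn
  | pl p t ih =>
    intro n hO q l hl h
    obtain ⟨hp, hpn, h1⟩ := hO
    simp only [pp] at h
    rcases (Nat.Prime.dvd_mul hl).1 h with h2 | h2
    · rw [(Nat.prime_dvd_prime_iff_eq hl hp).1 h2]; exact hpn
    · exact lt_of_lt_of_le (ih h1 q l hl h2) hpn
  | far p t₁ t₀ ih₁ ih₀ =>
    intro n hO q l hl h
    obtain ⟨hp, hpn, -, h1, h0⟩ := hO
    simp only [pp] at h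
    split_ifs at h with hq
    · exact lt_of_lt_of_le (ih₀ h0 q l hl h) hpn
    · exact lt_of_lt_of_le (ih₁ h1 q l hl h) hpn

lemma pp_cop {t : IT} {n : ℕ} (hO : t.Ok n) (q : ℕ) {p : ℕ} (hp : p.Prime) (hn : n ≤ p) (k : ℕ) :
    Nat.Coprime (p ^ k) (pp t q) :=
  Nat.Coprime.pow_left k ((Nat.Prime.coprime_iff_not_dvd hp).2 fun h =>
    absurd (pp_prime_lt t hO q p hp h) (not_lt.2 hn))

/-- the pulled part divides the item -/
lemma pp_dvd_of_All {P : Bld532.Par} {W : ℕ → ℝ} (t : IT) (u : NS) (h : All (NodeOk P W) u t)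
    {q : ℕ} (hq : q ∈ t.items) : u.A * pp t q ∣ q := by
  obtain ⟨S, hqS, hN⟩ := Bld532.All.leaf_of_item t u h q hq
  have h1 := (WalkIT579.bk_of_nodeOk hN).dvd q hqS
  rwa [BldF542.lst_A] at h1

lemma pp_dvd_div {P : Bld532.Par} {W : ℕ → ℝ} {t : IT} {u : NS} (h : All (NodeOk P W) u t)
    (hA : 0 < u.A) {q : ℕ} (hq : q ∈ t.items) : pp t q ∣ q / u.A := by
  obtain ⟨k, hk⟩ := pp_dvd_of_All t u h hq
  refine ⟨k, Nat.div_eq_of_eq_mul_right hA ?_⟩
  rw [← mul_assoc]; exact hk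

/-- **the retained primes divide the remaining cofactor exactly once** -/
theorem rd_of_All {P : Bld532.Par} {W : ℕ → ℝ} : ∀ (t : IT) (u : NS), t.Ok u.n →
    All (NodeOk P W) u t → ∀ q ∈ t.items, ∀ b ∈ rt t q,
      b ∣ q / (u.A * pp t q) ∧ ¬ b ^ 2 ∣ q / (u.A * pp t q) := by
  intro t
  induction t with
  | leaf S => intro u _ _ q _ b hb; simp [rt, IT.uq] at hb
  | br p Sp t₁ t₀ ih₁ ih₀ =>
    intro u hO hN q hq b hb
    obtain ⟨hp, hpn, hd, -, h4, h5⟩ := hO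
    obtain ⟨⟨-, -, -, -, hBk, hi1, hi0, hSp, hcube, -⟩, hN1, hN0⟩ := hN
    by_cases hq0 : q ∈ t₀.items
    · have hb' : b ∈ rt t₀ q := by simpa only [rt, IT.uq, if_pos hq0] using hb
      have e : pp (.br p Sp t₁ t₀) q = pp t₀ q := if_pos hq0
      rw [e]
      exact ih₀ _ h5 hN0 q hq0 b hb'
    · have hq1 : q ∈ t₁.items := (Finset.mem_union.1 hq).resolve_right hq0
      have e : pp (.br p Sp t₁ t₀) q = p * pp t₁ q := if_neg hq0
      have e2 : u.A * (p * pp t₁ q) = u.A * p * pp t₁ q := by ring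
      rw [e, e2]
      have hb' : (b = p ∧ q ∈ Sp) ∨ b ∈ rt t₁ q := by
        simp only [rt, IT.uq, if_neg hq0] at hb ⊢
        split_ifs at hb with h1
        · rcases Finset.mem_insert.1 hb with h2 | h2
          · exact Or.inl ⟨h2, h1⟩
          · exact Or.inr h2
        · exact Or.inr hb
      rcases hb' with ⟨rfl, hqS⟩ | hb'
      · have hdq : b ∣ q / u.A := by
          rw [hi1] at hq1; exact (Bld532.mem_dv.1 hq1).2
        have h2 : pp t₁ q ∣ q / (u.A * b) := by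
          have := pp_dvd_div hN1 (Nat.mul_pos hBk.Apos hp.pos) hq1
          exact this
        rw [show b ∣ q / (u.A * b * pp t₁ q) ↔ b ∣ q / (u.A * b) from
          dvd_div_cop h2 (by simpa using pp_cop h4 q hp le_rfl 1),
          show b ^ 2 ∣ q / (u.A * b * pp t₁ q) ↔ b ^ 2 ∣ q / (u.A * b) from
          dvd_div_cop h2 (pp_cop h4 q hp le_rfl 2)]
        rw [Bld532.dvd_div_mul hp.pos hdq, Bld532.dvd_div_mul hp.pos hdq]
        refine ⟨?_, fun h3 => hcube q hq ?_⟩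
        · rw [hSp] at hqS
          have := (Bld532.mem_dv.1 hqS).2
          rwa [pow_two] at this
        · rwa [pow_succ'] 
      · exact ih₁ _ h4 hN1 q hq1 b hb'
  | add p t₁ t₀ ih₁ ih₀ =>
    intro u hO hN q hq b hb
    obtain ⟨hp, hpn, hd, h4, h5⟩ := hO
    by_cases hq0 : q ∈ t₀.items
    · have hb' : b ∈ rt t₀ q := by simpa only [rt, IT.uq, if_pos hq0] using hb
      have e : pp (.add p t₁ t₀) q = pp t₀ q := if_pos hq0
      rw [e]
      exact ih₀ ⟨p + 1, u.c, u.A, u.B⟩ h5 hN.2.2 q hq0 b hb'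
    · have hq1 : q ∈ t₁.items := (Finset.mem_union.1 hq).resolve_right hq0
      have hb' : b ∈ rt t₁ q := by simpa only [rt, IT.uq, if_neg hq0] using hb
      have e : pp (.add p t₁ t₀) q = pp t₁ q := if_neg hq0
      rw [e]
      exact ih₁ ⟨p + 1, u.c, u.A, u.B⟩ h4 hN.2.1 q hq1 b hb'
  | up p Sp t ih =>
    intro u hO hN q hq b hb
    obtain ⟨hp, hpn, -, h4⟩ := hO
    obtain ⟨⟨-, -, -, -, hBk, hSp, hsq, -⟩, hN1⟩ := hN
    have hq' : q ∈ t.items := hq
    have e : pp (.up p Sp t) q = pp t q := rfl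
    rw [e]
    have hb' : (b = p ∧ q ∈ Sp) ∨ b ∈ rt t q := by
      simp only [rt, IT.uq] at hb ⊢
      split_ifs at hb with h1
      · rcases Finset.mem_insert.1 hb with h2 | h2
        · exact Or.inl ⟨h2, h1⟩
        · exact Or.inr h2
      · exact Or.inr hb
    rcases hb' with ⟨rfl, hqS⟩ | hb'
    · have h2 : pp t q ∣ q / u.A := pp_dvd_div hN1 hBk.Apos hq'
      rw [dvd_div_cop h2 (by simpa using pp_cop h4 q hp le_rfl 1),
        dvd_div_cop h2 (pp_cop h4 q hp le_rfl 2)]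
      refine ⟨?_, hsq q hq'⟩
      rw [hSp] at hqS
      exact (Bld532.mem_dv.1 hqS).2
    · exact ih ⟨p, u.c, u.A, u.B⟩ h4 hN1 q hq' b hb'
  | pl p t ih =>
    intro u hO hN q hq b hb
    obtain ⟨hp, hpn, h4⟩ := hO
    have e : pp (.pl p t) q = p * pp t q := rfl
    have e2 : u.A * (p * pp t q) = u.A * p * pp t q := by ring
    rw [e, e2]
    exact ih ⟨p + 1, u.c, u.A * p, u.B⟩ h4 hN.2 q hq b hb
  | far p t₁ t₀ ih₁ ih₀ =>
    intro u hO hN q hq b hb
    obtain ⟨hp, hpn, hd, h4, h5⟩ := hO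
    by_cases hq0 : q ∈ t₀.items
    · have hb' : b ∈ rt t₀ q := by simpa only [rt, IT.uq, if_pos hq0] using hb
      have e : pp (.far p t₁ t₀) q = pp t₀ q := if_pos hq0
      rw [e]
      exact ih₀ ⟨p + 1, u.c, u.A, u.B⟩ h5 hN.2.2 q hq0 b hb'
    · have hq1 : q ∈ t₁.items := (Finset.mem_union.1 hq).resolve_right hq0
      have hb' : b ∈ rt t₁ q := by simpa only [rt, IT.uq, if_neg hq0] using hb
      have e : pp (.far p t₁ t₀) q = pp t₁ q := if_neg hq0
      rw [e]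
      exact ih₁ ⟨p + 1, u.c, u.A, u.B⟩ h4 hN.2.1 q hq1 b hb'

/-- a prime `≥` the level divides the part above `A` at most once -/
def Rad1 (u : NS) (τ : IT) : Prop :=
  ∀ q ∈ τ.items, ∀ l : ℕ, l.Prime → u.n ≤ l → ¬ l ^ 2 ∣ q / u.A

theorem All_rad {P : Bld532.Par} {W : ℕ → ℝ} : ∀ (t : IT) (u : NS),
    All (NodeOk P W) u t → Rad1 u t → All Rad1 u t := by
  intro t
  induction t with
  | leaf S => intro u _ h; exact h
  | br p Sp t₁ t₀ ih₁ ih₀ =>
    intro u hN h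
    obtain ⟨⟨a1, a2, a3, a4, a5, a6, a7, a8, a9, -⟩, hN1, hN0⟩ := hN
    have key : ∀ l : ℕ, l.Prime → p ≤ l → l ≠ p → u.n ≤ l := by
      intro l hl h1 h2
      by_contra hc
      have := a4 l hl (not_le.1 hc)
      omega
    refine ⟨h, ih₁ _ hN1 (fun q hq l hl h1 h2 => ?_), ih₀ _ hN0 (fun q hq l hl h1 h2 => ?_)⟩
    · have hq' := Finset.mem_union_left t₀.items hq
      have hpq : p ∣ q / u.A := by
        rw [a6] at hq; exact (Bld532.mem_dv.1 hq).2
      have h2' : l ^ 2 ∣ q / (u.A * p) := h2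
      by_cases hlp : l = p
      · subst hlp
        rw [Bld532.dvd_div_mul a1.pos hpq, ← pow_succ'] at h2'
        exact a9 q hq' h2'
      · rw [Bld532.div_mul_pow] at h2'
        exact h q hq' l hl (key l hl h1 hlp) (h2'.trans (Nat.div_dvd_of_dvd hpq))
    · have hq' := Finset.mem_union_right t₁.items hq
      have hpq : ¬ p ∣ q / u.A := by rw [a7] at hq; exact (Bld532.mem_nd.1 hq).2
      have h2' : l ^ 2 ∣ q / u.A := h2
      refine h q hq' l hl (key l hl h1 ?_) h2'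
      rintro rfl
      exact hpq ((dvd_pow_self l two_ne_zero).trans h2')
  | add b t₁ t₀ ih₁ ih₀ =>
    intro u hN h
    obtain ⟨⟨a1, a2, a3, a4, -⟩, hN1, hN0⟩ := hN
    have key : ∀ l : ℕ, l.Prime → b + 1 ≤ l → u.n ≤ l := by
      intro l hl h1
      by_contra hc
      have := a4 l hl (not_le.1 hc)
      omega
    exact ⟨h, ih₁ _ hN1 (fun q hq l hl h1 h2 => h q (Finset.mem_union_left _ hq) l hl
        (key l hl h1) h2), ih₀ _ hN0 (fun q hq l hl h1 h2 => h q (Finset.mem_union_right _ hq) l hl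
        (key l hl h1) h2)⟩
  | up b Sp t ih =>
    intro u hN h
    obtain ⟨⟨a1, a2, a3, a4, a5, a6, a7, -⟩, hN1⟩ := hN
    refine ⟨h, ih _ hN1 (fun q hq l hl h1 h2 => ?_)⟩
    have h2' : l ^ 2 ∣ q / u.A := h2
    have h1' : b ≤ l := h1
    by_cases hlb : l = b
    · subst hlb
      exact a7 q hq h2'
    · refine h q hq l hl ?_ h2'
      by_contra hc
      have := a4 l hl (not_le.1 hc)
      omega
  | pl b t ih =>
    intro u hN h
    obtain ⟨⟨a1, a2, a3, a4, a5, a6, -⟩, hN1⟩ := hN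
    refine ⟨h, ih _ hN1 (fun q hq l hl h1 h2 => ?_)⟩
    have h2' : l ^ 2 ∣ q / (u.A * b) := h2
    have h1' : b + 1 ≤ l := h1
    rw [Bld532.div_mul_pow] at h2'
    refine h q hq l hl ?_ (h2'.trans (Nat.div_dvd_of_dvd (a6 q hq)))
    by_contra hc
    have := a4 l hl (not_le.1 hc)
    omega
  | far b t₁ t₀ ih₁ ih₀ =>
    intro u hN h
    obtain ⟨⟨a1, a2, a3, a4, -⟩, hN1, hN0⟩ := hN
    have key : ∀ l : ℕ, l.Prime → b + 1 ≤ l → u.n ≤ l := by
      intro l hl h1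
      by_contra hc
      have := a4 l hl (not_le.1 hc)
      omega
    exact ⟨h, ih₁ _ hN1 (fun q hq l hl h1 h2 => h q (Finset.mem_union_left _ hq) l hl
        (key l hl h1) h2), ih₀ _ hN0 (fun q hq l hl h1 h2 => h q (Finset.mem_union_right _ hq) l hl
        (key l hl h1) h2)⟩

/-! ### nodes -/

/-- the facts of one node of a subtree of `t'` -/
structure ND1 (P : Bld532.Par) (W : ℕ → ℝ) (t' : IT) (u : NS) (τ : IT) : Prop where
  node : NodeOk P W u τ
  ok : τ.Ok u.n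
  sub : τ.items ⊆ t'.items
  pp : ∀ q ∈ τ.items, pp t' q = u.A * pp τ q
  mp : ∀ q ∈ τ.items, mp t' q = u.B * mp τ q
  /-- the primes `≥` the level are retained -/
  ge : ∀ q ∈ τ.items, ∀ l : ℕ, l.Prime → u.n ≤ l → l ∣ q / u.A → l ∈ rt t' q
  /-- the primes `≥` the level divide at most once -/
  rad : ∀ q ∈ τ.items, ∀ l : ℕ, l.Prime → u.n ≤ l → ¬ l ^ 2 ∣ q / u.A
  /-- the retained primes below the level are retained inside -/
  lo : ∀ q ∈ τ.items, ∀ l < u.n, (l ∈ t'.uq q ↔ l ∈ τ.uq q)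

/-- **facts about a node `(u, τ)` of the tree `t'`** (`NDt` = at all the nodes of `τ`) -/
structure NDt (P : Bld532.Par) (W : ℕ → ℝ) (t' : IT) (u : NS) (τ : IT) : Prop where
  all : All (ND1 P W t') u τ
  dvd : ∀ q ∈ t'.items, pp t' q ∣ q
  pos : ∀ q ∈ t'.items, 0 < q
  rd : ∀ q ∈ t'.items, ∀ b ∈ rt t' q, b ∣ q / pp t' q
  rd1 : ∀ q ∈ t'.items, ∀ b ∈ rt t' q, ¬ b ^ 2 ∣ q / pp t' q

/-- **every tree with `All NodeOk` and columns above all the primes of the items** -/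
theorem NDt_of_All {P : Bld532.Par} {W : ℕ → ℝ} {n : ℕ} {t : IT}
    (h1 : All (NodeOk P W) ⟨n, 1, 1, 1⟩ t)
    (hn : ∀ q ∈ t.items, ∀ l : ℕ, l.Prime → l ∣ q → l < n) :
    All (NDt P W t) ⟨n, 1, 1, 1⟩ t := by
  have hO : t.Ok n := Bld532.Ok_of_All P W t _ h1
  have hpos : ∀ q ∈ t.items, 0 < q := (WalkIT579.bk_of_nodeOk h1.self).pos
  have hroot : ∀ q ∈ t.items, ∀ l : ℕ, l.Prime → n ≤ l → ¬ l ∣ q / 1 := fun q hq l hl h5 h6 => by
    have h7 : l ∣ q := h6.trans (Nat.div_dvd_of_dvd (one_dvd _))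
    exact absurd (hn q hq l hl h7) (not_lt.2 h5)
  have h2 := All_pp (t' := t) t n ⟨n, 1, 1, 1⟩ hO (fun q hq => (one_mul _).symm)
  have h4 := LfDat734.All_ge (t' := t) t ⟨n, 1, 1, 1⟩ h1
    (fun q _ => Finset.Subset.refl _) (fun q hq l hl h5 h6 => absurd h6 (hroot q hq l hl h5))
  have h4' := All_rad t ⟨n, 1, 1, 1⟩ h1 (fun q hq l hl h5 h6 =>
    hroot q hq l hl h5 ((dvd_pow_self l two_ne_zero).trans h6))
  have h5 := All_it (t' := t) t ⟨n, 1, 1, 1⟩ (Finset.Subset.refl _)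
  have h6 := All_Ok t ⟨n, 1, 1, 1⟩ hO
  have h7 := All_mp (t' := t) t n ⟨n, 1, 1, 1⟩ hO (fun q hq => (one_mul _).symm)
  have h8 := All_UPn (t' := t) t ⟨n, 1, 1, 1⟩ hO h1 (UPn_root hO)
  have h := (((((((h1.and h6).and h5).and h2).and h7).and h4).and h4').and h8)
  have h' : All (ND1 P W t) ⟨n, 1, 1, 1⟩ t := Bld532.All.mono (fun u τ hh =>
    ⟨hh.1.1.1.1.1.1.1, hh.1.1.1.1.1.1.2, hh.1.1.1.1.1.2, hh.1.1.1.1.2, hh.1.1.1.2, hh.1.1.2,
      hh.1.2, hh.2.1⟩) h
  have hrd := rd_of_All t ⟨n, 1, 1, 1⟩ hO h1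
  refine Bld532.All.mono (fun u τ hh => ?_) (All_All t _ h')
  exact
    { all := hh
      dvd := fun q hq => by
        have := pp_dvd_of_All t ⟨n, 1, 1, 1⟩ h1 hq
        simpa using this
      pos := hpos
      rd := fun q hq b hb => by
        have := (hrd q hq b hb).1
        simpa using this
      rd1 := fun q hq b hb => by
        have := (hrd q hq b hb).2
        simpa using this }

/-- the built tree -/
theorem bld_NDt (P : Bld532.Par) (W : ℕ → ℝ) (hW : ∀ q, 0 ≤ W q) (hP : P.Good) (n : ℕ)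
    (S : Finset ℕ) (hS : ∀ q ∈ S, 0 < q) (hn : ∀ q ∈ S, ∀ l : ℕ, l.Prime → l ∣ q → l < n) :
    All (NDt P W (Bld532.bld P W n 1 1 S)) ⟨n, 1, 1, 1⟩ (Bld532.bld P W n 1 1 S) := by
  refine NDt_of_All (Bld532.bld_All_root P W hW hP n S hS) fun q hq => ?_
  rw [Bld532.bld_items P W hW hP n 1 1 1 S (Bk.root S hS n)] at hq
  exact hn q hq

section
variable {P : Bld532.Par} {W : ℕ → ℝ} {t' : IT} {u : NS} {τ : IT}

lemma NDt.self (h : NDt P W t' u τ) : ND1 P W t' u τ := h.all.self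

lemma NDt.bk (h : NDt P W t' u τ) : Bk τ.items u := WalkIT579.bk_of_nodeOk h.self.node

/-- the cut tree is a node too, of level `m`: `y ≤ m ≤ u.n`, `m ≤ b` for every column `b ≥ y` where
the item is a missing tie or retained -/
theorem NDt.subt' (h : NDt P W t' u τ) {y : ℕ} (hy : y ≤ u.n) (q : ℕ) :
    ∃ (m : ℕ) (c' : ℝ), y ≤ m ∧ m ≤ u.n ∧ (∀ b ∈ τ.mt q ∪ rt τ q, y ≤ b → m ≤ b) ∧
      NDt P W t' ⟨m, c', u.A * ppc y τ q, u.B * mpc y τ q⟩ (subt y τ q) := by
  obtain ⟨m, c', hm, hm2, hm3, h1⟩ := All_subt' y q τ u hy h.self.ok h.all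
  exact ⟨m, c', hm, hm2, hm3, h1, h.dvd, h.pos, h.rd, h.rd1⟩

/-- the cut tree is a node too, of level `≥ y` -/
theorem NDt.subt (h : NDt P W t' u τ) {y : ℕ} (hy : y ≤ u.n) (q : ℕ) :
    ∃ (m : ℕ) (c' : ℝ), y ≤ m ∧
      NDt P W t' ⟨m, c', u.A * ppc y τ q, u.B * mpc y τ q⟩ (subt y τ q) := by
  obtain ⟨m, c', hm, -, -, h1⟩ := h.subt' hy q
  exact ⟨m, c', hm, h1⟩

/-- the cut tree is a leaf or its top column is `< y` -/
lemma tp_subt_lt (y q : ℕ) : ∀ t : IT, ¬ WalkIT579.isL (subt y t q) →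
    WalkIT579.tp (subt y t q) < y := by
  intro t
  induction t with
  | leaf S => intro h; exact absurd trivial h
  | br p Sp t₁ t₀ ih₁ ih₀ =>
    by_cases hp : p < y
    · rw [subt_br_lt hp]; intro _; exact hp
    · by_cases hq : q ∈ t₀.items
      · rw [subt_br0 hp hq]; exact ih₀
      · rw [subt_br1 hp hq]; exact ih₁
  | add p t₁ t₀ ih₁ ih₀ =>
    by_cases hp : p < y
    · rw [subt_add_lt hp]; intro _; exact hp
    · by_cases hq : q ∈ t₀.items
      · rw [subt_add0 hp hq]; exact ih₀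
      · rw [subt_add1 hp hq]; exact ih₁
  | up p Sp t ih =>
    by_cases hp : p < y
    · rw [subt_up_lt hp]; intro _; exact hp
    · rw [subt_up hp]; exact ih
  | pl p t ih =>
    by_cases hp : p < y
    · rw [subt_pl_lt hp]; intro _; exact hp
    · rw [subt_pl hp]; exact ih
  | far p t₁ t₀ ih₁ ih₀ =>
    by_cases hp : p < y
    · rw [subt_far_lt hp]; intro _; exact hp
    · by_cases hq : q ∈ t₀.items
      · rw [subt_far0 hp hq]; exact ih₀
      · rw [subt_far1 hp hq]; exact ih₁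

lemma cols_of_isL {t : IT} (h : WalkIT579.isL t) : cols t = ∅ := by
  cases t with
  | leaf S => rfl
  | br p Sp t₁ t₀ => exact absurd h (by simp [WalkIT579.isL])
  | add p t₁ t₀ => exact absurd h (by simp [WalkIT579.isL])
  | up p Sp t => exact absurd h (by simp [WalkIT579.isL])
  | pl p t => exact absurd h (by simp [WalkIT579.isL])
  | far p t₁ t₀ => exact absurd h (by simp [WalkIT579.isL])

lemma NDt.div_ne (h : NDt P W t' u τ) {r : ℕ} (hr : r ∈ τ.items) : r / u.A ≠ 0 := by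
  have hr0 : 0 < r := h.pos r (h.self.sub hr)
  have hd := h.bk.dvd r hr
  exact (Nat.div_pos (Nat.le_of_dvd hr0 hd) (Nat.pos_of_dvd_of_pos hd hr0)).ne'

/-- `q / A = pp τ q * (q / pp t' q)` -/
lemma NDt.div_eq (h : NDt P W t' u τ) {r : ℕ} (hr : r ∈ τ.items) :
    r / u.A = Item758.pp τ r * (r / Item758.pp t' r) := by
  have h3 := h.self.sub hr
  have e1 := h.self.pp r hr
  have hr0 : 0 < r := h.pos r h3
  have hpp0 : 0 < Item758.pp t' r := Nat.pos_of_dvd_of_pos (h.dvd r h3) hr0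
  have hA0 : 0 < u.A := h.bk.Apos
  obtain ⟨m, hm⟩ := h.dvd r h3
  have e2 : r / Item758.pp t' r = m := Nat.div_eq_of_eq_mul_right hpp0 hm
  have e4 : Item758.pp t' r * m = u.A * (Item758.pp τ r * m) := by rw [e1]; ring
  have e3 : r / u.A = Item758.pp τ r * m := Nat.div_eq_of_eq_mul_right hA0 (hm.trans e4)
  rw [e2, e3]

/-- retained primes of an item divide `q / A` -/
lemma NDt.rt_dvd (h : NDt P W t' u τ) {r l : ℕ} (hr : r ∈ τ.items) (hl : l ∈ rt t' r) :
    l ∣ r / u.A := by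
  rw [h.div_eq hr]
  exact (h.rd r (h.self.sub hr) l hl).mul_left _

/-- the retained primes `≥` the level are exactly the primes of `q / A` -/
lemma NDt.uq_ge (h : NDt P W t' u τ) {n : ℕ} (hO : t'.Ok n) {r l : ℕ} (hr : r ∈ τ.items)
    (hl : u.n ≤ l) : l ∈ t'.uq r ↔ l.Prime ∧ l ∣ r / u.A :=
  ⟨fun h1 => ⟨(uq_lt hO h1).1, h.rt_dvd hr h1⟩, fun h1 => h.self.ge r hr l h1.1 hl h1.2⟩

/-- the retained primes which are not `≥` the level are retained inside -/
lemma NDt.uq_lo (h : NDt P W t' u τ) {r l : ℕ} (hr : r ∈ τ.items) (hl : l < u.n) :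
    l ∈ t'.uq r ↔ l ∈ τ.uq r := h.self.lo r hr l hl

/-- a retained prime divides `q / A` once more than `pp τ q` -/
lemma NDt.rt_sq (h : NDt P W t' u τ) {r l : ℕ} (hr : r ∈ τ.items) (hlp : l.Prime)
    (hl : u.n ≤ l) : ¬ l ^ 2 ∣ r / u.A := h.self.rad r hr l hlp hl

/-- **(hrp)**: at a node whose top column is `< y`, equal retained parts at a column `p < y` force
equal prime factors `≥ y` -/
theorem NDt.prime_iff (h : NDt P W t' u τ) {n : ℕ} (hO : t'.Ok n) (hl : ¬ WalkIT579.isL τ) {y : ℕ}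
    (hy : WalkIT579.tp τ < y) {p : ℕ} (hp : p < y) {r r' : ℕ} (hr : r ∈ τ.items)
    (hr' : r' ∈ τ.items) (e : W363.ret t' p r = W363.ret t' p r') {l : ℕ} (hlp : l.Prime)
    (hly : y ≤ l) (hd : l ∣ r / u.A) : l ∣ r' / u.A := by
  have hln : u.n ≤ l := by
    rcases WalkIT579.prime_ge h.self.node hl hlp (hy.le.trans hly) with h6 | h6
    · omega
    · exact h6
  have h6 := h.self.ge r hr l hlp hln hd
  have h7 := (dvd_ret hO (p := p) (q := r) hlp).2 ⟨h6, lt_of_lt_of_le hp hly⟩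
  rw [e] at h7
  exact h.rt_dvd hr' ((dvd_ret hO hlp).1 h7).1

/-- **(hrp)** for the cut tree: `rp := fun r => rgh y (r / A2)` -/
theorem NDt.rgh_eq (h : NDt P W t' u τ) {n : ℕ} (hO : t'.Ok n) {y : ℕ} (hyn : y ≤ u.n) {q : ℕ}
    {p : ℕ} (hp : p ∈ cols (Step588.subt y τ q)) {r r' : ℕ}
    (hr : r ∈ (Step588.subt y τ q).items) (hr' : r' ∈ (Step588.subt y τ q).items)
    (e : W363.ret t' p r = W363.ret t' p r') :
    rgh y (r / (u.A * ppc y τ q)) = rgh y (r' / (u.A * ppc y τ q)) := by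
  obtain ⟨m, c', -, h2⟩ := h.subt hyn q
  by_cases hl : WalkIT579.isL (Step588.subt y τ q)
  · rw [cols_of_isL hl] at hp; simp at hp
  have hty := tp_subt_lt y q τ hl
  have hpy := (cols_lt _ (Ok_subt y τ q h.self.ok hyn) p hp).2
  refine rgh_congr (h2.div_ne hr) (h2.div_ne hr') fun l hlp hly => ?_
  exact ⟨h2.prime_iff hO hl hty hpy hr hr' e hlp hly,
    h2.prime_iff hO hl hty hpy hr' hr e.symm hlp hly⟩

/-- **mates have the same retained primes `≥ y`** -/
theorem NDt.uq_iff (h : NDt P W t' u τ) {n : ℕ} (hO : t'.Ok n) {y : ℕ} (hyn : y ≤ u.n) {q r r' : ℕ}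
    (hr : r ∈ (Step588.subt y τ q).items) (hr' : r' ∈ (Step588.subt y τ q).items)
    (e : rgh y (r / (u.A * ppc y τ q)) = rgh y (r' / (u.A * ppc y τ q))) {l : ℕ} (hly : y ≤ l) :
    l ∈ t'.uq r ↔ l ∈ t'.uq r' := by
  obtain ⟨m, c', -, h2⟩ := h.subt hyn q
  have hO2 := Ok_subt y τ q h.self.ok hyn
  have key : ∀ a ∈ (Step588.subt y τ q).items, ∀ b ∈ (Step588.subt y τ q).items,
      rgh y (a / (u.A * ppc y τ q)) = rgh y (b / (u.A * ppc y τ q)) → l ∈ t'.uq a →
      l ∈ t'.uq b := by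
    intro a ha b hb e hla
    have hlm : m ≤ l := by
      by_contra hc
      push Not at hc
      have := (h2.uq_lo ha hc).1 hla
      exact absurd (uq_lt hO2 this).2 (not_lt.2 hly)
    have hlp := (uq_lt hO hla).1
    have h3 := h2.rt_dvd ha hla
    have h4 : l ∣ rgh y (a / (u.A * ppc y τ q)) := Finset.dvd_prod_of_mem _
      (Finset.mem_filter.2 ⟨Nat.mem_primeFactors.2 ⟨hlp, h3, h2.div_ne ha⟩, hly⟩)
    rw [e] at h4
    unfold rgh at h4
    obtain ⟨c, hc, hlc⟩ := (hlp.prime.dvd_finsetProd_iff _).1 h4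
    have h5 := Nat.mem_primeFactors.1 (Finset.mem_filter.1 hc).1
    have h6 := (Nat.prime_dvd_prime_iff_eq hlp h5.1).1 hlc
    subst h6
    exact h2.self.ge b hb l hlp hlm h5.2.1
  exact ⟨key r hr r' hr' e, key r' hr' r hr e.symm⟩

end

end Crest.Agent.R4P.Step588
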