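import Crest.Agent.R4.StepUV189
import Crest.Agent.R4P.StepDataB189
import Crest.Agent.R4P.StepFlat588

/-!
R4 (S0004), **(H1) of T9' with powers** (port of helper189's `R4/StepUV189` by helper746): the
decomposition `r / A = u * v` of the moduli.

`uc`, `vc` : common part (rough part times the block starts) and lower part of the modulus at the cut
level `y` (helper393's `Fac`; only `uc w * vc w = w` and divisibilities are used here).

* `sel T y E r l` : the selected primes of the item `r`: `l < y`, or `l` is a retained prime with `E l`.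
* `sP` : product of the selected retained primes `≥ y`; `vN = vc * sP`, `uN = uc / sP`;
  `uN_mul_vN`, `dvd_vN`, `vN_le`.
* `NDt.uN_eq` : mates have the same `uN`; `NDt.uv` : `r / A2 = uN q * vN r` for the mates of `q`;
  `NDt.card_mates`.
* `flw_Wt_vN` : the flat weights are periodic modulo `vN`.
-/

set_option autoImplicit false
set_option linter.unusedSectionVars false
set_option linter.unusedVariables false
open MeasureTheory Filter

namespace Crest.Agent.R4P.Step588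

open Crest.Agent.R4P.Cnt588 Crest.Agent.R4P.Item758
open Crest.Agent.R4.Piece464 Crest.Agent.R4.Om532 Crest.Agent.R4.Ovl560
open Crest.Agent.R4P.Bld532 (NS All NodeOk Bk)

export Crest.Agent.R4.Step588 (dvd_iff_of_rgh)

/-- selected primes of the item `r` -/
def sel (T : IT) (y : ℕ) (E : ℕ → Prop) (r l : ℕ) : Prop := l < y ∨ (l ∈ T.uq r ∧ E l)

open Classical in
/-- product of the selected retained primes `≥ y` of the item `r` -/
noncomputable def sP (T : IT) (y : ℕ) (E : ℕ → Prop) (r : ℕ) : ℕ :=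
  ∏ l ∈ (T.uq r).filter (fun l => y ≤ l ∧ E l), l

/-- selected part of `r / A` -/
noncomputable def vN (vc : ℕ → ℕ) (T : IT) (y : ℕ) (E : ℕ → Prop) (A r : ℕ) : ℕ :=
  vc (r / A) * sP T y E r

/-- the other part of `r / A` -/
noncomputable def uN (uc : ℕ → ℕ) (T : IT) (y : ℕ) (E : ℕ → Prop) (A r : ℕ) : ℕ :=
  uc (r / A) / sP T y E r

section
variable {uc vc : ℕ → ℕ} {T : IT} {y : ℕ} {E : ℕ → Prop} {A r : ℕ}

lemma sP_pos {n : ℕ} (hO : T.Ok n) : 0 < sP T y E r := by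
  classical
  unfold sP
  exact Finset.prod_pos fun l hl => (uq_lt hO (Finset.mem_filter.1 hl).1).1.pos

lemma sP_dvd {n m : ℕ} (hO : T.Ok n) (hu : ∀ l ∈ T.uq r, y ≤ l → l ∣ m) : sP T y E r ∣ m := by
  classical
  unfold sP
  refine Finset.prod_primes_dvd m (fun l hl => ?_) fun l hl => ?_
  · exact (uq_lt hO (Finset.mem_filter.1 hl).1).1.prime
  · obtain ⟨h1, h2, -⟩ := Finset.mem_filter.1 hl
    exact hu l h1 h2

/-- **the decomposition** -/
lemma uN_mul_vN {n : ℕ} (hO : T.Ok n) (hm : uc (r / A) * vc (r / A) = r / A)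
    (hu : ∀ l ∈ T.uq r, y ≤ l → l ∣ uc (r / A)) :
    uN uc T y E A r * vN vc T y E A r = r / A := by
  unfold uN vN
  obtain ⟨k, hk⟩ := sP_dvd (E := E) hO hu
  have h0 := sP_pos (y := y) (E := E) (r := r) hO
  rw [hk, Nat.mul_div_cancel_left k h0]
  calc k * (vc (r / A) * sP T y E r) = sP T y E r * k * vc (r / A) := by ring
    _ = uc (r / A) * vc (r / A) := by rw [← hk]
    _ = r / A := hm

lemma uN_pos {n : ℕ} (hO : T.Ok n) (hm : uc (r / A) * vc (r / A) = r / A)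
    (hu : ∀ l ∈ T.uq r, y ≤ l → l ∣ uc (r / A)) (h0 : r / A ≠ 0) : 0 < uN uc T y E A r := by
  refine Nat.pos_of_ne_zero fun h => h0 ?_
  rw [← uN_mul_vN (E := E) hO hm hu, h, zero_mul]

lemma vN_pos {n : ℕ} (hO : T.Ok n) (hm : uc (r / A) * vc (r / A) = r / A)
    (h0 : r / A ≠ 0) : 0 < vN vc T y E A r := by
  unfold vN
  refine Nat.mul_pos (Nat.pos_of_ne_zero fun h => h0 ?_) (sP_pos hO)
  rw [← hm, h, mul_zero]

/-- a selected prime divides `vN` (`hlow` = 'the block starts leave one factor `l`') -/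
lemma dvd_vN (hlow : ∀ l : ℕ, l.Prime → l < y → l ∣ r / A → l ∣ vc (r / A)) {l : ℕ}
    (hl : l.Prime) (hd : l ∣ r / A) (hs : sel T y E r l) : l ∣ vN vc T y E A r := by
  classical
  unfold vN
  rcases lt_or_ge l y with h | h
  · exact (hlow l hl h hd).mul_right _
  · rcases hs with h1 | h1
    · exact absurd h1 (not_lt.2 h)
    · exact (Finset.dvd_prod_of_mem _ (Finset.mem_filter.2 ⟨h1.1, h, h1.2⟩)).mul_left _

open Classical in
/-- **size of `vN`** -/
lemma vN_le {n PV : ℕ} (hO : T.Ok n) (hv : vc (r / A) ≤ PV) :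
    vN vc T y E A r ≤ PV * ∏ l ∈ (T.uq r).filter E, l := by
  unfold vN sP
  refine Nat.mul_le_mul hv ?_
  refine Finset.prod_le_prod_of_subset_of_one_le' ?_ fun l hl _ =>
    (uq_lt hO (Finset.mem_filter.1 hl).1).1.pos
  intro l hl
  obtain ⟨h1, -, h2⟩ := Finset.mem_filter.1 hl
  exact Finset.mem_filter.2 ⟨h1, h2⟩

/-- **the flat weights are periodic modulo `vN`** -/
lemma flw_Wt_vN (hlow : ∀ l : ℕ, l.Prime → l < y → l ∣ r / A → l ∣ vc (r / A))
    {good : Prop} {ret : Finset ℕ} {Tc : ℕ → Finset ℚ} {u : ℕ → ℤ → ℝ} {w : ℕ}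
    (hw : w ∣ r / A) (hu : LW w.primeFactors u) :
    Wt (vN vc T y E A r) (flw good ret Tc u w (sel T y E r)) := by
  classical
  refine flw_Wt hu fun l hl => ?_
  obtain ⟨h1, h2⟩ := Finset.mem_filter.1 hl
  exact dvd_vN hlow (Nat.prime_of_mem_primeFactors h1)
    ((Nat.dvd_of_mem_primeFactors h1).trans hw) h2

/-- equal common parts: equal rough parts -/
lemma rgh_of_uc {w w' : ℕ} (hw : w ≠ 0) (hw' : w' ≠ 0) (hm : uc w * vc w = w)
    (hm' : uc w' * vc w' = w') (hd : ∀ b : ℕ, b.Prime → y ≤ b → b ∣ w → b ∣ uc w)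
    (hd' : ∀ b : ℕ, b.Prime → y ≤ b → b ∣ w' → b ∣ uc w') (e : uc w = uc w') :
    rgh y w = rgh y w' := by
  have key : ∀ a a' : ℕ, uc a' * vc a' = a' → uc a = uc a' → ∀ b : ℕ, b ∣ uc a → b ∣ a' := by
    intro a a' h1 h2 b h3
    rw [h2] at h3
    rw [← h1]
    exact h3.mul_right _
  unfold rgh
  refine Finset.prod_congr ?_ fun _ _ => rfl
  ext l
  simp only [Finset.mem_filter, Nat.mem_primeFactors]
  constructor
  · rintro ⟨⟨h1, h2, -⟩, h3⟩
    exact ⟨⟨h1, key w w' hm' e l (hd l h1 h3 h2), hw'⟩, h3⟩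
  · rintro ⟨⟨h1, h2, -⟩, h3⟩
    exact ⟨⟨h1, key w' w hm e.symm l (hd' l h1 h3 h2), hw⟩, h3⟩

end

/-! ### mates -/

section
variable {P : Bld532.Par} {W : ℕ → ℝ} {t' : IT} {u : NS} {τ : IT} {uc vc : ℕ → ℕ}

/-- `pp t' r` is divisible by the product of the present ties of the cut node -/
theorem NDt.A2_dvd (h : NDt P W t' u τ) {y : ℕ} (hyn : y ≤ u.n) {q r : ℕ}
    (hr : r ∈ (Step588.subt y τ q).items) : u.A * ppc y τ q ∣ pp t' r := by
  obtain ⟨m, c', -, h2⟩ := h.subt hyn q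
  rw [h2.self.pp r hr]
  exact Dvd.intro _ rfl

/-- the leaf modulus divides `r / A2` -/
theorem NDt.w_dvd (h : NDt P W t' u τ) {y : ℕ} (hyn : y ≤ u.n) {q r : ℕ}
    (hr : r ∈ (Step588.subt y τ q).items) : r / pp t' r ∣ r / (u.A * ppc y τ q) := by
  obtain ⟨m, c', -, h2⟩ := h.subt hyn q
  have e := h2.div_eq hr
  have e' : r / (u.A * ppc y τ q) = pp (Step588.subt y τ q) r * (r / pp t' r) := e
  rw [e']
  exact Dvd.intro_left _ rfl

/-- moduli of the cut node -/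
theorem NDt.cut_ne (h : NDt P W t' u τ) {y : ℕ} (hyn : y ≤ u.n) {q r : ℕ}
    (hr : r ∈ (Step588.subt y τ q).items) : r / (u.A * ppc y τ q) ≠ 0 := by
  obtain ⟨m, c', -, h2⟩ := h.subt hyn q
  exact h2.div_ne hr

/-- the retained primes `≥ y` divide the common part -/
theorem NDt.uq_dvd_uc (h : NDt P W t' u τ) {n : ℕ} (hO : t'.Ok n) {y : ℕ} (hyn : y ≤ u.n)
    {q r : ℕ} (hr : r ∈ (Step588.subt y τ q).items)
    (hd : ∀ b : ℕ, b.Prime → y ≤ b → b ∣ r / (u.A * ppc y τ q) → b ∣ uc (r / (u.A * ppc y τ q))) :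
    ∀ l ∈ t'.uq r, y ≤ l → l ∣ uc (r / (u.A * ppc y τ q)) := by
  obtain ⟨m, c', -, h2⟩ := h.subt hyn q
  intro l hl hy
  exact hd l (uq_lt hO hl).1 hy (h2.rt_dvd hr hl)

/-- **mates have the same `uN`** -/
theorem NDt.uN_eq (h : NDt P W t' u τ) {n : ℕ} (hO : t'.Ok n) {y : ℕ} (hyn : y ≤ u.n)
    (E : ℕ → Prop) {q r r' : ℕ} (hr : r ∈ (Step588.subt y τ q).items)
    (hr' : r' ∈ (Step588.subt y τ q).items)
    (hm : ∀ w, w ≠ 0 → uc w * vc w = w)
    (hd : ∀ w b : ℕ, b.Prime → y ≤ b → b ∣ w → b ∣ uc w)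
    (e : uc (r / (u.A * ppc y τ q)) = uc (r' / (u.A * ppc y τ q))) :
    uN uc t' y E (u.A * ppc y τ q) r = uN uc t' y E (u.A * ppc y τ q) r' := by
  classical
  have h1 := h.cut_ne hyn hr
  have h2 := h.cut_ne hyn hr'
  have e2 := rgh_of_uc (y := y) h1 h2 (hm _ h1) (hm _ h2) (hd _) (hd _) e
  unfold uN sP
  rw [e]
  congr 1
  refine Finset.prod_congr ?_ fun _ _ => rfl
  ext l
  simp only [Finset.mem_filter]
  constructor
  · rintro ⟨a1, a2, a3⟩
    exact ⟨(h.uq_iff hO hyn hr hr' e2 a2).1 a1, a2, a3⟩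
  · rintro ⟨a1, a2, a3⟩
    exact ⟨(h.uq_iff hO hyn hr hr' e2 a2).2 a1, a2, a3⟩

/-- **hv of `item_step`**: `r / A2 = uN q * vN r` for the mates `r` of `q` -/
theorem NDt.uv (h : NDt P W t' u τ) {n : ℕ} (hO : t'.Ok n) {y : ℕ} (hyn : y ≤ u.n)
    (E : ℕ → Prop) {q r : ℕ} (hq : q ∈ τ.items) (hr : r ∈ (Step588.subt y τ q).items)
    (hm : ∀ w, w ≠ 0 → uc w * vc w = w)
    (hd : ∀ w b : ℕ, b.Prime → y ≤ b → b ∣ w → b ∣ uc w)
    (e : uc (r / (u.A * ppc y τ q)) = uc (q / (u.A * ppc y τ q))) :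
    r / (u.A * ppc y τ q) =
      uN uc t' y E (u.A * ppc y τ q) q * vN vc t' y E (u.A * ppc y τ q) r := by
  rw [← h.uN_eq hO hyn E hr (mem_subt y τ hq) hm hd e]
  exact (uN_mul_vN hO (hm _ (h.cut_ne hyn hr)) (h.uq_dvd_uc hO hyn hr (hd _))).symm

/-- **hNR of `item_step`** -/
theorem NDt.card_mates (h : NDt P W t' u τ) {y : ℕ} (hyn : y ≤ u.n) (q g : ℕ) {PV : ℕ}
    (hPV : 0 < PV) (hm : ∀ w, w ≠ 0 → uc w * vc w = w)
    (hv : ∀ r ∈ (Step588.subt y τ q).items, vc (r / (u.A * ppc y τ q)) ∣ PV) :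
    ((Step588.subt y τ q).items.filter fun r => uc (r / (u.A * ppc y τ q)) = g).card ≤ PV := by
  classical
  obtain ⟨m, c', -, h2⟩ := h.subt hyn q
  refine le_trans ?_ (Nat.card_divisors_le_self PV)
  refine Finset.card_le_card_of_injOn (fun r => vc (r / (u.A * ppc y τ q))) ?_ ?_
  · intro r hr
    have hr' := Finset.mem_filter.1 (Finset.mem_coe.1 hr)
    exact Finset.mem_coe.2 (Nat.mem_divisors.2 ⟨hv r hr'.1, hPV.ne'⟩)
  · intro r hr s hs hrs
    have hr' := Finset.mem_filter.1 (Finset.mem_coe.1 hr)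
    have hs' := Finset.mem_filter.1 (Finset.mem_coe.1 hs)
    have e1 := hm _ (h.cut_ne hyn hr'.1)
    have e2 := hm _ (h.cut_ne hyn hs'.1)
    have hrs' : vc (r / (u.A * ppc y τ q)) = vc (s / (u.A * ppc y τ q)) := hrs
    rw [hr'.2, hrs'] at e1
    rw [hs'.2] at e2
    have e3 : r / (u.A * ppc y τ q) = s / (u.A * ppc y τ q) := e1.symm.trans e2
    have d1 : u.A * ppc y τ q ∣ r := h2.bk.dvd r hr'.1
    have d2 : u.A * ppc y τ q ∣ s := h2.bk.dvd s hs'.1
    rw [← Nat.mul_div_cancel' d1, ← Nat.mul_div_cancel' d2, e3]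

end

end Crest.Agent.R4P.Step588
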