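import Crest.Agent.R4P.Chi464e
import Crest.Agent.R4P.Chi464c
import Crest.Agent.R4P.StepUV189

/-!
R4 (S0004), powers, port of helper464's `Chi464f` (helper393): closed exclusion, part 6: **the weights `omX` satisfy `OmRel` and `OmSm`**.

* `XD` : a family with the weights `omX` on pieces adapted to the breakpoints.
* `flX` : the flat weights (only the primes `< y` and the `up` primes `b` with `PP b < y`).
* `XD.rel` : `OmRel` (non-leaf cut), `XD.sm` : `OmSm` for the flat family.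
-/

set_option autoImplicit false
set_option linter.unusedSectionVars false
set_option linter.unusedVariables false

namespace Crest.Agent.R4P.Chi464

open Crest.Agent.R4P.Fac393 (Fac)
open Crest.Agent.R4.Ovl560 (nw)
open Crest.Agent.R4P.W363 Crest.Agent.R4P.Om532 Crest.Agent.R4P.OmSt532 Crest.Agent.R4P.Item758
open Crest.Agent.R4P.Cnt588 Crest.Agent.R4.Max709 Crest.Agent.R4.Tour104 Crest.Agent.R4P.Step588
open Crest.Agent.R4.Item464 Crest.Agent.R4.Piece464
open Crest.Agent.R4P.Bld532 Crest.Agent.R4P.PrunePar33 Crest.Agent.R4.LF363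
open Crest.Agent.R4P.Data758
open Crest.Agent.R4.Soft104 Crest.Agent.R4P.PruneSep532 Crest.Agent.R4P.OmData532

section
variable {Λ κ : Type*}
variable {Fc : Fac} {D : Par Λ κ} {R : ℕ → ℝ} {S' : Finset ℕ} {Tc : ℕ → ℕ → Finset ℚ} {T : IT}
  {PP : ℕ → ℕ} {th ph : ℕ → ℝ} {lab : ℕ → Option ℚ} {n : ℕ}

/-- a family with the weights `omX`, on pieces adapted to the breakpoints -/
structure XD (Fc : Fac) (D : Par Λ κ) (R : ℕ → ℝ) (S' : Finset ℕ) (Tc : ℕ → ℕ → Finset ℚ) (T : IT)
    (PP : ℕ → ℕ) (th ph : ℕ → ℝ) (lab : ℕ → Option ℚ) (n : ℕ) : Prop where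
  root : Root T n
  om : ∀ j, D.om j = omX Fc D.γ R S' Tc T PP th ph lab (D.it j) (D.al j)
  lo : ∀ j, -R (D.it j) ≤ D.al j
  hi : ∀ j, D.be j ≤ R (D.it j)
  bx : ∀ j, ∀ b ∈ T.uq (D.it j), ∀ β ∈ bx1 Fc D.γ R T (PP b) (D.it j), D.al j < β → β < D.be j →
    False
  dvd : ∀ q ∈ T.items, pp T q ∣ q
  rd : ∀ q ∈ T.items, ∀ b ∈ rt T q, b ∣ q / pp T q
  prm : ∀ q ∈ T.items, ∀ b ∈ T.uq q, b.Prime
  PP : ∀ b, PP b ≤ b

open Classical in
/-- **the flat weights** -/
noncomputable def flX (Fc : Fac) (D : Par Λ κ) (R : ℕ → ℝ) (S' : Finset ℕ) (Tc : ℕ → ℕ → Finset ℚ) (T : IT)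
    (PP : ℕ → ℕ) (th ph : ℕ → ℝ) (lab : ℕ → Option ℚ) (y : ℕ) (j : Λ) : ℤ → ℝ :=
  flw (D.it j ∈ S') (rt T (D.it j)) (Tz Fc D.γ R S' Tc T PP (D.al j) (D.it j))
    (uw (th (D.it j)) (ph (D.it j)) (lab (D.it j))) (D.it j / pp T (D.it j))
    (sel T y (fun b => PP b < y) (D.it j))

variable (h : XD Fc D R S' Tc T PP th ph lab n)
include h

lemma XD.b_dvd_A2 {q b : ℕ} (hq : q ∈ T.items) (hb : b ∈ T.uq q) (P : ℕ) :
    b ∣ q / ppc P T q := by
  have h1 := h.rd q hq b hb
  have h2 := pp_cut P T q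
  have h3 := h.dvd q hq
  have hq0 : 0 < q := (h.root.fit.item q hq).1
  have hp0 := ppc_pos P T q h.root.ok
  refine h1.trans ?_
  obtain ⟨k, hk⟩ := h3
  have hpp0 : 0 < pp T q := Nat.pos_of_dvd_of_pos (Dvd.intro k hk.symm) hq0
  have e1 : q / pp T q = k := Nat.div_eq_of_eq_mul_right hpp0 hk
  have e2 : q / ppc P T q = pp (subt P T q) q * k := by
    refine Nat.div_eq_of_eq_mul_right hp0 ?_
    rw [← mul_assoc, ← h2]; exact hk
  rw [e1, e2]
  exact Dvd.intro_left _ rfl

/-- the local weight at an `up` prime -/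
lemma XD.cls_up {j : Λ} (hj : D.it j ∈ T.items) (hjS : D.it j ∈ S') (hlt : D.al j < D.be j) {b : ℕ}
    (hb : b ∈ T.uq (D.it j)) (a : ℤ) :
    (cls (Tz Fc D.γ R S' Tc T PP (D.al j) (D.it j) b) b a = 0 ↔
      Bd Fc D.γ R S' Tc T (PP b) b (D.it j) (zp D.γ T (PP b) (D.it j) (D.al j) a)) ∧
    (¬ Bd Fc D.γ R S' Tc T (PP b) b (D.it j) (zp D.γ T (PP b) (D.it j) (D.al j) a) →
      cls (Tz Fc D.γ R S' Tc T PP (D.al j) (D.it j) b) b a = 1) :=
  (h.root.cutOk (PP b) hj).cls_Tz (h.prm _ hj b hb) (h.PP b) (h.b_dvd_A2 hj hb (PP b)) PP rfl hb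
    hjS (h.lo j) (hlt.trans_le (h.hi j)) a

lemma XD.cls_sep {q b : ℕ} (hq : q ∈ T.items) (hb : b ∈ rt T q) (hu : b ∉ T.uq q) (z : ℝ)
    (a : ℤ) : cls (Tz Fc D.γ R S' Tc T PP z q b) b a = 1 := absurd hb hu

lemma XD.cst : ∀ j, D.it j ∈ T.items → ∀ b ∈ T.uq (D.it j), ∀ o a, D.al j ≤ o → o < D.be j →
    (Bd Fc D.γ R S' Tc T (PP b) b (D.it j) (zp D.γ T (PP b) (D.it j) o a) ↔
      Bd Fc D.γ R S' Tc T (PP b) b (D.it j) (zp D.γ T (PP b) (D.it j) (D.al j) a)) := by
  intro j hj b hb o a h1 h2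
  exact (h.root.cutOk (PP b) hj).Bd_const (h.lo j) (h.hi j) h1 h2 (h.bx j b hb) a

open Classical in
/-- **`OmRel`** for a non-leaf cut -/
theorem XD.rel {y : ℕ} {T' : Finset ℕ} (hT' : T' ⊆ T.items)
    (hge : ∀ r ∈ T', ∀ l : ℕ, l.Prime → y ≤ l → l ∣ r / pp T r → l ∈ rt T r) :
    OmRel Fc D R S' Tc T PP y T' (flX Fc D R S' Tc T PP th ph lab y) where
  bad := by
    intro j a hj hlt b hb hyb hBd
    have hjT := hT' hj
    rw [h.om j]
    unfold omX omT omw
    split_ifs with hS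
    · unfold nw
      have hbp := h.prm _ hjT b hb
      have hbr : b ∈ rt T (D.it j) := hb
      have hq0 : 0 < D.it j := (h.root.fit.item _ hjT).1
      have hw0 : D.it j / pp T (D.it j) ≠ 0 := by
        have := Nat.div_pos (Nat.le_of_dvd hq0 (h.dvd _ hjT))
          (Nat.pos_of_dvd_of_pos (h.dvd _ hjT) hq0)
        omega
      refine Finset.prod_eq_zero (i := b) (Nat.mem_primeFactors.2 ⟨hbp, h.rd _ hjT b hbr, hw0⟩) ?_
      unfold locw
      rw [if_pos hbr]
      exact (h.cls_up hjT hS hlt hb a).1.2 hBd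
    · rfl
  good := by
    intro j a hj hlt hfree
    have hjT := hT' hj
    rw [h.om j]
    unfold omX omT omw flX flw
    split_ifs with hS
    · unfold nw
      rw [← Finset.prod_filter_mul_prod_filter_not (D.it j / pp T (D.it j)).primeFactors
        (sel T y (fun b => PP b < y) (D.it j))]
      have h1 : ∏ l ∈ (D.it j / pp T (D.it j)).primeFactors.filter
          (fun l => ¬ sel T y (fun b => PP b < y) (D.it j) l),
          locw (rt T (D.it j)) (Tz Fc D.γ R S' Tc T PP (D.al j) (D.it j))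
            (uw (th (D.it j)) (ph (D.it j)) (lab (D.it j))) l a = 1 := by
        refine Finset.prod_eq_one fun l hl => ?_
        obtain ⟨hl1, hl2⟩ := Finset.mem_filter.1 hl
        have hlp := Nat.prime_of_mem_primeFactors hl1
        have hld := Nat.dvd_of_mem_primeFactors hl1
        unfold sel at hl2
        push Not at hl2
        have hlr := hge _ hj l hlp hl2.1 hld
        unfold locw
        rw [if_pos hlr]
        by_cases hu : l ∈ T.uq (D.it j)
        · exact (h.cls_up hjT hS hlt hu a).2 (hfree l hu (hl2.2 hu))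
        · exact h.cls_sep hjT hlr hu _ a
      rw [h1, mul_one]
    · rfl
  cst := h.cst

/-- **`OmSm`** for the flat family -/
theorem XD.sm (y : ℕ) :
    OmSm Fc (D.flat (flX Fc D R S' Tc T PP th ph lab y)) R S' Tc T PP y where
  eq := by
    classical
    intro j k hj hkj hlj hlk a hst
    have hj' : D.it j ∈ T.items := hj
    have hkj' : D.it k = D.it j := hkj
    have hlj' : D.al j < D.be j := hlj
    have hlk' : D.al k < D.be k := hlk
    show flX Fc D R S' Tc T PP th ph lab y j a = flX Fc D R S' Tc T PP th ph lab y k a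
    unfold flX flw
    rw [hkj']
    split_ifs with hS
    · unfold nw
      refine Finset.prod_congr rfl fun l hl => ?_
      obtain ⟨hl1, hl2⟩ := Finset.mem_filter.1 hl
      unfold locw
      by_cases hlr : l ∈ rt T (D.it j)
      · rw [if_pos hlr, if_pos hlr]
        by_cases hu : l ∈ T.uq (D.it j)
        · have hP : PP l ≤ y := by
            rcases hl2 with h1 | h1
            · exact (h.PP l).trans h1.le
            · exact h1.2.le
          have hs : Bd Fc D.γ R S' Tc T (PP l) l (D.it j) (zp D.γ T (PP l) (D.it j) (D.al j) a) ↔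
              Bd Fc D.γ R S' Tc T (PP l) l (D.it j) (zp D.γ T (PP l) (D.it j) (D.al k) a) :=
            hst l hu hP
          have c1 := h.cls_up hj' hS hlj' hu a
          have c2 := h.cls_up (j := k) (by rw [hkj']; exact hj') (by rw [hkj']; exact hS) hlk'
            (b := l) (by rw [hkj']; exact hu) a
          rw [hkj'] at c2
          by_cases hB : Bd Fc D.γ R S' Tc T (PP l) l (D.it j)
            (zp D.γ T (PP l) (D.it j) (D.al j) a)
          · rw [c1.1.2 hB, c2.1.2 (hs.1 hB)]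
          · rw [c1.2 hB, c2.2 (fun hh => hB (hs.2 hh))]
        · rw [h.cls_sep hj' hlr hu, h.cls_sep hj' hlr hu]
      · rw [if_neg hlr, if_neg hlr]
    · rfl
  cst := h.cst

end

end Crest.Agent.R4P.Chi464
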