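import Crest.Agent.R4.StepAlv588

/-!
R4 (S0004), powers, helper393: **common part and lower part at a cut level**.

`Fac` : an abstract factorisation `w = uc y w * vc y w`; mates at the level `y` = same `uc`.
`Fac.blk σ` : the instance with exponent blocks (helper153, #15609 (E1)): primes `≥ y` with their full
power, primes `l < y` with the start of the exponent block of length `8 ^ clog2 y`, shifts `σ l`.
-/

set_option autoImplicit false

namespace Crest.Agent.R4P.Fac393

open Crest.Agent.R4.Step588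

/-- **a factorisation in common part and lower part** -/
structure Fac where
  /-- common part -/
  uc : ℕ → ℕ → ℕ
  /-- lower part -/
  vc : ℕ → ℕ → ℕ
  /-- common multiple of the lower parts -/
  PV : ℕ → ℕ
  PV0 : ∀ y, 0 < PV y
  mul : ∀ y w, w ≠ 0 → uc y w * vc y w = w
  dvdu : ∀ {y w b : ℕ}, w ≠ 0 → b.Prime → y ≤ b → b ∣ w → b ∣ uc y w
  up : ∀ {P y a a' π : ℕ}, P ≤ y → a ≠ 0 → a' ≠ 0 → π ≠ 0 → (∀ l, l.Prime → l ∣ π → P ≤ l) →
    uc P a = uc P a' → uc y (a * π) = uc y (a' * π)
  vdvd : ∀ {y w m : ℕ}, w ≠ 0 → m ∣ pml y → vc y w * m ∣ PV y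
  PVm : ∀ {P y m : ℕ}, P ≤ y → m * pml P ∣ pml y → m * PV P ∣ PV y
  cop : ∀ {y b : ℕ}, b.Prime → y ≤ b → Nat.Coprime b (PV y)
  size : ∀ y, 1 ≤ y → PV y ≤ 4 ^ (8 * y ^ 4)

/-! ### exponent blocks -/

/-- start of the block of the exponent `v` (shift `s`, scale `k`) -/
def bst (s k v : ℕ) : ℕ := 8 ^ k * ((v + s) / 8 ^ k) - s

lemma bst_le (s k v : ℕ) : bst s k v ≤ v := by
  unfold bst
  have := Nat.mul_div_le (v + s) (8 ^ k)
  omega

lemma sub_bst_lt (s k v : ℕ) : v - bst s k v < 8 ^ k := by
  unfold bst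
  have h0 : 0 < 8 ^ k := by positivity
  have h1 := Nat.lt_mul_div_succ (v + s) h0
  have h2 : 8 ^ k * ((v + s) / 8 ^ k + 1) = 8 ^ k * ((v + s) / 8 ^ k) + 8 ^ k := by ring
  omega

/-- the truncation loses nothing -/
lemma bst_eq_iff {s k v v' : ℕ} : bst s k v = bst s k v' ↔ (v + s) / 8 ^ k = (v' + s) / 8 ^ k := by
  unfold bst
  constructor
  · intro h
    have h0 : 0 < 8 ^ k := by positivity
    by_contra hne
    have key : ∀ a b : ℕ, (a + s) / 8 ^ k < (b + s) / 8 ^ k →
        8 ^ k * ((a + s) / 8 ^ k) - s < 8 ^ k * ((b + s) / 8 ^ k) - s := by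
      intro a b hab
      have h1 : 8 ^ k * ((a + s) / 8 ^ k) + 8 ^ k ≤ 8 ^ k * ((b + s) / 8 ^ k) := by
        have := Nat.mul_le_mul_left (8 ^ k) (Nat.succ_le_of_lt hab)
        rw [Nat.succ_eq_add_one, mul_add, mul_one] at this
        exact this
      have h2 : s / 8 ^ k ≤ (a + s) / 8 ^ k := Nat.div_le_div_right (by omega)
      have h3 : 8 ^ k * (s / 8 ^ k + 1) ≤ 8 ^ k * ((b + s) / 8 ^ k) :=
        Nat.mul_le_mul_left _ (by omega)
      have h4 := Nat.lt_mul_div_succ s h0
      omega
    rcases Nat.lt_or_gt_of_ne hne with hl | hl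
    · have := key _ _ hl; omega
    · have := key _ _ hl; omega
  · intro h; rw [h]

/-- the blocks are nested -/
lemma bst_mono {s k k' v v' : ℕ} (hk : k ≤ k') (h : bst s k v = bst s k v') :
    bst s k' v = bst s k' v' := by
  rw [bst_eq_iff] at h ⊢
  obtain ⟨d, rfl⟩ := Nat.exists_eq_add_of_le hk
  rw [pow_add, ← Nat.div_div_eq_div_mul, ← Nat.div_div_eq_div_mul, h]

section
variable (σ : ℕ → ℕ)

/-- exponent of `l` in the common part -/
def ee (y l v : ℕ) : ℕ := if y ≤ l then v else bst (σ l) (Nat.clog 2 y) v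

lemma ee_le (y l v : ℕ) : ee σ y l v ≤ v := by
  unfold ee
  split_ifs
  · exact le_rfl
  · exact bst_le _ _ _

lemma ee_up {P y l v v' : ℕ} (hP : P ≤ y) (h : ee σ P l v = ee σ P l v') :
    ee σ y l v = ee σ y l v' := by
  unfold ee at *
  by_cases h1 : y ≤ l
  · rw [if_pos h1, if_pos h1]
    rwa [if_pos (hP.trans h1), if_pos (hP.trans h1)] at h
  · rw [if_neg h1, if_neg h1]
    by_cases h2 : P ≤ l
    · rw [if_pos h2, if_pos h2] at h
      rw [h]
    · rw [if_neg h2, if_neg h2] at h
      exact bst_mono (Nat.clog_mono_right 2 hP) h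

/-- exponents of the common part -/
noncomputable def ucf (y w : ℕ) : ℕ →₀ ℕ :=
  Finsupp.onFinset w.primeFactors (fun l => ee σ y l (w.factorization l)) (by
    intro l hl
    rw [← Nat.support_factorization, Finsupp.mem_support_iff]
    intro h0
    exact hl (Nat.le_zero.1 (h0 ▸ ee_le σ y l _)))

/-- **common part** -/
noncomputable def ucB (y w : ℕ) : ℕ := (ucf σ y w).prod (· ^ ·)

lemma factorization_ucB (y w l : ℕ) :
    (ucB σ y w).factorization l = ee σ y l (w.factorization l) := by
  unfold ucB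
  have h : ∀ p ∈ (ucf σ y w).support, Nat.Prime p := by
    intro p hp
    have := Finsupp.support_onFinset_subset hp
    exact Nat.prime_of_mem_primeFactors this
  rw [Nat.prod_pow_factorization_eq_self h]
  rfl

lemma ucB_ne_zero (y w : ℕ) : ucB σ y w ≠ 0 := by
  unfold ucB
  rw [Finsupp.prod]
  refine Finset.prod_ne_zero_iff.2 fun l hl => pow_ne_zero _ ?_
  have := Finsupp.support_onFinset_subset hl
  exact (Nat.prime_of_mem_primeFactors this).ne_zero

lemma ucB_dvd {w : ℕ} (y : ℕ) (hw : w ≠ 0) : ucB σ y w ∣ w := by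
  rw [← Nat.factorization_le_iff_dvd (ucB_ne_zero σ y w) hw]
  intro l
  rw [factorization_ucB]
  exact ee_le σ _ _ _

/-- **lower part** -/
noncomputable def vcB (y w : ℕ) : ℕ := w / ucB σ y w

lemma ucB_mul_vcB {w : ℕ} (y : ℕ) (hw : w ≠ 0) : ucB σ y w * vcB σ y w = w :=
  Nat.mul_div_cancel' (ucB_dvd σ y hw)

lemma vcB_ne_zero {w : ℕ} (y : ℕ) (hw : w ≠ 0) : vcB σ y w ≠ 0 := by
  intro h
  have := ucB_mul_vcB σ y hw
  rw [h, mul_zero] at this
  exact hw this.symm

lemma factorization_vcB {w : ℕ} (y l : ℕ) (hw : w ≠ 0) :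
    (vcB σ y w).factorization l = w.factorization l - ee σ y l (w.factorization l) := by
  unfold vcB
  rw [Nat.factorization_div (ucB_dvd σ y hw), Finsupp.tsub_apply, factorization_ucB]

end

lemma factorization_pml {y l : ℕ} (hl : l.Prime) (h : l < y) : 1 ≤ (pml y).factorization l := by
  rw [← Nat.Prime.dvd_iff_one_le_factorization hl (pml_pos y).ne']
  exact Finset.dvd_prod_of_mem _ (Finset.mem_filter.2 ⟨Finset.mem_range.2 h, hl⟩)

lemma not_dvd_pml {y l : ℕ} (hl : l.Prime) (h : y ≤ l) : ¬ l ∣ pml y := by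
  unfold pml
  rw [hl.prime.dvd_finsetProd_iff]
  rintro ⟨q, hq, hd⟩
  rw [Finset.mem_filter, Finset.mem_range] at hq
  have := (Nat.prime_dvd_prime_iff_eq hl hq.2).1 hd
  omega

lemma factorization_pml_le (y l : ℕ) : (pml y).factorization l ≤ 1 := by
  by_cases hl : l.Prime
  · by_cases h : l < y
    · unfold pml
      rw [Nat.factorization_prod (fun q hq => (Finset.mem_filter.1 hq).2.ne_zero),
        Finsupp.finsetSum_apply]
      rw [Finset.sum_eq_single l]
      · rw [Nat.Prime.factorization_self hl]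
      · intro q hq hne
        rw [Nat.Prime.factorization (Finset.mem_filter.1 hq).2, Finsupp.single_apply, if_neg hne]
      · intro hn
        exact absurd (Finset.mem_filter.2 ⟨Finset.mem_range.2 h, hl⟩) hn
    · rw [Nat.factorization_eq_zero_of_not_dvd (not_dvd_pml hl (not_lt.1 h))]
      exact Nat.zero_le _
  · rw [Nat.factorization_eq_zero_of_not_prime _ hl]
    exact Nat.zero_le _

lemma pml_le_pow (y : ℕ) : pml y ≤ 4 ^ y := by
  have : pml y ≤ primorial y := by
    unfold pml primorial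
    refine Finset.prod_le_prod_of_subset_of_one_le' ?_ fun q hq _ => ?_
    · intro q hq
      rw [Finset.mem_filter, Finset.mem_range] at hq ⊢
      exact ⟨by omega, hq.2⟩
    · exact (Finset.mem_filter.1 hq).2.one_lt.le
  exact this.trans (primorial_le_four_pow y)

/-- **exponent blocks** -/
noncomputable def Fac.blk (σ : ℕ → ℕ) : Fac where
  uc := ucB σ
  vc := vcB σ
  PV := fun y => pml y ^ 8 ^ Nat.clog 2 y
  PV0 := fun y => pow_pos (pml_pos y) _
  mul := fun y w hw => ucB_mul_vcB σ y hw
  dvdu := by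
    intro y w b hw hb hyb hd
    rw [Nat.Prime.dvd_iff_one_le_factorization hb (ucB_ne_zero σ y w), factorization_ucB]
    unfold ee
    rw [if_pos hyb]
    exact (Nat.Prime.dvd_iff_one_le_factorization hb hw).1 hd
  up := by
    intro P y a a' π hP ha ha' hπ hpr h
    refine Nat.eq_of_factorization_eq (ucB_ne_zero σ _ _) (ucB_ne_zero σ _ _) fun l => ?_
    rw [factorization_ucB, factorization_ucB, Nat.factorization_mul ha hπ,
      Nat.factorization_mul ha' hπ, Finsupp.add_apply, Finsupp.add_apply]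
    have hl : ee σ P l (a.factorization l) = ee σ P l (a'.factorization l) := by
      rw [← factorization_ucB, ← factorization_ucB, h]
    by_cases hd : l.Prime ∧ l ∣ π
    · have hPl := hpr l hd.1 hd.2
      have h1 : a.factorization l = a'.factorization l := by
        unfold ee at hl
        rwa [if_pos hPl, if_pos hPl] at hl
      rw [h1]
    · have h0 : π.factorization l = 0 := by
        by_cases hlp : l.Prime
        · exact Nat.factorization_eq_zero_of_not_dvd fun hh => hd ⟨hlp, hh⟩
        · exact Nat.factorization_eq_zero_of_not_prime _ hlp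
      rw [h0, add_zero, add_zero]
      exact ee_up σ hP hl
  vdvd := by
    intro y w m hw hm
    have hm0 : m ≠ 0 := fun h => (pml_pos y).ne' (Nat.eq_zero_of_zero_dvd (h ▸ hm))
    rw [← Nat.factorization_le_iff_dvd (mul_ne_zero (vcB_ne_zero σ y hw) hm0)
      (pow_pos (pml_pos y) _).ne']
    intro l
    rw [Nat.factorization_mul (vcB_ne_zero σ y hw) hm0, Nat.factorization_pow, Finsupp.add_apply,
      Finsupp.smul_apply, smul_eq_mul, factorization_vcB σ y l hw]
    by_cases hl : l.Prime
    · by_cases hly : y ≤ l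
      · have h1 : m.factorization l = 0 := Nat.factorization_eq_zero_of_not_dvd fun hh =>
          not_dvd_pml hl hly (hh.trans hm)
        rw [h1]
        unfold ee
        rw [if_pos hly]
        omega
      · have h1 : m.factorization l ≤ 1 :=
          ((Nat.factorization_le_iff_dvd hm0 (pml_pos y).ne').2 hm l).trans
            (factorization_pml_le y l)
        have h2 := factorization_pml hl (not_le.1 hly)
        unfold ee
        rw [if_neg hly]
        have h3 := sub_bst_lt (σ l) (Nat.clog 2 y) (w.factorization l)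
        have h4 : 8 ^ Nat.clog 2 y * 1 ≤ 8 ^ Nat.clog 2 y * (pml y).factorization l :=
          Nat.mul_le_mul_left _ h2
        omega
    · rw [Nat.factorization_eq_zero_of_not_prime _ hl, Nat.factorization_eq_zero_of_not_prime _ hl]
      omega
  PVm := by
    intro P y m hP hm
    have h1 : 8 ^ Nat.clog 2 P ≤ 8 ^ Nat.clog 2 y :=
      Nat.pow_le_pow_right (by norm_num) (Nat.clog_mono_right 2 hP)
    refine Dvd.dvd.trans ?_ (pow_dvd_pow_of_dvd hm _)
    rw [mul_pow]
    exact mul_dvd_mul (dvd_pow_self _ (by positivity)) (pow_dvd_pow _ h1)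
  cop := by
    intro y b hb hyb
    refine Nat.Coprime.pow_right _ ?_
    rw [hb.coprime_iff_not_dvd]
    exact not_dvd_pml hb hyb
  size := by
    intro y hy
    have h1 : 8 ^ Nat.clog 2 y ≤ 8 * y ^ 3 := by
      rcases Nat.eq_or_lt_of_le hy with rfl | hy1
      · simp
      · have h2 : 2 ^ (Nat.clog 2 y - 1) < y := by
          have := Nat.pow_pred_clog_lt_self (b := 2) (by norm_num) hy1
          simpa using this
        have h3 : 0 < Nat.clog 2 y := Nat.clog_pos (by norm_num) (by omega)
        have h4 : 8 ^ Nat.clog 2 y = 8 * (2 ^ (Nat.clog 2 y - 1)) ^ 3 := by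
          obtain ⟨k, hk⟩ : ∃ k, Nat.clog 2 y = k + 1 := ⟨Nat.clog 2 y - 1, by omega⟩
          rw [hk, Nat.add_sub_cancel, pow_succ, ← pow_mul, mul_comm k 3, pow_mul]
          norm_num
          ring
        rw [h4]
        exact Nat.mul_le_mul_left _ (Nat.pow_le_pow_left h2.le 3)
    calc pml y ^ 8 ^ Nat.clog 2 y ≤ (4 ^ y) ^ 8 ^ Nat.clog 2 y :=
          Nat.pow_le_pow_left (pml_le_pow y) _
      _ = 4 ^ (y * 8 ^ Nat.clog 2 y) := by rw [pow_mul]
      _ ≤ 4 ^ (y * (8 * y ^ 3)) := Nat.pow_le_pow_right (by norm_num) (Nat.mul_le_mul_left _ h1)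
      _ = 4 ^ (8 * y ^ 4) := by ring_nf

end Crest.Agent.R4P.Fac393
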