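import Crest.Agent.R4P.OmData532
import Crest.Agent.R4P.LfDatA734

/-!
R4 (S0004), powers pass, port of helper734's `R4/LfDat734`, part B: **the leaf weights** (`rt = uq`,
no squarefree hypotheses, `G` kept as an argument).

* `etaL`: width of the leaf cells, `stL`, `thL`, `phL`, `labL`: state, target, label radius, class
  label of an item at its leaf, `omL`: the leaf weights, `LeafF.omL_le`, `LeafF.G_le`, `LeafF.stL_eq`.
-/

set_option autoImplicit false
set_option linter.unusedSectionVars false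

namespace Crest.Agent.R4P.LfDat734

open Crest.Agent.R4P.Cnt588 Crest.Agent.R4P.Item758 Crest.Agent.R4P.W363 Crest.Agent.R4.LF363
open Crest.Agent.R4P.Bld532 (NS All NodeOk Bk)
open Crest.Agent.R4P.Data758 Crest.Agent.R4P.OmData532 Crest.Agent.R4P.Om532
open Crest.Agent.R4.Ovl560 (nw)
open Crest.Agent.R4.Piece464 (Wt)

/-- relative width of the cells at level `p` -/
noncomputable def etaL (P : WP) (p : ℕ) : ℝ := 2 / 2 ^ (P.dep p)

lemma etaL_pos (P : WP) (p : ℕ) : 0 < etaL P p := by unfold etaL; positivity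

lemma exp_le_etaL (P : WP) (p : ℕ) : Real.exp (1 / 2 ^ (P.dep p)) - 1 ≤ etaL P p := by
  have h : (1 : ℝ) / 2 ^ (P.dep p) ≤ 1 := by
    rw [div_le_one (by positivity)]; exact one_le_pow₀ (by norm_num)
  have h0 : (0 : ℝ) ≤ 1 / 2 ^ (P.dep p) := by positivity
  set x : ℝ := 1 / 2 ^ (P.dep p) with hx
  have e : etaL P p = 2 * x := by unfold etaL; rw [hx]; ring
  rw [e]
  have := Real.abs_exp_sub_one_le (x := x) (by rw [abs_of_nonneg h0]; exact h)
  rw [abs_of_nonneg h0] at this
  exact (le_abs_self _).trans this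

open Classical in
/-- the label of the target `θ` at the radius `φ` (`none` if there is none) -/
noncomputable def lcl (θ φ : ℝ) : Option ℚ :=
  if h : ∃ ρ : ℚ, Lab θ φ ρ then some h.choose else none

lemma lcl_iff {θ φ : ℝ} {ρ : ℚ} : lcl θ φ = some ρ ↔ Lab θ φ ρ := by
  classical
  unfold lcl
  constructor
  · intro h
    split_ifs at h with hex
    have := hex.choose_spec
    rwa [Option.some.inj h] at this
  · intro h
    have hex : ∃ ρ : ℚ, Lab θ φ ρ := ⟨ρ, h⟩
    rw [dif_pos hex, lab_unique hex.choose_spec h]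

section
variable (P : WP) (γ : ℝ) (r : ℕ → ℝ) (t : IT) (l : ℕ → ℕ)

/-- state of an item at its leaf -/
noncomputable def stL (q : ℕ) : Option ℚ := P.st γ r t (l q) q

/-- target on the leaf circle -/
noncomputable def thL (q : ℕ) : ℝ := mp t q * γ

open Classical in
/-- radius of the class label on the leaf circle -/
noncomputable def phL (q : ℕ) : ℝ :=
  if (stL P γ r t l q).isSome then mp t q * r q else etaL P (l q) * (mp t q * r q)

/-- class label on the leaf circle -/
noncomputable def labL (q : ℕ) : Option ℚ :=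
  match stL P γ r t l q with
  | some σ => some (mp t q * σ)
  | none => lcl (mp t q * γ) (etaL P (l q) * (mp t q * r q))

variable {P γ r t l}

lemma phL_some {q : ℕ} {σ : ℚ} (h : stL P γ r t l q = some σ) :
    phL P γ r t l q = mp t q * r q := by unfold phL; rw [h]; simp

lemma phL_none {q : ℕ} (h : stL P γ r t l q = none) :
    phL P γ r t l q = etaL P (l q) * (mp t q * r q) := by unfold phL; rw [h]; simp

lemma labL_some {q : ℕ} {σ : ℚ} (h : stL P γ r t l q = some σ) :
    labL P γ r t l q = some (mp t q * σ) := by unfold labL; rw [h]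

lemma labL_none {q : ℕ} (h : stL P γ r t l q = none) :
    labL P γ r t l q = lcl (mp t q * γ) (etaL P (l q) * (mp t q * r q)) := by
  unfold labL; rw [h]

end

/-- **the leaf weights**: classes of the states at the columns (`wp`) and of the leaf label at the
`up` primes, leaf rule at the leaf primes -/
noncomputable def omL (wp wpL : WP) (γ : ℝ) (r : ℕ → ℝ) (t : IT) (l : ℕ → ℕ) (S' : Finset ℕ) :
    ℕ → ℤ → ℝ :=
  omT t S' (TE wp γ r t t.uq (labL wpL γ r t l)) (thL γ t) (phL wpL γ r t l) (labL wpL γ r t l)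

lemma omL_of_not_mem {wp wpL : WP} {γ : ℝ} {r : ℕ → ℝ} {t : IT} {l : ℕ → ℕ} {S' : Finset ℕ} {q : ℕ}
    (h : q ∉ S') (a : ℤ) : omL wp wpL γ r t l S' q a = 0 := omT_of_not_mem h a

lemma card_omL (wp wpL : WP) (γ : ℝ) (r : ℕ → ℝ) (t : IT) (l : ℕ → ℕ) (q b : ℕ) :
    (TE wp γ r t t.uq (labL wpL γ r t l) q b).card ≤ 7 + ((t.mt q).filter (· ≤ b)).card :=
  (card_TE _ _ _ _ _ _ _ _).trans (by omega)

/-! ### the weights are below the leaf rule at the uncommon primes -/

lemma cls_le_uw {l : ℕ} (hl : l.Prime) {T : Finset ℚ} {θ φ : ℝ} {lab : Option ℚ}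
    (h : ∀ ρ, lab = some ρ → ρ ∈ T) (a : ℤ) :
    cls T l a ≤ uw θ φ lab l a * (1 - 1 / (l : ℝ))⁻¹ := by
  have h0 : 0 < 1 - 1 / (l : ℝ) := Crest.Agent.R4.Ovl560.one_sub_pos hl
  have h1 : 1 ≤ (1 - 1 / (l : ℝ))⁻¹ := by
    rw [one_le_inv₀ h0]; exact one_sub_le_one l
  cases lab with
  | none =>
    rw [uw_none, mul_inv_cancel₀ h0.ne']
    exact cls_le_one _ _ _
  | some ρ =>
    by_cases hA : Act θ φ ρ l
    · rw [uw_act hA]
      split_ifs with hd
      · rw [zero_mul]
        exact (cls_eq_zero (h ρ rfl) hd).le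
      · rw [one_mul]; exact (cls_le_one _ _ _).trans h1
    · rw [uw_not_act hA, mul_inv_cancel₀ h0.ne']
      exact cls_le_one _ _ _

/-- **the classes of the label are excluded at all the primes of `w1 = w / G`** -/
theorem omw_le_uw {good : Prop} {ret : Finset ℕ} {T : ℕ → Finset ℚ} {θ φ : ℝ} {lab : Option ℚ}
    {w G : ℕ} (hw : 0 < w) (hG : G ∣ w) (hGc : Nat.Coprime G (w / G))
    (h : ∀ l ∈ (w / G).primeFactors, l ∈ ret → ∀ ρ, lab = some ρ → ρ ∈ T l)
    (hs : ∑ l ∈ (w / G).primeFactors.filter (· ∈ ret), (1 : ℝ) / l ≤ 1 / 2) (a : ℤ) :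
    omw good ret T (uw θ φ lab) w a ≤ 2 * nw (w / G).primeFactors (uw θ φ lab) a := by
  classical
  have hLW : ∀ v : ℕ, Crest.Agent.R4.Ovl560.LW v.primeFactors (uw θ φ lab) := fun v => LW_uw _ _ _ _
  have hnn : 0 ≤ nw (w / G).primeFactors (uw θ φ lab) a :=
    Finset.prod_nonneg fun l hl => uw_nonneg _ _ _ (Nat.prime_of_mem_primeFactors hl) a
  unfold omw
  split_ifs with hg
  swap
  · linarith
  have hG0 : 0 < G := Nat.pos_of_dvd_of_pos hG hw
  have hw1 : 0 < w / G := Nat.div_pos (Nat.le_of_dvd hw hG) hG0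
  have e : w.primeFactors = G.primeFactors ∪ (w / G).primeFactors := by
    conv_lhs => rw [← Nat.mul_div_cancel' hG]
    exact Nat.primeFactors_mul hG0.ne' hw1.ne'
  have hd : Disjoint G.primeFactors (w / G).primeFactors := hGc.disjoint_primeFactors
  have hl0 : ∀ l ∈ w.primeFactors, 0 ≤ locw ret T (uw θ φ lab) l a := fun l hl =>
    ((LW_locw (hLW w)) l hl).1 a
  have hl1 : ∀ l ∈ w.primeFactors, locw ret T (uw θ φ lab) l a ≤ 1 := fun l hl =>
    locw_le_one (fun l _ a => uw_le_one _ _ _ l a) l hl a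
  have s1 : nw w.primeFactors (locw ret T (uw θ φ lab)) a ≤
      nw (w / G).primeFactors (locw ret T (uw θ φ lab)) a := by
    unfold nw
    rw [e, Finset.prod_union hd]
    refine mul_le_of_le_one_left ?_ ?_
    · exact Finset.prod_nonneg fun l hl => hl0 l (by rw [e]; exact Finset.mem_union_right _ hl)
    · exact Finset.prod_le_one
        (fun l hl => hl0 l (by rw [e]; exact Finset.mem_union_left _ hl))
        fun l hl => hl1 l (by rw [e]; exact Finset.mem_union_left _ hl)
  refine s1.trans ?_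
  set cc : ℕ → ℝ := fun l => if l ∈ ret then (1 - 1 / (l : ℝ))⁻¹ else 1 with hcc
  have s2 : nw (w / G).primeFactors (locw ret T (uw θ φ lab)) a ≤
      ∏ l ∈ (w / G).primeFactors, uw θ φ lab l a * cc l := by
    unfold nw
    refine Finset.prod_le_prod
      (fun l hl => hl0 l (by rw [e]; exact Finset.mem_union_right _ hl)) fun l hl => ?_
    have hlp := Nat.prime_of_mem_primeFactors hl
    unfold locw
    simp only [hcc]
    split_ifs with hr
    · exact cls_le_uw hlp (h l hl hr) a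
    · rw [mul_one]
  refine s2.trans ?_
  rw [Finset.prod_mul_distrib, mul_comm]
  refine mul_le_mul_of_nonneg_right ?_ hnn
  have e2 : ∏ l ∈ (w / G).primeFactors, cc l =
      (∏ l ∈ (w / G).primeFactors.filter (· ∈ ret), (1 - 1 / (l : ℝ)))⁻¹ := by
    rw [← Finset.prod_inv_distrib, Finset.prod_filter]
  rw [e2]
  have h3 : (1 : ℝ) / 2 ≤ ∏ l ∈ (w / G).primeFactors.filter (· ∈ ret), (1 - 1 / (l : ℝ)) := by
    have := prod_one_sub_ge ((w / G).primeFactors.filter (· ∈ ret)) (fun l : ℕ => 1 / (l : ℝ))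
      (fun l _ => by positivity) (fun l hl => by
        have hlp := Nat.prime_of_mem_primeFactors (Finset.mem_filter.1 hl).1
        have : (1 : ℝ) < l := by exact_mod_cast hlp.one_lt
        rw [div_le_one (by linarith)]; exact this.le)
    linarith
  rw [inv_le_comm₀ (by linarith) (by norm_num)]
  linarith

section
variable {P : Bld532.Par} {W : ℕ → ℝ} {t : IT} {n : ℕ} {u : NS} {Sl : Finset ℕ} {G : ℕ}

/-- **the leaf weights at a leaf** (`w1 = q / u.A / G`) -/
theorem LeafF.omL_le (h : LeafF P W t n u Sl G) (wp wpL : WP) (γ : ℝ) (r : ℕ → ℝ) (l : ℕ → ℕ)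
    (S' : Finset ℕ) {q : ℕ} (hq : q ∈ Sl) (hs : ∑ b ∈ rt t q, (1 : ℝ) / b ≤ 1 / 2) (a : ℤ) :
    omL wp wpL γ r t l S' q a ≤
      2 * nw (q / u.A / G).primeFactors
        (uw (u.B * γ) (phL wpL γ r t l q) (labL wpL γ r t l q)) a := by
  classical
  have hq0 : 0 < q := h.pos q hq
  have hAq := h.bk.dvd q hq
  have hw : 0 < q / u.A := Nat.div_pos (Nat.le_of_dvd hq0 hAq) (Nat.pos_of_dvd_of_pos hAq hq0)
  have e : thL γ t q = u.B * γ := by unfold thL; rw [h.B q hq]
  unfold omL omT
  rw [e, h.A q hq]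
  refine omw_le_uw hw (h.Gd q hq) (h.Gc q hq) (fun b hb hr ρ hρ => ?_) ?_ a
  · refine lab_mem_TE ?_ hρ
    exact h.Gu q hq b (Nat.prime_of_mem_primeFactors hb) (Nat.dvd_of_mem_primeFactors hb)
      (h.rtn q hq b hr)
  · refine le_trans (Finset.sum_le_sum_of_subset_of_nonneg ?_ fun i _ _ => by positivity) hs
    intro b hb
    exact (Finset.mem_filter.1 hb).2

/-- the common SEP part is harmless -/
theorem LeafF.G_le (h : LeafF P W t n u Sl G) {q : ℕ} (hq : q ∈ Sl)
    (hs : ∑ b ∈ rt t q, (1 : ℝ) / b ≤ 1 / 2) : (1 : ℝ) / 2 ≤ (G.totient : ℝ) / G := by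
  rw [phi_prod h.G0]
  have h1 : ∑ b ∈ G.primeFactors, (1 : ℝ) / b ≤ 1 / 2 :=
    le_trans (Finset.sum_le_sum_of_subset_of_nonneg (fun b hb => h.Gr q hq b hb)
      fun i _ _ => by positivity) hs
  have := prod_one_sub_ge G.primeFactors (fun l : ℕ => 1 / (l : ℝ))
    (fun l _ => by positivity) (fun l hl => by
      have hlp := Nat.prime_of_mem_primeFactors hl
      have : (1 : ℝ) < l := by exact_mod_cast hlp.one_lt
      rw [div_le_one (by linarith)]; exact this.le)
  linarith

/-- the state of an item at its leaf -/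
theorem LeafF.stL_eq (h : LeafF P W t n u Sl G) (wpL : WP) (γ : ℝ) (r : ℕ → ℝ) {q : ℕ}
    (hq : q ∈ Sl) : stL wpL γ r t (LfDat734.lv t n) q =
      sta wpL.thr γ (r q) (W363.lst u.B.primeFactors (u.n - 1)) (u.n - 1) := by
  unfold stL WP.st
  rw [h.mt q hq, h.lvl q hq]

end

end Crest.Agent.R4P.LfDat734
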