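import Crest.Agent.R4P.StepAlv588
import Crest.Agent.R4P.LfDat734
import Crest.Agent.R4P.Fac393

/-!
R4 (S0004), powers, port of helper464's `ChiDef464` (helper393): **definitions of the closed exclusion
at the `up` primes**, over an abstract factorisation `F : Fac` (rough part = `F.uc`, lower part = `F.vc`,
common denominator = `F.PV`).

At an `up` prime `b` of the item `q` the leaf numerators excluded by the classes `Tc r b` of all the
mates `r` (same node of the tree cut at the level `y = PP b`, same rough part) are removed for `q` too.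
-/

set_option autoImplicit false
set_option linter.unusedSectionVars false
set_option linter.unusedVariables false

namespace Crest.Agent.R4P.Chi464

open Crest.Agent.R4.Step588 (pml pml_dvd mul_pml_dvd pml_pos)
open Crest.Agent.R4P.Fac393 (Fac)
open Crest.Agent.R4.Ovl560 (nw)
open Crest.Agent.R4.LF363 Crest.Agent.R4.Piece464 Crest.Agent.R4.Item464
open Crest.Agent.R4P.W363 Crest.Agent.R4P.Om532 Crest.Agent.R4P.OmSt532 Crest.Agent.R4P.Item758
open Crest.Agent.R4P.Cnt588 Crest.Agent.R4P.Step588 Crest.Agent.R4P.Bld532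
open Crest.Agent.R4P.PrunePar33 Crest.Agent.R4P.Data758
open Crest.Agent.R4P.PruneSep532 Crest.Agent.R4P.OmData532
open Crest.Agent.R4P.LfDat734

section defs
variable (Fc : Fac) (γ : ℝ) (R : ℕ → ℝ) (S' : Finset ℕ) (Tc : ℕ → ℕ → Finset ℚ) (T : IT)

/-- **the closed exclusion** at the prime `b` -/
def Bd (y b q : ℕ) (z : ℝ) : Prop :=
  ∃ r ∈ (subt y T q).items, r ∈ S' ∧ Fc.uc y (r / ppc y T q) = Fc.uc y (q / ppc y T q) ∧
    ∃ (M : ℤ), ∃ ρ ∈ Tc r b,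
      -((mpc y T q : ℝ) * R r) ≤
        ((r / ppc y T q : ℕ) : ℝ) * z - (mpc y T q : ℝ) * γ - (M : ℝ) / (Fc.PV y : ℕ) ∧
      ((r / ppc y T q : ℕ) : ℝ) * z - (mpc y T q : ℝ) * γ - (M : ℝ) / (Fc.PV y : ℕ) <
        (mpc y T q : ℝ) * R r ∧
      (b : ℤ) ∣ ρ.den * M + ((Fc.PV y / mp (subt y T q) r : ℕ) : ℤ) * ρ.num

/-- position of the leaf numerator `a` of `q` with the offset `o` -/
noncomputable def zp (y q : ℕ) (o : ℝ) (a : ℤ) : ℝ :=
  ((a : ℝ) + (mp T q : ℝ) * (γ + o)) / (((q / ppc y T q : ℕ) : ℝ) * (mp (subt y T q) q : ℝ))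

open Classical in
/-- the new classes -/
noncomputable def Cl (y : ℕ) (o : ℝ) (q b : ℕ) : Finset ℚ :=
  ((Finset.range b).filter fun a : ℕ => Bd Fc γ R S' Tc T y b q (zp γ T y q o a)).image
    fun a : ℕ => -(a : ℚ)

open Classical in
/-- **the classes of a piece** with the left end `o` -/
noncomputable def Tz (PP : ℕ → ℕ) (o : ℝ) (q b : ℕ) : Finset ℚ :=
  if b ∈ T.uq q then Tc q b ∪ Cl Fc γ R S' Tc T (PP b) o q b else Tc q b

/-- weights with the closed exclusion, `z` = left end of the piece -/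
noncomputable def omX (PP : ℕ → ℕ) (th ph : ℕ → ℝ) (lab : ℕ → Option ℚ) (q : ℕ) (z : ℝ) : ℤ → ℝ :=
  omT T S' (Tz Fc γ R S' Tc T PP z) th ph lab q

end defs

/-- breakpoints of `⌊k z + e⌋` in `[-R, R]` -/
noncomputable def flx (k e R : ℝ) : Finset ℝ :=
  (Finset.Icc (-(⌈k * R + |e|⌉ + 1)) (⌈k * R + |e|⌉ + 1)).image fun n : ℤ => ((n : ℝ) - e) / k

/-- the ratio of two mates -/
noncomputable def kN (Fc : Fac) (T : IT) (y q r : ℕ) : ℕ :=
  Fc.PV y / (Fc.vc y (q / ppc y T q) * mp (subt y T q) q) * Fc.vc y (r / ppc y T q)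

/-- breakpoints of the status of `q` at `b` -/
noncomputable def bx1 (Fc : Fac) (γ : ℝ) (R : ℕ → ℝ) (T : IT) (y q : ℕ) : Finset ℝ :=
  (subt y T q).items.biUnion fun r =>
    flx ((kN Fc T y q r : ℝ) * mp T q)
      ((kN Fc T y q r : ℝ) * (mp T q * γ) - (Fc.PV y : ℕ) * (mpc y T q * γ) +
        (Fc.PV y : ℕ) * (mpc y T q * R r)) (R q) ∪
    flx ((kN Fc T y q r : ℝ) * mp T q)
      ((kN Fc T y q r : ℝ) * (mp T q * γ) - (Fc.PV y : ℕ) * (mpc y T q * γ) -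
        (Fc.PV y : ℕ) * (mpc y T q * R r)) (R q)

/-! ### monotonicity in the classes -/

lemma cls_anti {T1 T2 : Finset ℚ} (h : T1 ⊆ T2) (l : ℕ) (a : ℤ) : cls T2 l a ≤ cls T1 l a := by
  by_cases h1 : ∃ ρ ∈ T1, (l : ℤ) ∣ ρ.den * a + ρ.num
  · obtain ⟨ρ, hρ, hd⟩ := h1
    rw [cls_eq_zero (h hρ) hd]
    exact cls_nonneg _ _ _
  · have : cls T1 l a = 1 := by unfold cls; rw [if_neg h1]
    rw [this]
    exact cls_le_one _ _ _

lemma omT_anti {T : IT} {S' : Finset ℕ} {T1 T2 : ℕ → ℕ → Finset ℚ} {th ph : ℕ → ℝ}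
    {lab : ℕ → Option ℚ} {q : ℕ} (h : ∀ b, T1 q b ⊆ T2 q b) (a : ℤ) :
    omT T S' T2 th ph lab q a ≤ omT T S' T1 th ph lab q a := by
  classical
  unfold omT omw
  split_ifs
  · unfold nw
    refine Finset.prod_le_prod (fun l hl => ?_) fun l hl => ?_
    · exact ((LW_locw (LW_uw _ _ _ _)) l hl).1 a
    · unfold locw
      split_ifs
      · exact cls_anti (h l) l a
      · exact le_rfl
  · exact le_rfl

lemma Tc_sub_Tz {Fc : Fac} {γ : ℝ} {R : ℕ → ℝ} {S' : Finset ℕ} {Tc : ℕ → ℕ → Finset ℚ} {T : IT}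
    {PP : ℕ → ℕ} {z : ℝ} {q b : ℕ} : Tc q b ⊆ Tz Fc γ R S' Tc T PP z q b := by
  classical
  unfold Tz
  split_ifs
  · exact Finset.subset_union_left
  · exact Finset.Subset.refl _

lemma omX_le {Fc : Fac} {γ : ℝ} {R : ℕ → ℝ} {S' : Finset ℕ} {Tc : ℕ → ℕ → Finset ℚ} {T : IT}
    {PP : ℕ → ℕ} {th ph : ℕ → ℝ} {lab : ℕ → Option ℚ} {q : ℕ} {z : ℝ} (a : ℤ) :
    omX Fc γ R S' Tc T PP th ph lab q z a ≤ omT T S' Tc th ph lab q a :=
  omT_anti (fun _ => Tc_sub_Tz) a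

/-! ### the concrete choice -/

/-- level of the closed exclusion at the prime `b` -/
noncomputable def PPb (b : ℕ) : ℕ := ⌊Real.log b ^ (1 / 8 : ℝ)⌋₊

/-- radii (`1` for the items without pieces), `= Cf.rr` -/
noncomputable def rrf (r : ℕ → ℝ) (q : ℕ) : ℝ := if 0 < r q then r q else 1

/-- base classes -/
noncomputable def TcL (wp wpL : WP) (γ : ℝ) (r : ℕ → ℝ) (t : IT) (l : ℕ → ℕ) : ℕ → ℕ → Finset ℚ :=
  TE wp γ r t t.uq (labL wpL γ r t l)

/-- **the weights of the pieces** with the closed exclusion -/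
noncomputable def omXL (Fc : Fac) (wp wpL : WP) (γ : ℝ) (r : ℕ → ℝ) (t : IT) (l : ℕ → ℕ) (S' : Finset ℕ)
    (q : ℕ) (z : ℝ) : ℤ → ℝ :=
  omX Fc γ (rrf r) S' (TcL wp wpL γ r t l) t PPb (thL γ t) (phL wpL γ r t l) (labL wpL γ r t l) q z

/-- the breakpoints of an item -/
noncomputable def bxL (Fc : Fac) (γ : ℝ) (r : ℕ → ℝ) (t : IT) (q : ℕ) : Finset ℝ :=
  (t.uq q).biUnion fun b => bx1 Fc γ (rrf r) t (PPb b) q

lemma omXL_le {Fc : Fac} {wp wpL : WP} {γ : ℝ} {r : ℕ → ℝ} {t : IT} {l : ℕ → ℕ} {S' : Finset ℕ} {q : ℕ}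
    {z : ℝ} (a : ℤ) : omXL Fc wp wpL γ r t l S' q z a ≤ omL wp wpL γ r t l S' q a := omX_le a

lemma omXL_zero {Fc : Fac} {wp wpL : WP} {γ : ℝ} {r : ℕ → ℝ} {t : IT} {l : ℕ → ℕ} {S' : Finset ℕ} {q : ℕ}
    (hq : q ∉ S') (z : ℝ) (a : ℤ) : omXL Fc wp wpL γ r t l S' q z a = 0 := omT_of_not_mem hq a

end Crest.Agent.R4P.Chi464
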