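import Crest.Agent.R4P.ClosR442
import Crest.Agent.R4.TourPP464

/-!
R4 (S0004), POWERS (helper542): **closure theorem without certificates at the free pulls**
(`closureP`, `closureP_root`): a pull node (`w = 0`, `G = 0`) inherits the second moments of its
child, `tt A node x = tt A t₁ (P x)`, so nothing has to be checked there (variant of
`ClosR442.closureF`, helper442).
-/

set_option autoImplicit false
set_option linter.unusedSectionVars false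
set_option linter.unusedVariables false
open MeasureTheory Filter Set

namespace Crest.Agent.R4P.ClosP542

open Crest.Agent.R4.Tour104 Crest.Agent.R4.Tour758 Crest.Agent.R4.Avg758 Crest.Agent.R4.Clos758
open Crest.Agent.R4.ClosL758 Crest.Agent.R4.ClosG758 Crest.Agent.R4.ClosR758
open Crest.Agent.R4P.ClosR442

variable {Λ κ : Type*} [Fintype Λ] [DecidableEq Λ] [Fintype κ] [DecidableEq κ]

/-- free pulls -/
def PulG : TrG Λ κ → Prop
  | .br _ w _ _ _ _ _ G => w = 0 ∧ G = fun _ _ => 0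
  | _ => False

/-- **a pull has the function of its child** -/
lemma pull_tt {P : ℕ} {r : Λ → κ} {t₁ t₀ : TrG Λ κ} {v : Λ → ℝ → ℝ} {B₁ G : κ → ℝ → ℝ}
    (h : BrOk P 0 r t₁.val t₀.val v B₁ G) (hG : G = fun _ _ => 0) {A : Finset Λ} (hA : Sat A r)
    (x : ℝ) : tt A (.br P 0 r t₁ t₀ v B₁ G) x = tt A t₁ (P * x) := by
  have hr := BrOk.res h hA
  have hG' : rk A r G = fun _ _ => 0 := by
    subst hG
    funext c y
    unfold rk
    split_ifs <;> rfl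
  rw [hG'] at hr
  have key : ∀ c y, rk A r B₁ c y = sm r (rv A t₁.val) c y := by
    intro c y
    have h1 := (hr.col c).Ep_eq hr.hP y
    have h2 := hr.mean c y
    rw [h1] at h2
    have h3 : Ep P (fun _ : ℝ => (0 : ℝ)) y = 0 := by
      rw [Ep_const hr.hP]
    have h4 : Ep P ((fun (_ : κ) (_ : ℝ) => (0 : ℝ)) c) y = 0 := h3
    rw [h4] at h2
    linarith
  show ∑ j, rv A v j x = ∑ j, rv A t₁.val j (P * x)
  rw [← sum_sm r (rv A v) x, ← sum_sm r (rv A t₁.val) (P * x)]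
  refine Finset.sum_congr rfl fun c _ => ?_
  rw [(hr.col c).eq x, key]
  simp

/-- **second moments of a pull** -/
lemma pull_SMR {Ad : TrG Λ κ → Finset Λ → Prop} {μ : TrG Λ κ → Finset Λ → ℝ}
    {ν : TrG Λ κ → ℝ} {δ : TrG Λ κ → Finset Λ → ℝ} {K : ℝ} (hK : 0 ≤ K)
    {P : ℕ} {w : ℝ} {r : Λ → κ} {t₁ t₀ : TrG Λ κ} {v : Λ → ℝ → ℝ} {B₁ G : κ → ℝ → ℝ}
    (hp : PulG (.br P w r t₁ t₀ v B₁ G))
    (h : (TrG.br P w r t₁ t₀ v B₁ G).Ok) (hN : (TrG.br P w r t₁ t₀ v B₁ G).All (AdN Ad))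
    (hM : (TrG.br P w r t₁ t₀ v B₁ G).All (MassOk Ad μ ν))
    (hd : (TrG.br P w r t₁ t₀ v B₁ G).All (SlackR Ad δ)) (s1 : SMR Ad μ ν δ K t₁) :
    SMR Ad μ ν δ K (.br P w r t₁ t₀ v B₁ G) := by
  obtain ⟨hw, hG⟩ := hp
  subst hw
  intro A hA
  obtain ⟨k1, k0, hb⟩ := h
  obtain ⟨sA, A1, A0⟩ := hN.1 A hA
  have e : (fun x => tt A (.br P 0 r t₁ t₀ v B₁ G) x ^ 2) =
      fun x => (fun y => tt A t₁ y ^ 2) (P * x) := by
    funext x
    rw [pull_tt hb hG sA x]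
  have p1 : PB (tt A t₁) := PB.sum _ fun j _ => PB_rv (fun j => k1.pb j) A j
  have p2 : PB (fun y => tt A t₁ y ^ 2) := by
    have : (fun y => tt A t₁ y ^ 2) = fun y => tt A t₁ y * tt A t₁ y := by funext y; ring
    rw [this]
    exact p1.mul p1
  rw [e, I_pull hb.hP p2]
  refine (s1 A A1).trans (mul_le_mul_of_nonneg_left ?_ hK)
  have m1 := hM.2.1.self.base.nn _ A1
  have n1 := hM.2.1.self.base.nu
  have a1 := hM.1.2.1 _ hA
  have a2 := hM.1.2.2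
  have a3 := hd.1.2 _ hA
  have b1 : μ t₁ A ≤ μ (.br P 0 r t₁ t₀ v B₁ G) A := by linarith
  have b2 : ν t₁ ≤ ν (.br P 0 r t₁ t₀ v B₁ G) := by linarith
  have b3 : δ t₁ A ≤ δ (.br P 0 r t₁ t₀ v B₁ G) A := by linarith
  have b4 := mul_le_mul b1 b2 n1 (m1.trans b1)
  linarith

set_option maxHeartbeats 1000000 in
/-- **closure with restricted populations**; the error hypothesis may use the conclusion at all
proper descendants; nothing is required at the free pulls. -/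
theorem closureP [WRel κ] {Ad : TrG Λ κ → Finset Λ → Prop} {μ : TrG Λ κ → Finset Λ → ℝ}
    {ν : TrG Λ κ → ℝ} {δ : TrG Λ κ → Finset Λ → ℝ} {C C₀ η K B β : ℝ} (hC : 0 ≤ C)
    (hK : 0 ≤ K) (hCK : C ≤ K) (hβ : Real.sqrt (C * K) ≤ β) (hB : B ≤ β) (hC₀ : 0 ≤ C₀)
    (hη : 0 ≤ η) (hK2 : C₀ + η + 3 * β ≤ K) (hK3 : 1 + β ≤ K)
    (t : TrG Λ κ) (h : t.Ok) (hN : t.All (AdN Ad)) (hM : t.All (MassOk Ad μ ν))
    (hd : t.All (SlackR Ad δ)) (hl : t.All (LeafSMR Ad μ ν C)) (hl0 : t.All (LeafIn Ad μ C₀))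
    (herr : t.All fun r => ¬ PulG r → Below (SMR Ad μ ν δ K) r → ∀ A, Ad r A → A.Nonempty →
      ∃ e, SelfF Ad μ ν B r A e ∧
        dseR A r + rseR A r + e ≤ η * (μ r A + μ r A * (ν r)) + δ r A) :
    t.All (SMR Ad μ ν δ K) := by
  have hβ0 : 0 ≤ β := (Real.sqrt_nonneg _).trans hβ
  have hempty : ∀ (r : TrG Λ κ), MassB Ad μ ν r → (∀ A, Ad r A → 0 ≤ δ r A) → Ad r ∅ →
      I (fun x => tt (∅ : Finset Λ) r x ^ 2) ≤ K * (μ r ∅ + μ r ∅ * ν r + δ r ∅) := by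
    intro r hr hδ had
    have e : (fun x => tt (∅ : Finset Λ) r x ^ 2) = fun _ => (0 : ℝ) := by
      funext x; simp [tt, rv]
    have e0 : I (fun _ : ℝ => (0 : ℝ)) = 0 := by simp [I]
    rw [e, e0]
    have := hr.nn _ had
    have h2 := hr.nu
    have h3 := hδ ∅ had
    positivity
  induction t with
  | leaf r f =>
    intro A hA
    have hl' := hl A hA
    have hm := hM.base.nn A hA
    have hh := hM.base.nu
    have hd0 := hd.base.1 A hA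
    have h1 := mul_le_mul_of_nonneg_right hCK
      (by positivity : 0 ≤ μ (TrG.leaf r f) A +
        μ (TrG.leaf r f) A * ν (TrG.leaf r f))
    have h2 := mul_nonneg hK hd0
    linarith
  | br Pc w r t₁ t₀ v B₁ G ih₁ ih₀ =>
    have hOk := h
    obtain ⟨k1, k0, hb⟩ := h
    have s1 := ih₁ k1 hN.2.1 hM.2.1 hd.2.1 hl.2.1 hl0.2.1 herr.2.1
    have s0 := ih₀ k0 hN.2.2 hM.2.2 hd.2.2 hl.2.2 hl0.2.2 herr.2.2
    refine ⟨?_, s1, s0⟩
    by_cases hpul : PulG (TrG.br Pc w r t₁ t₀ v B₁ G)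
    · exact pull_SMR hK hpul hOk hN hM hd s1.self
    intro A hA
    rcases A.eq_empty_or_nonempty with rfl | hne
    · exact hempty _ hM.1.1 hd.1.1.1 hA
    obtain ⟨sA, A1, A0⟩ := hN.1 A hA
    have hr := BrOk.res hb sA
    obtain ⟨e, ⟨e₁₁, e₁₀, e₀₁, e₀₀, c11, c10, c01, c00, he⟩, herr1⟩ :=
      herr.1 hpul ⟨s1, s0⟩ A hA hne
    have i11 := pair_boundF hC hK hβ hB c11 one_pos one_pos k1 k1 hN.2.1 hN.2.1 A1 A1
      hM.2.1 hM.2.1 hd.2.1 hd.2.1 hl.2.1 hl.2.1 s1 s1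
    have i10 := pair_boundF hC hK hβ hB c10 one_pos one_pos k1 k0 hN.2.1 hN.2.2 A1 A0
      hM.2.1 hM.2.2 hd.2.1 hd.2.2 hl.2.1 hl.2.2 s1 s0
    have i01 := pair_boundF hC hK hβ hB c01 one_pos one_pos k0 k1 hN.2.2 hN.2.1 A0 A1
      hM.2.2 hM.2.1 hd.2.2 hd.2.1 hl.2.2 hl.2.1 s0 s1
    have i00 := pair_boundF hC hK hβ hB c00 one_pos one_pos k0 k0 hN.2.2 hN.2.2 A0 A0
      hM.2.2 hM.2.2 hd.2.2 hd.2.2 hl.2.2 hl.2.2 s0 s0
    rw [avg_one] at i11 i00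
    rw [avg_one, avg_one] at i10 i01
    have p1 := PB_rv (fun j => k1.pb j) A
    have p0 := PB_rv (fun j => k0.pb j) A
    have key := Q_col2_le (R := orel κ) hb.hP hb.w0 hb.w1 hb.w0 hb.w1 hr.col hr.col
      (PB_sm p1 r) (PB_sm p0 r) (PB_sm p1 r) (PB_sm p0 r) hr.mean hr.mean
    rw [Q_orel_sm r hr.pv hr.pv, Q_orel_sm r p1 p1, Q_orel_sm r p1 p0, Q_orel_sm r p0 p1,
      Q_orel_sm r p0 p0] at key
    have hq : 0 ≤ 1 - w := by linarith [hb.w1]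
    have w11 := mul_le_mul_of_nonneg_left i11 (mul_nonneg hq hq)
    have w10 := mul_le_mul_of_nonneg_left i10 (mul_nonneg hq hb.w0)
    have w01 := mul_le_mul_of_nonneg_left i01 (mul_nonneg hb.w0 hq)
    have w00 := mul_le_mul_of_nonneg_left i00 (mul_nonneg hb.w0 hb.w0)
    have hPot := Po_col2 (δ := δ) (t := .br Pc w r t₁ t₀ v B₁ G) (t' := .br Pc w r t₁ t₀ v B₁ G)
      hb.w0 hb.w1 hb.w0 hb.w1 (hM.2.1.self.base.nn _ A1) (hM.2.2.self.base.nn _ A0)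
      (hM.2.1.self.base.nn _ A1) (hM.2.2.self.base.nn _ A0) hM.2.1.self.base.nu
      hM.2.2.self.base.nu hM.2.1.self.base.nu hM.2.2.self.base.nu (hM.1.2.1 _ hA) hM.1.2.2
      (hM.1.2.1 _ hA) hM.1.2.2
      (hd.2.1.self.base.1 _ A1) (hd.2.2.self.base.1 _ A0) (hd.2.1.self.base.1 _ A1)
      (hd.2.2.self.base.1 _ A0) (hd.1.2 _ hA) (hd.1.2 _ hA)
    have hPot' := mul_le_mul_of_nonneg_left hPot hβ0
    refine node_closeR hC₀ hβ0 hK2 hK3 _ hOk hN hM hl0 hA (hd.1.1.1 A hA) herr1 ?_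
    show Q (Ro r) (rv A v) (rv A v) ≤ _
    linarith
  | add r t₁ t₀ ih₁ ih₀ =>
    have hOk := h
    obtain ⟨k1, k0⟩ := h
    have s1 := ih₁ k1 hN.2.1 hM.2.1 hd.2.1 hl.2.1 hl0.2.1 herr.2.1
    have s0 := ih₀ k0 hN.2.2 hM.2.2 hd.2.2 hl.2.2 hl0.2.2 herr.2.2
    refine ⟨?_, s1, s0⟩
    intro A hA
    rcases A.eq_empty_or_nonempty with rfl | hne
    · exact hempty _ hM.1.1 hd.1.1.1 hA
    obtain ⟨sA, A1, A0⟩ := hN.1 A hA
    obtain ⟨e, ⟨e₁, e₀, x₁₀, x₀₁, c1, c0, hx, hy, he⟩, herr1⟩ := herr.1 (fun h => h) ⟨s1, s0⟩ A hA hne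
    have i1 := pair_boundF hC hK hβ hB c1 one_pos one_pos k1 k1 hN.2.1 hN.2.1 A1 A1
      hM.2.1 hM.2.1 hd.2.1 hd.2.1 hl.2.1 hl.2.1 s1 s1
    have i0 := pair_boundF hC hK hβ hB c0 one_pos one_pos k0 k0 hN.2.2 hN.2.2 A0 A0
      hM.2.2 hM.2.2 hd.2.2 hd.2.2 hl.2.2 hl.2.2 s0 s0
    rw [avg_one] at i1 i0
    have p1 := PB_rv (fun j => k1.pb j) A
    have p0 := PB_rv (fun j => k0.pb j) A
    have eQ : Q (Ro r) (rv A (TrG.add r t₁ t₀).val) (rv A (TrG.add r t₁ t₀).val) =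
        Q (Ro r) (rv A t₁.val) (rv A t₁.val) + Q (Ro r) (rv A t₁.val) (rv A t₀.val) +
        (Q (Ro r) (rv A t₀.val) (rv A t₁.val) + Q (Ro r) (rv A t₀.val) (rv A t₀.val)) := by
      have e : rv A (TrG.add r t₁ t₀).val = fun j x => rv A t₁.val j x + rv A t₀.val j x :=
        rv_add A t₁.val t₀.val
      rw [e, Q_add_left p1 p0 (fun j => (p1 j).add (p0 j)), Q_add_right p1 p1 p0,
        Q_add_right p0 p1 p0]
    have m1 := hM.2.1.self.base.nn _ A1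
    have m0 := hM.2.2.self.base.nn _ A0
    have y10 := mul_le_mul_of_nonneg_right hB (mul_nonneg m1 m0)
    have y01 := mul_le_mul_of_nonneg_right hB (mul_nonneg m0 m1)
    have hdc : Dec Ad (TrG.add r t₁ t₀) A t₁ A t₀ A := Dec.add
    have hPot := Po_dec (δ := δ) hdc hdc hM hM hd hd hN hN hA hA
    have hPot' := mul_le_mul_of_nonneg_left hPot hβ0
    refine node_closeR hC₀ hβ0 hK2 hK3 _ hOk hN hM hl0 hA (hd.1.1.1 A hA) herr1 ?_
    show Q (Ro r) (rv A (TrG.add r t₁ t₀).val) (rv A (TrG.add r t₁ t₀).val) ≤ _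
    rw [eQ]
    linarith

/-- version at the root: `K = 16 (C + C₀ + η + B + 1)` works. -/
theorem closureP_root [WRel κ] {Ad : TrG Λ κ → Finset Λ → Prop} {μ : TrG Λ κ → Finset Λ → ℝ}
    {ν : TrG Λ κ → ℝ} {δ : TrG Λ κ → Finset Λ → ℝ}
    {C C₀ η B : ℝ} (hC : 0 ≤ C) (hC₀ : 0 ≤ C₀) (hη : 0 ≤ η) (hB : 0 ≤ B)
    (t : TrG Λ κ) (h : t.Ok) (hN : t.All (AdN Ad)) (hM : t.All (MassOk Ad μ ν))
    (hd : t.All (SlackR Ad δ)) (hl : t.All (LeafSMR Ad μ ν C)) (hl0 : t.All (LeafIn Ad μ C₀))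
    (herr : t.All fun r => ¬ PulG r → Below (SMR Ad μ ν δ (16 * (C + C₀ + η + B + 1))) r →
      ∀ A, Ad r A → A.Nonempty →
      ∃ e, SelfF Ad μ ν B r A e ∧
        dseR A r + rseR A r + e ≤ η * (μ r A + μ r A * ν r) + δ r A)
    (hU : Ad t Finset.univ) :
    I (fun x => t.tot x ^ 2) ≤ (16 * (C + C₀ + η + B + 1)) *
      (μ t Finset.univ + μ t Finset.univ * ν t + δ t Finset.univ) := by
  set K := 16 * (C + C₀ + η + B + 1) with hKdef
  have hK : 0 ≤ K := by positivity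
  have hsq : Real.sqrt (C * K) ≤ K / 4 := by
    rw [show K / 4 = Real.sqrt ((K / 4) ^ 2) from (Real.sqrt_sq (by positivity)).symm]
    refine Real.sqrt_le_sqrt ?_
    have : C ≤ K / 16 := by rw [hKdef]; linarith
    nlinarith
  have := (closureP (β := K / 4) hC hK (by rw [hKdef]; linarith) hsq (by rw [hKdef]; linarith) hC₀
    hη (by rw [hKdef]; linarith) (by rw [hKdef]; linarith) t h hN hM hd hl hl0 herr).self
      Finset.univ hU
  rw [tt_univ] at this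
  exact this


end Crest.Agent.R4P.ClosP542
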