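import Mathlib
import Crest.Agent.R4P.Cnt588

/-! R4 (S0004), module B, (E): `cmin_le` of `Cnt588` (entropy count of the SEP columns). -/

set_option autoImplicit false

namespace Crest.Agent.R4P.Cnt588

theorem Ws_union33 (W : ℕ → ℝ) {A B : Finset ℕ} (h : Disjoint A B) :
    Ws W (A ∪ B) = Ws W A + Ws W B := by
  simp only [Ws]
  exact Finset.sum_union h

theorem Ws_nonneg33 {W : ℕ → ℝ} (hW : ∀ q, 0 ≤ W q) (S : Finset ℕ) : 0 ≤ Ws W S :=
  Finset.sum_nonneg fun q _ => hW q

theorem mem_blk33 {P Q p : ℕ} : p ∈ blk P Q ↔ P < p ∧ p ≤ Q ∧ p.Prime := by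
  simp [blk, and_assoc]

theorem Ok_mono33 : ∀ (t : IT) {n m : ℕ}, n ≤ m → t.Ok n → t.Ok m
  | .leaf _, _, _, _, _ => trivial
  | .br _ _ _ _, _, _, h, ⟨h1, h2, h3, h4, h5⟩ => ⟨h1, lt_of_lt_of_le h2 h, h3, h4, h5⟩
  | .add _ _ _, _, _, h, ⟨h1, h2, h3, h4, h5⟩ => ⟨h1, lt_of_lt_of_le h2 h, h3, h4, h5⟩
  | .up _ _ _, _, _, h, ⟨h1, h2, h3, h4⟩ => ⟨h1, lt_of_lt_of_le h2 h, h3, h4⟩
  | .pl _ _, _, _, h, ⟨h1, h2, h3⟩ => ⟨h1, lt_of_lt_of_le h2 h, h3⟩
  | .far _ _ _, _, _, h, ⟨h1, h2, h3, h4, h5⟩ => ⟨h1, lt_of_lt_of_le h2 h, h3, h4, h5⟩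

/-- (C1): no column in the block -/
theorem cmin_zero33 (W : ℕ → ℝ) (P Q : ℕ) :
    ∀ (t : IT) (n : ℕ), n ≤ P + 1 → t.Ok n → t.cmin W (blk P Q) = 0
  | .leaf _, _, _, _ => rfl
  | .br p _ t₁ t₀, n, hn, ⟨_, h2, _, _, h4, h5⟩ => by
      have e1 := cmin_zero33 W P Q t₁ p (by omega) h4
      have e0 := cmin_zero33 W P Q t₀ p (by omega) h5
      simp only [IT.cmin, e1, e0, add_zero]
  | .add b t₁ t₀, n, hn, ⟨_, h2, _, h4, h5⟩ => by
      have e1 := cmin_zero33 W P Q t₁ (b + 1) (by omega) h4
      have e0 := cmin_zero33 W P Q t₀ (b + 1) (by omega) h5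
      have hb : b ∉ blk P Q := by
        rw [mem_blk33]; omega
      simp only [IT.cmin, e1, e0, add_zero, if_neg hb]
  | .up b _ t, n, hn, ⟨_, h2, _, h4⟩ => by
      have e1 := cmin_zero33 W P Q t b (by omega) h4
      simp only [IT.cmin, e1]
  | .pl b t, n, hn, ⟨_, h2, h4⟩ => by
      have e1 := cmin_zero33 W P Q t (b + 1) (by omega) h4
      simp only [IT.cmin, e1]
  | .far b t₁ t₀, n, hn, ⟨_, h2, _, h4, h5⟩ => by
      have e1 := cmin_zero33 W P Q t₁ (b + 1) (by omega) h4
      have e0 := cmin_zero33 W P Q t₀ (b + 1) (by omega) h5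
      simp only [IT.cmin, e1, e0, add_zero]

/-- the part of the constant coming from the ties `< n` -/
noncomputable def En33 (P Q : ℕ) (e : ℝ) (n : ℕ) : ℝ :=
  ∑ p ∈ (blk P Q).filter (· < n), e / (p : ℝ)

theorem En_mono33 (P Q : ℕ) {e : ℝ} (he : 0 ≤ e) {n m : ℕ} (h : n ≤ m) :
    En33 P Q e n ≤ En33 P Q e m := by
  refine Finset.sum_le_sum_of_subset_of_nonneg ?_ fun p _ _ => by positivity
  intro p hp
  simp only [Finset.mem_filter] at hp ⊢
  exact ⟨hp.1, lt_of_lt_of_le hp.2 h⟩

theorem En_nonneg33 (P Q : ℕ) {e : ℝ} (he : 0 ≤ e) (n : ℕ) : 0 ≤ En33 P Q e n :=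
  Finset.sum_nonneg fun p _ => by positivity

theorem En_step33 (P Q : ℕ) {e : ℝ} (he : 0 ≤ e) {p n : ℕ} (hp : p ∈ blk P Q) (h : p < n) :
    En33 P Q e p + e / (p : ℝ) ≤ En33 P Q e n := by
  have hsub : insert p ((blk P Q).filter (· < p)) ⊆ (blk P Q).filter (· < n) := by
    intro x hx
    simp only [Finset.mem_insert, Finset.mem_filter] at hx ⊢
    rcases hx with rfl | ⟨h1, h2⟩
    · exact ⟨hp, h⟩
    · exact ⟨h1, h2.trans h⟩
  have hnot : p ∉ (blk P Q).filter (· < p) := by simp
  calc En33 P Q e p + e / (p : ℝ)
      = ∑ x ∈ insert p ((blk P Q).filter (· < p)), e / (x : ℝ) := by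
        rw [Finset.sum_insert hnot, En33, add_comm]
    _ ≤ En33 P Q e n :=
        Finset.sum_le_sum_of_subset_of_nonneg hsub fun x _ _ => by positivity

/-- the entropy inequality -/
theorem entropy33 {x y : ℝ} (hx : 0 < x) (hy : 0 < y) {a : ℝ} (ha : 0 < a) :
    min x y + (2 * x * Real.log (a * x) + 2 * y * Real.log (a * y)) ≤
      2 * (x + y) * Real.log (a * (x + y)) := by
  have hs : 0 < x + y := by positivity
  have key : ∀ u v : ℝ, 0 < u → 0 < v → u * Real.log (a * u) ≤
      u * Real.log (a * (u + v)) - u * v / (u + v) := by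
    intro u v hu hv
    have huv : 0 < u + v := by positivity
    have h1 : Real.log (a * u) - Real.log (a * (u + v)) = Real.log (u / (u + v)) := by
      rw [← Real.log_div (by positivity) (by positivity)]
      congr 1
      field_simp
    have h2 : Real.log (u / (u + v)) ≤ u / (u + v) - 1 :=
      Real.log_le_sub_one_of_pos (by positivity)
    have h3 : u / (u + v) - 1 = - (v / (u + v)) := by
      field_simp
      ring
    have h4 : Real.log (a * u) ≤ Real.log (a * (u + v)) - v / (u + v) := by linarith
    calc u * Real.log (a * u) ≤ u * (Real.log (a * (u + v)) - v / (u + v)) :=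
          mul_le_mul_of_nonneg_left h4 hu.le
      _ = _ := by ring
  have k1 := key x y hx hy
  have k2 := key y x hy hx
  rw [add_comm y x] at k2
  have hmin : min x y ≤ 4 * (x * y / (x + y)) := by
    rw [← mul_div_assoc, le_div_iff₀ hs]
    rcases le_total x y with h | h
    · rw [min_eq_left h]; nlinarith [mul_pos hx hy]
    · rw [min_eq_right h]; nlinarith [mul_pos hx hy]
  have h5 : y * x / (x + y) = x * y / (x + y) := by rw [mul_comm]
  nlinarith [k1, k2, hmin, h5]

/-- (C2) -/
theorem cmin_active33 (W : ℕ → ℝ) (hW : ∀ q, 0 ≤ W q) (P Q : ℕ) {lam Lam : ℝ} (hl : 0 < lam)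
    (hL : lam ≤ Lam) :
    ∀ (t : IT) (n : ℕ) (c : ℝ), n ≤ Q + 1 → 0 < c → t.Ok n → t.Alive W (blk P Q) lam Lam c →
      t.cmin W (blk P Q) = 0 ∨
      (lam ≤ c * Ws W t.items ∧ c * Ws W t.items ≤ Lam ∧
        t.cmin W (blk P Q) ≤ 2 * Ws W t.items * Real.log (c / lam * Ws W t.items) +
          2 * Ws W t.items +
          En33 P Q (8 * (Lam / lam) * (1 + Real.log (Lam / lam))) n * Ws W t.items) := by
  have hr1 : 1 ≤ Lam / lam := (one_le_div hl).2 hL
  have hlr : 0 ≤ Real.log (Lam / lam) := Real.log_nonneg hr1
  set e : ℝ := 8 * (Lam / lam) * (1 + Real.log (Lam / lam)) with he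
  have he0 : 0 ≤ e := by positivity
  intro t
  induction t with
  | leaf S => intro n c _ _ _ _; left; rfl
  | br p Sp t₁ t₀ ih₁ ih₀ =>
      intro n c hn hc hok hal
      obtain ⟨hpp, hpn, hdis, _, hok1, hok0⟩ := hok
      obtain ⟨hI, hal1, hal0⟩ := hal
      by_cases hp : p ∈ blk P Q
      · right
        obtain ⟨hlo, hhi⟩ := hI hp
        refine ⟨hlo, hhi, ?_⟩
        have hw : Ws W (IT.br p Sp t₁ t₀).items = Ws W t₁.items + Ws W t₀.items :=
          Ws_union33 W hdis
        set w := Ws W (IT.br p Sp t₁ t₀).items with hwdef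
        set w1 := Ws W t₁.items
        set w0 := Ws W t₀.items
        have hw1 : 0 ≤ w1 := Ws_nonneg33 hW _
        have hw0 : 0 ≤ w0 := Ws_nonneg33 hW _
        have hp2 : (2 : ℝ) ≤ p := by exact_mod_cast hpp.two_le
        have hp0 : (0 : ℝ) < p := by linarith
        have hxp : 1 / (p : ℝ) ≤ 1 / 2 := by
          apply one_div_le_one_div_of_le <;> linarith
        have hx0 : 0 < 1 / (p : ℝ) := by positivity
        have hq : 0 < 1 - 1 / (p : ℝ) := by linarith
        have hwpos : 0 < w := by
          by_contra h
          have : c * w ≤ 0 := mul_nonpos_of_nonneg_of_nonpos hc.le (not_lt.1 h)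
          linarith
        have hcw : 1 ≤ c / lam * w := by
          rw [div_mul_eq_mul_div, le_div_iff₀ hl]; linarith
        set L := Real.log (c / lam * w) with hLdef
        have hL0 : 0 ≤ L := Real.log_nonneg hcw
        have hE0 : 0 ≤ En33 P Q e p := En_nonneg33 P Q he0 p
        have hstep := En_step33 P Q he0 hp hpn
        -- child 1
        have b1 : t₁.cmin W (blk P Q) ≤ 2 * w1 * (L + 2 / p) + 2 * w1 + En33 P Q e p * w1 := by
          rcases ih₁ p (c / (1 - 1 / (p : ℝ))) (by omega) (by positivity) hok1 hal1 with h | h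
          · rw [h]; positivity
          · obtain ⟨g1, g2, g3⟩ := h
            have hw1p : 0 < w1 := by
              by_contra h
              have : c / (1 - 1 / (p : ℝ)) * w1 ≤ 0 :=
                mul_nonpos_of_nonneg_of_nonpos (by positivity) (not_lt.1 h)
              linarith
            have hlog : Real.log (c / (1 - 1 / (p : ℝ)) / lam * w1) ≤ L + 2 / p := by
              have h1 : c / (1 - 1 / (p : ℝ)) / lam * w1 ≤ (c / lam * w) * (1 / (1 - 1 / (p : ℝ))) := by
                have : c / (1 - 1 / (p : ℝ)) / lam * w1 =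
                    (c / lam * w1) * (1 / (1 - 1 / (p : ℝ))) := by
                  field_simp
                rw [this]
                apply mul_le_mul_of_nonneg_right _ (by positivity)
                apply mul_le_mul_of_nonneg_left _ (by positivity)
                linarith
              have h2 : Real.log (c / (1 - 1 / (p : ℝ)) / lam * w1) ≤
                  Real.log ((c / lam * w) * (1 / (1 - 1 / (p : ℝ)))) :=
                Real.log_le_log (by positivity) h1
              have h3 : Real.log ((c / lam * w) * (1 / (1 - 1 / (p : ℝ)))) =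
                  L + Real.log (1 / (1 - 1 / (p : ℝ))) := by
                rw [Real.log_mul (by positivity) (by positivity)]
              have h4 : Real.log (1 / (1 - 1 / (p : ℝ))) ≤ 1 / (1 - 1 / (p : ℝ)) - 1 :=
                Real.log_le_sub_one_of_pos (by positivity)
              have h5 : 1 / (1 - 1 / (p : ℝ)) - 1 ≤ 2 / p := by
                have : 1 / (1 - 1 / (p : ℝ)) ≤ 1 + 2 * (1 / p) := by
                  rw [div_le_iff₀ hq]
                  nlinarith
                have h6 : 2 / (p : ℝ) = 2 * (1 / p) := by ring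
                linarith
              linarith
            have : 2 * w1 * Real.log (c / (1 - 1 / (p : ℝ)) / lam * w1) ≤ 2 * w1 * (L + 2 / p) :=
              mul_le_mul_of_nonneg_left hlog (by positivity)
            linarith
        -- child 0
        have b0 : t₀.cmin W (blk P Q) ≤ 2 * w0 * L + 2 * w0 + En33 P Q e p * w0 +
            2 * ((Lam / lam) * Real.log (Lam / lam)) * (w / p) := by
          rcases ih₀ p (c * p) (by omega) (by positivity) hok0 hal0 with h | h
          · rw [h]; positivity
          · obtain ⟨g1, g2, g3⟩ := h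
            have hlog : Real.log (c * p / lam * w0) ≤ Real.log (Lam / lam) := by
              apply Real.log_le_log
              · have : 0 < c * p * w0 := by linarith
                have h7 : c * p / lam * w0 = (c * p * w0) / lam := by ring
                rw [h7]; positivity
              · have h7 : c * p / lam * w0 = (c * p * w0) / lam := by ring
                rw [h7]
                exact div_le_div_of_nonneg_right g2 hl.le
            have hw0le : w0 ≤ (Lam / lam) * (w / p) := by
              -- c p w0 ≤ Lam, lam ≤ c w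
              have h8 : w0 * (p * lam) ≤ Lam * w := by
                have h9 : w0 * (p * lam) ≤ w0 * (p * (c * w)) := by
                  apply mul_le_mul_of_nonneg_left _ hw0
                  exact mul_le_mul_of_nonneg_left hlo hp0.le
                have h10 : w0 * (p * (c * w)) = (c * p * w0) * w := by ring
                rw [h10] at h9
                exact h9.trans (mul_le_mul_of_nonneg_right g2 hwpos.le)
              have h11 : (Lam / lam) * (w / p) = (Lam * w) / (p * lam) := by
                field_simp
              rw [h11, le_div_iff₀ (by positivity)]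
              exact h8
            have h12 : 2 * w0 * Real.log (c * p / lam * w0) ≤ 2 * w0 * Real.log (Lam / lam) :=
              mul_le_mul_of_nonneg_left hlog (by positivity)
            have h13 : 2 * w0 * Real.log (Lam / lam) ≤
                2 * ((Lam / lam) * Real.log (Lam / lam)) * (w / p) := by
              have := mul_le_mul_of_nonneg_right hw0le hlr
              nlinarith
            have h14 : 0 ≤ 2 * w0 * L := by positivity
            linarith
        have hcm : (IT.br p Sp t₁ t₀).cmin W (blk P Q) =
            t₁.cmin W (blk P Q) + t₀.cmin W (blk P Q) := rfl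
        rw [hcm]
        have hw1w : w1 ≤ w := by linarith
        have h15 : 2 * w1 * (2 / p) ≤ 4 * (Lam / lam) * (w / p) := by
          have a1 : 2 * w1 * (2 / (p : ℝ)) = 4 * (w1 / p) := by ring
          rw [a1]
          have a2 : w1 / p ≤ w / p := div_le_div_of_nonneg_right hw1w hp0.le
          have a3 : 0 ≤ w / p := by positivity
          nlinarith
        have h16 : e * (w / p) = 8 * (Lam / lam) * (w / p) +
            8 * ((Lam / lam) * Real.log (Lam / lam)) * (w / p) := by rw [he]; ring
        have h17 : En33 P Q e p * w + e * (w / p) ≤ En33 P Q e n * w := by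
          have := mul_le_mul_of_nonneg_right hstep hwpos.le
          have a4 : (En33 P Q e p + e / p) * w = En33 P Q e p * w + e * (w / p) := by ring
          linarith
        have h18 : 0 ≤ 4 * (Lam / lam) * (w / p) := by positivity
        have h19 : 0 ≤ 6 * ((Lam / lam) * Real.log (Lam / lam)) * (w / p) := by positivity
        have h20 : 2 * w1 * (L + 2 / p) = 2 * w1 * L + 2 * w1 * (2 / p) := by ring
        have h21 : 2 * w * L = 2 * w1 * L + 2 * w0 * L := by rw [hw]; ring
        have h22 : En33 P Q e p * w = En33 P Q e p * w1 + En33 P Q e p * w0 := by rw [hw]; ring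
        linarith
      · left
        have hpP : p ≤ P := by
          by_contra h
          exact hp (mem_blk33.2 ⟨not_le.1 h, by omega, hpp⟩)
        have e1 := cmin_zero33 W P Q t₁ p (by omega) hok1
        have e0 := cmin_zero33 W P Q t₀ p (by omega) hok0
        simp only [IT.cmin, e1, e0, add_zero]
  | add b t₁ t₀ ih₁ ih₀ =>
      intro n c hn hc hok hal
      obtain ⟨hpp, hpn, hdis, hok1, hok0⟩ := hok
      obtain ⟨hI, hal1, hal0⟩ := hal
      by_cases hp : b ∈ blk P Q
      · right
        obtain ⟨hlo, hhi⟩ := hI hp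
        refine ⟨hlo, hhi, ?_⟩
        have hw : Ws W (IT.add b t₁ t₀).items = Ws W t₁.items + Ws W t₀.items :=
          Ws_union33 W hdis
        set w := Ws W (IT.add b t₁ t₀).items with hwdef
        have hE0 : 0 ≤ En33 P Q e (b + 1) := En_nonneg33 P Q he0 (b + 1)
        have hmono := En_mono33 P Q he0 (show b + 1 ≤ n by omega)
        have hcm : (IT.add b t₁ t₀).cmin W (blk P Q) =
            min (Ws W t₁.items) (Ws W t₀.items) +
            (t₁.cmin W (blk P Q) + t₀.cmin W (blk P Q)) := by
          simp only [IT.cmin, if_pos hp]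
        rw [hcm]
        set w1 := Ws W t₁.items
        set w0 := Ws W t₀.items
        have hw1 : 0 ≤ w1 := Ws_nonneg33 hW _
        have hw0 : 0 ≤ w0 := Ws_nonneg33 hW _
        have hwpos : 0 < w := by
          by_contra h
          have : c * w ≤ 0 := mul_nonpos_of_nonneg_of_nonpos hc.le (not_lt.1 h)
          linarith
        have hcw : 1 ≤ c / lam * w := by
          rw [div_mul_eq_mul_div, le_div_iff₀ hl]; linarith
        set L := Real.log (c / lam * w) with hLdef
        have hL0 : 0 ≤ L := Real.log_nonneg hcw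
        have hclam : 0 < c / lam := by positivity
        have hEw : En33 P Q e (b + 1) * w ≤ En33 P Q e n * w :=
          mul_le_mul_of_nonneg_right hmono hwpos.le
        have hEs : En33 P Q e (b + 1) * w = En33 P Q e (b + 1) * w1 + En33 P Q e (b + 1) * w0 := by rw [hw]; ring
        have hLs : 2 * w * L = 2 * w1 * L + 2 * w0 * L := by rw [hw]; ring
        -- monotone logs
        have hmlog : ∀ x : ℝ, 0 < x → x ≤ w → 2 * x * Real.log (c / lam * x) ≤ 2 * x * L := by
          intro x hx hxw
          apply mul_le_mul_of_nonneg_left _ (by positivity)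
          exact Real.log_le_log (by positivity) (mul_le_mul_of_nonneg_left hxw hclam.le)
        have hpos : ∀ x : ℝ, 0 ≤ x → lam ≤ c * x → 0 < x := by
          intro x hx h
          rcases hx.lt_or_eq with h' | h'
          · exact h'
          · exfalso; rw [← h', mul_zero] at h; linarith
        have i1 := ih₁ (b + 1) c (by omega) hc hok1 hal1
        have i0 := ih₀ (b + 1) c (by omega) hc hok0 hal0
        have hEw1 : 0 ≤ En33 P Q e (b + 1) * w1 := by positivity
        have hEw0 : 0 ≤ En33 P Q e (b + 1) * w0 := by positivity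
        have hLw1 : 0 ≤ 2 * w1 * L := by positivity
        have hLw0 : 0 ≤ 2 * w0 * L := by positivity
        rcases i1 with h1 | ⟨h11, _, h13⟩ <;> rcases i0 with h0 | ⟨h01, _, h03⟩
        · rw [h1, h0]
          have := min_le_left w1 w0
          linarith
        · rw [h1]
          have hx := hmlog w0 (hpos _ hw0 h01) (by linarith)
          have := min_le_left w1 w0
          linarith
        · rw [h0]
          have hx := hmlog w1 (hpos _ hw1 h11) (by linarith)
          have := min_le_right w1 w0
          linarith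
        · have hent := entropy33 (hpos _ hw1 h11) (hpos _ hw0 h01) hclam
          rw [← hw] at hent
          linarith
      · left
        have hpP : b ≤ P := by
          by_contra h
          exact hp (mem_blk33.2 ⟨not_le.1 h, by omega, hpp⟩)
        have e1 := cmin_zero33 W P Q t₁ (b + 1) (by omega) hok1
        have e0 := cmin_zero33 W P Q t₀ (b + 1) (by omega) hok0
        simp only [IT.cmin, e1, e0, add_zero, if_neg hp]
  | up b Sp t ih =>
      intro n c hn hc hok hal
      obtain ⟨hpp, hpn, _, hok1⟩ := hok
      obtain ⟨_, hal1⟩ := hal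
      rcases ih b c (by omega) hc hok1 hal1 with h | ⟨h1, h2, h3⟩
      · left; exact h
      · right
        refine ⟨h1, h2, ?_⟩
        have hmono := En_mono33 P Q he0 hpn.le
        have hw0 : 0 ≤ Ws W t.items := Ws_nonneg33 hW _
        have := mul_le_mul_of_nonneg_right hmono hw0
        have hcm : (IT.up b Sp t).cmin W (blk P Q) = t.cmin W (blk P Q) := rfl
        have hit : (IT.up b Sp t).items = t.items := rfl
        rw [hcm, hit]
        linarith
  | pl b t ih =>
      intro n c hn hc hok hal
      obtain ⟨hpp, hpn, hok1⟩ := hok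
      have hal1 : t.Alive W (blk P Q) lam Lam c := hal
      rcases ih (b + 1) c (by omega) hc hok1 hal1 with h | ⟨h1, h2, h3⟩
      · left; exact h
      · right
        refine ⟨h1, h2, ?_⟩
        have hmono := En_mono33 P Q he0 (show b + 1 ≤ n by omega)
        have hw0 : 0 ≤ Ws W t.items := Ws_nonneg33 hW _
        have := mul_le_mul_of_nonneg_right hmono hw0
        have hcm : (IT.pl b t).cmin W (blk P Q) = t.cmin W (blk P Q) := rfl
        have hit : (IT.pl b t).items = t.items := rfl
        rw [hcm, hit]
        linarith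
  | far b t₁ t₀ ih₁ ih₀ =>
      intro n c hn hc hok hal
      obtain ⟨hpp, hpn, hdis, hok1, hok0⟩ := hok
      obtain ⟨hI, hal1, hal0⟩ := hal
      by_cases hp : b ∈ blk P Q
      · right
        obtain ⟨hlo, hhi⟩ := hI hp
        refine ⟨hlo, hhi, ?_⟩
        have hw : Ws W (IT.far b t₁ t₀).items = Ws W t₁.items + Ws W t₀.items :=
          Ws_union33 W hdis
        set w := Ws W (IT.far b t₁ t₀).items with hwdef
        have hE0 : 0 ≤ En33 P Q e (b + 1) := En_nonneg33 P Q he0 (b + 1)
        have hmono := En_mono33 P Q he0 (show b + 1 ≤ n by omega)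
        have hcm : (IT.far b t₁ t₀).cmin W (blk P Q) =
            (t₁.cmin W (blk P Q) + t₀.cmin W (blk P Q)) := rfl
        rw [hcm]
        set w1 := Ws W t₁.items
        set w0 := Ws W t₀.items
        have hw1 : 0 ≤ w1 := Ws_nonneg33 hW _
        have hw0 : 0 ≤ w0 := Ws_nonneg33 hW _
        have hwpos : 0 < w := by
          by_contra h
          have : c * w ≤ 0 := mul_nonpos_of_nonneg_of_nonpos hc.le (not_lt.1 h)
          linarith
        have hcw : 1 ≤ c / lam * w := by
          rw [div_mul_eq_mul_div, le_div_iff₀ hl]; linarith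
        set L := Real.log (c / lam * w) with hLdef
        have hL0 : 0 ≤ L := Real.log_nonneg hcw
        have hclam : 0 < c / lam := by positivity
        have hEw : En33 P Q e (b + 1) * w ≤ En33 P Q e n * w :=
          mul_le_mul_of_nonneg_right hmono hwpos.le
        have hEs : En33 P Q e (b + 1) * w = En33 P Q e (b + 1) * w1 + En33 P Q e (b + 1) * w0 := by rw [hw]; ring
        have hLs : 2 * w * L = 2 * w1 * L + 2 * w0 * L := by rw [hw]; ring
        -- monotone logs
        have hmlog : ∀ x : ℝ, 0 < x → x ≤ w → 2 * x * Real.log (c / lam * x) ≤ 2 * x * L := by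
          intro x hx hxw
          apply mul_le_mul_of_nonneg_left _ (by positivity)
          exact Real.log_le_log (by positivity) (mul_le_mul_of_nonneg_left hxw hclam.le)
        have hpos : ∀ x : ℝ, 0 ≤ x → lam ≤ c * x → 0 < x := by
          intro x hx h
          rcases hx.lt_or_eq with h' | h'
          · exact h'
          · exfalso; rw [← h', mul_zero] at h; linarith
        have i1 := ih₁ (b + 1) c (by omega) hc hok1 hal1
        have i0 := ih₀ (b + 1) c (by omega) hc hok0 hal0
        have hEw1 : 0 ≤ En33 P Q e (b + 1) * w1 := by positivity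
        have hEw0 : 0 ≤ En33 P Q e (b + 1) * w0 := by positivity
        have hLw1 : 0 ≤ 2 * w1 * L := by positivity
        have hLw0 : 0 ≤ 2 * w0 * L := by positivity
        rcases i1 with h1 | ⟨h11, _, h13⟩ <;> rcases i0 with h0 | ⟨h01, _, h03⟩
        · rw [h1, h0]
          have := min_le_left w1 w0
          linarith
        · rw [h1]
          have hx := hmlog w0 (hpos _ hw0 h01) (by linarith)
          have := min_le_left w1 w0
          linarith
        · rw [h0]
          have hx := hmlog w1 (hpos _ hw1 h11) (by linarith)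
          have := min_le_right w1 w0
          linarith
        · have hent := entropy33 (hpos _ hw1 h11) (hpos _ hw0 h01) hclam
          rw [← hw] at hent
          have hmin : 0 ≤ min w1 w0 := le_min hw1 hw0
          linarith
      · left
        have hpP : b ≤ P := by
          by_contra h
          exact hp (mem_blk33.2 ⟨not_le.1 h, by omega, hpp⟩)
        have e1 := cmin_zero33 W P Q t₁ (b + 1) (by omega) hok1
        have e0 := cmin_zero33 W P Q t₀ (b + 1) (by omega) hok0
        simp only [IT.cmin, e1, e0, add_zero]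

/-- **(E)** entropy bound: total (root) weight of the smaller children of the SEP columns of a
block is at most `KE` times the weight of the node. -/
theorem cmin_le (W : ℕ → ℝ) (hW : ∀ q, 0 ≤ W q) (P Q : ℕ) {lam Lam : ℝ} (hl : 0 < lam)
    (hL : lam ≤ Lam) :
    ∀ (t : IT) (n : ℕ) (c : ℝ), 0 < c → t.Ok n → t.Alive W (blk P Q) lam Lam c →
      t.cmin W (blk P Q) ≤ KE (blk P Q) lam Lam * Ws W t.items := by
  have hr1 : 1 ≤ Lam / lam := (one_le_div hl).2 hL
  have hlr : 0 ≤ Real.log (Lam / lam) := Real.log_nonneg hr1
  have hKE : 0 ≤ KE (blk P Q) lam Lam := by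
    unfold KE
    have : 0 ≤ ∑ p ∈ blk P Q, (1 / (p : ℝ)) := Finset.sum_nonneg fun p _ => by positivity
    positivity
  have hEn : En33 P Q (8 * (Lam / lam) * (1 + Real.log (Lam / lam))) (Q + 1) =
      8 * (Lam / lam) * (1 + Real.log (Lam / lam)) * ∑ p ∈ blk P Q, (1 / (p : ℝ)) := by
    unfold En33
    have hf : (blk P Q).filter (· < Q + 1) = blk P Q := by
      apply Finset.filter_true_of_mem
      intro p hp
      have := (mem_blk33.1 hp).2.1
      omega
    rw [hf, Finset.mul_sum]
    refine Finset.sum_congr rfl fun p _ => by ring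
  -- nodes with column ≤ Q
  have base : ∀ (t : IT) (c : ℝ), 0 < c → t.Ok (Q + 1) → t.Alive W (blk P Q) lam Lam c →
      t.cmin W (blk P Q) ≤ KE (blk P Q) lam Lam * Ws W t.items := by
    intro t c hc hok hal
    have hw0 : 0 ≤ Ws W t.items := Ws_nonneg33 hW _
    rcases cmin_active33 W hW P Q hl hL t (Q + 1) c le_rfl hc hok hal with h | ⟨h1, h2, h3⟩
    · rw [h]; positivity
    · rw [hEn] at h3
      have hwpos : 0 < Ws W t.items := by
        rcases hw0.lt_or_eq with h' | h'
        · exact h'
        · exfalso; rw [← h', mul_zero] at h1; linarith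
      have hlog : Real.log (c / lam * Ws W t.items) ≤ Real.log (Lam / lam) := by
        apply Real.log_le_log (by positivity)
        rw [div_mul_eq_mul_div]
        exact div_le_div_of_nonneg_right h2 hl.le
      have h4 : 2 * Ws W t.items * Real.log (c / lam * Ws W t.items) ≤
          2 * Ws W t.items * Real.log (Lam / lam) :=
        mul_le_mul_of_nonneg_left hlog (by positivity)
      unfold KE
      linarith
  intro t
  induction t with
  | leaf S =>
      intro n c hc _ _
      have hw0 : 0 ≤ Ws W (IT.leaf S).items := Ws_nonneg33 hW _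
      have : (IT.leaf S).cmin W (blk P Q) = 0 := rfl
      rw [this]; positivity
  | br p Sp t₁ t₀ ih₁ ih₀ =>
      intro n c hc hok hal
      by_cases hpQ : p ≤ Q
      · exact base _ c hc ⟨hok.1, by omega, hok.2.2⟩ hal
      · obtain ⟨hpp, _, hdis, _, hok1, hok0⟩ := hok
        have hp2 : (2 : ℝ) ≤ p := by exact_mod_cast hpp.two_le
        have hp0 : (0 : ℝ) < p := by linarith
        have hxp : 1 / (p : ℝ) ≤ 1 / 2 := by
          apply one_div_le_one_div_of_le <;> linarith
        have hq : 0 < 1 - 1 / (p : ℝ) := by linarith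
        have i1 := ih₁ p (c / (1 - 1 / (p : ℝ))) (by positivity) hok1 hal.2.1
        have i0 := ih₀ p (c * p) (by positivity) hok0 hal.2.2
        have hw : Ws W (IT.br p Sp t₁ t₀).items = Ws W t₁.items + Ws W t₀.items :=
          Ws_union33 W hdis
        have hcm : (IT.br p Sp t₁ t₀).cmin W (blk P Q) =
            t₁.cmin W (blk P Q) + t₀.cmin W (blk P Q) := rfl
        rw [hcm, hw]
        linarith
  | add b t₁ t₀ ih₁ ih₀ =>
      intro n c hc hok hal
      by_cases hpQ : b ≤ Q
      · exact base _ c hc ⟨hok.1, by omega, hok.2.2.1, hok.2.2.2.1, hok.2.2.2.2⟩ hal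
      · obtain ⟨hpp, _, hdis, hok1, hok0⟩ := hok
        have i1 := ih₁ (b + 1) c hc hok1 hal.2.1
        have i0 := ih₀ (b + 1) c hc hok0 hal.2.2
        have hw : Ws W (IT.add b t₁ t₀).items = Ws W t₁.items + Ws W t₀.items :=
          Ws_union33 W hdis
        have hb : b ∉ blk P Q := by
          rw [mem_blk33]; omega
        have hcm : (IT.add b t₁ t₀).cmin W (blk P Q) =
            t₁.cmin W (blk P Q) + t₀.cmin W (blk P Q) := by
          simp only [IT.cmin, if_neg hb, zero_add]
        rw [hcm, hw]
        linarith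
  | up b Sp t ih =>
      intro n c hc hok hal
      exact ih b c hc hok.2.2.2 hal.2
  | pl b t ih =>
      intro n c hc hok hal
      exact ih (b + 1) c hc hok.2.2 hal
  | far b t₁ t₀ ih₁ ih₀ =>
      intro n c hc hok hal
      by_cases hpQ : b ≤ Q
      · exact base _ c hc ⟨hok.1, by omega, hok.2.2.1, hok.2.2.2.1, hok.2.2.2.2⟩ hal
      · obtain ⟨hpp, _, hdis, hok1, hok0⟩ := hok
        have i1 := ih₁ (b + 1) c hc hok1 hal.2.1
        have i0 := ih₀ (b + 1) c hc hok0 hal.2.2
        have hw : Ws W (IT.far b t₁ t₀).items = Ws W t₁.items + Ws W t₀.items :=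
          Ws_union33 W hdis
        have hcm : (IT.far b t₁ t₀).cmin W (blk P Q) =
            t₁.cmin W (blk P Q) + t₀.cmin W (blk P Q) := rfl
        rw [hcm, hw]
        linarith

end Crest.Agent.R4P.Cnt588
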