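import Mathlib
import Crest.Agent.R4P.CminE33

/-! R4 (S0004), module B: (a) `mt_le`, (b) `sp_le`, (u) `uq_le`, (P) `prune` of `Cnt588`. -/

set_option autoImplicit false

namespace Crest.Agent.R4P.Cnt588

open Finset

/-- split of a sum over the items of a node -/
theorem sum_split33 {A B : Finset ℕ} (h : Disjoint A B) (f g : ℕ → ℝ) :
    ∑ q ∈ A ∪ B, (if q ∈ B then g q else f q) = ∑ q ∈ A, f q + ∑ q ∈ B, g q := by
  rw [Finset.sum_union h]
  congr 1
  · refine Finset.sum_congr rfl fun q hq => ?_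
    rw [if_neg (Finset.disjoint_left.1 h hq)]
  · refine Finset.sum_congr rfl fun q hq => ?_
    rw [if_pos hq]

/-! ### (a) -/

/-- weighted number of missing ties in `I` -/
noncomputable def MT33 (W : ℕ → ℝ) (I : Finset ℕ) (t : IT) : ℝ :=
  ∑ q ∈ t.items, W q * (((t.mt q).filter (· ∈ I)).card : ℝ)

theorem MT_nonneg33 {W : ℕ → ℝ} (hW : ∀ q, 0 ≤ W q) (I : Finset ℕ) (t : IT) : 0 ≤ MT33 W I t :=
  Finset.sum_nonneg fun q _ => mul_nonneg (hW q) (by positivity)

theorem card_insert_filter33 (I S : Finset ℕ) (p : ℕ) :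
    (((insert p S).filter (· ∈ I)).card : ℝ) ≤
      ((S.filter (· ∈ I)).card : ℝ) + (if p ∈ I then 1 else 0) := by
  by_cases h : p ∈ I
  · rw [if_pos h, Finset.filter_insert, if_pos h]
    exact_mod_cast Finset.card_insert_le _ _
  · rw [if_neg h, Finset.filter_insert, if_neg h, add_zero]

theorem MT_br33 {W : ℕ → ℝ} (hW : ∀ q, 0 ≤ W q) (I : Finset ℕ) {p : ℕ} {Sp : Finset ℕ} {t₁ t₀ : IT}
    (h : Disjoint t₁.items t₀.items) :
    MT33 W I (.br p Sp t₁ t₀) ≤ MT33 W I t₁ + MT33 W I t₀ +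
      (if p ∈ I then Ws W t₀.items else 0) := by
  have e : MT33 W I (.br p Sp t₁ t₀) = ∑ q ∈ t₁.items ∪ t₀.items,
      (if q ∈ t₀.items then W q * (((insert p (t₀.mt q)).filter (· ∈ I)).card : ℝ)
        else W q * (((t₁.mt q).filter (· ∈ I)).card : ℝ)) := by
    unfold MT33
    refine Finset.sum_congr rfl fun q _ => ?_
    by_cases hq : q ∈ t₀.items
    · simp only [IT.mt, if_pos hq]
    · simp only [IT.mt, if_neg hq]
  rw [e, sum_split33 h]
  have e2 : ∑ q ∈ t₀.items, W q * (((insert p (t₀.mt q)).filter (· ∈ I)).card : ℝ) ≤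
      MT33 W I t₀ + (if p ∈ I then Ws W t₀.items else 0) := by
    have : MT33 W I t₀ + (if p ∈ I then Ws W t₀.items else 0) =
        ∑ q ∈ t₀.items, W q * ((((t₀.mt q).filter (· ∈ I)).card : ℝ) +
          (if p ∈ I then 1 else 0)) := by
      simp only [mul_add, Finset.sum_add_distrib, MT33]
      congr 1
      by_cases hp : p ∈ I
      · simp [hp, Ws]
      · simp [hp]
    rw [this]
    exact Finset.sum_le_sum fun q _ => mul_le_mul_of_nonneg_left (card_insert_filter33 I _ p) (hW q)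
  have e3 : ∑ q ∈ t₁.items, W q * (((t₁.mt q).filter (· ∈ I)).card : ℝ) = MT33 W I t₁ := rfl
  linarith

theorem MT_add33 {W : ℕ → ℝ} (I : Finset ℕ) {b : ℕ} {t₁ t₀ : IT}
    (h : Disjoint t₁.items t₀.items) :
    MT33 W I (.add b t₁ t₀) = MT33 W I t₁ + MT33 W I t₀ := by
  have e : MT33 W I (.add b t₁ t₀) = ∑ q ∈ t₁.items ∪ t₀.items,
      (if q ∈ t₀.items then W q * (((t₀.mt q).filter (· ∈ I)).card : ℝ)
        else W q * (((t₁.mt q).filter (· ∈ I)).card : ℝ)) := by
    unfold MT33
    refine Finset.sum_congr rfl fun q _ => ?_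
    by_cases hq : q ∈ t₀.items
    · simp only [IT.mt, if_pos hq]
    · simp only [IT.mt, if_neg hq]
  rw [e, sum_split33 h]
  rfl

theorem MT_far33 {W : ℕ → ℝ} (I : Finset ℕ) {b : ℕ} {t₁ t₀ : IT}
    (h : Disjoint t₁.items t₀.items) :
    MT33 W I (.far b t₁ t₀) = MT33 W I t₁ + MT33 W I t₀ := by
  have e : MT33 W I (.far b t₁ t₀) = ∑ q ∈ t₁.items ∪ t₀.items,
      (if q ∈ t₀.items then W q * (((t₀.mt q).filter (· ∈ I)).card : ℝ)
        else W q * (((t₁.mt q).filter (· ∈ I)).card : ℝ)) := by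
    unfold MT33
    refine Finset.sum_congr rfl fun q _ => ?_
    by_cases hq : q ∈ t₀.items
    · simp only [IT.mt, if_pos hq]
    · simp only [IT.mt, if_neg hq]
  rw [e, sum_split33 h]
  rfl

theorem MT_zero33 {W : ℕ → ℝ} (hW : ∀ q, 0 ≤ W q) (P Q : ℕ) :
    ∀ (t : IT) (n : ℕ), n ≤ P + 1 → t.Ok n → MT33 W (blk P Q) t = 0
  | .leaf _, _, _, _ => by simp [MT33, IT.mt]
  | .br p Sp t₁ t₀, n, hn, ⟨_, h2, h3, _, h4, h5⟩ => by
      have e1 := MT_zero33 hW P Q t₁ p (by omega) h4
      have e0 := MT_zero33 hW P Q t₀ p (by omega) h5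
      have hb : p ∉ blk P Q := by
        rw [mem_blk33]; omega
      have := MT_br33 hW (blk P Q) (p := p) (Sp := Sp) h3
      rw [e1, e0, if_neg hb] at this
      have h0 := MT_nonneg33 hW (blk P Q) (.br p Sp t₁ t₀)
      linarith
  | .add b t₁ t₀, n, hn, ⟨_, h2, h3, h4, h5⟩ => by
      have e1 := MT_zero33 hW P Q t₁ (b + 1) (by omega) h4
      have e0 := MT_zero33 hW P Q t₀ (b + 1) (by omega) h5
      rw [MT_add33 _ h3, e1, e0, add_zero]
  | .up b _ t, n, hn, ⟨_, h2, _, h4⟩ => MT_zero33 hW P Q t b (by omega) h4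
  | .pl b t, n, hn, ⟨_, h2, h4⟩ => MT_zero33 hW P Q t (b + 1) (by omega) h4
  | .far b t₁ t₀, n, hn, ⟨_, h2, h3, h4, h5⟩ => by
      have e1 := MT_zero33 hW P Q t₁ (b + 1) (by omega) h4
      have e0 := MT_zero33 hW P Q t₀ (b + 1) (by omega) h5
      rw [MT_far33 _ h3, e1, e0, add_zero]

theorem MT_active33 (W : ℕ → ℝ) (hW : ∀ q, 0 ≤ W q) (P Q : ℕ) {lam Lam : ℝ} (hl : 0 < lam)
    (hL : lam ≤ Lam) :
    ∀ (t : IT) (n : ℕ) (c : ℝ), n ≤ Q + 1 → 0 < c → t.Ok n → t.Alive W (blk P Q) lam Lam c →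
      MT33 W (blk P Q) t = 0 ∨
      (lam ≤ c * Ws W t.items ∧ c * Ws W t.items ≤ Lam ∧
        MT33 W (blk P Q) t ≤ (1 + En33 P Q (Lam / lam) n) * Ws W t.items) := by
  have hr1 : 1 ≤ Lam / lam := (one_le_div hl).2 hL
  have hr0 : 0 ≤ Lam / lam := by linarith
  intro t
  induction t with
  | leaf S => intro n c _ _ _ _; left; simp [MT33, IT.mt]
  | br p Sp t₁ t₀ ih₁ ih₀ =>
      intro n c hn hc hok hal
      obtain ⟨hpp, hpn, hdis, hsp, hok1, hok0⟩ := hok
      obtain ⟨hI, hal1, hal0⟩ := hal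
      by_cases hp : p ∈ blk P Q
      · right
        obtain ⟨hlo, hhi⟩ := hI hp
        refine ⟨hlo, hhi, ?_⟩
        have hw : Ws W (IT.br p Sp t₁ t₀).items = Ws W t₁.items + Ws W t₀.items :=
          Ws_union33 W hdis
        have hbr := MT_br33 hW (blk P Q) (p := p) (Sp := Sp) hdis
        rw [if_pos hp] at hbr
        set w := Ws W (IT.br p Sp t₁ t₀).items with hwdef
        set w1 := Ws W t₁.items
        set w0 := Ws W t₀.items
        have hw1 : 0 ≤ w1 := Ws_nonneg33 hW _
        have hw0 : 0 ≤ w0 := Ws_nonneg33 hW _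
        have hp2 : (2 : ℝ) ≤ p := by exact_mod_cast hpp.two_le
        have hp0 : (0 : ℝ) < p := by linarith
        have hxp : 1 / (p : ℝ) ≤ 1 / 2 := by
          apply one_div_le_one_div_of_le <;> linarith
        have hq : 0 < 1 - 1 / (p : ℝ) := by linarith
        have hwpos : 0 < w := by
          by_contra h
          have : c * w ≤ 0 := mul_nonpos_of_nonneg_of_nonpos hc.le (not_lt.1 h)
          linarith
        have hE0 : 0 ≤ En33 P Q (Lam / lam) p := En_nonneg33 P Q hr0 p
        have hstep := En_step33 P Q hr0 hp hpn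
        have b1 : MT33 W (blk P Q) t₁ ≤ (1 + En33 P Q (Lam / lam) p) * w1 := by
          rcases ih₁ p (c / (1 - 1 / (p : ℝ))) (by omega) (by positivity) hok1 hal1 with h | h
          · rw [h]; positivity
          · exact h.2.2
        have b0 : MT33 W (blk P Q) t₀ + w0 ≤ (1 + En33 P Q (Lam / lam) p) * w0 +
            (Lam / lam) * (w / p) := by
          rcases ih₀ p (c * p) (by omega) (by positivity) hok0 hal0 with h | h
          · rw [h]
            have : 0 ≤ En33 P Q (Lam / lam) p * w0 := by positivity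
            have h2 : 0 ≤ (Lam / lam) * (w / p) := by positivity
            linarith
          · obtain ⟨g1, g2, g3⟩ := h
            have hw0le : w0 ≤ (Lam / lam) * (w / p) := by
              have h8 : w0 * (p * lam) ≤ Lam * w := by
                have h9 : w0 * (p * lam) ≤ w0 * (p * (c * w)) := by
                  apply mul_le_mul_of_nonneg_left _ hw0
                  exact mul_le_mul_of_nonneg_left hlo hp0.le
                have h10 : w0 * (p * (c * w)) = (c * p * w0) * w := by ring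
                rw [h10] at h9
                exact h9.trans (mul_le_mul_of_nonneg_right g2 hwpos.le)
              have h11 : (Lam / lam) * (w / p) = (Lam * w) / (p * lam) := by
                field_simp
              rw [h11, le_div_iff₀ (by positivity)]
              exact h8
            linarith
        have h17 := mul_le_mul_of_nonneg_right hstep hwpos.le
        have a4 : (En33 P Q (Lam / lam) p + Lam / lam / p) * w =
            En33 P Q (Lam / lam) p * w + (Lam / lam) * (w / p) := by ring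
        have h22 : En33 P Q (Lam / lam) p * w = En33 P Q (Lam / lam) p * w1 +
            En33 P Q (Lam / lam) p * w0 := by rw [hw]; ring
        linarith
      · left
        have hpP : p ≤ P := by
          by_contra h
          exact hp (mem_blk33.2 ⟨not_le.1 h, by omega, hpp⟩)
        exact MT_zero33 hW P Q _ (p + 1) (by omega) ⟨hpp, by omega, hdis, hsp, hok1, hok0⟩
  | add b t₁ t₀ ih₁ ih₀ =>
      intro n c hn hc hok hal
      obtain ⟨hpp, hpn, hdis, hok1, hok0⟩ := hok
      obtain ⟨hI, hal1, hal0⟩ := hal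
      by_cases hp : b ∈ blk P Q
      · right
        obtain ⟨hlo, hhi⟩ := hI hp
        refine ⟨hlo, hhi, ?_⟩
        have hw : Ws W (IT.add b t₁ t₀).items = Ws W t₁.items + Ws W t₀.items :=
          Ws_union33 W hdis
        have hE0 : 0 ≤ En33 P Q (Lam / lam) b := En_nonneg33 P Q hr0 b
        have hEn : 0 ≤ En33 P Q (Lam / lam) n := En_nonneg33 P Q hr0 n
        have hmono := En_mono33 P Q hr0 hpn.le
        have hw1 : 0 ≤ Ws W t₁.items := Ws_nonneg33 hW _
        have hw0 : 0 ≤ Ws W t₀.items := Ws_nonneg33 hW _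
        have b1 : MT33 W (blk P Q) t₁ ≤ (1 + En33 P Q (Lam / lam) n) * Ws W t₁.items := by
          have hm := mul_le_mul_of_nonneg_right (En_mono33 P Q hr0 (show b + 1 ≤ n by omega)) hw1
          rcases ih₁ (b + 1) c (by omega) hc hok1 hal1 with h | h
          · rw [h]; positivity
          · linarith [h.2.2]
        have b0 : MT33 W (blk P Q) t₀ ≤ (1 + En33 P Q (Lam / lam) n) * Ws W t₀.items := by
          have hm := mul_le_mul_of_nonneg_right (En_mono33 P Q hr0 (show b + 1 ≤ n by omega)) hw0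
          rcases ih₀ (b + 1) c (by omega) hc hok0 hal0 with h | h
          · rw [h]; positivity
          · linarith [h.2.2]
        rw [MT_add33 _ hdis, hw]
        have k1 := mul_le_mul_of_nonneg_right hmono hw1
        linarith
      · left
        have hpP : b ≤ P := by
          by_contra h
          exact hp (mem_blk33.2 ⟨not_le.1 h, by omega, hpp⟩)
        exact MT_zero33 hW P Q _ (b + 1) (by omega) ⟨hpp, by omega, hdis, hok1, hok0⟩
  | up b Sp t ih =>
      intro n c hn hc hok hal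
      obtain ⟨hpp, hpn, _, hok1⟩ := hok
      obtain ⟨_, hal1⟩ := hal
      rcases ih b c (by omega) hc hok1 hal1 with h | ⟨h1, h2, h3⟩
      · left; exact h
      · right
        refine ⟨h1, h2, ?_⟩
        have hmono := En_mono33 P Q hr0 hpn.le
        have hw0 : 0 ≤ Ws W t.items := Ws_nonneg33 hW _
        have := mul_le_mul_of_nonneg_right hmono hw0
        have hcm : MT33 W (blk P Q) (IT.up b Sp t) = MT33 W (blk P Q) t := rfl
        have hit : (IT.up b Sp t).items = t.items := rfl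
        rw [hcm, hit]
        linarith
  | pl b t ih =>
      intro n c hn hc hok hal
      obtain ⟨hpp, hpn, hok1⟩ := hok
      rcases ih (b + 1) c (by omega) hc hok1 hal with h | ⟨h1, h2, h3⟩
      · left; exact h
      · right
        refine ⟨h1, h2, ?_⟩
        have hmono := En_mono33 P Q hr0 (show b + 1 ≤ n by omega)
        have hw0 : 0 ≤ Ws W t.items := Ws_nonneg33 hW _
        have := mul_le_mul_of_nonneg_right hmono hw0
        have hcm : MT33 W (blk P Q) (IT.pl b t) = MT33 W (blk P Q) t := rfl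
        have hit : (IT.pl b t).items = t.items := rfl
        rw [hcm, hit]
        linarith
  | far b t₁ t₀ ih₁ ih₀ =>
      intro n c hn hc hok hal
      obtain ⟨hpp, hpn, hdis, hok1, hok0⟩ := hok
      obtain ⟨hI, hal1, hal0⟩ := hal
      by_cases hp : b ∈ blk P Q
      · right
        obtain ⟨hlo, hhi⟩ := hI hp
        refine ⟨hlo, hhi, ?_⟩
        have hw : Ws W (IT.far b t₁ t₀).items = Ws W t₁.items + Ws W t₀.items :=
          Ws_union33 W hdis
        have hE0 : 0 ≤ En33 P Q (Lam / lam) b := En_nonneg33 P Q hr0 b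
        have hEn : 0 ≤ En33 P Q (Lam / lam) n := En_nonneg33 P Q hr0 n
        have hmono := En_mono33 P Q hr0 hpn.le
        have hw1 : 0 ≤ Ws W t₁.items := Ws_nonneg33 hW _
        have hw0 : 0 ≤ Ws W t₀.items := Ws_nonneg33 hW _
        have b1 : MT33 W (blk P Q) t₁ ≤ (1 + En33 P Q (Lam / lam) n) * Ws W t₁.items := by
          have hm := mul_le_mul_of_nonneg_right (En_mono33 P Q hr0 (show b + 1 ≤ n by omega)) hw1
          rcases ih₁ (b + 1) c (by omega) hc hok1 hal1 with h | h
          · rw [h]; positivity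
          · linarith [h.2.2]
        have b0 : MT33 W (blk P Q) t₀ ≤ (1 + En33 P Q (Lam / lam) n) * Ws W t₀.items := by
          have hm := mul_le_mul_of_nonneg_right (En_mono33 P Q hr0 (show b + 1 ≤ n by omega)) hw0
          rcases ih₀ (b + 1) c (by omega) hc hok0 hal0 with h | h
          · rw [h]; positivity
          · linarith [h.2.2]
        rw [MT_far33 _ hdis, hw]
        have k1 := mul_le_mul_of_nonneg_right hmono hw1
        linarith
      · left
        have hpP : b ≤ P := by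
          by_contra h
          exact hp (mem_blk33.2 ⟨not_le.1 h, by omega, hpp⟩)
        exact MT_zero33 hW P Q _ (b + 1) (by omega) ⟨hpp, by omega, hdis, hok1, hok0⟩

/-- **(a)** -/
theorem mt_le (W : ℕ → ℝ) (hW : ∀ q, 0 ≤ W q) (P Q : ℕ) {lam Lam : ℝ} (hl : 0 < lam)
    (hL : lam ≤ Lam) :
    ∀ (t : IT) (n : ℕ) (c : ℝ), 0 < c → t.Ok n → t.Alive W (blk P Q) lam Lam c →
      ∑ q ∈ t.items, W q * (((t.mt q).filter (· ∈ blk P Q)).card : ℝ) ≤
        KA (blk P Q) lam Lam * Ws W t.items := by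
  have hr1 : 1 ≤ Lam / lam := (one_le_div hl).2 hL
  have hr0 : 0 ≤ Lam / lam := by linarith
  have hKA : 0 ≤ KA (blk P Q) lam Lam := by
    unfold KA
    have : 0 ≤ ∑ p ∈ blk P Q, (1 / (p : ℝ)) := Finset.sum_nonneg fun p _ => by positivity
    positivity
  have hEn : 1 + En33 P Q (Lam / lam) (Q + 1) = KA (blk P Q) lam Lam := by
    unfold En33 KA
    have hf : (blk P Q).filter (· < Q + 1) = blk P Q := by
      apply Finset.filter_true_of_mem
      intro p hp
      have := (mem_blk33.1 hp).2.1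
      omega
    rw [hf, Finset.mul_sum]
    congr 1
    refine Finset.sum_congr rfl fun p _ => by ring
  have base : ∀ (t : IT) (c : ℝ), 0 < c → t.Ok (Q + 1) → t.Alive W (blk P Q) lam Lam c →
      MT33 W (blk P Q) t ≤ KA (blk P Q) lam Lam * Ws W t.items := by
    intro t c hc hok hal
    have hw0 : 0 ≤ Ws W t.items := Ws_nonneg33 hW _
    rcases MT_active33 W hW P Q hl hL t (Q + 1) c le_rfl hc hok hal with h | ⟨_, _, h3⟩
    · rw [h]; positivity
    · rw [hEn] at h3; exact h3
  intro t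
  change ∀ (n : ℕ) (c : ℝ), 0 < c → t.Ok n → t.Alive W (blk P Q) lam Lam c →
      MT33 W (blk P Q) t ≤ KA (blk P Q) lam Lam * Ws W t.items
  induction t with
  | leaf S =>
      intro n c hc _ _
      have hw0 : 0 ≤ Ws W (IT.leaf S).items := Ws_nonneg33 hW _
      have : MT33 W (blk P Q) (IT.leaf S) = 0 := by simp [MT33, IT.mt]
      rw [this]; positivity
  | br p Sp t₁ t₀ ih₁ ih₀ =>
      intro n c hc hok hal
      by_cases hpQ : p ≤ Q
      · exact base _ c hc ⟨hok.1, by omega, hok.2.2⟩ hal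
      · obtain ⟨hpp, _, hdis, _, hok1, hok0⟩ := hok
        have hp2 : (2 : ℝ) ≤ p := by exact_mod_cast hpp.two_le
        have hxp : 1 / (p : ℝ) ≤ 1 / 2 := by
          apply one_div_le_one_div_of_le <;> linarith
        have hq : 0 < 1 - 1 / (p : ℝ) := by linarith
        have i1 := ih₁ p (c / (1 - 1 / (p : ℝ))) (by positivity) hok1 hal.2.1
        have i0 := ih₀ p (c * p) (by positivity) hok0 hal.2.2
        have hb : p ∉ blk P Q := by
          rw [mem_blk33]; omega
        have hw : Ws W (IT.br p Sp t₁ t₀).items = Ws W t₁.items + Ws W t₀.items :=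
          Ws_union33 W hdis
        have hbr := MT_br33 hW (blk P Q) (p := p) (Sp := Sp) hdis
        rw [if_neg hb] at hbr
        rw [hw]
        linarith
  | add b t₁ t₀ ih₁ ih₀ =>
      intro n c hc hok hal
      obtain ⟨hpp, _, hdis, hok1, hok0⟩ := hok
      have i1 := ih₁ (b + 1) c hc hok1 hal.2.1
      have i0 := ih₀ (b + 1) c hc hok0 hal.2.2
      have hw : Ws W (IT.add b t₁ t₀).items = Ws W t₁.items + Ws W t₀.items :=
        Ws_union33 W hdis
      rw [MT_add33 _ hdis, hw]
      linarith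
  | up b Sp t ih =>
      intro n c hc hok hal
      exact ih b c hc hok.2.2.2 hal.2
  | pl b t ih =>
      intro n c hc hok hal
      exact ih (b + 1) c hc hok.2.2 hal
  | far b t₁ t₀ ih₁ ih₀ =>
      intro n c hc hok hal
      obtain ⟨hpp, _, hdis, hok1, hok0⟩ := hok
      have i1 := ih₁ (b + 1) c hc hok1 hal.2.1
      have i0 := ih₀ (b + 1) c hc hok0 hal.2.2
      have hw : Ws W (IT.far b t₁ t₀).items = Ws W t₁.items + Ws W t₀.items :=
        Ws_union33 W hdis
      rw [MT_far33 _ hdis, hw]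
      linarith

/-! ### (b) -/

theorem sum_insert_filter33 (I S : Finset ℕ) (p : ℕ) (g : ℕ → ℝ) (hg : ∀ b, 0 ≤ g b) :
    ∑ b ∈ (insert p S).filter (· ∈ I), g b ≤
      ∑ b ∈ S.filter (· ∈ I), g b + (if p ∈ I then g p else 0) := by
  by_cases h : p ∈ I
  · rw [if_pos h, Finset.filter_insert, if_pos h]
    by_cases h2 : p ∈ S.filter (· ∈ I)
    · rw [Finset.insert_eq_of_mem h2]
      have := hg p
      linarith
    · rw [Finset.sum_insert h2, add_comm]
  · rw [if_neg h, Finset.filter_insert, if_neg h, add_zero]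

theorem uq_ins33 (W : ℕ → ℝ) (hW : ∀ q, 0 ≤ W q) (I : Finset ℕ) {g : ℕ → ℝ}
    (hg : ∀ b, 0 ≤ g b) (b : ℕ) {Sp S : Finset ℕ} (hsub : Sp ⊆ S) (u : ℕ → Finset ℕ) :
    ∑ q ∈ S, W q * ∑ x ∈ (if q ∈ Sp then insert b (u q) else u q).filter (· ∈ I), g x ≤
      ∑ q ∈ S, W q * ∑ x ∈ (u q).filter (· ∈ I), g x + (if b ∈ I then g b * Ws W Sp else 0) := by
  have hSp : (if b ∈ I then g b * Ws W Sp else 0) =
      ∑ q ∈ S, W q * (if q ∈ Sp then (if b ∈ I then g b else 0) else 0) := by
    by_cases hb : b ∈ I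
    · simp only [if_pos hb]
      have : ∀ q, W q * (if q ∈ Sp then g b else 0) = if q ∈ Sp then W q * g b else 0 := by
        intro q; split_ifs <;> simp
      simp only [this]
      rw [← Finset.sum_filter]
      have hf : S.filter (· ∈ Sp) = Sp := by
        ext x; simp only [Finset.mem_filter]
        exact ⟨fun h => h.2, fun h => ⟨hsub h, h⟩⟩
      rw [hf, Ws, Finset.mul_sum]
      exact Finset.sum_congr rfl fun q _ => mul_comm _ _
    · simp only [if_neg hb]; simp
  rw [hSp, ← Finset.sum_add_distrib]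
  refine Finset.sum_le_sum fun q _ => ?_
  rw [← mul_add]
  apply mul_le_mul_of_nonneg_left _ (hW q)
  by_cases hq : q ∈ Sp
  · simp only [if_pos hq]
    exact sum_insert_filter33 I _ b g hg
  · simp only [if_neg hq, add_zero]
    exact le_rfl

/-- **(b)** -/
theorem sp_le (W : ℕ → ℝ) (hW : ∀ q, 0 ≤ W q) (I : Finset ℕ) {L : ℝ} (hL : 0 < L) :
    ∀ (t : IT) (n : ℕ), t.Ok n → t.SepRule W I L →
      ∑ q ∈ t.items, W q * ∑ b ∈ (t.sp q).filter (· ∈ I), (1 / (b : ℝ)) ≤
        1 / L * t.cmin W I := by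
  intro t
  induction t with
  | leaf S => intro n _ _; simp [IT.sp, IT.cmin]
  | br p Sp t₁ t₀ ih₁ ih₀ =>
      intro n hok hs
      obtain ⟨_, _, hdis, _, hok1, hok0⟩ := hok
      have i1 := ih₁ p hok1 hs.1
      have i0 := ih₀ p hok0 hs.2
      have e : ∑ q ∈ (IT.br p Sp t₁ t₀).items, W q *
          ∑ b ∈ ((IT.br p Sp t₁ t₀).sp q).filter (· ∈ I), (1 / (b : ℝ)) =
          ∑ q ∈ t₁.items ∪ t₀.items,
          (if q ∈ t₀.items then W q * ∑ b ∈ (t₀.sp q).filter (· ∈ I), (1 / (b : ℝ))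
            else W q * ∑ b ∈ (t₁.sp q).filter (· ∈ I), (1 / (b : ℝ))) := by
        refine Finset.sum_congr rfl fun q _ => ?_
        by_cases hq : q ∈ t₀.items
        · simp only [IT.sp, if_pos hq]
        · simp only [IT.sp, if_neg hq]
      rw [e, sum_split33 hdis]
      have hcm : (IT.br p Sp t₁ t₀).cmin W I = t₁.cmin W I + t₀.cmin W I := rfl
      rw [hcm, mul_add]
      linarith
  | add b t₁ t₀ ih₁ ih₀ =>
      intro n hok hs
      obtain ⟨hbp, _, hdis, hok1, hok0⟩ := hok
      obtain ⟨hI, hs1, hs0⟩ := hs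
      have i1 := ih₁ (b + 1) hok1 hs1
      have i0 := ih₀ (b + 1) hok0 hs0
      have hg : ∀ x : ℕ, (0 : ℝ) ≤ 1 / (x : ℝ) := fun x => by positivity
      have e1 := uq_ins33 W hW I (g := fun x => 1 / (x : ℝ)) hg b
        (Finset.Subset.refl (IT.add b t₁ t₀).items)
        (fun q => if q ∈ t₀.items then t₀.sp q else t₁.sp q)
      have e0 : ∑ q ∈ (IT.add b t₁ t₀).items, W q *
          ∑ x ∈ ((IT.add b t₁ t₀).sp q).filter (· ∈ I), (1 / (x : ℝ)) =
          ∑ q ∈ (IT.add b t₁ t₀).items, W q * ∑ x ∈ (if q ∈ (IT.add b t₁ t₀).items then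
            insert b (if q ∈ t₀.items then t₀.sp q else t₁.sp q) else
              (if q ∈ t₀.items then t₀.sp q else t₁.sp q)).filter (· ∈ I), (1 / (x : ℝ)) := by
        refine Finset.sum_congr rfl fun q hq => ?_
        simp only [IT.sp, if_pos hq]
      have e : ∑ q ∈ (IT.add b t₁ t₀).items, W q *
          ∑ x ∈ (if q ∈ t₀.items then t₀.sp q else t₁.sp q).filter (· ∈ I), (1 / (x : ℝ)) =
          ∑ q ∈ t₁.items ∪ t₀.items,
          (if q ∈ t₀.items then W q * ∑ x ∈ (t₀.sp q).filter (· ∈ I), (1 / (x : ℝ))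
            else W q * ∑ x ∈ (t₁.sp q).filter (· ∈ I), (1 / (x : ℝ))) := by
        refine Finset.sum_congr rfl fun q _ => ?_
        by_cases hq : q ∈ t₀.items
        · simp only [if_pos hq]
        · simp only [if_neg hq]
      rw [e, sum_split33 hdis] at e1
      rw [e0]
      refine e1.trans ?_
      have hcm : (IT.add b t₁ t₀).cmin W I = (if b ∈ I then min (Ws W t₁.items)
          (Ws W t₀.items) else 0) + (t₁.cmin W I + t₀.cmin W I) := rfl
      have hw : Ws W (IT.add b t₁ t₀).items = Ws W t₁.items + Ws W t₀.items :=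
        Ws_union33 W hdis
      rw [hcm, hw]
      by_cases hp : b ∈ I
      · rw [if_pos hp, if_pos hp]
        obtain ⟨g0, g1⟩ := hI hp
        have hb0 : (0 : ℝ) < b := by exact_mod_cast hbp.pos
        have hmin : 1 / (b : ℝ) * (Ws W t₁.items + Ws W t₀.items) ≤
            1 / L * min (Ws W t₁.items) (Ws W t₀.items) := by
          have h1 : L / b * (Ws W t₁.items + Ws W t₀.items) ≤
              min (Ws W t₁.items) (Ws W t₀.items) := le_min g1 g0
          have h4 : 1 / (b : ℝ) * (Ws W t₁.items + Ws W t₀.items) =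
              1 / L * (L / b * (Ws W t₁.items + Ws W t₀.items)) := by
            field_simp
          rw [h4]
          exact mul_le_mul_of_nonneg_left h1 (by positivity)
        rw [mul_add, mul_add]
        linarith
      · rw [if_neg hp, if_neg hp, zero_add, mul_add]
        linarith
  | up b Sp t ih =>
      intro n hok hs
      exact ih b hok.2.2.2 hs
  | pl b t ih =>
      intro n hok hs
      exact ih (b + 1) hok.2.2 hs
  | far p t₁ t₀ ih₁ ih₀ =>
      intro n hok hs
      obtain ⟨_, _, hdis, hok1, hok0⟩ := hok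
      have i1 := ih₁ (p + 1) hok1 hs.1
      have i0 := ih₀ (p + 1) hok0 hs.2
      have e : ∑ q ∈ (IT.far p t₁ t₀).items, W q *
          ∑ b ∈ ((IT.far p t₁ t₀).sp q).filter (· ∈ I), (1 / (b : ℝ)) =
          ∑ q ∈ t₁.items ∪ t₀.items,
          (if q ∈ t₀.items then W q * ∑ b ∈ (t₀.sp q).filter (· ∈ I), (1 / (b : ℝ))
            else W q * ∑ b ∈ (t₁.sp q).filter (· ∈ I), (1 / (b : ℝ))) := by
        refine Finset.sum_congr rfl fun q _ => ?_
        by_cases hq : q ∈ t₀.items
        · simp only [IT.sp, if_pos hq]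
        · simp only [IT.sp, if_neg hq]
      rw [e, sum_split33 hdis]
      have hcm : (IT.far p t₁ t₀).cmin W I = t₁.cmin W I + t₀.cmin W I := rfl
      rw [hcm, mul_add]
      linarith

/-! ### (u) -/

/-- `∑ g σ` over the columns of `I` below `n` -/
noncomputable def Gn33 (I : Finset ℕ) (g σ : ℕ → ℝ) (n : ℕ) : ℝ :=
  ∑ b ∈ I.filter (· < n), g b * σ b

theorem Gn_mono33 (I : Finset ℕ) {g σ : ℕ → ℝ} (hg : ∀ b, 0 ≤ g b) (hσ : ∀ b, 0 ≤ σ b)
    {n m : ℕ} (h : n ≤ m) : Gn33 I g σ n ≤ Gn33 I g σ m := by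
  refine Finset.sum_le_sum_of_subset_of_nonneg ?_ fun p _ _ => mul_nonneg (hg p) (hσ p)
  intro p hp
  simp only [Finset.mem_filter] at hp ⊢
  exact ⟨hp.1, lt_of_lt_of_le hp.2 h⟩

theorem Gn_step33 (I : Finset ℕ) {g σ : ℕ → ℝ} (hg : ∀ b, 0 ≤ g b) (hσ : ∀ b, 0 ≤ σ b)
    {p n : ℕ} (hp : p ∈ I) (h : p < n) :
    Gn33 I g σ p + g p * σ p ≤ Gn33 I g σ n := by
  have hsub : insert p (I.filter (· < p)) ⊆ I.filter (· < n) := by
    intro x hx
    simp only [Finset.mem_insert, Finset.mem_filter] at hx ⊢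
    rcases hx with rfl | ⟨h1, h2⟩
    · exact ⟨hp, h⟩
    · exact ⟨h1, h2.trans h⟩
  have hnot : p ∉ I.filter (· < p) := by simp
  calc Gn33 I g σ p + g p * σ p
      = ∑ x ∈ insert p (I.filter (· < p)), g x * σ x := by
        rw [Finset.sum_insert hnot, Gn33, add_comm]
    _ ≤ Gn33 I g σ n :=
        Finset.sum_le_sum_of_subset_of_nonneg hsub fun x _ _ => mul_nonneg (hg x) (hσ x)

theorem uq_aux33 (W : ℕ → ℝ) (hW : ∀ q, 0 ≤ W q) (I : Finset ℕ) {g σ : ℕ → ℝ}
    (hg : ∀ b, 0 ≤ g b) (hσ : ∀ b, 0 ≤ σ b) :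
    ∀ (t : IT) (n : ℕ), t.Ok n → t.UpRule W σ →
      ∑ q ∈ t.items, W q * ∑ b ∈ (t.uq q).filter (· ∈ I), g b ≤
        Gn33 I g σ n * Ws W t.items := by
  intro t
  induction t with
  | leaf S =>
      intro n _ _
      have h1 : 0 ≤ Gn33 I g σ n := Finset.sum_nonneg fun b _ => mul_nonneg (hg b) (hσ b)
      have h2 : 0 ≤ Ws W (IT.leaf S).items := Ws_nonneg33 hW _
      have : ∑ q ∈ (IT.leaf S).items, W q * ∑ b ∈ ((IT.leaf S).uq q).filter (· ∈ I), g b = 0 := by
        simp [IT.uq]
      rw [this]; positivity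
  | br p Sp t₁ t₀ ih₁ ih₀ =>
      intro n hok hs
      obtain ⟨_, hpn, hdis, hsub, hok1, hok0⟩ := hok
      obtain ⟨hsh, hs1, hs0⟩ := hs
      have i1 := ih₁ p hok1 hs1
      have i0 := ih₀ p hok0 hs0
      have e : ∑ q ∈ (IT.br p Sp t₁ t₀).items, W q *
          ∑ b ∈ ((IT.br p Sp t₁ t₀).uq q).filter (· ∈ I), g b =
          ∑ q ∈ t₁.items ∪ t₀.items,
          (if q ∈ t₀.items then W q * ∑ b ∈ (t₀.uq q).filter (· ∈ I), g b
            else W q * ∑ b ∈ ((if q ∈ Sp then insert p (t₁.uq q) else t₁.uq q).filter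
              (· ∈ I)), g b) := by
        refine Finset.sum_congr rfl fun q _ => ?_
        by_cases hq : q ∈ t₀.items
        · simp only [IT.uq, if_pos hq]
        · simp only [IT.uq, if_neg hq]
      rw [e, sum_split33 hdis]
      have hw : Ws W (IT.br p Sp t₁ t₀).items = Ws W t₁.items + Ws W t₀.items :=
        Ws_union33 W hdis
      have e1 := uq_ins33 W hW I hg p hsub (fun q => t₁.uq q)
      have k0 := mul_le_mul_of_nonneg_right (Gn_mono33 I hg hσ hpn.le)
        (Ws_nonneg33 hW t₀.items)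
      have hw1 := Ws_nonneg33 hW t₁.items
      rw [hw, mul_add]
      by_cases hb : p ∈ I
      · rw [if_pos hb] at e1
        have h1 : g p * Ws W Sp ≤ g p * (σ p * Ws W t₁.items) :=
          mul_le_mul_of_nonneg_left hsh (hg p)
        have h2 := mul_le_mul_of_nonneg_right (Gn_step33 I hg hσ hb hpn) hw1
        rw [add_mul] at h2
        linarith
      · rw [if_neg hb, add_zero] at e1
        have h2 := mul_le_mul_of_nonneg_right (Gn_mono33 I hg hσ hpn.le) hw1
        linarith
  | add p t₁ t₀ ih₁ ih₀ =>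
      intro n hok hs
      obtain ⟨_, hpn, hdis, hok1, hok0⟩ := hok
      have i1 := ih₁ (p + 1) hok1 hs.1
      have i0 := ih₀ (p + 1) hok0 hs.2
      have e : ∑ q ∈ (IT.add p t₁ t₀).items, W q *
          ∑ b ∈ ((IT.add p t₁ t₀).uq q).filter (· ∈ I), g b =
          ∑ q ∈ t₁.items ∪ t₀.items,
          (if q ∈ t₀.items then W q * ∑ b ∈ (t₀.uq q).filter (· ∈ I), g b
            else W q * ∑ b ∈ (t₁.uq q).filter (· ∈ I), g b) := by
        refine Finset.sum_congr rfl fun q _ => ?_
        by_cases hq : q ∈ t₀.items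
        · simp only [IT.uq, if_pos hq]
        · simp only [IT.uq, if_neg hq]
      rw [e, sum_split33 hdis]
      have hw : Ws W (IT.add p t₁ t₀).items = Ws W t₁.items + Ws W t₀.items :=
        Ws_union33 W hdis
      have k1 := mul_le_mul_of_nonneg_right (Gn_mono33 I hg hσ (show p + 1 ≤ n by omega))
        (Ws_nonneg33 hW t₁.items)
      have k0 := mul_le_mul_of_nonneg_right (Gn_mono33 I hg hσ (show p + 1 ≤ n by omega))
        (Ws_nonneg33 hW t₀.items)
      rw [hw, mul_add]
      linarith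
  | up b Sp t ih =>
      intro n hok hs
      obtain ⟨_, hbn, hsub, hok1⟩ := hok
      obtain ⟨hsh, hs1⟩ := hs
      have i1 := ih b hok1 hs1
      have hit : (IT.up b Sp t).items = t.items := rfl
      rw [hit]
      have hw0 : 0 ≤ Ws W t.items := Ws_nonneg33 hW _
      have e1 := uq_ins33 W hW I hg b hsub (fun q => t.uq q)
      refine e1.trans ?_
      by_cases hb : b ∈ I
      · rw [if_pos hb]
        have h1 : g b * Ws W Sp ≤ g b * (σ b * Ws W t.items) :=
          mul_le_mul_of_nonneg_left hsh (hg b)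
        have h2 := mul_le_mul_of_nonneg_right (Gn_step33 I hg hσ hb hbn) hw0
        rw [add_mul] at h2
        linarith
      · rw [if_neg hb, add_zero]
        have h2 := mul_le_mul_of_nonneg_right (Gn_mono33 I hg hσ hbn.le) hw0
        linarith
  | pl b t ih =>
      intro n hok hs
      obtain ⟨_, hbn, hok1⟩ := hok
      have i1 := ih (b + 1) hok1 hs
      exact i1.trans (mul_le_mul_of_nonneg_right (Gn_mono33 I hg hσ (show b + 1 ≤ n by omega))
        (Ws_nonneg33 hW t.items))
  | far p t₁ t₀ ih₁ ih₀ =>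
      intro n hok hs
      obtain ⟨_, hpn, hdis, hok1, hok0⟩ := hok
      have i1 := ih₁ (p + 1) hok1 hs.1
      have i0 := ih₀ (p + 1) hok0 hs.2
      have e : ∑ q ∈ (IT.far p t₁ t₀).items, W q *
          ∑ b ∈ ((IT.far p t₁ t₀).uq q).filter (· ∈ I), g b =
          ∑ q ∈ t₁.items ∪ t₀.items,
          (if q ∈ t₀.items then W q * ∑ b ∈ (t₀.uq q).filter (· ∈ I), g b
            else W q * ∑ b ∈ (t₁.uq q).filter (· ∈ I), g b) := by
        refine Finset.sum_congr rfl fun q _ => ?_
        by_cases hq : q ∈ t₀.items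
        · simp only [IT.uq, if_pos hq]
        · simp only [IT.uq, if_neg hq]
      rw [e, sum_split33 hdis]
      have hw : Ws W (IT.far p t₁ t₀).items = Ws W t₁.items + Ws W t₀.items :=
        Ws_union33 W hdis
      have k1 := mul_le_mul_of_nonneg_right (Gn_mono33 I hg hσ (show p + 1 ≤ n by omega))
        (Ws_nonneg33 hW t₁.items)
      have k0 := mul_le_mul_of_nonneg_right (Gn_mono33 I hg hσ (show p + 1 ≤ n by omega))
        (Ws_nonneg33 hW t₀.items)
      rw [hw, mul_add]
      linarith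

/-- **(u)** -/
theorem uq_le (W : ℕ → ℝ) (hW : ∀ q, 0 ≤ W q) (I : Finset ℕ) {g σ : ℕ → ℝ}
    (hg : ∀ b, 0 ≤ g b) (hσ : ∀ b, 0 ≤ σ b) (t : IT) (n : ℕ) (hok : t.Ok n)
    (hu : t.UpRule W σ) :
    ∑ q ∈ t.items, W q * ∑ b ∈ (t.uq q).filter (· ∈ I), g b ≤
      (∑ b ∈ I, g b * σ b) * Ws W t.items := by
  refine (uq_aux33 W hW I hg hσ t n hok hu).trans ?_
  apply mul_le_mul_of_nonneg_right _ (Ws_nonneg33 hW _)
  exact Finset.sum_le_sum_of_subset_of_nonneg (Finset.filter_subset _ _)
    fun b _ _ => mul_nonneg (hg b) (hσ b)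

end Crest.Agent.R4P.Cnt588
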