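import Mathlib
import Crest.Agent.R4.DeepSt579

/-!
R4 powers pass (S0004), helper800: **averages by moduli which are not squarefree** (tree-free).

`rad' M = ∏ primeFactors M`, `ex M = M / rad' M`. If no prime of `M` divides `w` twice, then
`M.gcd w = (rad' M).gcd w`, `rf w M = ex M * rf w (rad' M)`: the averaged pair `(M, M')` with radii `R, R'` is
the averaged pair of the squarefree kernels with radii `ex M * R`, `ex M' * R'`.
-/

set_option autoImplicit false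
open Finset

namespace Crest.Agent.R4P.Rad800

open Crest.Agent.R4.HVW560 Crest.Agent.R4.Schur709 Crest.Agent.R4.StopHvw709
open Crest.Agent.R4.StopAsm709
open Crest.Agent.R4.AvgItem710 (rf Da Dp Ra Rel)

/-- squarefree kernel -/
def rad' (M : ℕ) : ℕ := ∏ p ∈ M.primeFactors, p

/-- the excess -/
def ex (M : ℕ) : ℕ := M / rad' M

/-- no prime of `M` divides `w` twice -/
def Once (M w : ℕ) : Prop := ∀ l : ℕ, l.Prime → l ∣ M → ¬ l ^ 2 ∣ w

lemma rad'_dvd (M : ℕ) : rad' M ∣ M := Nat.prod_primeFactors_dvd M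

lemma rad'_pos (M : ℕ) : 0 < rad' M := Finset.prod_pos fun _ hp => (Nat.prime_of_mem_primeFactors hp).pos

lemma rad'_sqf (M : ℕ) : Squarefree (rad' M) := by
  unfold rad'
  refine Finset.squarefree_prod_of_pairwise_isCoprime (fun p hp q hq hpq => ?_) fun p hp =>
    (Nat.prime_of_mem_primeFactors hp).prime.irreducible.squarefree
  exact Nat.coprime_iff_isRelPrime.1
    ((Nat.coprime_primes (Nat.prime_of_mem_primeFactors hp) (Nat.prime_of_mem_primeFactors hq)).2 hpq)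

lemma rad'_pf {M : ℕ} (hM : 0 < M) : (rad' M).primeFactors = M.primeFactors := by
  ext p
  simp only [Nat.mem_primeFactors]
  constructor
  · rintro ⟨h1, h2, _⟩; exact ⟨h1, h2.trans (rad'_dvd M), hM.ne'⟩
  · rintro ⟨h1, h2, h3⟩
    exact ⟨h1, Finset.dvd_prod_of_mem _ (Nat.mem_primeFactors.2 ⟨h1, h2, h3⟩), (rad'_pos M).ne'⟩

lemma ex_mul (M : ℕ) : ex M * rad' M = M := Nat.div_mul_cancel (rad'_dvd M)

lemma ex_pos {M : ℕ} (hM : 0 < M) : 0 < ex M :=
  Nat.div_pos (Nat.le_of_dvd hM (rad'_dvd M)) (rad'_pos M)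

lemma Once.sqf_gcd {M w : ℕ} (h : Once M w) : Squarefree (M.gcd w) := by
  rw [Nat.squarefree_iff_prime_squarefree]
  intro p hp hd
  refine h p hp ((dvd_mul_right p p).trans (hd.trans (Nat.gcd_dvd_left _ _))) ?_
  rw [sq]; exact hd.trans (Nat.gcd_dvd_right _ _)

lemma Once.gcd {M w : ℕ} (h : Once M w) (hM : 0 < M) : M.gcd w = (rad' M).gcd w := by
  apply Nat.dvd_antisymm
  · refine Nat.dvd_gcd ?_ (Nat.gcd_dvd_right _ _)
    have h1 := h.sqf_gcd
    rw [← Nat.prod_primeFactors_of_squarefree h1]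
    exact Finset.prod_dvd_prod_of_subset _ _ _
      (Nat.primeFactors_mono (Nat.gcd_dvd_left _ _) hM.ne')
  · exact Nat.dvd_gcd ((Nat.gcd_dvd_left _ _).trans (rad'_dvd M)) (Nat.gcd_dvd_right _ _)

lemma Once.rf {M w : ℕ} (h : Once M w) (hM : 0 < M) : rf w M = ex M * rf w (rad' M) := by
  unfold Crest.Agent.R4.AvgItem710.rf
  rw [h.gcd hM]
  nth_rewrite 1 [← ex_mul M]
  exact Nat.mul_div_assoc _ (Nat.gcd_dvd_left _ _)

lemma Once.uu {M w : ℕ} (h : Once M w) (hM : 0 < M) (hw : 0 < w) :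
    uu M.primeFactors w = w / M.gcd w := by
  rw [← rad'_pf hM, uu_pf (rad'_sqf M) w hw, h.gcd hM]

lemma Once.miss {M w : ℕ} (h : Once M w) (hM : 0 < M) (hw : 0 < w) :
    ex M * ∏ p ∈ miss M.primeFactors w, p = Crest.Agent.R4.AvgItem710.rf w M := by
  rw [h.rf hM, ← rad'_pf hM, Crest.Agent.R4.DeepSt579.miss_pf_prod (rad'_sqf M) w hw]

lemma Once.Rc {M w : ℕ} (h : Once M w) (hM : 0 < M) (hw : 0 < w) (R : ℕ → ℝ) :
    Rc M.primeFactors (fun w => (ex M : ℝ) * R w) w = (Crest.Agent.R4.AvgItem710.rf w M : ℕ) * R w := by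
  rw [← rad'_pf hM, Rc_pf (rad'_sqf M) _ w hw, h.rf hM]
  push_cast; ring

/-- the scale -/
theorem Dc_rad {M M' : ℕ} {e : ℕ × ℕ} (hM : 0 < M) (hM' : 0 < M') (R R' : ℕ → ℝ)
    (h1 : 0 < e.1) (h2 : 0 < e.2) (o1 : Once M e.1) (o2 : Once M' e.2) :
    Dc M'.primeFactors M.primeFactors (fun w => (ex M : ℝ) * R w) (fun w => (ex M' : ℝ) * R' w) e =
      Da e.1 M e.2 M' (R e.1) (R' e.2) := by
  unfold Dc Crest.Agent.R4.AvgItem710.Da Crest.Agent.R4.AvgItem710.Dp
  rw [o2.uu hM' h2, o1.uu hM h1, o1.Rc hM h1 R, o2.Rc hM' h2 R']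

end Crest.Agent.R4P.Rad800
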