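import Mathlib
import Crest.Agent.R4.OSCol709

/-!
R4 powers pass (S0004), helper710: 709's `os_column_cls` with one more parameter `X ≥ 1`
(`X = ex M * ex M'` for averages which are not squarefree): the `[F]` hypothesis is
`1 < 2 (X m)^10 D`, the price is `X^(22/1000)`.
-/

set_option autoImplicit false
open Finset

namespace Crest.Agent.R4P.OSCoreX710
open Crest.Agent.R4.HVW560 Crest.Agent.R4.HVWX793
open Crest.Agent.R4.Schur709 Crest.Agent.R4.StopHvw709 Crest.Agent.R4.StopAsm709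
open Crest.Agent.R4.OSCore709
open Crest.Agent.R4.ClsS (eps1)

/-- the exact-false pairs of a group, by HVW -/
theorem ff_gX {N : ℕ} {O O' V W : Finset ℕ} {E : Finset (ℕ × ℕ)}
    {R R' : ℕ → ℝ} (hO : ∀ p ∈ O, p.Prime ∧ N ≤ p) (hO' : ∀ p ∈ O', p.Prime ∧ N ≤ p)
    (hV : ∀ w ∈ V, 0 < w ∧ 0 < R w) (hW : ∀ w ∈ W, 0 < w ∧ 0 < R' w) (hE : E ⊆ V ×ˢ W)
    {S S' : Finset ℕ} (hS : S ⊆ O) (hS' : S' ⊆ O')
    (hES : ∀ e ∈ E, miss O e.2 = S ∧ miss O' e.1 = S')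
    {K X : ℝ} (hK : 0 ≤ K) (hX : 1 ≤ X) {F : ℕ × ℕ → ℝ} (h1 : ∀ e ∈ E, Dc O O' R R' e ≤ 1)
    (hm : ∀ e ∈ E, 1 < 2 * (X * mm O O' e)^10 * Dc O O' R R' e)
    (hF : ∀ e ∈ E, F e ≤ K * ((mu O' R e.1 * mu O R' e.2) / Dc O O' R R' e)) :
    ∑ e ∈ E, F e ≤ K * (60000 * KH 1 0 eps1) * X^(22/1000:ℝ) * ((∏ p ∈ S, (p:ℝ))^(22/1000:ℝ) *
      (∏ p ∈ S', (p:ℝ))^(22/1000:ℝ)) *
      ZG (1/2-eps1) (1/2+eps1) O O' V W S S' (mu O' R) (mu O R') := by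
  have he1 : eps1 = 1/1000 := rfl
  have hX0 : 0 ≤ X := by linarith
  rcases E.eq_empty_or_nonempty with h0 | ⟨e0, he0⟩
  · rw [h0, Finset.sum_empty]
    have := ZG_nonneg (α := 1/2-eps1) (β := 1/2+eps1) (O := O) (O' := O') (S := S) (S' := S') (V := V) (W := W)
      (μ := mu O' R) (μ' := mu O R') (fun q hq => mu_nonneg (hV q hq).2.le) (fun q hq => mu_nonneg (hW q hq).2.le)
    have := (KH_pos 1 0 eps1).le
    positivity
  set m : ℝ := mm O O' e0 with hmd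
  have hm1 : 1 ≤ m := one_le_mm (fun p hp => (hO p hp).1.pos) (fun p hp => (hO' p hp).1.pos) e0
  have hXm : 1 ≤ X * m := by nlinarith
  have hmE : ∀ e ∈ E, mm O O' e = m := by
    intro e he
    rw [hmd]
    unfold mm
    rw [(hES e he).1, (hES e he).2, (hES e0 he0).1, (hES e0 he0).2]
  have hme : m = (∏ p ∈ S, (p:ℝ)) * (∏ p ∈ S', (p:ℝ)) := by
    rw [hmd]; unfold mm
    rw [(hES e0 he0).1, (hES e0 he0).2]
  obtain ⟨n, hn1, hn2⟩ := pow_near hXm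
  have key := mid_dyadic_g (ε := eps1) (by rw [he1]; norm_num) (by rw [he1]; norm_num) hO hO' hV hW hS hS'
    hK (F := F) n E hE hES h1 (by
      intro e he
      have h3 := hm e he
      rw [hmE e he] at h3
      rw [div_pow, one_pow, div_lt_iff₀ (by positivity)]
      have hD : 0 < Dc O O' R R' e := by
        by_contra hneg
        have : 2 * (X * m)^10 * Dc O O' R R' e ≤ 0 :=
          mul_nonpos_of_nonneg_of_nonpos (by positivity) (not_lt.1 hneg)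
        linarith
      nlinarith) hF
  refine key.trans ?_
  have hZ := ZG_nonneg (α := 1/2-eps1) (β := 1/2+eps1) (O := O) (O' := O') (S := S) (S' := S') (V := V) (W := W)
      (μ := mu O' R) (μ' := mu O R') (fun q hq => mu_nonneg (hV q hq).2.le) (fun q hq => mu_nonneg (hW q hq).2.le)
  apply mul_le_mul_of_nonneg_right _ hZ
  have hKH := (KH_pos 1 0 eps1).le
  rw [← Real.mul_rpow (Finset.prod_nonneg fun p _ => by positivity) (Finset.prod_nonneg fun p _ => by positivity),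
    ← hme]
  have hmul : (X * m)^(22/1000:ℝ) = X^(22/1000:ℝ) * m^(22/1000:ℝ) :=
    Real.mul_rpow hX0 (by linarith)
  calc (n:ℝ) * (2 * K * KH 1 0 eps1 * (2:ℝ)^(2*eps1*n))
      = (2 * K * KH 1 0 eps1) * ((n:ℝ) * (2:ℝ)^(2*eps1*n)) := by ring
    _ ≤ (2 * K * KH 1 0 eps1) * (30000 * (X * m)^(22/1000:ℝ)) :=
        mul_le_mul_of_nonneg_left hn2 (by positivity)
    _ = _ := by rw [hmul]; ring

open Classical in
/-- **columns of one-sided type for averages which are not squarefree** -/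
theorem os_column_clsX {CL : ℝ} (hCL : 1 ≤ CL) : ∃ p₀ : ℕ, 2 ≤ p₀ ∧
    ∀ (n p G : ℕ) (O O' V W : Finset ℕ) (R R' : ℕ → ℝ)
    (γ γ' : Finset ℕ → ℝ) (F : ℕ × ℕ → ℝ) (Q : ℕ × ℕ → Prop) (X : ℝ),
    p₀ ≤ p → n = ⌊1/4 * Real.log p / Real.log 2⌋₊ → 0 < G → 1 ≤ X →
    (∀ q ∈ O, q.Prime ∧ p ≤ q) → (∀ q ∈ O', q.Prime ∧ p ≤ q) →
    ∑ q ∈ O, (q:ℝ)^(-(11/12):ℝ) ≤ 1 → ∑ q ∈ O', (q:ℝ)^(-(11/12):ℝ) ≤ 1 →
    (∀ w ∈ V, 0 < w ∧ 0 < R w) → (∀ w ∈ W, 0 < w ∧ 0 < R' w) →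
    (∀ w ∈ V, R w ≤ (CL * Real.log p) * mu O' R w) → (∀ w ∈ W, R' w ≤ (CL * Real.log p) * mu O R' w) →
    (∀ z : ℝ, (p:ℝ) ≤ z → ∀ w ∈ V, Crest.Agent.R4.ClsB.Tame z G (uu O' w)) →
    (∀ z : ℝ, (p:ℝ) ≤ z → ∀ w ∈ W, Crest.Agent.R4.ClsB.Tame z G (uu O w)) →
    (∀ e ∈ V ×ˢ W, 1 < Dc O O' R R' e → F e ≤ 6 * (R e.1 * R' e.2)) →
    (∀ e ∈ V ×ˢ W, Dc O O' R R' e ≤ 1 → F e ≤ 6 * ((R e.1 * R' e.2) / Dc O O' R R' e)) →
    (∀ e ∈ V ×ˢ W, Dc O O' R R' e ≤ 1/2^n → 0 < F e → RelG O O' R R' γ γ' e) →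
    (∀ e ∈ V ×ˢ W, Dc O O' R R' e ≤ 1/2^n → 0 < F e → FG O O' R R' γ γ' n e →
      1 < 2 * (X * mm O O' e)^10 * Dc O O' R R' e ∨ Q e) →
    ∑ e ∈ V ×ˢ W, F e ≤
      (Real.log p)^3 * ((∑ q ∈ V, mu O' R q) * (∑ r ∈ W, mu O R' r)) +
      2 * X^(22/1000:ℝ) * ((p:ℝ)^(3/4000:ℝ) *
        ((∑ q ∈ V, om O' q * mu O' R q) * (∑ r ∈ W, om O r * mu O R' r))^(1/2+eps1)) +
      ∑ e ∈ (V ×ˢ W).filter (fun e => 0 < F e ∧ (Dc O O' R R' e ≤ 1/2^n ∧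
        (EG O O' R R' γ γ' e ∨ Q e))), F e := by
  obtain ⟨p₀, hp₀, h0⟩ := os_column_cls hCL
  obtain ⟨x0, hx0⟩ := Filter.eventually_atTop.1
    (os_numbers (KH 1 0 eps1) 1 1 0 CL (KH_pos 1 0 eps1).le le_rfl one_pos hCL)
  refine ⟨max p₀ (max 2 ⌈x0⌉₊), hp₀.trans (le_max_left _ _), ?_⟩
  intro n p G O O' V W R R' γ γ' F Q X hp hn hG hX hO hO' hsO hsO' hV hW hLV hLW hVt hWt hbig hsmall
    hrel hFG
  have hpp : p₀ ≤ p := (le_max_left _ _).trans hp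
  have hp2 : 2 ≤ p := hp₀.trans hpp
  have hpx : x0 ≤ (p:ℝ) := (Nat.le_ceil x0).trans
    (by exact_mod_cast (le_max_right _ _).trans ((le_max_right _ _).trans hp))
  obtain ⟨_, _, _, g4, _, _⟩ := hx0 p hpx
  have he1 : eps1 = 1/1000 := rfl
  have hp0 : (0:ℝ) < p := by exact_mod_cast (by omega : 0 < p)
  have hp1r : (1:ℝ) ≤ p := by exact_mod_cast (by omega : 1 ≤ p)
  obtain ⟨hn1, h2n⟩ := lev_bounds hp2 hn
  have hlog : 0 ≤ Real.log p := Real.log_nonneg hp1r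
  have hKH := (KH_pos 1 0 eps1).le
  have hX0 : 0 ≤ X := by linarith
  have hX1 : 1 ≤ X^(22/1000:ℝ) := Real.one_le_rpow hX (by norm_num)
  have hmu : ∀ q ∈ V, 0 ≤ mu O' R q := fun q hq => mu_nonneg (hV q hq).2.le
  have hmu' : ∀ q ∈ W, 0 ≤ mu O R' q := fun q hq => mu_nonneg (hW q hq).2.le
  have hb : 0 ≤ (∑ q ∈ V, om O' q * mu O' R q) * (∑ r ∈ W, om O r * mu O R' r) :=
    mul_nonneg (Finset.sum_nonneg fun q hq => mul_nonneg (om_nonneg _ _) (hmu q hq))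
      (Finset.sum_nonneg fun q hq => mul_nonneg (om_nonneg _ _) (hmu' q hq))
  set Y1 := ((∑ q ∈ V, om O' q * mu O' R q) * (∑ r ∈ W, om O r * mu O R' r))^(1/2+eps1) with hY1
  have hY0 : 0 ≤ Y1 := Real.rpow_nonneg hb _
  have main := h0 n p G O O' V W R R' γ γ' F (FG O O' R R' γ γ' n) hpp hn hG hO hO' hsO hsO' hV hW
    hLV hLW hVt hWt hbig hsmall hrel (fun e _ _ _ h => Or.inr h)
  -- the paid `[F]` pairs
  set E3 := (V ×ˢ W).filter (fun e => 0 < F e ∧ (Dc O O' R R' e ≤ 1/2^n ∧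
    1 < 2 * (X * mm O O' e)^10 * Dc O O' R R' e)) with hE3
  have hD1 : ∀ e ∈ E3, Dc O O' R R' e ≤ 1 := fun e he => by
    refine (Finset.mem_filter.1 he).2.2.1.trans ?_
    rw [div_le_one (by positivity)]
    exact one_le_pow₀ (by norm_num)
  have hE3P : ∀ e ∈ E3, e ∈ V ×ˢ W := fun e he => (Finset.mem_filter.1 he).1
  have hDpos : ∀ e ∈ V ×ˢ W, 0 < Dc O O' R R' e := by
    intro e he
    have h := Finset.mem_product.1 he
    exact Dc_pos hO hO' (hV _ h.1).2 (hW _ h.2).1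
  have sE : ∀ {E : Finset (ℕ × ℕ)} {S S' : Finset ℕ} (e : ℕ × ℕ), e ∈ Eg O O' E S S' → e ∈ E :=
    fun e he => (Finset.mem_filter.1 he).1
  have hα : (0:ℝ) < 1/2-eps1 := by rw [he1]; norm_num
  have hβ : (0:ℝ) < 1/2+eps1 := by rw [he1]; norm_num
  have hFmu : ∀ e ∈ E3, F e ≤ 6 * (CL * Real.log p)^2 * ((mu O' R e.1 * mu O R' e.2) / Dc O O' R R' e) := by
    intro e he
    have h := Finset.mem_product.1 (hE3P e he)
    have h1 := hLV _ h.1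
    have h2 := hLW _ h.2
    have h3 := (hW _ h.2).2
    have h5 : 0 ≤ (CL * Real.log p) * mu O' R e.1 := (hV _ h.1).2.le.trans h1
    have h6 : R e.1 * R' e.2 ≤ (CL * Real.log p)^2 * (mu O' R e.1 * mu O R' e.2) := by
      calc R e.1 * R' e.2 ≤ ((CL * Real.log p) * mu O' R e.1) * ((CL * Real.log p) * mu O R' e.2) :=
            mul_le_mul h1 h2 h3.le h5
        _ = _ := by ring
    calc F e ≤ 6 * ((R e.1 * R' e.2) / Dc O O' R R' e) := hsmall e (hE3P e he) (hD1 e he)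
      _ ≤ 6 * (((CL * Real.log p)^2 * (mu O' R e.1 * mu O R' e.2)) / Dc O O' R R' e) :=
          mul_le_mul_of_nonneg_left (div_le_div_of_nonneg_right h6 (hDpos e (hE3P e he)).le) (by norm_num)
      _ = _ := by ring
  have boundF := group_sum_t (E := E3) (F := F)
    (G := 6 * (CL * Real.log p)^2 * (60000 * KH 1 0 eps1) * X^(22/1000:ℝ)) (τ := 22/1000)
    hα hβ (by ring) (by rw [he1]; norm_num) (fun q hq => (hO q hq).1.pos) (fun q hq => (hO' q hq).1.pos)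
    (fun e he => hE3P e he) hmu hmu' (by positivity) (by
      intro S hS S' hS'
      exact ff_gX hO hO' hV hW (fun e he => hE3P e (sE e he)) hS hS' sub_ES
        (by positivity) hX (fun e he => hD1 e (sE e he))
        (fun e he => (Finset.mem_filter.1 (sE e he)).2.2.2)
        (fun e he => hFmu e (sE e he)))
  have hg : 6 * (CL * Real.log p)^2 * (60000 * KH 1 0 eps1) * Real.exp 1 ≤ (p:ℝ)^(3/4000:ℝ) := by
    refine le_trans ?_ (g4 n hn1 0 le_rfl)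
    apply mul_le_mul_of_nonneg_right _ (Real.exp_nonneg _)
    apply mul_le_mul_of_nonneg_left _ (by positivity)
    have : 0 ≤ (n:ℝ) * (2 * KH 1 0 eps1 * (2:ℝ)^(2*eps1*n)) + 1 * ((2:ℝ)^n)^(-0:ℝ) := by positivity
    linarith
  have hexp : Real.exp ((1/2-eps1) * ((∑ p ∈ O, (p:ℝ)^(-(11/12):ℝ)) + ∑ p ∈ O', (p:ℝ)^(-(11/12):ℝ)))
      ≤ Real.exp 1 := by
    apply Real.exp_le_exp.2
    rw [he1]
    linarith
  have hF3 : ∑ e ∈ E3, F e ≤ X^(22/1000:ℝ) * ((p:ℝ)^(3/4000:ℝ) * Y1) := by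
    refine boundF.trans ?_
    rw [← hY1]
    calc 6 * (CL * Real.log p)^2 * (60000 * KH 1 0 eps1) * X^(22/1000:ℝ) *
          Real.exp ((1/2-eps1) * ((∑ p ∈ O, (p:ℝ)^(-(11/12):ℝ)) + ∑ p ∈ O', (p:ℝ)^(-(11/12):ℝ))) * Y1
        = (X^(22/1000:ℝ) * Y1) * (6 * (CL * Real.log p)^2 * (60000 * KH 1 0 eps1) *
          Real.exp ((1/2-eps1) * ((∑ p ∈ O, (p:ℝ)^(-(11/12):ℝ)) + ∑ p ∈ O', (p:ℝ)^(-(11/12):ℝ)))) := by ring
      _ ≤ (X^(22/1000:ℝ) * Y1) * (p:ℝ)^(3/4000:ℝ) := by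
          apply mul_le_mul_of_nonneg_left _ (by positivity)
          exact (mul_le_mul_of_nonneg_left hexp (by positivity)).trans hg
      _ = _ := by ring
  -- the rest
  have hrest : ∑ e ∈ (V ×ˢ W).filter (fun e => 0 < F e ∧ (Dc O O' R R' e ≤ 1/2^n ∧
        (EG O O' R R' γ γ' e ∨ FG O O' R R' γ γ' n e))), F e ≤
      ∑ e ∈ E3, F e + ∑ e ∈ (V ×ˢ W).filter (fun e => 0 < F e ∧ (Dc O O' R R' e ≤ 1/2^n ∧
        (EG O O' R R' γ γ' e ∨ Q e))), F e := by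
    set E4 := (V ×ˢ W).filter (fun e => 0 < F e ∧ (Dc O O' R R' e ≤ 1/2^n ∧
        (EG O O' R R' γ γ' e ∨ Q e))) with hE4
    have h3 : ∀ e ∈ E3, 0 ≤ F e := fun e he => (Finset.mem_filter.1 he).2.1.le
    have h4 : ∀ e ∈ E4, 0 ≤ F e := fun e he => (Finset.mem_filter.1 he).2.1.le
    have hsub : (V ×ˢ W).filter (fun e => 0 < F e ∧ (Dc O O' R R' e ≤ 1/2^n ∧
        (EG O O' R R' γ γ' e ∨ FG O O' R R' γ γ' n e))) ⊆ E3 ∪ E4 := by
      intro e he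
      obtain ⟨k0, k1, k2, k3⟩ := Finset.mem_filter.1 he
      rcases k3 with k3 | k3
      · exact Finset.mem_union_right _ (Finset.mem_filter.2 ⟨k0, k1, k2, Or.inl k3⟩)
      · rcases hFG e k0 k2 k1 k3 with k4 | k4
        · exact Finset.mem_union_left _ (Finset.mem_filter.2 ⟨k0, k1, k2, k4⟩)
        · exact Finset.mem_union_right _ (Finset.mem_filter.2 ⟨k0, k1, k2, Or.inr k4⟩)
    refine (Finset.sum_le_sum_of_subset_of_nonneg hsub fun e he _ => ?_).trans ?_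
    · rcases Finset.mem_union.1 he with h | h
      exacts [h3 e h, h4 e h]
    · rw [← Finset.sum_union_inter]
      have : 0 ≤ ∑ e ∈ E3 ∩ E4, F e := Finset.sum_nonneg fun e he => h3 e (Finset.mem_inter.1 he).1
      linarith
  have hPY : 0 ≤ (p:ℝ)^(3/4000:ℝ) * Y1 := by positivity
  have hA : (p:ℝ)^(3/4000:ℝ) * Y1 ≤ X^(22/1000:ℝ) * ((p:ℝ)^(3/4000:ℝ) * Y1) :=
    le_mul_of_one_le_left hPY hX1
  have hfin : 2 * X^(22/1000:ℝ) * ((p:ℝ)^(3/4000:ℝ) * Y1) =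
      X^(22/1000:ℝ) * ((p:ℝ)^(3/4000:ℝ) * Y1) + X^(22/1000:ℝ) * ((p:ℝ)^(3/4000:ℝ) * Y1) := by ring
  rw [hfin]
  linarith

end Crest.Agent.R4P.OSCoreX710
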