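import Crest.Agent.R4P.NMS800
import Crest.Agent.R4P.ColG710

/-!
R4 powers pass (S0004), helper710: **columns of a state** on the tree with powers (state half of
`R4/OSCol710`, `R4/ColW710`), node facts through helper800's `NSd`, `[F]` pairs paid or named by `Qf`.

* `share_node`, `mass_node`; `eOS_le_iF`, `eOS_le_iF'`; `KR`, `FSOk`; `col_node`;
* `nm_state3` (near misses), `os_state3`, `os_state3'` (one-sided columns, left / right tie).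
-/

set_option autoImplicit false
set_option linter.unusedSectionVars false
set_option linter.unusedVariables false
open Finset

namespace Crest.Agent.R4P.ColW710

open Crest.Agent.R4.HVW560 Crest.Agent.R4.Schur709 Crest.Agent.R4.StopHvw709
open Crest.Agent.R4.StopAsm709 Crest.Agent.R4P.AvgItem710 Crest.Agent.R4.DeepSt579
open Crest.Agent.R4P.Rad800 Crest.Agent.R4P.Item758 Crest.Agent.R4P.NMW710
open Crest.Agent.R4.OSCore709 (om om_nonneg om_le_one mm)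
open Crest.Agent.R4.ClsS (eps1)
open Crest.Agent.R4.Tour104 Crest.Agent.R4.Tour758 Crest.Agent.R4.Avg758 Crest.Agent.R4.Clos758
open Crest.Agent.R4.ClosL758 Crest.Agent.R4.ClosG758 Crest.Agent.R4.ClosR758
open Crest.Agent.R4.Fam464 Crest.Agent.R4P.Cnt588 Crest.Agent.R4P.Walk560 Crest.Agent.R4.Piece464
open Crest.Agent.R4P.GInst194 Crest.Agent.R4P.WalkIT579
open Crest.Agent.R4P.Bld532 (NS All NodeOk Bk)

variable {Λ κ : Type*} [Fintype Λ] [DecidableEq Λ] [Fintype κ] [DecidableEq κ]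
  {D : Par Λ κ} {ρ : ℕ → ℝ} {Al : Finset ℕ} {sp : ℕ → Finset Λ} {P : Bld532.Par}
  {W : ℕ → ℝ} {CL C1 c₀ : ℝ} {p₁ : ℕ}

lemma rd_one (b : ℕ) (ρ : ℕ → ℝ) (q : ℕ) : rd b 1 ρ q = b * ρ q := by
  unfold rd
  simp

/-- the share of a node in terms of the raw mass of the builder -/
lemma share_node {u : NS} {τ : IT} (hc0 : 0 ≤ u.c)
    (hms : ∀ q ∈ Al, q ∈ τ.items → (u.B : ℝ) * tq (q / u.A) ≤ 2 * (u.c * tq q))
    (hρ : ∀ q, 0 < ρ q)
    (hW0 : ∀ q, 0 ≤ W q) (hWρ : ∀ q ∈ Al, ρ q * tq q ≤ W q) (A : Finset Λ) :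
    ∑ q ∈ Qi D Al τ A, rd u.B 1 ρ q * tq (q / u.A) ≤ 2 * (u.c * Ws W τ.items) := by
  have h1 : ∀ q ∈ Qi D Al τ A, rd u.B 1 ρ q * tq (q / u.A) ≤ 2 * (u.c * W q) := by
    intro q hq
    obtain ⟨hqt, hqA, -⟩ := mem_Qi.1 hq
    rw [rd_one]
    have h2 := hWρ _ hqA
    have h3 := mul_le_mul_of_nonneg_left (hms q hqA hqt) (hρ q).le
    calc (u.B : ℝ) * ρ q * tq (q / u.A) = ρ q * ((u.B : ℝ) * tq (q / u.A)) := by ring
      _ ≤ ρ q * (2 * (u.c * tq q)) := h3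
      _ = 2 * (u.c * (ρ q * tq q)) := by ring
      _ ≤ 2 * (u.c * W q) := by
        have := mul_le_mul_of_nonneg_left h2 hc0
        linarith
  calc ∑ q ∈ Qi D Al τ A, rd u.B 1 ρ q * tq (q / u.A)
      ≤ ∑ q ∈ Qi D Al τ A, 2 * (u.c * W q) := Finset.sum_le_sum h1
    _ ≤ ∑ q ∈ τ.items, 2 * (u.c * W q) := Finset.sum_le_sum_of_subset_of_nonneg
        (fun q hq => (mem_Qi.1 hq).1) fun q _ _ =>
          mul_nonneg (by norm_num) (mul_nonneg hc0 (hW0 q))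
    _ = 2 * (u.c * Ws W τ.items) := by rw [← Finset.mul_sum, ← Finset.mul_sum]; rfl

/-- sum over the items of a population, with a weight -/
lemma mass_node [WRel κ] {d : DT Λ κ} (hab : ∀ j, D.al j ≤ D.be j) {b pr : ℕ}
    {τ : IT} {A : Finset Λ} (h : SideI D sp b pr τ A d)
    (hc₀ : 0 < c₀)
    (hph : ∀ q ∈ Al, q ∈ τ.items → tq (q / pr) ≤ 2 * (prf τ q * tq (q / (pr * pp τ q))))
    (hmean : ∀ j, D.it j ∈ Al → D.it j ∈ τ.items →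
      c₀ * tq (D.it j / (pr * pp τ (D.it j))) ≤ mnw (D.it j / (pr * pp τ (D.it j))) (D.om j))
    (hfull : ∀ q ∈ Al, 2 * ρ q ≤
      ∑ j ∈ Finset.univ.filter (fun j => D.it j = q), (D.be j - D.al j))
    (hil : IL D.it A) (hnn : ∀ j, 0 ≤ mI d j) {f : ℕ → ℝ} (hf : ∀ q, 0 ≤ f q) :
    ∑ q ∈ Qi D Al τ A, f q * (rd b 1 ρ q * tq (q / pr)) ≤
      1 / c₀ * ∑ j ∈ A.filter (fun j => D.it j ∈ τ.items), f (D.it j) * mI d j := by
  classical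
  obtain ⟨n, hO⟩ := h.ok
  have h1 : ∀ q ∈ Qi D Al τ A, f q * (rd b 1 ρ q * tq (q / pr)) ≤
      1 / c₀ * ∑ j ∈ A.filter (fun j => D.it j = q), f (D.it j) * mI d j := by
    intro q hq
    obtain ⟨h2, h3, h4⟩ := mem_Qi.1 hq
    rw [rd_one]
    have h5 := mass_ge hab h.hb h.hF h.hW h2 (BldF542.prf_pos _ n hO q).1.le hc₀ (hph q h3 h2)
      (fun j hj => by
        have := hmean j (hj ▸ h3) (hj ▸ h2)
        rw [hj] at this
        exact this) (hfull q h3) hil h4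
    refine (mul_le_mul_of_nonneg_left h5 (hf q)).trans (le_of_eq ?_)
    rw [mul_left_comm]
    congr 1
    rw [Finset.mul_sum]
    refine Finset.sum_congr rfl fun j hj => ?_
    rw [(Finset.mem_filter.1 hj).2, SideI_mI h j]
  refine (Finset.sum_le_sum h1).trans ?_
  rw [← Finset.mul_sum]
  refine mul_le_mul_of_nonneg_left ?_ (by positivity)
  have h2 := Finset.sum_fiberwise_of_maps_to (s := A.filter fun j => D.it j ∈ Qi D Al τ A)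
    (t := Qi D Al τ A) (g := D.it) (fun j hj => (Finset.mem_filter.1 hj).2)
    (fun j => f (D.it j) * mI d j)
  have h3 : ∑ q ∈ Qi D Al τ A, ∑ j ∈ A.filter (fun j => D.it j = q), f (D.it j) * mI d j =
      ∑ j ∈ A.filter (fun j => D.it j ∈ Qi D Al τ A), f (D.it j) * mI d j := by
    rw [← h2]
    refine Finset.sum_congr rfl fun q hq => Finset.sum_congr ?_ fun _ _ => rfl
    ext j
    simp only [Finset.mem_filter]
    exact ⟨fun k => ⟨⟨k.1, k.2 ▸ hq⟩, k.2⟩, fun k => ⟨k.1.1, k.2⟩⟩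
  rw [h3]
  refine Finset.sum_le_sum_of_subset_of_nonneg (fun j hj => ?_) fun j _ _ =>
    mul_nonneg (hf _) (hnn j)
  obtain ⟨k1, k2⟩ := Finset.mem_filter.1 hj
  exact Finset.mem_filter.2 ⟨k1, (mem_Qi.1 k2).1⟩

variable [WRel κ] {s : St Λ κ}

/-- exact form of the one-sided columns, left tie -/
theorem eOS_le_iF {b pr b' pr' p : ℕ} {Sq : Finset ℕ} {t₁ t₀ t' : IT}
    (h : StI D sp s b pr (.br p Sq t₁ t₀) b' pr' t') (hB : Blw p t') (stp : Stp Λ κ) :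
    eOS stp s ≤ ∑ e ∈ D.PE (Ro (D.rho p)) (D.uA s.M (b * p) pr t₀ s.A p)
        (D.uA s.M' b' pr' t' s.A' 1),
      D.iF (Ro (D.rho p)) (D.uA s.M (b * p) pr t₀ s.A p) (D.uA s.M' b' pr' t' s.A' 1) e := by
  have hL := h.L
  have hR' := h.R
  have h0 : 0 ≤ ∑ e ∈ D.PE (Ro (D.rho p)) (D.uA s.M (b * p) pr t₀ s.A p)
        (D.uA s.M' b' pr' t' s.A' 1),
      D.iF (Ro (D.rho p)) (D.uA s.M (b * p) pr t₀ s.A p) (D.uA s.M' b' pr' t' s.A' 1) e :=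
    Finset.sum_nonneg fun e _ => D.iF_nonneg _
      (fun j y => (PB_uA h.M0 hL.br₀.hb hL.br₀.hF hL.br₀.hW (Dvd.intro_left b rfl) j).nonneg y)
      (fun j y => (PB_uA h.M0' hR'.hb hR'.hF hR'.hW (one_dvd _) j).nonneg y) e
  unfold eOS
  split_ifs with k1 k2 k3
  · exact h0
  · exact h0
  · exact h0
  · rcases hv : vw s.p s.t with ⟨w, r, u₁, u₀, v, B, G⟩ | ⟨r, u₁, u₀⟩ | ⟨Sp, u⟩ <;>
    rcases hv' : vw s.p s.t' with ⟨w', r', u₁', u₀', v', B', G'⟩ | ⟨r', u₁', u₀'⟩ | ⟨Sp', u'⟩ <;>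
    try exact h0
    · -- br, up
      have e1 := h.L.eq.symm.trans (vw_br hv)
      rcases toDT_br e1 with ⟨Sp, τ₁, τ₀, hτ, hr, -, -, -, hG⟩ | ⟨τ₁, hτ, -⟩
      swap
      · cases hτ
      injection hτ with a1 _ a2 a3
      subst a2 a3
      rw [← D.Q_eq]
      have pF : ∀ j, PB (avg s.M' (rv s.A' fun j => (D.toFT b' pr' t').U 1 j) j) := fun j =>
        PB_uA h.M0' hR'.hb hR'.hF hR'.hW (one_dvd _) j
      show os (orel κ) s.p (avg s.M (rk s.A r G)) (sm r (avg s.M' (rv s.A' s.t'.g.val))) ≤ _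
      rw [h.R.val, hr, hG, ← a1]
      exact os_le_Q hL.sat_br h.M0 hL.hF.1.pos hL.pb_G hL.pb_g pF hL.G_le
    · -- up, br : impossible
      exfalso
      have e2 := h.R.eq.symm.trans (vw_br hv')
      have h2 : s.t.top ≤ s.p := le_max_left _ _
      rw [h.L.eq] at h2
      have h3 : p ≤ s.p := h2
      rcases toDT_br e2 with ⟨Sp, τ₁, τ₀, rfl, -⟩ | ⟨τ₁, rfl, -⟩
      · have h4 : s.p < p := hB
        omega
      · have h4 : s.p < p := hB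
        omega

/-- exact form of the one-sided columns, right tie -/
theorem eOS_le_iF' {b pr b' pr' p : ℕ} {Sq : Finset ℕ} {t t₁' t₀' : IT}
    (h : StI D sp s b pr t b' pr' (.br p Sq t₁' t₀')) (hB : Blw p t) (stp : Stp Λ κ) :
    eOS stp s ≤ ∑ e ∈ D.PE (Ro (D.rho p)) (D.uA s.M' (b' * p) pr' t₀' s.A' p)
        (D.uA s.M b pr t s.A 1),
      D.iF (Ro (D.rho p)) (D.uA s.M' (b' * p) pr' t₀' s.A' p) (D.uA s.M b pr t s.A 1) e := by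
  have hL := h.L
  have hR' := h.R
  have h0 : 0 ≤ ∑ e ∈ D.PE (Ro (D.rho p)) (D.uA s.M' (b' * p) pr' t₀' s.A' p)
        (D.uA s.M b pr t s.A 1),
      D.iF (Ro (D.rho p)) (D.uA s.M' (b' * p) pr' t₀' s.A' p) (D.uA s.M b pr t s.A 1) e :=
    Finset.sum_nonneg fun e _ => D.iF_nonneg _
      (fun j y => (PB_uA h.M0' hR'.br₀.hb hR'.br₀.hF hR'.br₀.hW (Dvd.intro_left b' rfl) j).nonneg y)
      (fun j y => (PB_uA h.M0 hL.hb hL.hF hL.hW (one_dvd _) j).nonneg y) e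
  unfold eOS
  split_ifs with k1 k2 k3
  · exact h0
  · exact h0
  · exact h0
  · rcases hv : vw s.p s.t with ⟨w, r, u₁, u₀, v, B, G⟩ | ⟨r, u₁, u₀⟩ | ⟨Sp, u⟩ <;>
    rcases hv' : vw s.p s.t' with ⟨w', r', u₁', u₀', v', B', G'⟩ | ⟨r', u₁', u₀'⟩ | ⟨Sp', u'⟩ <;>
    try exact h0
    · -- br, up : impossible
      exfalso
      have e2 := h.L.eq.symm.trans (vw_br hv)
      have h2 : s.t'.top ≤ s.p := le_max_right _ _
      rw [h.R.eq] at h2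
      have h3 : p ≤ s.p := h2
      rcases toDT_br e2 with ⟨Sp, τ₁, τ₀, rfl, -⟩ | ⟨τ₁, rfl, -⟩
      · have h4 : s.p < p := hB
        omega
      · have h4 : s.p < p := hB
        omega
    · -- up, br
      have e1 := h.R.eq.symm.trans (vw_br hv')
      rcases toDT_br e1 with ⟨Sp, τ₁, τ₀, hτ, hr, -, -, -, hG⟩ | ⟨τ₁, hτ, -⟩
      swap
      · cases hτ
      injection hτ with a1 _ a2 a3
      subst a2 a3
      rw [← D.Q_eq]
      have pF : ∀ j, PB (avg s.M (rv s.A fun j => (D.toFT b pr t).U 1 j) j) := fun j =>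
        PB_uA h.M0 hL.hb hL.hF hL.hW (one_dvd _) j
      show os (orel κ) s.p (avg s.M' (rk s.A' r' G')) (sm r' (avg s.M (rv s.A s.t.g.val))) ≤ _
      rw [h.L.val, hr, hG, ← a1]
      exact os_le_Q hR'.sat_br h.M0' hR'.hF.1.pos hR'.pb_G hR'.pb_g pF hR'.G_le

open Classical in
/-- pairs of a column which are left over -/
noncomputable def KR (D : Par Λ κ) (ρ : ℕ → ℝ) (Al : Finset ℕ) (n p : ℕ) (M b pr c : ℕ) (t : IT)
    (A : Finset Λ) (M' b' pr' c' : ℕ) (t' : IT) (A' : Finset Λ) (Qf : ℕ × ℕ → Prop) :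
    Finset (ℕ × ℕ) :=
  (Qi D Al t A ×ˢ Qi D Al t' A').filter (fun e =>
    0 < D.iF (Ro (D.rho p)) (D.uA M b pr t A c) (D.uA M' b' pr' t' A' c') e ∧
    (Dq ρ M b pr c M' b' pr' c' e ≤ 1/2^n ∧ (ESI D.γ ρ M b pr c M' b' pr' c' e ∨ Qf e)))

open Classical in
lemma mem_KR {n p M b pr c : ℕ} {t : IT} {A : Finset Λ} {M' b' pr' c' : ℕ} {t' : IT}
    {A' : Finset Λ} {Qf : ℕ × ℕ → Prop} {e : ℕ × ℕ}
    (he : e ∈ KR D ρ Al n p M b pr c t A M' b' pr' c' t' A' Qf) :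
    (e.1 ∈ Qi D Al t A ∧ e.2 ∈ Qi D Al t' A') ∧
      0 < D.iF (Ro (D.rho p)) (D.uA M b pr t A c) (D.uA M' b' pr' t' A' c') e ∧
      (Dq ρ M b pr c M' b' pr' c' e ≤ 1/2^n ∧ (ESI D.γ ρ M b pr c M' b' pr' c' e ∨ Qf e)) := by
  unfold KR at he
  rw [Finset.mem_filter, Finset.mem_product] at he
  exact he

/-- the `[F]` pairs of a column: payable or named by `Qf` (758's `PE_FS_lower`) -/
def FSOk (D : Par Λ κ) (ρ : ℕ → ℝ) (n p : ℕ) (M b pr c : ℕ) (t : IT)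
    (A : Finset Λ) (M' b' pr' c' : ℕ) (t' : IT) (A' : Finset Λ) (Qf : ℕ × ℕ → Prop) : Prop :=
  ∀ e : ℕ × ℕ, e.1 ∈ t.items → e.2 ∈ t'.items → Dq ρ M b pr c M' b' pr' c' e ≤ 1/2^n →
    0 < D.iF (Ro (D.rho p)) (D.uA M b pr t A c) (D.uA M' b' pr' t' A' c') e →
    FSI D.γ ρ n M b pr c M' b' pr' c' e →
    1 < 2 * ((rf (e.1 / pr) M : ℝ) * rf (e.2 / pr') M')^10 * Dq ρ M b pr c M' b' pr' c' e ∨ Qf e

lemma mI_nn {b pr : ℕ} {t : IT} {A : Finset Λ} {d : DT Λ κ} (h : SideI D sp b pr t A d) (j : Λ) :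
    0 ≤ mI d j := by
  have ok : d.g.Ok := by rw [h.eq, D.toDT_g]; exact D.toG_Ok h.hb h.hF h.hW
  unfold mI
  exact I_nonneg fun x => (ok.pb j).nonneg x

open Classical in
/-- **A COLUMN**: left side below a tie, right side at any node -/
theorem col_node (hk : CKX CL C1 (1 / c₀) p₁) {p n : ℕ} (hni : NI D ρ Al P W C1 c₀ p)
    (hCL : 0 ≤ CL) (hp : p₁ ≤ p) (hn : n = ⌊1/4 * Real.log p / Real.log 2⌋₊)
    {u : NS} {Sp : Finset ℕ} {t₁ t₀ : IT} {M G : ℕ} {A : Finset Λ} {d : DT Λ κ}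
    (h : SideI D sp u.B u.A (.br p Sp t₁ t₀) A d) (hM : 0 < M)
    (hL : NSd D Al P W CL c₀ p G M u (.br p Sp t₁ t₀) A)
    (hs : ∑ l ∈ M.primeFactors, (l:ℝ)^(-(11/12):ℝ) ≤ 1) (hG : 0 < G)
    {M' b' pr' c' : ℕ} {τ' : IT} {A' : Finset Λ} (hb' : 0 < b') (hF' : Fit b' pr' τ')
    (hW' : D.Wts pr' τ') (hc' : c' ∣ b') (hM' : 0 < M')
    (geM' : ∀ l : ℕ, l.Prime → l ∣ M' → p ≤ l)
    (hs' : ∑ l ∈ M'.primeFactors, (l:ℝ)^(-(11/12):ℝ) ≤ 1)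
    (oR : ∀ q ∈ Qi D Al τ' A', Once M' (q / pr'))
    (tR : ∀ z : ℝ, (p:ℝ) ≤ z → ∀ q ∈ Qi D Al τ' A',
      Crest.Agent.R4.ClsB.Tame z G (q / pr' / M'.gcd (q / pr')))
    (lR : ∀ q ∈ Qi D Al τ' A', 1 ≤ CL * Real.log p * tq (q / pr'))
    (xR : ∑ q ∈ Qi D Al τ' A', rd b' c' ρ q * tq (q / pr') ≤ (Real.log p)^C1) {Φ' Ψ' : ℝ}
    (mW : ∑ q ∈ Qi D Al τ' A', rd b' c' ρ q * tq (q / pr') ≤ 1 / c₀ * Φ')
    (mH : ∑ q ∈ Qi D Al τ' A', om M'.primeFactors (q / pr') * (rd b' c' ρ q * tq (q / pr')) ≤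
      1 / c₀ * Ψ')
    (hΦ' : 0 ≤ Φ') (hΨ' : 0 ≤ Ψ') {Qf : ℕ × ℕ → Prop}
    (hFS : FSOk D ρ n p M (u.B * p) u.A p t₀ A M' b' pr' c' τ' A' Qf) :
    ∑ e ∈ D.PE (Ro (D.rho p)) (D.uA M (u.B * p) u.A t₀ A p) (D.uA M' b' pr' τ' A' c'),
      D.iF (Ro (D.rho p)) (D.uA M (u.B * p) u.A t₀ A p) (D.uA M' b' pr' τ' A' c') e ≤
      ((p:ℝ)^(-(11/12):ℝ) * Φ' + (p:ℝ)^(-(1/6000):ℝ) *
        ((∑ j ∈ A.filter (fun j => D.it j ∈ t₀.items), mI d j) + Ψ')) +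
      ∑ e ∈ KR D ρ Al n p M (u.B * p) u.A p t₀ A M' b' pr' c' τ' A' Qf,
        D.iF (Ro (D.rho p)) (D.uA M (u.B * p) u.A t₀ A p) (D.uA M' b' pr' τ' A' c') e := by
  classical
  have hpp : p.Prime := h.hF.1
  have hp0 : 0 < p := hpp.pos
  have hL0 := h.br₀
  have hc0' : 0 < c' := Nat.pos_of_dvd_of_pos hc' hb'
  set F : ℕ × ℕ → ℝ := D.iF (Ro (D.rho p)) (D.uA M (u.B * p) u.A t₀ A p)
    (D.uA M' b' pr' τ' A' c') with hFdef
  have hF0 : ∀ e, 0 ≤ F e := fun e => D.iF_nonneg _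
    (fun j y => (PB_uA hM hL0.hb hL0.hF hL0.hW (Dvd.intro_left u.B rfl) j).nonneg y)
    (fun j y => (PB_uA hM' hb' hF' hW' hc' j).nonneg y) e
  have nΦ : 0 ≤ ∑ j ∈ A.filter (fun j => D.it j ∈ t₀.items), mI d j :=
    Finset.sum_nonneg fun j _ => mI_nn h j
  refine (Finset.sum_le_sum_of_subset_of_nonneg (PE_sub hni.dead hM hM' hL0.hb hb' hL0.hF
    hF' hL0.hW hW' (Dvd.intro_left u.B rfl) hc' _ _ _)
    fun e _ _ => hF0 e).trans ?_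
  have itL : ∀ q ∈ Qi D Al t₀ A, q ∈ (IT.br p Sp t₁ t₀).items := fun q hq =>
    Finset.mem_union_right _ (mem_Qi.1 hq).1
  have w0L : ∀ q ∈ Qi D Al t₀ A, 0 < q / u.A := fun q hq => by
    have hq0 := (hL0.hF.item q (mem_Qi.1 hq).1)
    exact Nat.div_pos (Nat.le_of_dvd hq0.1 hq0.2.1) (Nat.pos_of_dvd_of_pos hq0.2.1 hq0.1)
  have w0R : ∀ q ∈ Qi D Al τ' A', 0 < q / pr' := fun q hq => by
    have hq0 := (hF'.item q (mem_Qi.1 hq).1)
    exact Nat.div_pos (Nat.le_of_dvd hq0.1 hq0.2.1) (Nat.pos_of_dvd_of_pos hq0.2.1 hq0.1)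
  have logp : 0 ≤ CL * Real.log p := mul_nonneg hCL (Real.log_natCast_nonneg p)
  have key := k_smallG hk (γ := D.γ) (F := F) (n := n) (p := p) (G := G) (M := M)
    (b := u.B * p) (pr := u.A) (c := p) (M' := M') (b' := b') (pr' := pr')
    (c' := c') (V := Qi D Al t₀ A) (W := Qi D Al τ' A')
    (Φ := ∑ j ∈ A.filter (fun j => D.it j ∈ t₀.items), mI d j) (Φ' := Φ') (Ψ' := Ψ')
    hp hn hG hni.rad.pos hL0.hb hp0 hb' hc0' hM hM' hL.geM geM' hs hs'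
    (fun q hq => ⟨(hL0.hF.item q (mem_Qi.1 hq).1).1, (hL0.hF.item q (mem_Qi.1 hq).1).2.1⟩)
    (fun q hq => ⟨(hF'.item q (mem_Qi.1 hq).1).1, (hF'.item q (mem_Qi.1 hq).1).2.1⟩)
    (fun q hq => hL.once q (mem_Qi.1 hq).2.1 (itL q hq)) oR
    (fun z hz q hq => by
      obtain ⟨h1, h2, j, hj, rfl⟩ := mem_Qi.1 hq
      exact hL.tame z hz j hj h2 (itL _ hq)) tR
    (fun q hq => by
      refine (hL.lg q (mem_Qi.1 hq).2.1 (itL q hq)).trans ?_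
      exact mul_le_mul_of_nonneg_left (tq_mono (Nat.div_dvd_of_dvd (Nat.gcd_dvd_right _ _)) (w0L q hq)) logp)
    (fun q hq => by
      refine (lR q hq).trans ?_
      exact mul_le_mul_of_nonneg_left (tq_mono (Nat.div_dvd_of_dvd (Nat.gcd_dvd_right _ _)) (w0R q hq)) logp)
    (fun e he => by
      obtain ⟨h1, h2⟩ := Finset.mem_product.1 he
      exact iF_le hni.rad hM hM' hL0.hb hb' hL0.hF hF' hL0.hW hW'
        (Dvd.intro_left u.B rfl) hc' _ _ _ e (mem_Qi.1 h1).1 (mem_Qi.1 h2).1)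
    (Qf := Qf)
    (fun e he h1 h2 h3 => by
      obtain ⟨k1, k2⟩ := Finset.mem_product.1 he
      exact hFS e (mem_Qi.1 k1).1 (mem_Qi.1 k2).1 h1 h2 h3)
    ((share_le hL.node hL.ms hni.rad.pos hni.W0 hni.Wρ hni.sg0 A).trans hni.sg) xR
    (mass_sum hni.ab h hni.c0 hL.ph hL.mean hni.full hL.il (mI_nn h)) mW
    mH nΦ hΦ' hΨ'
  refine key.trans (le_of_eq ?_)
  unfold KR
  rw [← hFdef]

open Classical in
/-- **NEAR MISSES OF A STATE**, final form: generic part + `[E]` pairs (+ named pairs) -/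
theorem nm_state3 (hk : CKX CL C1 (1 / c₀) p₁) {p n G : ℕ} (hni : NI D ρ Al P W C1 c₀ p)
    {u u' : NS} {Sp Sp' : Finset ℕ} {t₁ t₀ t₁' t₀' : IT}
    (h : StI D sp s u.B u.A (.br p Sp t₁ t₀) u'.B u'.A (.br p Sp' t₁' t₀')) (hG : 0 < G)
    (hL : NSd D Al P W CL c₀ p G s.M u (.br p Sp t₁ t₀) s.A)
    (hR : NSd D Al P W CL c₀ p G s.M' u' (.br p Sp' t₁' t₀') s.A')
    (hCL : 0 ≤ CL)
    (hp : p₁ ≤ p) (hn : n = ⌊1/4 * Real.log p / Real.log 2⌋₊)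
    {stp : Stp Λ κ}
    (hst : ¬ stp s → ∑ l ∈ s.M.primeFactors, (l:ℝ)^(-(11/12):ℝ) ≤ 1 ∧
      ∑ l ∈ s.M'.primeFactors, (l:ℝ)^(-(11/12):ℝ) ≤ 1)
    {Qf : ℕ × ℕ → Prop}
    (hFS : FSOk D ρ n p s.M (u.B * p) u.A p t₀ s.A s.M' (u'.B * p) u'.A p t₀' s.A' Qf) :
    eNM stp s ≤ (p:ℝ)^(-(1/7000):ℝ) *
        ((∑ j ∈ s.A.filter (fun j => D.it j ∈ t₀.items), mI s.t j) +
          ∑ j ∈ s.A'.filter (fun j => D.it j ∈ t₀'.items), mI s.t' j) +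
      ∑ e ∈ KR D ρ Al n p s.M (u.B * p) u.A p t₀ s.A s.M' (u'.B * p) u'.A p t₀' s.A' Qf,
        D.iF (Ro (D.rho p)) (D.uA s.M (u.B * p) u.A t₀ s.A p)
          (D.uA s.M' (u'.B * p) u'.A t₀' s.A' p) e := by
  classical
  have hL0 := h.L.br₀
  have hR0 := h.R.br₀
  have hp0 : 0 < p := h.L.hF.1.pos
  have hF0 : ∀ e, 0 ≤ D.iF (Ro (D.rho p)) (D.uA s.M (u.B * p) u.A t₀ s.A p)
      (D.uA s.M' (u'.B * p) u'.A t₀' s.A' p) e := fun e => D.iF_nonneg _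
    (fun j y => (PB_uA h.M0 hL0.hb hL0.hF hL0.hW (Dvd.intro_left u.B rfl) j).nonneg y)
    (fun j y => (PB_uA h.M0' hR0.hb hR0.hF hR0.hW (Dvd.intro_left u'.B rfl) j).nonneg y) e
  have nΦ : 0 ≤ ∑ j ∈ s.A.filter (fun j => D.it j ∈ t₀.items), mI s.t j :=
    Finset.sum_nonneg fun j _ => mI_nn h.L j
  have nΦ' : 0 ≤ ∑ j ∈ s.A'.filter (fun j => D.it j ∈ t₀'.items), mI s.t' j :=
    Finset.sum_nonneg fun j _ => mI_nn h.R j
  have hrest : 0 ≤ ∑ e ∈ KR D ρ Al n p s.M (u.B * p) u.A p t₀ s.A s.M' (u'.B * p) u'.A p t₀' s.A' Qf,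
        D.iF (Ro (D.rho p)) (D.uA s.M (u.B * p) u.A t₀ s.A p)
          (D.uA s.M' (u'.B * p) u'.A t₀' s.A' p) e := Finset.sum_nonneg fun e _ => hF0 e
  by_cases hstp : stp s
  · have e0 : eNM stp s = 0 := by
      unfold eNM
      split_ifs <;> rfl
    rw [e0]
    have : 0 ≤ (p:ℝ)^(-(1/7000):ℝ) := by positivity
    have := mul_nonneg this (add_nonneg nΦ nΦ')
    linarith
  obtain ⟨hs, hs'⟩ := hst hstp
  refine (eNM_le_iF h stp).trans ?_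
  have itR : ∀ q ∈ Qi D Al t₀' s.A', q ∈ (IT.br p Sp' t₁' t₀').items := fun q hq =>
    Finset.mem_union_right _ (mem_Qi.1 hq).1
  have hp16 : 16 ≤ p := hk.big.trans hp
  have hp1 : (1:ℝ) ≤ p := by exact_mod_cast (by omega : 1 ≤ p)
  have hlog : 0 ≤ (Real.log p)^C1 := Real.rpow_nonneg (Real.log_nonneg hp1) _
  have omle : ∀ q, om s.M'.primeFactors q ≤ 1 := fun q =>
    om_le_one (fun l hl => (Nat.prime_of_mem_primeFactors hl).pos) q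
  have mR' := mass_sum hni.ab h.R hni.c0 hR.ph hR.mean hni.full hR.il (mI_nn h.R)
  have key := col_node hk hni hCL hp hn h.L h.M0 hL hs hG
    (τ' := t₀') (A' := s.A') (M' := s.M') (b' := u'.B * p) (pr' := u'.A) (c' := p)
    hR0.hb hR0.hF hR0.hW (Dvd.intro_left u'.B rfl) h.M0' hR.geM hs'
    (fun q hq => hR.once q (mem_Qi.1 hq).2.1 (itR q hq))
    (fun z hz q hq => by
      obtain ⟨h1, h2, j, hj, rfl⟩ := mem_Qi.1 hq
      exact hR.tame z hz j hj h2 (itR _ hq))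
    (fun q hq => hR.lg q (mem_Qi.1 hq).2.1 (itR q hq))
    (((share_le hR.node hR.ms hni.rad.pos hni.W0 hni.Wρ hni.sg0 s.A').trans hni.sg).trans
      (div_le_self hlog hp1))
    (Φ' := ∑ j ∈ s.A'.filter (fun j => D.it j ∈ t₀'.items), mI s.t' j)
    (Ψ' := ∑ j ∈ s.A'.filter (fun j => D.it j ∈ t₀'.items), mI s.t' j)
    mR'
    (le_trans (Finset.sum_le_sum fun q hq => mul_le_of_le_one_left (mul_nonneg
      (mul_nonneg (by positivity) (hni.rad.pos q).le) (tq_nonneg _)) (omle _)) mR')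
    nΦ' nΦ' hFS
  refine key.trans (add_le_add ?_ le_rfl)
  have i1 : (p:ℝ)^(-(11/12):ℝ) ≤ (p:ℝ)^(-(1/6000):ℝ) :=
    Real.rpow_le_rpow_of_exponent_le hp1 (by norm_num)
  have i2 := hk.n3 p hp
  have i3 : 0 ≤ (p:ℝ)^(-(1/6000):ℝ) := by positivity
  have i4 := mul_le_mul_of_nonneg_right i1 nΦ'
  have i5 := mul_le_mul_of_nonneg_right i2 (add_nonneg nΦ nΦ')
  nlinarith [mul_nonneg i3 nΦ]

open Classical in
/-- **ONE-SIDED COLUMN OF A STATE, left tie** -/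
theorem os_state3 (hk : CKX CL C1 (1 / c₀) p₁) {p n G : ℕ} (hni : NI D ρ Al P W C1 c₀ p)
    {u u' : NS} {Sp : Finset ℕ} {t₁ t₀ τ' : IT}
    (h : StI D sp s u.B u.A (.br p Sp t₁ t₀) u'.B u'.A τ') (hB : Blw p τ') (hG : 0 < G)
    (hL : NSd D Al P W CL c₀ p G s.M u (.br p Sp t₁ t₀) s.A)
    (hR : NSd D Al P W CL c₀ p G s.M' u' τ' s.A') (hc' : 0 ≤ u'.c)
    (hhi : 2 * (u'.c * Ws W τ'.items) ≤ (Real.log p)^C1)
    (hCL : 0 ≤ CL)
    (hp : p₁ ≤ p) (hn : n = ⌊1/4 * Real.log p / Real.log 2⌋₊)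
    {stp : Stp Λ κ}
    (hst : ¬ stp s → ∑ l ∈ s.M.primeFactors, (l:ℝ)^(-(11/12):ℝ) ≤ 1 ∧
      ∑ l ∈ s.M'.primeFactors, (l:ℝ)^(-(11/12):ℝ) ≤ 1)
    {Qf : ℕ × ℕ → Prop}
    (hFS : FSOk D ρ n p s.M (u.B * p) u.A p t₀ s.A s.M' u'.B u'.A 1 τ' s.A' Qf) :
    eOS stp s ≤ ((p:ℝ)^(-(11/12):ℝ) * (∑ j ∈ s.A'.filter (fun j => D.it j ∈ τ'.items), mI s.t' j) +
        (p:ℝ)^(-(1/6000):ℝ) * ((∑ j ∈ s.A.filter (fun j => D.it j ∈ t₀.items), mI s.t j) +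
          ∑ j ∈ s.A'.filter (fun j => D.it j ∈ τ'.items),
            om s.M'.primeFactors (D.it j / u'.A) * mI s.t' j)) +
      ∑ e ∈ KR D ρ Al n p s.M (u.B * p) u.A p t₀ s.A s.M' u'.B u'.A 1 τ' s.A' Qf,
        D.iF (Ro (D.rho p)) (D.uA s.M (u.B * p) u.A t₀ s.A p)
          (D.uA s.M' u'.B u'.A τ' s.A' 1) e := by
  classical
  have hL0 := h.L.br₀
  have hF0 : ∀ e, 0 ≤ D.iF (Ro (D.rho p)) (D.uA s.M (u.B * p) u.A t₀ s.A p)
      (D.uA s.M' u'.B u'.A τ' s.A' 1) e := fun e => D.iF_nonneg _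
    (fun j y => (PB_uA h.M0 hL0.hb hL0.hF hL0.hW (Dvd.intro_left u.B rfl) j).nonneg y)
    (fun j y => (PB_uA h.M0' h.R.hb h.R.hF h.R.hW (one_dvd _) j).nonneg y) e
  have nΦ : 0 ≤ ∑ j ∈ s.A.filter (fun j => D.it j ∈ t₀.items), mI s.t j :=
    Finset.sum_nonneg fun j _ => mI_nn h.L j
  have nΦ' : 0 ≤ ∑ j ∈ s.A'.filter (fun j => D.it j ∈ τ'.items), mI s.t' j :=
    Finset.sum_nonneg fun j _ => mI_nn h.R j
  have nΨ' : 0 ≤ ∑ j ∈ s.A'.filter (fun j => D.it j ∈ τ'.items),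
      om s.M'.primeFactors (D.it j / u'.A) * mI s.t' j :=
    Finset.sum_nonneg fun j _ => mul_nonneg (om_nonneg _ _) (mI_nn h.R j)
  have hrest : 0 ≤ ∑ e ∈ KR D ρ Al n p s.M (u.B * p) u.A p t₀ s.A s.M' u'.B u'.A 1 τ' s.A' Qf,
        D.iF (Ro (D.rho p)) (D.uA s.M (u.B * p) u.A t₀ s.A p)
          (D.uA s.M' u'.B u'.A τ' s.A' 1) e := Finset.sum_nonneg fun e _ => hF0 e
  by_cases hstp : stp s
  · have e0 : eOS stp s = 0 := by
      unfold eOS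
      split_ifs <;> rfl
    rw [e0]
    positivity
  obtain ⟨hs, hs'⟩ := hst hstp
  refine (eOS_le_iF h hB stp).trans ?_
  exact col_node hk hni hCL hp hn h.L h.M0 hL hs hG
    (τ' := τ') (A' := s.A') (M' := s.M') (b' := u'.B) (pr' := u'.A) (c' := 1)
    h.R.hb h.R.hF h.R.hW (one_dvd _) h.M0' hR.geM hs'
    (fun q hq => hR.once q (mem_Qi.1 hq).2.1 (mem_Qi.1 hq).1)
    (fun z hz q hq => by
      obtain ⟨h1, h2, j, hj, rfl⟩ := mem_Qi.1 hq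
      exact hR.tame z hz j hj h2 h1)
    (fun q hq => hR.lg q (mem_Qi.1 hq).2.1 (mem_Qi.1 hq).1)
    ((share_node hc' hR.ms hni.rad.pos hni.W0 hni.Wρ s.A').trans hhi)
    (Φ' := ∑ j ∈ s.A'.filter (fun j => D.it j ∈ τ'.items), mI s.t' j)
    (Ψ' := ∑ j ∈ s.A'.filter (fun j => D.it j ∈ τ'.items),
      om s.M'.primeFactors (D.it j / u'.A) * mI s.t' j)
    (by
      have := mass_node hni.ab h.R hni.c0 hR.ph hR.mean hni.full hR.il (mI_nn h.R) (f := fun _ => 1)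
        (fun _ => zero_le_one)
      simpa only [one_mul] using this)
    (mass_node hni.ab h.R hni.c0 hR.ph hR.mean hni.full hR.il (mI_nn h.R)
      (f := fun q => om s.M'.primeFactors (q / u'.A)) (fun _ => om_nonneg _ _))
    nΦ' nΨ' hFS

open Classical in
/-- **ONE-SIDED COLUMN OF A STATE, right tie** -/
theorem os_state3' (hk : CKX CL C1 (1 / c₀) p₁) {p n G : ℕ} (hni : NI D ρ Al P W C1 c₀ p)
    {u u' : NS} {Sp : Finset ℕ} {τ t₁' t₀' : IT}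
    (h : StI D sp s u.B u.A τ u'.B u'.A (.br p Sp t₁' t₀')) (hB : Blw p τ) (hG : 0 < G)
    (hL : NSd D Al P W CL c₀ p G s.M u τ s.A)
    (hR : NSd D Al P W CL c₀ p G s.M' u' (.br p Sp t₁' t₀') s.A') (hc : 0 ≤ u.c)
    (hhi : 2 * (u.c * Ws W τ.items) ≤ (Real.log p)^C1)
    (hCL : 0 ≤ CL)
    (hp : p₁ ≤ p) (hn : n = ⌊1/4 * Real.log p / Real.log 2⌋₊)
    {stp : Stp Λ κ}
    (hst : ¬ stp s → ∑ l ∈ s.M.primeFactors, (l:ℝ)^(-(11/12):ℝ) ≤ 1 ∧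
      ∑ l ∈ s.M'.primeFactors, (l:ℝ)^(-(11/12):ℝ) ≤ 1)
    {Qf : ℕ × ℕ → Prop}
    (hFS : FSOk D ρ n p s.M' (u'.B * p) u'.A p t₀' s.A' s.M u.B u.A 1 τ s.A Qf) :
    eOS stp s ≤ ((p:ℝ)^(-(11/12):ℝ) * (∑ j ∈ s.A.filter (fun j => D.it j ∈ τ.items), mI s.t j) +
        (p:ℝ)^(-(1/6000):ℝ) * ((∑ j ∈ s.A'.filter (fun j => D.it j ∈ t₀'.items), mI s.t' j) +
          ∑ j ∈ s.A.filter (fun j => D.it j ∈ τ.items),
            om s.M.primeFactors (D.it j / u.A) * mI s.t j)) +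
      ∑ e ∈ KR D ρ Al n p s.M' (u'.B * p) u'.A p t₀' s.A' s.M u.B u.A 1 τ s.A Qf,
        D.iF (Ro (D.rho p)) (D.uA s.M' (u'.B * p) u'.A t₀' s.A' p)
          (D.uA s.M u.B u.A τ s.A 1) e := by
  classical
  have hR0 := h.R.br₀
  have hF0 : ∀ e, 0 ≤ D.iF (Ro (D.rho p)) (D.uA s.M' (u'.B * p) u'.A t₀' s.A' p)
      (D.uA s.M u.B u.A τ s.A 1) e := fun e => D.iF_nonneg _
    (fun j y => (PB_uA h.M0' hR0.hb hR0.hF hR0.hW (Dvd.intro_left u'.B rfl) j).nonneg y)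
    (fun j y => (PB_uA h.M0 h.L.hb h.L.hF h.L.hW (one_dvd _) j).nonneg y) e
  have nΦ : 0 ≤ ∑ j ∈ s.A'.filter (fun j => D.it j ∈ t₀'.items), mI s.t' j :=
    Finset.sum_nonneg fun j _ => mI_nn h.R j
  have nΦ' : 0 ≤ ∑ j ∈ s.A.filter (fun j => D.it j ∈ τ.items), mI s.t j :=
    Finset.sum_nonneg fun j _ => mI_nn h.L j
  have nΨ' : 0 ≤ ∑ j ∈ s.A.filter (fun j => D.it j ∈ τ.items),
      om s.M.primeFactors (D.it j / u.A) * mI s.t j :=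
    Finset.sum_nonneg fun j _ => mul_nonneg (om_nonneg _ _) (mI_nn h.L j)
  have hrest : 0 ≤ ∑ e ∈ KR D ρ Al n p s.M' (u'.B * p) u'.A p t₀' s.A' s.M u.B u.A 1 τ s.A Qf,
        D.iF (Ro (D.rho p)) (D.uA s.M' (u'.B * p) u'.A t₀' s.A' p)
          (D.uA s.M u.B u.A τ s.A 1) e := Finset.sum_nonneg fun e _ => hF0 e
  by_cases hstp : stp s
  · have e0 : eOS stp s = 0 := by
      unfold eOS
      split_ifs <;> rfl
    rw [e0]
    positivity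
  obtain ⟨hs, hs'⟩ := hst hstp
  refine (eOS_le_iF' h hB stp).trans ?_
  exact col_node hk hni hCL hp hn h.R h.M0' hR hs' hG
    (τ' := τ) (A' := s.A) (M' := s.M) (b' := u.B) (pr' := u.A) (c' := 1)
    h.L.hb h.L.hF h.L.hW (one_dvd _) h.M0 hL.geM hs
    (fun q hq => hL.once q (mem_Qi.1 hq).2.1 (mem_Qi.1 hq).1)
    (fun z hz q hq => by
      obtain ⟨h1, h2, j, hj, rfl⟩ := mem_Qi.1 hq
      exact hL.tame z hz j hj h2 h1)
    (fun q hq => hL.lg q (mem_Qi.1 hq).2.1 (mem_Qi.1 hq).1)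
    ((share_node hc hL.ms hni.rad.pos hni.W0 hni.Wρ s.A).trans hhi)
    (Φ' := ∑ j ∈ s.A.filter (fun j => D.it j ∈ τ.items), mI s.t j)
    (Ψ' := ∑ j ∈ s.A.filter (fun j => D.it j ∈ τ.items),
      om s.M.primeFactors (D.it j / u.A) * mI s.t j)
    (by
      have := mass_node hni.ab h.L hni.c0 hL.ph hL.mean hni.full hL.il (mI_nn h.L) (f := fun _ => 1)
        (fun _ => zero_le_one)
      simpa only [one_mul] using this)
    (mass_node hni.ab h.L hni.c0 hL.ph hL.mean hni.full hL.il (mI_nn h.L)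
      (f := fun q => om s.M.primeFactors (q / u.A)) (fun _ => om_nonneg _ _))
    nΦ' nΨ' hFS

end Crest.Agent.R4P.ColW710
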