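import Crest.Agent.R4P.Frame758
import Crest.Agent.R4P.Asm532
import Crest.Agent.R4.Frame758b

/-!
R4 (S0004), POWERS (port of `R4/Frame758b`, helper758): **MAIN from the module outputs**:
`Frame758.energy0` + `Asm532.MAIN_of_good`.  Builder-free: any item tree `t`.
-/

set_option autoImplicit false
set_option linter.unusedSectionVars false
set_option linter.unusedVariables false
open MeasureTheory Filter

namespace Crest.Agent.R4P.Frame758

open Crest.Agent.R4.Tour104 Crest.Agent.R4.Tour758 Crest.Agent.R4.Avg758 Crest.Agent.R4.Clos758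
open Crest.Agent.R4.ClosL758 Crest.Agent.R4.ClosG758 Crest.Agent.R4.ClosR758
open Crest.Agent.R4.Fam464 Crest.Agent.R4P.Cnt588 Crest.Agent.R4P.Walk560 Crest.Agent.R4P.Item758
open Crest.Agent.R4.Item758 (IL AdS AdI AdI_univ)
open Crest.Agent.R4.Soft104 Crest.Agent.R4.Max709 Crest.Agent.R4.Fin532 Crest.Agent.R4P.Asm532
open Crest.Agent.R4.Frame758 (sum_len_le)

noncomputable instance instDecLb (κ₀ : Type*) (X : Finset (ℕ × ℕ × Finset ℕ)) :
    DecidableEq (Lb κ₀ X) := Classical.decEq _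

noncomputable instance instFinLb (κ₀ : Type*) [Fintype κ₀] (X : Finset (ℕ × ℕ × Finset ℕ)) :
    Fintype (Lb κ₀ X) := inferInstanceAs (Fintype (κ₀ × Option {x // x ∈ X}))

section
variable {Λ κ₀ : Type*} [Fintype Λ] [DecidableEq Λ] [Fintype κ₀] [DecidableEq κ₀]

/-- raw mass of a piece: length times `φ(q)/q` -/
noncomputable def wt (D : Par0 Λ κ₀) (j : Λ) : ℝ :=
  (D.be j - D.al j) * ((Nat.totient (D.it j) : ℝ) / (D.it j : ℝ))

/-- pieces of one item are disjoint -/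
def Disj (D : Par0 Λ κ₀) : Prop :=
  ∀ j j', j ≠ j' → D.it j = D.it j' → D.be j ≤ D.al j' ∨ D.be j' ≤ D.al j

/-- total raw mass of a good system with disjoint pieces -/
theorem sum_wt_le {γ c₀ : ℝ} {ψ : ℕ → ℝ} {S S' : Finset ℕ} {t : IT} {D : Par0 Λ κ₀}
    {X : Finset (ℕ × ℕ × Finset ℕ)} {P₀ : ℕ} (hS : SysM P₀ ψ S)
    (hG : Good γ c₀ ψ S S' t (D.par X)) (hd : Disj D) : ∑ j, wt D j ≤ 2 := by
  have h1 : ∑ j, wt D j = ∑ q ∈ S, ∑ j ∈ Finset.univ.filter (fun j => D.it j = q), wt D j := by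
    rw [← Finset.sum_fiberwise_of_maps_to (s := Finset.univ) (t := S) (g := D.it)
      (fun j _ => hG.it j)]
  have h2 : ∀ q ∈ S, ∑ j ∈ Finset.univ.filter (fun j => D.it j = q), wt D j ≤ 2 * w ψ q := by
    intro q hq
    have e : ∑ j ∈ Finset.univ.filter (fun j => D.it j = q), wt D j =
        ((q.totient : ℝ) / (q : ℝ)) *
          ∑ j ∈ Finset.univ.filter (fun j => D.it j = q), (D.be j - D.al j) := by
      rw [Finset.mul_sum]
      refine Finset.sum_congr rfl fun j hj => ?_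
      rw [← (Finset.mem_filter.1 hj).2]
      unfold wt
      ring
    have h3 : ∑ j ∈ Finset.univ.filter (fun j => D.it j = q), (D.be j - D.al j) ≤ 2 * ψ q := by
      refine sum_len_le (hS.nonneg q) (fun j _ => hG.ab j) (fun j hj => ?_) fun j hj j' hj' hne => ?_
      · have := hG.win j
        have e := (Finset.mem_filter.1 hj).2
        have e' : (D.par X).it j = q := e
        rw [e'] at this
        exact ⟨this.1.le, this.2⟩
      · exact hd j j' hne ((Finset.mem_filter.1 hj).2.trans (Finset.mem_filter.1 hj').2.symm)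
    rw [e]
    unfold w
    have h0 : (0 : ℝ) ≤ (q.totient : ℝ) / (q : ℝ) := by positivity
    have := mul_le_mul_of_nonneg_left h3 h0
    linarith
  rw [h1]
  refine (Finset.sum_le_sum h2).trans ?_
  rw [← Finset.mul_sum]
  have := hS.node 1 one_pos
  rw [NM_one] at this
  linarith

end

/-- **everything a system must supply** (module outputs): `t` the tree, `X` its leaf data -/
structure Out (γ c₀ C C₀ η B δ₀ : ℝ) (ψ : ℕ → ℝ) (S S' : Finset ℕ) (t : IT)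
    (X : Finset (ℕ × ℕ × Finset ℕ)) (n : ℕ) (c : ℝ) {Λ κ₀ : Type} [Fintype Λ] [DecidableEq Λ]
    [Fintype κ₀] [DecidableEq κ₀] [WRel κ₀] (D : Par0 Λ κ₀) (sp : ℕ → Finset Λ) (j₀ : Λ)
    (stp : Stp Λ (Lb κ₀ X)) (δ : TrG Λ (Lb κ₀ X) → Finset Λ → ℝ) : Prop where
  good : Good γ c₀ ψ S S' t (D.par X)
  disj : Disj D
  spok : SpOk0 D sp
  stp0 : ∀ s : St Λ (Lb κ₀ X), s.O = ∅ → s.O' = ∅ → ¬ stp s
  jt0 : ∀ (d : DT Λ (Lb κ₀ X)) (A : Finset Λ), stp.jt (selfSt d A)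
  slack : (tG D X 1 1 t).All (SlackR (AdI D.it) δ)
  slack0 : δ (tG D X 1 1 t) Finset.univ ≤ δ₀
  leafE : LeafAll (LeafE D (wt D) C) 1 1 1 t
  leafI : LeafAll (LeafI D (wt D) C₀) 1 1 1 t
  node : Bld532.All (fun s t' =>
    NodeE D X sp (wt D) (clf t 1) j₀ stp δ B η (16 * (C + C₀ + η + B + 1)) s.B s.A t')
      ⟨n, c, 1, 1⟩ t

/-- **MAIN FROM THE MODULE OUTPUTS** -/
theorem MAIN_of_modules {γ c₀ C C₀ η B δ₀ : ℝ} (hc₀ : 0 < c₀) (hC : 0 ≤ C) (hC₀ : 0 ≤ C₀)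
    (hη : 0 ≤ η) (hB : 0 ≤ B) (hδ₀ : 0 ≤ δ₀) (P₀ : ℕ)
    (H : ∀ (ψ : ℕ → ℝ) (S : Finset ℕ), SysM P₀ ψ S →
      ∃ (t : IT) (n : ℕ) (S' : Finset ℕ) (Λ : Type) (_ : Fintype Λ) (_ : DecidableEq Λ)
        (κ₀ : Type) (_ : Fintype κ₀) (_ : DecidableEq κ₀) (_ : WRel κ₀) (D : Par0 Λ κ₀)
        (sp : ℕ → Finset Λ) (j₀ : Λ) (c : ℝ)
        (stp : Stp Λ (Lb κ₀ (leafs 1 1 t)))
        (δ : TrG Λ (Lb κ₀ (leafs 1 1 t)) → Finset Λ → ℝ),
        t.items = S ∧ t.Ok n ∧ Fit 1 1 t ∧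
        Out γ c₀ C C₀ η B δ₀ ψ S S' t (leafs 1 1 t) n c D sp j₀ stp δ) : MAIN γ := by
  refine MAIN_of_good (c₀ := c₀) (K := 16 * (C + C₀ + η + B + 1) * (6 + δ₀)) hc₀ P₀
    fun ψ S hS => ?_
  obtain ⟨t, n, S', Λ, iF, iD, κ₀, iFκ, iDκ, iRκ, D, sp, j₀, c, stp, δ, hi, hO, hF, h⟩ := H ψ S hS
  set X := leafs 1 1 t with hX
  refine ⟨t, n, S', Λ, iF, iD, Lb κ₀ X, inferInstance, inferInstance, D.par X, hi, hO, hF, h.good,
    ?_⟩
  have hit : ∀ j, D.it j ∈ t.items := fun j => by rw [hi]; exact h.good.it j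
  have hW0 : ∀ j, 0 ≤ wt D j := fun j =>
    mul_nonneg (by have := h.good.ab j; exact sub_nonneg.2 this) (by positivity)
  have key := energy0 D h.spok hW0 j₀ (t := t) (X := X) (n := n) (c := c)
    (Finset.Subset.refl _) hO hF hit h.good.wts hC hC₀ hη hB h.stp0 h.jt0 h.slack
    h.leafE h.leafI h.node
  have hsum := sum_wt_le hS h.good h.disj
  have hsum0 : 0 ≤ ∑ j, wt D j := Finset.sum_nonneg fun j _ => hW0 j
  have hval : ((D.par X).toG 1 1 t).tot = fun x => ∑ j, ((D.par X).toFT 1 1 t).U 1 j x := by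
    funext x
    show ∑ j, ((D.par X).toG 1 1 t).val j x = _
    rw [(D.par X).toG_val one_pos hF h.good.wts]
  rw [hval]
  refine key.trans ?_
  refine mul_le_mul_of_nonneg_left ?_ (by positivity)
  have := h.slack0
  nlinarith

end Crest.Agent.R4P.Frame758
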