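import Crest.Agent.R4P.DataA758
import Crest.Agent.R4P.Frame758b
import Crest.Agent.R4P.BldC153

/-!
R4 (S0004): **CONCRETE DATA** of a system, part B (`Good`, `Outs`, `MAIN_of_data`); port of
helper758's `R4/Data758` (v4) to the tree with powers (helper504).
-/

set_option autoImplicit false
set_option linter.unusedSectionVars false
set_option linter.unusedVariables false
open MeasureTheory Filter

namespace Crest.Agent.R4P.Data758

open Crest.Agent.R4.Tour104 Crest.Agent.R4.Tour758 Crest.Agent.R4.Avg758 Crest.Agent.R4.Clos758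
open Crest.Agent.R4.ClosL758 Crest.Agent.R4.ClosG758 Crest.Agent.R4.ClosR758
open Crest.Agent.R4.Fam464 Crest.Agent.R4P.Cnt588 Crest.Agent.R4P.Walk560 Crest.Agent.R4P.Item758
open Crest.Agent.R4.Soft104 Crest.Agent.R4.Max709 Crest.Agent.R4P.Asm532 Crest.Agent.R4P.Bld532
open Crest.Agent.R4.Piece464 Crest.Agent.R4P.Frame758 Crest.Agent.R4P.W363
open Crest.Agent.R4.Fin532 (MAIN)

section
variable {c : Cf} {n : ℕ}

lemma Cf.Ok.disj (h : c.Ok n) : Disj c.D := by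
  intro j j' hne e
  have e' : j.1.1 = j'.1.1 := e
  have hk : j.1.2 ≠ j'.1.2 := fun hk => hne (Subtype.ext (Prod.ext e' hk))
  rcases lt_or_gt_of_ne hk with hlt | hlt
  · left
    show c.bp j.1.1 (j.1.2 + 1) ≤ c.bp j'.1.1 j'.1.2
    rw [← e']
    exact h.bpm _ (Cf.mem_S j) (Cf.r_pos j) hlt
  · right
    show c.bp j'.1.1 (j'.1.2 + 1) ≤ c.bp j.1.1 j.1.2
    rw [← e']
    exact h.bpm _ (Cf.mem_S j) (Cf.r_pos j) hlt

lemma Cf.Ro_par (c : Cf) (X : Finset (ℕ × ℕ × Finset ℕ)) (p : ℕ) :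
    Ro ((c.D.par X).rho p) = Ro (c.D.rho p) := by
  ext e
  rw [Crest.Agent.R4.ClosR758.mem_Ro, Crest.Agent.R4.ClosR758.mem_Ro]
  exact Iff.rfl

lemma Cf.IL_sp (c : Cf) (b : ℕ) : IL c.D.it (c.sp b) := by
  intro j j' e
  have e' : j.1.1 = j'.1.1 := e
  unfold Cf.sp
  simp only [Finset.mem_filter, Finset.mem_univ, true_and]
  rw [e']

lemma Cf.Ok.spok (h : c.Ok n) : SpOk0 c.D c.sp where
  il := c.IL_sp
  lev := by
    intro b p hp j j' e
    rw [Cf.D_rho] at e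
    have e2 : ret c.t p j.1.1 = ret c.t p j'.1.1 := congrArg (fun x => x.2.1) e
    unfold Cf.sp
    simp only [Finset.mem_filter, Finset.mem_univ, true_and]
    have key : ∀ i i' : c.Lam, ret c.t p i.1.1 = ret c.t p i'.1.1 → b ∈ rt c.t i.1.1 →
        b ∈ rt c.t i'.1.1 := by
      intro i i' e hi
      have hb := (rt_prime c.t h.tOk _ _ hi).1
      have h1 := (dvd_ret h.tOk (p := p) (q := i.1.1) hb).2 ⟨hi, hp⟩
      rw [e] at h1
      exact ((dvd_ret h.tOk hb).1 h1).1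
    exact ⟨key j j' e2, key j' j e2.symm⟩
  leaf := by
    intro b j j' e
    rw [Cf.D_rhoL] at e
    have e2 : ret c.t 0 j.1.1 = ret c.t 0 j'.1.1 := congrArg (fun x => x.2.1) e
    unfold Cf.sp
    simp only [Finset.mem_filter, Finset.mem_univ, true_and]
    have key : ∀ i i' : c.Lam, ret c.t 0 i.1.1 = ret c.t 0 i'.1.1 → b ∈ rt c.t i.1.1 →
        b ∈ rt c.t i'.1.1 := by
      intro i i' e hi
      have hb := (rt_prime c.t h.tOk _ _ hi).1
      have h1 := (dvd_ret h.tOk (p := 0) (q := i.1.1) hb).2 ⟨hi, hb.pos⟩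
      rw [e] at h1
      exact ((dvd_ret h.tOk hb).1 h1).1
    exact ⟨key j j' e2, key j' j e2.symm⟩

/-- **GOOD** -/
theorem Cf.Ok.good (h : c.Ok n) {ψ : ℕ → ℝ} (hr : ∀ q, c.r q = ψ q / 2) {c₀ : ℝ}
    (hbig : 1 / 4 ≤ ∑ q ∈ c.S', w ψ q)
    (hphi : ∀ q ∈ c.S', (q.totient : ℝ) / q ≤
      2 * (prf c.t q * (((q / pp c.t q).totient : ℝ) / ((q / pp c.t q : ℕ) : ℝ))))
    (ht : ∀ q ∈ c.S, pp c.t q = 1 → ∀ z, TopW q (c.om q z))
    (hm : ∀ q ∈ c.S', ∀ z, c₀ * (((q / pp c.t q).totient : ℝ) / ((q / pp c.t q : ℕ) : ℝ)) ≤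
      mnw (q / pp c.t q) (c.om q z)) (X : Finset (ℕ × ℕ × Finset ℕ)) :
    Good c.γ c₀ ψ c.S c.S' c.t (c.D.par X) where
  gam := rfl
  wts := h.wts X
  ab := fun j => h.bpm _ (Cf.mem_S j) (Cf.r_pos j) (Nat.le_succ _)
  win := by
    intro j
    have h1 := h.bp_ge j j.1.2
    have h2 := h.bp_le j (Cf.k_lt j)
    have h3 := Cf.r_pos j
    have h4 := hr j.1.1
    refine ⟨?_, ?_⟩
    · show -ψ j.1.1 < c.bp j.1.1 j.1.2
      linarith
    · show c.bp j.1.1 (j.1.2 + 1) ≤ ψ j.1.1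
      have : c.bp j.1.1 (j.1.2 + 1) ≤ c.r j.1.1 := h2
      linarith
  it := fun j => Cf.mem_S j
  top := fun j hpp => ht _ (Cf.mem_S j) hpp _
  sub := h.sub
  big := hbig
  full := by
    intro q hq
    have := h.len (h.sub hq) (h.r' q hq)
    have e : ∑ j ∈ Finset.univ.filter (fun j : c.Lam => (c.D.par X).it j = q),
        ((c.D.par X).be j - (c.D.par X).al j) = 2 * c.r q := this
    rw [e, hr q]
    linarith
  phi := hphi
  mean := fun j hj => hm _ hj _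

end

/-! ### MAIN from the concrete data -/

/-- what the energy modules must supply for the concrete data (`X` = leaf data of the tree) -/
structure Cf.Outs (c : Cf) (n : ℕ) (C C₀ η B δ₀ : ℝ) (j₀ : c.Lam)
    (stp : Stp c.Lam (Lb (WL c.Lam) (leafs 1 1 c.t)))
    (δ : TrG c.Lam (Lb (WL c.Lam) (leafs 1 1 c.t)) → Finset c.Lam → ℝ) : Prop where
  stp0 : ∀ s : St c.Lam (Lb (WL c.Lam) (leafs 1 1 c.t)), s.O = ∅ → s.O' = ∅ → ¬ stp s
  jt0 : ∀ (d : DT c.Lam (Lb (WL c.Lam) (leafs 1 1 c.t))) (A : Finset c.Lam), stp.jt (selfSt d A)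
  slack : (tG c.D (leafs 1 1 c.t) 1 1 c.t).All (SlackR (AdI c.D.it) δ)
  slack0 : δ (tG c.D (leafs 1 1 c.t) 1 1 c.t) Finset.univ ≤ δ₀
  leafE : LeafAll (LeafE c.D (wt c.D) C) 1 1 1 c.t
  leafI : LeafAll (LeafI c.D (wt c.D) C₀) 1 1 1 c.t
  node : Bld532.All (fun s t' =>
    NodeE c.D (leafs 1 1 c.t) c.sp (wt c.D) (clf c.t 1) j₀ stp δ B η
      (16 * (C + C₀ + η + B + 1)) s.B s.A t')
      ⟨n, 1, 1, 1⟩ c.t

/-- **MAIN FROM THE CONCRETE DATA**: choose `P`, `n`, the pruned set `S'`, the world parameters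
`wp`, the leaf levels `lv`, the weights `om`; for every configuration `c` with these data (any
adapted breakpoints) the energy modules must supply `Outs`. -/
theorem MAIN_of_data {γ c₀ C C₀ η B δ₀ : ℝ} (hc₀ : 0 < c₀) (hC : 0 ≤ C) (hC₀ : 0 ≤ C₀)
    (hη : 0 ≤ η) (hB : 0 ≤ B) (hδ₀ : 0 ≤ δ₀) (P₀ : ℕ)
    (H : ∀ (ψ : ℕ → ℝ) (S : Finset ℕ), SysM P₀ ψ S →
      ∃ (P : Bld532.Par) (n : ℕ) (S' : Finset ℕ) (wp wpL : WP) (lv : ℕ → ℕ) (om : ℕ → ℝ → ℤ → ℝ)
        (d1 : ℝ) (lam : ℕ → ℝ) (bx : ℕ → Finset ℝ) (tg : ℕ → ℕ → ℕ) (tgL : ℕ → ℕ),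
        P.Good ∧ 0 < d1 ∧ S' ⊆ S ∧ (∀ q ∈ S', 0 < ψ q) ∧ 1 / 4 ≤ ∑ q ∈ S', w ψ q ∧
        (∀ q ∈ S', ∑ p ∈ (bld P (w ψ) n 1 1 S).uq q, 1 / (p : ℝ) ≤ 1 / 2) ∧
        (∀ q ∈ S, ∀ z, Wt (q / pp (bld P (w ψ) n 1 1 S) q) (om q z)) ∧
        (∀ q ∈ S, ∀ z a, om q z a ≤ 1) ∧
        (∀ q ∈ S, pp (bld P (w ψ) n 1 1 S) q = 1 → ∀ z, TopW q (om q z)) ∧
        (∀ q ∈ S', ∀ z, c₀ * (((q / pp (bld P (w ψ) n 1 1 S) q).totient : ℝ) /
          ((q / pp (bld P (w ψ) n 1 1 S) q : ℕ) : ℝ)) ≤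
          mnw (q / pp (bld P (w ψ) n 1 1 S) q) (om q z)) ∧
        ∀ c : Cf, c.γ = γ → (∀ q, c.r q = ψ q / 2) → c.S = S → c.S' = S' →
          c.t = bld P (w ψ) n 1 1 S → c.wp = wp → c.wpL = wpL → c.lv = lv → c.om = om →
          c.d1 = d1 → c.lam = lam → c.bx = bx → c.tg = tg → c.tgL = tgL → c.Ok n →
          ∀ j₀ : c.Lam, ∃ stp δ, c.Outs n C C₀ η B δ₀ j₀ stp δ) : MAIN γ := by
  refine MAIN_of_modules (c₀ := c₀) (C := C) (C₀ := C₀) (η := η) (B := B) (δ₀ := δ₀) hc₀ hC hC₀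
    hη hB hδ₀ P₀ fun ψ S hS => ?_
  obtain ⟨P, n, S', wp, wpL, lv, om, d1, lam, bx, tg, tgL, hPG, hd1, hsub, hpos, hbig, huq, hwt, hle, htop,
    hmean, hc⟩ := H ψ S hS
  have hW : ∀ q, 0 ≤ w ψ q := w_nonneg hS.nonneg
  have hAll := bld_All_root P (w ψ) hW hPG n S hS.pos
  have hBk := Bk.root S hS.pos n
  set t := bld P (w ψ) n 1 1 S with ht
  have hO : t.Ok n := bld_Ok P (w ψ) hW hPG n 1 1 1 S hBk
  have hit : t.items = S := bld_items P (w ψ) hW hPG n 1 1 1 S hBk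
  have hF : Fit 1 1 t := Fit_of_NodeOk hAll
  obtain ⟨K, bp, hK, hbp⟩ := exists_bp2 S (fun q => ψ q / 2)
    (fun q => zbA wp lam γ (fun q => ψ q / 2) t (Finset.range (n + 1)) q ∪
      (wpL.zb γ (fun q => ψ q / 2) t (Finset.range (n + 1)) q ∪ bx q)) hd1
  set c : Cf := ⟨γ, fun q => ψ q / 2, S, S', K, bp, wp, wpL, t, lv, om, d1, lam, bx,
    tg, tgL⟩ with hcdef
  have hcOk : c.Ok n :=
    { tOk := hO
      items := hit
      pos := hS.pos
      sub := hsub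
      r' := fun q hq => half_pos (hpos q hq)
      bp0 := fun q hq hr => (hbp q hq hr).1
      bpK := fun q hq hr => (hbp q hq hr).2.1
      bpm := fun q hq hr => (hbp q hq hr).2.2.1
      bpz := fun q hq hr z hz => (hbp q hq hr).2.2.2.1 z (Finset.mem_union_left _ hz)
      bpL := fun q hq hr z hz => (hbp q hq hr).2.2.2.1 z
        (Finset.mem_union_right _ (Finset.mem_union_left _ hz))
      bpx := fun q hq hr z hz => (hbp q hq hr).2.2.2.1 z
        (Finset.mem_union_right _ (Finset.mem_union_right _ hz))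
      fine := fun q hq hr => (hbp q hq hr).2.2.2.2
      dvd := fun q hq => by
        have := (BldF542.pp_dvd t 1 1 hF q (by rw [hit]; exact hq)).2.1
        rwa [one_mul] at this
      wt := hwt
      le1 := hle }
  have hne : S'.Nonempty := by
    rw [Finset.nonempty_iff_ne_empty]
    rintro rfl
    rw [Finset.sum_empty] at hbig
    norm_num at hbig
  obtain ⟨q₀, hq₀⟩ := hne
  let j₀ : c.Lam := ⟨(q₀, 0), Finset.mem_product.2 ⟨Finset.mem_filter.2 ⟨hsub hq₀,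
    half_pos (hpos q₀ hq₀)⟩, Finset.mem_range.2 hK⟩⟩
  obtain ⟨stp, δ, h⟩ := hc c rfl (fun _ => rfl) rfl rfl rfl rfl rfl rfl rfl rfl rfl rfl rfl rfl hcOk j₀
  have hphi : ∀ q ∈ S', (q.totient : ℝ) / q ≤
      2 * (prf t q * (((q / pp t q).totient : ℝ) / ((q / pp t q : ℕ) : ℝ))) := fun q hq =>
    Phi542.phi_le_two t hO hF (All_UqN hAll) (by rw [hit]; exact hsub hq)
      (fun p hp => (rt_prime t hO q p hp).1) (huq q hq)
  refine ⟨t, n, S', c.Lam, inferInstance, inferInstance, WL c.Lam, inferInstance, inferInstance,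
    inferInstance, c.D, c.sp, j₀, 1, stp, δ, hit, hO, hF, ?_⟩
  exact
    { good := hcOk.good (fun _ => rfl) hbig hphi htop hmean _
      disj := hcOk.disj
      spok := hcOk.spok
      stp0 := h.stp0
      jt0 := h.jt0
      slack := h.slack
      slack0 := h.slack0
      leafE := h.leafE
      leafI := h.leafI
      node := h.node }

end Crest.Agent.R4P.Data758
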