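import Crest.Agent.R4P.Cnt588

/-!
R4 (S0004), powers pass: node states and `All` for 33's `R4P.Cnt588.IT` (same names as in
`R4/Bld532.lean`), without any builder.

* `NS` : `n` = strict upper bound of the columns, `c` = factor, `A` = product of the present ties
  AND of the free pulls, `B` = product of the missing ties;
* `pl p t` : the child has state `⟨p + 1, c, A * p, B⟩` (same factor);
* `add b t₁ t₀` : `⟨b, ..⟩`, `⟨b + 1, ..⟩`; `far b t₁ t₀` : both `⟨b + 1, ..⟩` (as in `IT.Ok`).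
-/

set_option autoImplicit false

namespace Crest.Agent.R4P.Bld532

open Crest.Agent.R4P.Cnt588

/-- state of a node -/
structure NS where
  n : ℕ
  c : ℝ
  A : ℕ
  B : ℕ

/-- `Q` holds at every node of the tree (with its state) -/
def All (Q : NS → IT → Prop) : NS → IT → Prop
  | s, .leaf S => Q s (.leaf S)
  | s, .br p Sp t₁ t₀ => Q s (.br p Sp t₁ t₀) ∧
      All Q ⟨p, s.c / (1 - 1 / (p : ℝ)), s.A * p, s.B⟩ t₁ ∧ All Q ⟨p, s.c * p, s.A, s.B * p⟩ t₀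
  | s, .add b t₁ t₀ => Q s (.add b t₁ t₀) ∧
      All Q ⟨b + 1, s.c, s.A, s.B⟩ t₁ ∧ All Q ⟨b + 1, s.c, s.A, s.B⟩ t₀
  | s, .up b Sp t => Q s (.up b Sp t) ∧ All Q ⟨b, s.c, s.A, s.B⟩ t
  | s, .pl b t => Q s (.pl b t) ∧ All Q ⟨b + 1, s.c, s.A * b, s.B⟩ t
  | s, .far b t₁ t₀ => Q s (.far b t₁ t₀) ∧
      All Q ⟨b + 1, s.c, s.A, s.B⟩ t₁ ∧ All Q ⟨b + 1, s.c, s.A, s.B⟩ t₀

theorem All.self {Q : NS → IT → Prop} {s : NS} {t : IT} (h : All Q s t) : Q s t := by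
  cases t with
  | leaf S => exact h
  | br p Sp t₁ t₀ => exact h.1
  | add b t₁ t₀ => exact h.1
  | up b Sp t => exact h.1
  | pl b t => exact h.1
  | far b t₁ t₀ => exact h.1

theorem All.mono {Q Q' : NS → IT → Prop} (hQ : ∀ s t, Q s t → Q' s t) :
    ∀ {t : IT} {s : NS}, All Q s t → All Q' s t := by
  intro t
  induction t with
  | leaf S => intro s h; exact hQ _ _ h
  | br p Sp t₁ t₀ ih1 ih0 => intro s h; exact ⟨hQ _ _ h.1, ih1 h.2.1, ih0 h.2.2⟩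
  | add b t₁ t₀ ih1 ih0 => intro s h; exact ⟨hQ _ _ h.1, ih1 h.2.1, ih0 h.2.2⟩
  | up b Sp t ih => intro s h; exact ⟨hQ _ _ h.1, ih h.2⟩
  | pl b t ih => intro s h; exact ⟨hQ _ _ h.1, ih h.2⟩
  | far b t₁ t₀ ih1 ih0 => intro s h; exact ⟨hQ _ _ h.1, ih1 h.2.1, ih0 h.2.2⟩

theorem All.and {Q Q' : NS → IT → Prop} :
    ∀ {t : IT} {s : NS}, All Q s t → All Q' s t → All (fun s t => Q s t ∧ Q' s t) s t := by
  intro t
  induction t with
  | leaf S => intro s h h'; exact ⟨h, h'⟩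
  | br p Sp t₁ t₀ ih1 ih0 =>
    intro s h h'; exact ⟨⟨h.1, h'.1⟩, ih1 h.2.1 h'.2.1, ih0 h.2.2 h'.2.2⟩
  | add b t₁ t₀ ih1 ih0 => intro s h h'; exact ⟨⟨h.1, h'.1⟩, ih1 h.2.1 h'.2.1, ih0 h.2.2 h'.2.2⟩
  | up b Sp t ih => intro s h h'; exact ⟨⟨h.1, h'.1⟩, ih h.2 h'.2⟩
  | pl b t ih => intro s h h'; exact ⟨⟨h.1, h'.1⟩, ih h.2 h'.2⟩
  | far b t₁ t₀ ih1 ih0 => intro s h h'; exact ⟨⟨h.1, h'.1⟩, ih1 h.2.1 h'.2.1, ih0 h.2.2 h'.2.2⟩

theorem IT_Ok_mono {n n' : ℕ} (h : n ≤ n') {t : IT} (ht : t.Ok n) : t.Ok n' := by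
  cases t with
  | leaf S => trivial
  | br p Sp t₁ t₀ => exact ⟨ht.1, lt_of_lt_of_le ht.2.1 h, ht.2.2⟩
  | add b t₁ t₀ => exact ⟨ht.1, lt_of_lt_of_le ht.2.1 h, ht.2.2⟩
  | up b Sp t => exact ⟨ht.1, lt_of_lt_of_le ht.2.1 h, ht.2.2⟩
  | pl b t => exact ⟨ht.1, lt_of_lt_of_le ht.2.1 h, ht.2.2⟩
  | far b t₁ t₀ => exact ⟨ht.1, lt_of_lt_of_le ht.2.1 h, ht.2.2⟩

/-! ### the leaf of an item -/

/-- state of the leaf which contains the item `q` -/
noncomputable def lst : IT → NS → ℕ → NS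
  | .leaf _, s, _ => s
  | .br p _ t₁ t₀, s, q => if q ∈ t₀.items then lst t₀ ⟨p, s.c * p, s.A, s.B * p⟩ q
      else lst t₁ ⟨p, s.c / (1 - 1 / (p : ℝ)), s.A * p, s.B⟩ q
  | .add b t₁ t₀, s, q => if q ∈ t₀.items then lst t₀ ⟨b + 1, s.c, s.A, s.B⟩ q
      else lst t₁ ⟨b + 1, s.c, s.A, s.B⟩ q
  | .up b _ t, s, q => lst t ⟨b, s.c, s.A, s.B⟩ q
  | .pl b t, s, q => lst t ⟨b + 1, s.c, s.A * b, s.B⟩ q
  | .far b t₁ t₀, s, q => if q ∈ t₀.items then lst t₀ ⟨b + 1, s.c, s.A, s.B⟩ q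
      else lst t₁ ⟨b + 1, s.c, s.A, s.B⟩ q

/-- the leaf of `q ∈ items` is a leaf state at which every `All`-property holds -/
theorem All.leaf_of_item {Q : NS → IT → Prop} : ∀ (t : IT) (s : NS), All Q s t →
    ∀ q ∈ t.items, ∃ S, q ∈ S ∧ Q (lst t s q) (.leaf S) := by
  intro t
  induction t with
  | leaf S => intro s h q hq; exact ⟨S, hq, h⟩
  | br r Sp t₁ t₀ ih1 ih0 =>
    intro s h q hq
    simp only [lst]
    split_ifs with h0
    · exact ih0 _ h.2.2 q h0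
    · refine ih1 _ h.2.1 q ?_
      rcases Finset.mem_union.1 hq with h' | h'
      · exact h'
      · exact absurd h' h0
  | add b t₁ t₀ ih1 ih0 =>
    intro s h q hq
    simp only [lst]
    split_ifs with h0
    · exact ih0 _ h.2.2 q h0
    · refine ih1 _ h.2.1 q ?_
      rcases Finset.mem_union.1 hq with h' | h'
      · exact h'
      · exact absurd h' h0
  | up b Sp t ih =>
    intro s h q hq
    exact ih _ h.2 q hq
  | pl b t ih =>
    intro s h q hq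
    exact ih _ h.2 q hq
  | far b t₁ t₀ ih1 ih0 =>
    intro s h q hq
    simp only [lst]
    split_ifs with h0
    · exact ih0 _ h.2.2 q h0
    · refine ih1 _ h.2.1 q ?_
      rcases Finset.mem_union.1 hq with h' | h'
      · exact h'
      · exact absurd h' h0

end Crest.Agent.R4P.Bld532
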