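import Crest.Agent.R4P.Item758
import Crest.Agent.R4P.NS161

/-!
R4 (S0004), powers pass: port of `R4/Item758b` to 33's tree with powers.

Module A3b, second part: `Fit` for built trees, node-wise transfer `toG_All`, raw masses
(`muR`), labels with leaf identities, `TopCredit` at the root, column errors as item-pair sums.
-/

set_option autoImplicit false
set_option linter.unusedSectionVars false
set_option linter.unusedVariables false
open MeasureTheory Filter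

namespace Crest.Agent.R4P.Item758

open Crest.Agent.R4.Tour104 Crest.Agent.R4.Tour758 Crest.Agent.R4.Avg758 Crest.Agent.R4.Clos758
open Crest.Agent.R4.ClosL758 Crest.Agent.R4.ClosG758 Crest.Agent.R4.ClosR758
open Crest.Agent.R4.Lam368 (mult lamF DW BW fW Nested Dat mult_nonneg mult_le_one DW_le Ep_mult
  PB_mult)
open Crest.Agent.R4.Piece464 Crest.Agent.R4.Fam464 Crest.Agent.R4P.Cnt588

/-! ### built trees -/

/-- what a node has to satisfy for `Fit` (to be deduced from the builder's `NodeOk`) -/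
def FitN (s : Bld532.NS) : IT → Prop
  | .leaf S => ∀ q ∈ S, 0 < q ∧ s.A ∣ q ∧ Nat.Coprime (q / s.A) s.B
  | .br p _ t₁ t₀ => p.Prime ∧ Nat.Coprime p s.B ∧ Disjoint t₁.items t₀.items
  | .add _ t₁ t₀ => Disjoint t₁.items t₀.items
  | .up _ _ _ => True
  | .pl p _ => p.Prime ∧ Nat.Coprime p s.B
  | .far _ t₁ t₀ => Disjoint t₁.items t₀.items

lemma Fit_of_All (t : IT) : ∀ (s : Bld532.NS), Bld532.All FitN s t → Fit s.B s.A t := by
  induction t with
  | leaf S => intro s h; exact h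
  | br p Sp t₁ t₀ ih₁ ih₀ =>
    intro s h
    obtain ⟨⟨a1, a2, hd⟩, h1, h0⟩ := h
    exact ⟨a1, a2, hd, ih₁ ⟨p, _, s.A * p, s.B⟩ h1, ih₀ ⟨p, _, s.A, s.B * p⟩ h0⟩
  | add b t₁ t₀ ih₁ ih₀ =>
    intro s h
    obtain ⟨hd, h1, h0⟩ := h
    exact ⟨hd, ih₁ ⟨b + 1, _, s.A, s.B⟩ h1, ih₀ ⟨b + 1, _, s.A, s.B⟩ h0⟩
  | up b Sp t ih =>
    intro s h
    exact ih ⟨b, _, s.A, s.B⟩ h.2
  | pl p t ih =>
    intro s h
    exact ⟨h.1.1, h.1.2, ih ⟨p + 1, _, s.A * p, s.B⟩ h.2⟩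
  | far b t₁ t₀ ih₁ ih₀ =>
    intro s h
    obtain ⟨hd, h1, h0⟩ := h
    exact ⟨hd, ih₁ ⟨b + 1, _, s.A, s.B⟩ h1, ih₀ ⟨b + 1, _, s.A, s.B⟩ h0⟩

section
variable {Λ κ : Type*} [Fintype Λ] [DecidableEq Λ] [Fintype κ] [DecidableEq κ]

/-- closure tree of an item tree -/
noncomputable def Par.toG (D : Par Λ κ) (b pr : ℕ) (t : IT) : TrG Λ κ := (D.toFT b pr t).toG

/-- **node-wise transfer** -/
lemma Par.toG_All (D : Par Λ κ) {Qp : Bld532.NS → IT → Prop} {F : TrG Λ κ → Prop}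
    (hQ : ∀ s t, Qp s t → F (D.toG s.B s.A t)) (hz : ∀ r : Λ → κ, F (.leaf r fun _ _ => 0))
    (t : IT) : ∀ (s : Bld532.NS),
    Bld532.All Qp s t → (D.toG s.B s.A t).All F := by
  induction t with
  | leaf S => intro s h; exact hQ _ _ h
  | br p Sp t₁ t₀ ih₁ ih₀ =>
    intro s h
    exact ⟨hQ _ _ h.1, ih₁ ⟨p, _, s.A * p, s.B⟩ h.2.1, ih₀ ⟨p, _, s.A, s.B * p⟩ h.2.2⟩
  | add b t₁ t₀ ih₁ ih₀ =>
    intro s h
    exact ⟨hQ _ _ h.1, ih₁ ⟨b + 1, _, s.A, s.B⟩ h.2.1, ih₀ ⟨b + 1, _, s.A, s.B⟩ h.2.2⟩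
  | up b Sp t ih => intro s h; exact ih ⟨b, _, s.A, s.B⟩ h.2
  | pl b t ih =>
    intro s h
    exact ⟨hQ _ _ h.1, ih ⟨b + 1, _, s.A * b, s.B⟩ h.2, hz _⟩
  | far b t₁ t₀ ih₁ ih₀ =>
    intro s h
    exact ⟨hQ _ _ h.1, ih₁ ⟨b + 1, _, s.A, s.B⟩ h.2.1, ih₀ ⟨b + 1, _, s.A, s.B⟩ h.2.2⟩

lemma Par.toG_Ok (D : Par Λ κ) {t : IT} {b pr : ℕ} (hb : 0 < b) (hF : Fit b pr t)
    (hW : D.Wts pr t) : (D.toG b pr t).Ok :=
  FT.toG_Ok _ b hb (D.toFT_Adm t b pr hb hF hW)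

lemma Par.toG_val (D : Par Λ κ) {t : IT} {b pr : ℕ} (hb : 0 < b) (hF : Fit b pr t)
    (hW : D.Wts pr t) : (D.toG b pr t).val = fun j => (D.toFT b pr t).U 1 j :=
  FT.toG_val _ b hb (D.toFT_Adm t b pr hb hF hW)

/-! ### raw masses -/

/-- raw masses, computed from the leaf labels -/
noncomputable def muR (dec : κ → Finset Λ → ℝ) (j₀ : Λ) : TrG Λ κ → Finset Λ → ℝ
  | .leaf r _, A => dec (r j₀) A
  | .br _ w _ t₁ t₀ _ _ _, A => (1 - w) * muR dec j₀ t₁ A + w * muR dec j₀ t₀ A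
  | .add _ t₁ t₀, A => muR dec j₀ t₁ A + muR dec j₀ t₀ A

lemma muR_nonneg {dec : κ → Finset Λ → ℝ} (h0 : ∀ k A, 0 ≤ dec k A) (j₀ : Λ) {t : TrG Λ κ}
    (h : t.Ok) (A : Finset Λ) : 0 ≤ muR dec j₀ t A := by
  induction t with
  | leaf r f => exact h0 _ _
  | br P w r t₁ t₀ v B G ih₁ ih₀ =>
    have hq : 0 ≤ 1 - w := by linarith [h.2.2.w1]
    exact add_nonneg (mul_nonneg hq (ih₁ h.1)) (mul_nonneg h.2.2.w0 (ih₀ h.2.1))
  | add r t₁ t₀ ih₁ ih₀ => exact add_nonneg (ih₁ h.1) (ih₀ h.2)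

lemma muR_union {dec : κ → Finset Λ → ℝ}
    (h1 : ∀ k A A', Disjoint A A' → dec k A + dec k A' = dec k (A ∪ A')) (j₀ : Λ) {t : TrG Λ κ}
    {A A' : Finset Λ} (hd : Disjoint A A') :
    muR dec j₀ t A + muR dec j₀ t A' = muR dec j₀ t (A ∪ A') := by
  induction t with
  | leaf r f => exact h1 _ _ _ hd
  | br P w r t₁ t₀ v B G ih₁ ih₀ =>
    show (1 - w) * muR dec j₀ t₁ A + w * muR dec j₀ t₀ A +
      ((1 - w) * muR dec j₀ t₁ A' + w * muR dec j₀ t₀ A') =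
      (1 - w) * muR dec j₀ t₁ (A ∪ A') + w * muR dec j₀ t₀ (A ∪ A')
    rw [← ih₁, ← ih₀]; ring
  | add r t₁ t₀ ih₁ ih₀ =>
    show muR dec j₀ t₁ A + muR dec j₀ t₀ A + (muR dec j₀ t₁ A' + muR dec j₀ t₀ A') =
      muR dec j₀ t₁ (A ∪ A') + muR dec j₀ t₀ (A ∪ A')
    rw [← ih₁, ← ih₀]; ring

lemma muR_mono {dec : κ → Finset Λ → ℝ} (h0 : ∀ k A, 0 ≤ dec k A)
    (h1 : ∀ k A A', Disjoint A A' → dec k A + dec k A' = dec k (A ∪ A')) (j₀ : Λ) {t : TrG Λ κ}
    (h : t.Ok) {A A' : Finset Λ} (hA : A ⊆ A') : muR dec j₀ t A ≤ muR dec j₀ t A' := by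
  have e := muR_union h1 j₀ (t := t) (A := A) (A' := A' \ A) Finset.disjoint_sdiff
  rw [Finset.union_sdiff_of_subset hA] at e
  have := muR_nonneg h0 j₀ h (A' \ A)
  linarith

/-- raw masses satisfy `MassOk` -/
theorem MassOk_muR {Ad : TrG Λ κ → Finset Λ → Prop} {dec : κ → Finset Λ → ℝ}
    (h0 : ∀ k A, 0 ≤ dec k A)
    (h1 : ∀ k A A', Disjoint A A' → dec k A + dec k A' = dec k (A ∪ A')) (j₀ : Λ) {t : TrG Λ κ}
    (h : t.Ok) :
    t.All (MassOk Ad (muR dec j₀) fun t => muR dec j₀ t Finset.univ) := by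
  have base : ∀ t : TrG Λ κ, t.Ok →
      MassB Ad (muR dec j₀) (fun t => muR dec j₀ t Finset.univ) t := fun t ht =>
    ⟨fun A _ => muR_nonneg h0 j₀ ht A, fun A _ => muR_mono h0 h1 j₀ ht (Finset.subset_univ _),
      muR_nonneg h0 j₀ ht _, fun A A' hd _ _ => (muR_union h1 j₀ hd).le⟩
  induction t with
  | leaf r f => exact base _ h
  | br P w r t₁ t₀ v B G ih₁ ih₀ =>
    exact ⟨⟨base _ h, fun A _ => le_rfl, le_rfl⟩, ih₁ h.1, ih₀ h.2.1⟩
  | add r t₁ t₀ ih₁ ih₀ =>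
    exact ⟨⟨base _ h, fun A _ => le_rfl, le_rfl⟩, ih₁ h.1, ih₀ h.2⟩

/-- the factor of a node -/
noncomputable def cf (b pr : ℕ) : ℝ := b * (pr / (Nat.totient pr : ℝ))

lemma cf_nonneg (b pr : ℕ) : 0 ≤ cf b pr := by unfold cf; positivity

lemma cf_one : cf 1 1 = 1 := by simp [cf]

lemma cf_present' {p : ℕ} (hp : p.Prime) (c : ℝ) :
    (1 - 1 / (p : ℝ)) * (c / (1 - 1 / (p : ℝ))) = c := by
  have hp1 : (1 : ℝ) < p := by exact_mod_cast hp.one_lt
  have h : 1 / (p : ℝ) < 1 := by rw [div_lt_one (by linarith)]; exact hp1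
  exact mul_div_cancel₀ _ (by linarith)

lemma cf_missing' {p : ℕ} (hp : p.Prime) (c : ℝ) : 1 / (p : ℝ) * (c * p) = c := by
  have hp0 : (p : ℝ) ≠ 0 := by exact_mod_cast hp.ne_zero
  field_simp

/-- raw mass of a population at an item node: `c * ∑_{j ∈ A, it j ∈ items} W j`, `c` = the factor
`NS.c` of the node -/
noncomputable def Par.rw (D : Par Λ κ) (W : Λ → ℝ) (S : Finset ℕ) (A : Finset Λ) : ℝ :=
  ∑ j ∈ A.filter (fun j => D.it j ∈ S), W j

lemma Par.rw_union (D : Par Λ κ) (W : Λ → ℝ) {S S' : Finset ℕ} (h : Disjoint S S')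
    (A : Finset Λ) : D.rw W (S ∪ S') A = D.rw W S A + D.rw W S' A := by
  unfold Par.rw
  rw [← Finset.sum_union]
  · congr 1
    ext j
    simp only [Finset.mem_filter, Finset.mem_union]
    tauto
  · rw [Finset.disjoint_filter]
    intro j _ h1 h2
    exact Finset.disjoint_left.1 h h1 h2

/-- the leaf labels encode the raw masses (`c` = factor of the node) -/
def Par.DecOk (D : Par Λ κ) (W : Λ → ℝ) (dec : κ → Finset Λ → ℝ) (j₀ : Λ) :
    ℝ → ℕ → ℕ → IT → Prop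
  | c, b, pr, .leaf S => ∀ A, dec (D.rhoL b pr S j₀) A = c * D.rw W S A
  | c, b, pr, .br p _ t₁ t₀ => D.DecOk W dec j₀ (c / (1 - 1 / (p : ℝ))) b (pr * p) t₁ ∧
      D.DecOk W dec j₀ (c * p) (b * p) pr t₀
  | c, b, pr, .add _ t₁ t₀ => D.DecOk W dec j₀ c b pr t₁ ∧ D.DecOk W dec j₀ c b pr t₀
  | c, b, pr, .up _ _ t => D.DecOk W dec j₀ c b pr t
  | c, b, pr, .pl p t => D.DecOk W dec j₀ c b (pr * p) t
  | c, b, pr, .far _ t₁ t₀ => D.DecOk W dec j₀ c b pr t₁ ∧ D.DecOk W dec j₀ c b pr t₀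

/-- **raw mass of a node** -/
theorem Par.muR_toG (D : Par Λ κ) {W : Λ → ℝ} {dec : κ → Finset Λ → ℝ} {j₀ : Λ} (A : Finset Λ)
    (t : IT) : ∀ (c : ℝ) (b pr : ℕ), Fit b pr t → D.DecOk W dec j₀ c b pr t →
    muR dec j₀ (D.toG b pr t) A = c * D.rw W t.items A := by
  induction t with
  | leaf S => intro c b pr hF hD; exact hD A
  | br p Sp t₁ t₀ ih₁ ih₀ =>
    intro c b pr hF hD
    obtain ⟨hp, hpb, hd, h1, h0⟩ := hF
    show (1 - 1 / (p : ℝ)) * muR dec j₀ (D.toG b (pr * p) t₁) A +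
      1 / (p : ℝ) * muR dec j₀ (D.toG (b * p) pr t₀) A = c * D.rw W (t₁.items ∪ t₀.items) A
    rw [ih₁ _ _ _ h1 hD.1, ih₀ _ _ _ h0 hD.2, D.rw_union W hd, ← mul_assoc,
      cf_present' hp, ← mul_assoc, cf_missing' hp]
    ring
  | add b' t₁ t₀ ih₁ ih₀ =>
    intro c b pr hF hD
    obtain ⟨hd, h1, h0⟩ := hF
    show muR dec j₀ (D.toG b pr t₁) A + muR dec j₀ (D.toG b pr t₀) A =
      c * D.rw W (t₁.items ∪ t₀.items) A
    rw [ih₁ _ _ _ h1 hD.1, ih₀ _ _ _ h0 hD.2, D.rw_union W hd]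
    ring
  | up b' Sp t ih => intro c b pr hF hD; exact ih c b pr hF hD
  | pl p t ih =>
    intro c b pr hF hD
    obtain ⟨hp, hpb, h1⟩ := hF
    show (1 - (0 : ℝ)) * muR dec j₀ (D.toG b (pr * p) t) A + 0 * _ = c * D.rw W t.items A
    rw [ih _ _ _ h1 hD]
    ring
  | far b' t₁ t₀ ih₁ ih₀ =>
    intro c b pr hF hD
    obtain ⟨hd, h1, h0⟩ := hF
    show muR dec j₀ (D.toG b pr t₁) A + muR dec j₀ (D.toG b pr t₀) A =
      c * D.rw W (t₁.items ∪ t₀.items) A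
    rw [ih₁ _ _ _ h1 hD.1, ih₀ _ _ _ h0 hD.2, D.rw_union W hd]
    ring

end

/-! ### labels with leaf identities -/

section lab
variable {Λ κ₀ : Type*} [Fintype Λ] [DecidableEq Λ] [Fintype κ₀] [DecidableEq κ₀]

/-- data of the leaves of a tree -/
def leafs : ℕ → ℕ → IT → Finset (ℕ × ℕ × Finset ℕ)
  | b, pr, .leaf S => {(b, pr, S)}
  | b, pr, .br p Sp t₁ t₀ => leafs b (pr * p) t₁ ∪ leafs (b * p) pr t₀
  | b, pr, .add _ t₁ t₀ => leafs b pr t₁ ∪ leafs b pr t₀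
  | b, pr, .up _ _ t => leafs b pr t
  | b, pr, .pl p t => leafs b (pr * p) t
  | b, pr, .far _ t₁ t₀ => leafs b pr t₁ ∪ leafs b pr t₀

/-- the factor `c` of the leaf with item set `S` (`c` = factor of the root) -/
noncomputable def clf : IT → ℝ → Finset ℕ → ℝ
  | .leaf _, c, _ => c
  | .br p _ t₁ t₀, c, S => if S ⊆ t₀.items then clf t₀ (c * p) S
      else clf t₁ (c / (1 - 1 / (p : ℝ))) S
  | .add _ t₁ t₀, c, S => if S ⊆ t₀.items then clf t₀ c S else clf t₁ c S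
  | .up _ _ t, c, S => clf t c S
  | .pl _ t, c, S => clf t c S
  | .far _ t₁ t₀, c, S => if S ⊆ t₀.items then clf t₀ c S else clf t₁ c S

lemma one_sub_inv_nonneg (p : ℕ) : 0 ≤ 1 - 1 / (p : ℝ) := by
  rcases Nat.eq_zero_or_pos p with h | h
  · subst h; simp
  · have h1 : (1 : ℝ) ≤ p := by exact_mod_cast h
    have : 1 / (p : ℝ) ≤ 1 := by rw [div_le_one (by linarith)]; exact h1
    linarith

lemma clf_nonneg (t : IT) : ∀ {c : ℝ}, 0 ≤ c → ∀ S, 0 ≤ clf t c S := by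
  induction t with
  | leaf S => intro c hc S'; exact hc
  | br p Sp t₁ t₀ ih₁ ih₀ =>
    intro c hc S
    show 0 ≤ if S ⊆ t₀.items then _ else _
    split_ifs
    · exact ih₀ (mul_nonneg hc (Nat.cast_nonneg p)) S
    · exact ih₁ (div_nonneg hc (one_sub_inv_nonneg p)) S
  | add b' t₁ t₀ ih₁ ih₀ =>
    intro c hc S
    show 0 ≤ if S ⊆ t₀.items then _ else _
    split_ifs
    · exact ih₀ hc S
    · exact ih₁ hc S
  | up b' Sp t ih => intro c hc S; exact ih hc S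
  | pl p t ih => intro c hc S; exact ih hc S
  | far b' t₁ t₀ ih₁ ih₀ =>
    intro c hc S
    show 0 ≤ if S ⊆ t₀.items then _ else _
    split_ifs
    · exact ih₀ hc S
    · exact ih₁ hc S

/-- parameters with plain worlds -/
structure Par0 (Λ κ₀ : Type*) where
  γ : ℝ
  it : Λ → ℕ
  al : Λ → ℝ
  be : Λ → ℝ
  om : Λ → ℤ → ℝ
  rho : ℕ → Λ → κ₀
  rhoL : Λ → κ₀

/-- labels = worlds × leaf identity -/
abbrev Lb (κ₀ : Type*) (X : Finset (ℕ × ℕ × Finset ℕ)) : Type _ := κ₀ × Option {x // x ∈ X}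

noncomputable def Par0.par (D : Par0 Λ κ₀) (X : Finset (ℕ × ℕ × Finset ℕ)) : Par Λ (Lb κ₀ X) where
  γ := D.γ
  it := D.it
  al := D.al
  be := D.be
  om := D.om
  rho := fun p j => (D.rho p j, none)
  rhoL := fun b pr S j => (D.rhoL j, if h : (b, pr, S) ∈ X then some ⟨_, h⟩ else none)

/-- decoding; `cx S` = factor of the leaf with items `S`, take `cx := clf t 1` -/
noncomputable def Par0.dec (D : Par0 Λ κ₀) (W : Λ → ℝ) (cx : Finset ℕ → ℝ)
    (X : Finset (ℕ × ℕ × Finset ℕ)) : Lb κ₀ X → Finset Λ → ℝ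
  | (_, some x), A => cx x.1.2.2 * (D.par X).rw W x.1.2.2 A
  | (_, none), _ => 0

lemma Par0.dec_nonneg (D : Par0 Λ κ₀) {W : Λ → ℝ} (hW : ∀ j, 0 ≤ W j) {cx : Finset ℕ → ℝ}
    (hc : ∀ S, 0 ≤ cx S)
    (X : Finset (ℕ × ℕ × Finset ℕ)) (k : Lb κ₀ X) (A : Finset Λ) : 0 ≤ D.dec W cx X k A := by
  obtain ⟨k, o⟩ := k
  cases o with
  | none => exact le_rfl
  | some x => exact mul_nonneg (hc _) (Finset.sum_nonneg fun j _ => hW j)

lemma Par0.dec_union (D : Par0 Λ κ₀) (W : Λ → ℝ) (cx : Finset ℕ → ℝ)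
    (X : Finset (ℕ × ℕ × Finset ℕ)) (k : Lb κ₀ X)
    (A A' : Finset Λ) (hd : Disjoint A A') :
    D.dec W cx X k A + D.dec W cx X k A' = D.dec W cx X k (A ∪ A') := by
  obtain ⟨k, o⟩ := k
  cases o with
  | none => show (0 : ℝ) + 0 = 0; ring
  | some x =>
    show cx _ * (∑ j ∈ _, W j) + cx _ * (∑ j ∈ _, W j) = cx _ * (∑ j ∈ _, W j)
    rw [← mul_add, Finset.filter_union, Finset.sum_union]
    exact Finset.disjoint_filter_filter hd

lemma Par0.decOk (D : Par0 Λ κ₀) (W : Λ → ℝ) (cx : Finset ℕ → ℝ)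
    (X : Finset (ℕ × ℕ × Finset ℕ)) (j₀ : Λ) (t : IT) :
    ∀ (c : ℝ) (b pr : ℕ), Fit b pr t → leafs b pr t ⊆ X →
      (∀ S, S ⊆ t.items → S.Nonempty → cx S = clf t c S) →
      (D.par X).DecOk W (D.dec W cx X) j₀ c b pr t := by
  have two : ∀ {t₁ t₀ : IT} {F : Finset ℕ → ℝ} {G H : Finset ℕ → ℝ},
      Disjoint t₁.items t₀.items → (∀ S, F S = if S ⊆ t₀.items then H S else G S) →
      (∀ S, S ⊆ t₁.items ∪ t₀.items → S.Nonempty → cx S = F S) →
      (∀ S, S ⊆ t₁.items → S.Nonempty → cx S = G S) ∧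
      (∀ S, S ⊆ t₀.items → S.Nonempty → cx S = H S) := by
    intro t₁ t₀ F G H hd hF h
    refine ⟨fun S hS hn => ?_, fun S hS hn => ?_⟩
    · rw [h S (hS.trans Finset.subset_union_left) hn, hF, if_neg]
      intro h0
      obtain ⟨q, hq⟩ := hn
      exact Finset.disjoint_left.1 hd (hS hq) (h0 hq)
    · rw [h S (hS.trans Finset.subset_union_right) hn, hF, if_pos hS]
  induction t with
  | leaf S =>
    intro c b pr hF h hc A
    have hX : (b, pr, S) ∈ X := h (Finset.mem_singleton_self _)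
    show D.dec W cx X (D.rhoL j₀, if h : (b, pr, S) ∈ X then some ⟨_, h⟩ else none) A = _
    rw [dif_pos hX]
    show cx S * (D.par X).rw W S A = c * (D.par X).rw W S A
    rcases S.eq_empty_or_nonempty with h0 | h0
    · subst h0
      have e : (D.par X).rw W ∅ A = 0 := by
        unfold Par.rw
        exact Finset.sum_eq_zero fun j hj => absurd (Finset.mem_filter.1 hj).2 (by simp)
      rw [e]; ring
    · rw [hc S (Finset.Subset.refl S) h0]; rfl
  | br p Sp t₁ t₀ ih₁ ih₀ =>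
    intro c b pr hF h hc
    obtain ⟨hp, hpb, hd, h1, h0⟩ := hF
    obtain ⟨c1, c0⟩ := two hd (fun S => rfl) hc
    exact ⟨ih₁ _ _ _ h1 (Finset.union_subset_left h) c1,
      ih₀ _ _ _ h0 (Finset.union_subset_right h) c0⟩
  | add b' t₁ t₀ ih₁ ih₀ =>
    intro c b pr hF h hc
    obtain ⟨hd, h1, h0⟩ := hF
    obtain ⟨c1, c0⟩ := two hd (fun S => rfl) hc
    exact ⟨ih₁ _ _ _ h1 (Finset.union_subset_left h) c1,
      ih₀ _ _ _ h0 (Finset.union_subset_right h) c0⟩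
  | up b' Sp t ih => intro c b pr hF h hc; exact ih c b pr hF h hc
  | pl p t ih => intro c b pr hF h hc; exact ih c b (pr * p) hF.2.2 h hc
  | far b' t₁ t₀ ih₁ ih₀ =>
    intro c b pr hF h hc
    obtain ⟨hd, h1, h0⟩ := hF
    obtain ⟨c1, c0⟩ := two hd (fun S => rfl) hc
    exact ⟨ih₁ _ _ _ h1 (Finset.union_subset_left h) c1,
      ih₀ _ _ _ h0 (Finset.union_subset_right h) c0⟩

lemma Par0.rho_eq (D : Par0 Λ κ₀) (X : Finset (ℕ × ℕ × Finset ℕ)) (p : ℕ) (j j' : Λ) :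
    (D.par X).rho p j = (D.par X).rho p j' ↔ D.rho p j = D.rho p j' := by
  show ((D.rho p j, none) : Lb κ₀ X) = (D.rho p j', none) ↔ _
  simp

lemma Par0.rhoL_eq (D : Par0 Λ κ₀) (X : Finset (ℕ × ℕ × Finset ℕ)) (b pr : ℕ) (S : Finset ℕ)
    (j j' : Λ) :
    (D.par X).rhoL b pr S j = (D.par X).rhoL b pr S j' ↔ D.rhoL j = D.rhoL j' := by
  show ((D.rhoL j, _) : Lb κ₀ X) = (D.rhoL j', _) ↔ _
  simp

end lab

/-! ### credits -/

open Crest.Agent.R4.Fin532 (TopCredit mean_ok)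

/-- weights with a good prime: `κ = u * h`, `h` mod `l` loses at most `√l` classes -/
def TopW' (w : ℕ) (κ : ℤ → ℝ) : Prop :=
  ∃ l : ℕ, l.Prime ∧ l ∣ w ∧ Nat.Coprime (w / l) l ∧ ∃ u h : ℤ → ℝ,
    Wt (w / l) u ∧ Wt l h ∧ (∀ a, h a ≤ 1) ∧
    (l : ℝ) - Real.sqrt l ≤ ∑ a ∈ Finset.range l, h (a : ℤ) ∧ ∀ a, κ a = u a * h a

/-- `TopW'`, or the weights are periodic modulo `w / l` for a prime `l ∣ w` (the case of a prime
with `l² ∣ w` and weights which only depend on the numerator modulo `rad w`) -/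
def TopW (w : ℕ) (κ : ℤ → ℝ) : Prop :=
  TopW' w κ ∨ ∃ l : ℕ, l.Prime ∧ l ∣ w ∧ Wt (w / l) κ

/-- sums of periodic weights over arithmetic progressions -/
lemma sum_ap {l m : ℕ} (hl : 0 < l) (hc : Nat.Coprime m l) {h : ℤ → ℝ} (hh : Wt l h) (A : ℤ) :
    ∑ j ∈ Finset.range l, h (A + m * j) = ∑ a ∈ Finset.range l, h (a : ℤ) := by
  have hl' : NeZero l := ⟨hl.ne'⟩
  have key : ∀ f : ℤ → ℝ, Wt l f → ∑ a ∈ Finset.range l, f (a : ℤ) = ∑ z : ZMod l, f (z.val : ℤ) := by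
    intro f hf
    refine Finset.sum_bij (fun a _ => (a : ZMod l)) (fun _ _ => Finset.mem_univ _) ?_ ?_ ?_
    · intro a ha b hb hab
      rw [Finset.mem_range] at ha hb
      have := (ZMod.natCast_eq_natCast_iff' a b l).1 hab
      rwa [Nat.mod_eq_of_lt ha, Nat.mod_eq_of_lt hb] at this
    · intro z _
      exact ⟨z.val, Finset.mem_range.2 (ZMod.val_lt z), ZMod.natCast_zmod_val z⟩
    · intro a ha
      rw [ZMod.val_natCast, Nat.mod_eq_of_lt (Finset.mem_range.1 ha)]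
  have hW : Wt l fun a => h (A + m * a) := ⟨fun a => hh.nonneg _, fun a => by
    have e : A + m * (a + l) = (A + m * a) + l * m := by ring
    rw [e, hh.add_mul]⟩
  rw [key _ hW, key _ hh]
  have hu : IsUnit (m : ZMod l) := (ZMod.isUnit_iff_coprime m l).2 hc
  refine Finset.sum_nbij' (fun z => (A : ZMod l) + (m : ZMod l) * z)
    (fun z => (hu.unit⁻¹ : (ZMod l)ˣ) * (z - (A : ZMod l))) (fun _ _ => Finset.mem_univ _)
    (fun _ _ => Finset.mem_univ _) ?_ ?_ ?_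
  · intro z _
    show (hu.unit⁻¹ : (ZMod l)ˣ) * ((A : ZMod l) + (m : ZMod l) * z - (A : ZMod l)) = z
    rw [add_sub_cancel_left, ← mul_assoc]
    have : ((hu.unit⁻¹ : (ZMod l)ˣ) : ZMod l) * (m : ZMod l) = 1 := by
      have := Units.inv_mul hu.unit
      rwa [IsUnit.unit_spec] at this
    rw [this, one_mul]
  · intro z _
    show (A : ZMod l) + (m : ZMod l) * ((hu.unit⁻¹ : (ZMod l)ˣ) * (z - (A : ZMod l))) = z
    rw [← mul_assoc]
    have : (m : ZMod l) * ((hu.unit⁻¹ : (ZMod l)ˣ) : ZMod l) = 1 := by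
      have := Units.mul_inv hu.unit
      rwa [IsUnit.unit_spec] at this
    rw [this, one_mul]; ring
  · intro z _
    refine hh.congr ?_
    rw [← ZMod.intCast_eq_intCast_iff]
    push_cast
    rw [ZMod.natCast_zmod_val, ZMod.natCast_zmod_val]

/-- a piece with weights of period `w / l` is `1/l`-periodic -/
lemma pc_per {w l : ℕ} (hl : l.Prime) (hlw : l ∣ w) {κ : ℤ → ℝ} (hκ : Wt (w / l) κ)
    (θ α β x : ℝ) : pc θ α β w κ (x + 1 / (l : ℝ)) = pc θ α β w κ x := by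
  have hlR : (l : ℝ) ≠ 0 := by exact_mod_cast hl.ne_zero
  obtain ⟨m, hm⟩ := hlw
  have hml : w / l = m := by rw [hm]; exact Nat.mul_div_cancel_left m hl.pos
  rw [hml] at hκ
  unfold pc
  have e : (w : ℝ) * (x + 1 / (l : ℝ)) = w * x + (m : ℤ) := by
    rw [hm]; push_cast; field_simp
  have e1 : ⌊(w : ℝ) * (x + 1 / (l : ℝ)) - θ - β⌋ = ⌊(w : ℝ) * x - θ - β⌋ + m := by
    rw [e, show (w : ℝ) * x + (m : ℤ) - θ - β = ((w : ℝ) * x - θ - β) + (m : ℤ) by ring,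
      Int.floor_add_intCast]
  have e2 : ⌊(w : ℝ) * (x + 1 / (l : ℝ)) - θ - α⌋ = ⌊(w : ℝ) * x - θ - α⌋ + m := by
    rw [e, show (w : ℝ) * x + (m : ℤ) - θ - α = ((w : ℝ) * x - θ - α) + (m : ℤ) by ring,
      Int.floor_add_intCast]
  rw [e1, e2]
  symm
  refine Finset.sum_bij (fun a _ => a + m) ?_ ?_ ?_ ?_
  · intro a ha; rw [Finset.mem_Ioc] at ha ⊢; omega
  · intro a _ b _ hab; linarith
  · intro b hb
    refine ⟨b - m, ?_, by ring⟩
    rw [Finset.mem_Ioc] at hb ⊢; omega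
  · intro a _; exact (hκ.per a).symm

/-- a `1/l`-periodic function is a credit (`l ∣ q`) -/
lemma topCredit_per {q l : ℕ} (hl : l.Prime) (hlq : l ∣ q) {u : ℝ → ℝ} (hu : PB u)
    (hup : ∀ x, u (x + 1 / (l : ℝ)) = u x) : TopCredit q u := by
  have hs : 0 < Real.sqrt l := Real.sqrt_pos.2 (by exact_mod_cast hl.pos)
  have h := Crest.Agent.R4.Fin532.TopCredit.const (q := q) hl hlq hu hup (a := 1)
    (by have : (0 : ℝ) ≤ 1 / Real.sqrt l := by positivity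
        linarith) zero_le_one le_rfl
  have e : (fun x => 1 * u x) = u := by funext x; ring
  rwa [e] at h

/-- **a leaf piece is a credit** -/
theorem topCredit_pc {q w : ℕ} (hw : 0 < w) (hwq : w ∣ q) {θ α β : ℝ} (hβ : β - α ≤ 1)
    {κ : ℤ → ℝ} (hκ : TopW w κ) : TopCredit q (pc θ α β w κ) := by
  rcases hκ with hκ | ⟨l, hl, hlw, hκ⟩
  swap
  · have hκw : Wt w κ := hκ.dvd (Nat.div_dvd_of_dvd hlw)
    exact topCredit_per hl (hlw.trans hwq) (PB_pc hw hκw) fun x => pc_per hl hlw hκ _ _ _ _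
  obtain ⟨l, hl, hlw, hc, u, h, hu, hh, h1, hsum, hk⟩ := hκ
  have hlR : (l : ℝ) ≠ 0 := by exact_mod_cast hl.ne_zero
  obtain ⟨m, hm⟩ := hlw
  have hml : w / l = m := by rw [hm]; exact Nat.mul_div_cancel_left m hl.pos
  rw [hml] at hc hu
  have hlz : (w : ℤ) = l * m := by rw [hm]; push_cast; ring
  have huw : Wt w u := hu.dvd ⟨l, by rw [hm]; ring⟩
  have hhw : Wt w h := hh.dvd ⟨m, hm⟩
  refine ⟨l, hl, (Dvd.intro m hm.symm).trans hwq, pc θ α β w u,
    fun x => h ⌊(w : ℝ) * x - θ - α⌋, PB_pc hw huw, fun x => ?_, ?_, fun x => h1 _, fun x _ => ?_,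
    fun x => ?_⟩
  · -- periodicity
    unfold pc
    have e : (w : ℝ) * (x + 1 / (l : ℝ)) = w * x + (m : ℤ) := by
      rw [hm]; push_cast; field_simp
    have e1 : ⌊(w : ℝ) * (x + 1 / (l : ℝ)) - θ - β⌋ = ⌊(w : ℝ) * x - θ - β⌋ + m := by
      rw [e, show (w : ℝ) * x + (m : ℤ) - θ - β = ((w : ℝ) * x - θ - β) + (m : ℤ) by ring,
        Int.floor_add_intCast]
    have e2 : ⌊(w : ℝ) * (x + 1 / (l : ℝ)) - θ - α⌋ = ⌊(w : ℝ) * x - θ - α⌋ + m := by
      rw [e, show (w : ℝ) * x + (m : ℤ) - θ - α = ((w : ℝ) * x - θ - α) + (m : ℤ) by ring,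
        Int.floor_add_intCast]
    rw [e1, e2]
    symm
    refine Finset.sum_bij (fun a _ => a + m) ?_ ?_ ?_ ?_
    · intro a ha; rw [Finset.mem_Ioc] at ha ⊢; omega
    · intro a _ b _ hab; linarith
    · intro b hb
      refine ⟨b - m, ?_, by ring⟩
      rw [Finset.mem_Ioc] at hb ⊢; omega
    · intro a _; exact (hu.per a).symm
  · -- `h` is PB
    refine ⟨?_, fun x => hh.nonneg _, ⟨1, fun x => h1 _⟩, fun x => ?_⟩
    · have h2 : Measurable fun x : ℝ => ⌊(w : ℝ) * x - θ - α⌋ := by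
        refine Int.measurable_floor.comp ?_
        exact ((measurable_id.const_mul _).sub_const _).sub_const _
      exact (measurable_of_countable h).comp h2
    · show h ⌊(w : ℝ) * (x + 1) - θ - α⌋ = _
      have e : (w : ℝ) * (x + 1) - θ - α = ((w : ℝ) * x - θ - α) + ((w : ℕ) : ℤ) := by
        push_cast; ring
      rw [e, Int.floor_add_intCast]
      exact hhw.per _
  · -- the fibre sum
    refine hsum.trans (le_of_eq ?_)
    rw [← sum_ap hl.pos hc hh ⌊(w : ℝ) * x - θ - α⌋]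
    refine Finset.sum_congr rfl fun j _ => ?_
    congr 1
    have e : (w : ℝ) * (x + j / (l : ℝ)) - θ - α = ((w : ℝ) * x - θ - α) + ((m * j : ℤ) : ℤ) := by
      rw [hm]; push_cast; field_simp; ring
    rw [e, Int.floor_add_intCast]
  · -- the product
    unfold pc
    rw [Finset.sum_mul]
    refine Finset.sum_congr rfl fun a ha => ?_
    rw [hk]
    congr 2
    have h2 := mem_pw.1 ha
    have h3 : ⌊(w : ℝ) * x - θ - α⌋ = a := by
      rw [Int.floor_eq_iff]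
      constructor
      · linarith [h2.1]
      · linarith [h2.2]
    rw [h3]

lemma TopW.scale {w : ℕ} {κ : ℤ → ℝ} (h : TopW w κ) {c : ℕ} (hc : Nat.Coprime c w) :
    TopW w fun a => κ (c * a) := by
  rcases h with h | ⟨l, hl, hlw, hk⟩
  swap
  · exact Or.inr ⟨l, hl, hlw, Wt_scale hk _⟩
  obtain ⟨l, hl, hlw, hco, u, h, hu, hh, h1, hsum, hk⟩ := h
  refine Or.inl ⟨l, hl, hlw, hco, fun a => u (c * a), fun a => h (c * a), Wt_scale hu _, Wt_scale hh _,
    fun a => h1 _, ?_, fun a => hk _⟩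
  refine hsum.trans (le_of_eq ?_)
  rw [← sum_ap hl.pos (hc.coprime_dvd_right hlw) hh 0]
  refine Finset.sum_congr rfl fun j _ => ?_
  rw [zero_add]

section
variable {Λ κ : Type*} [Fintype Λ] [DecidableEq κ]

/-- **credits at every node without present ties above** (un-raised values) -/
theorem Par.topCredit (D : Par Λ κ) (hlen : ∀ j, D.be j - D.al j ≤ 1) (t : IT) : ∀ b : ℕ, 0 < b →
    Fit b 1 t → D.Wts 1 t → (∀ j, D.it j ∈ t.items → pp t (D.it j) = 1 → TopW (D.it j) (D.om j)) →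
    ∀ j, D.it j ∈ t.items → TopCredit (D.it j) ((D.toFT b 1 t).U b j) := by
  induction t with
  | leaf S =>
    intro b hb hF hW hT j hj
    obtain ⟨a1, a2, a3⟩ := hF _ hj
    have hbR : (b : ℝ) ≠ 0 := by exact_mod_cast hb.ne'
    have e : (D.toFT b 1 (.leaf S)).U b j = pc (1 * D.γ) (1 * D.al j) (1 * D.be j) (D.it j)
        (fun a => D.om j (b * a)) := by
      funext x
      show D.L b 1 S b j x = _
      unfold Par.L
      rw [if_pos (show D.it j ∈ S from hj), Nat.div_one, div_self hbR]; rfl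
    rw [e]
    rw [Nat.div_one] at a3
    refine topCredit_pc a1 dvd_rfl ?_ ((hT j hj rfl).scale a3.symm)
    rw [one_mul, one_mul]; exact hlen j
  | br p Sp t₁ t₀ ih₁ ih₀ =>
    intro b hb hF hW hT j hj
    have hA : (D.toFT b 1 (.br p Sp t₁ t₀)).Adm b := D.toFT_Adm _ b 1 hb hF hW
    have hdat := FT.dat hb hA
    obtain ⟨hp, hpb, hd, h1, h0⟩ := hF
    have hbp : 0 < b * p := Nat.mul_pos hb hp.pos
    have hpR : (p : ℝ) ≠ 0 := by exact_mod_cast hp.ne_zero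
    by_cases hj0 : D.it j ∈ t₀.items
    · have hj1 : D.it j ∉ t₁.items := Finset.disjoint_right.1 hd hj0
      have eU : (D.toFT b 1 (.br p Sp t₁ t₀)).U b j = (D.toFT (b * p) 1 t₀).U (b * p) j := by
        funext x
        show mult p _ _ _ _ _ j (b * x) * (D.toFT b (1 * p) t₁).U b j (p * x) +
          (D.toFT (b * p) 1 t₀).U (b * p) j x = _
        rw [D.U_zero t₁ _ _ _ j hj1, mul_zero, zero_add]
      rw [eU]
      refine ih₀ (b * p) hbp h0 hW.br₀ (fun j hj0' hpp => hT j (Finset.mem_union_right _ hj0') ?_)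
        j hj0
      have e : pp (.br p Sp t₁ t₀) (D.it j) = pp t₀ (D.it j) := if_pos hj0'
      rw [e]; exact hpp
    · have hj1 : D.it j ∈ t₁.items := (Finset.mem_union.1 hj).resolve_right hj0
      set M := mult p (fun j => (D.toFT b (1 * p) t₁).U 1 j)
        (fun j => (D.toFT (b * p) 1 t₀).U p j) (fun j => (D.toFT (b * p) 1 t₀).U 1 j)
        (fun _ => D.rho p) (0 + 1) j with hM
      have hMpb : Crest.Agent.R4.Tour104.PB M := PB_mult hdat j
      have hUpb : Crest.Agent.R4.Tour104.PB ((D.toFT b (1 * p) t₁).U b j) := FT.pb hb hA.2.2.2.1 dvd_rfl j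
      have eU : (D.toFT b 1 (.br p Sp t₁ t₀)).U b j = fun x =>
          (D.toFT b (1 * p) t₁).U b j (p * x) * M (b * x) := by
        funext x
        show M (b * x) * (D.toFT b (1 * p) t₁).U b j (p * x) +
          (D.toFT (b * p) 1 t₀).U (b * p) j x = _
        rw [D.U_zero t₀ _ _ _ j hj0, add_zero, mul_comm]
      rw [eU]
      have hpq : p ∣ D.it j := by
        have := (h1.item _ hj1).2.1
        rwa [one_mul] at this
      refine TopCredit.mk_mult (N := b) hp hpq hpb.symm (hUpb.pull p) (fun x => ?_) hMpb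
        (fun x => mult_le_one hdat j x) (fun x _ => ?_)
      · show (D.toFT b (1 * p) t₁).U b j (p * (x + 1 / (p : ℝ))) = _
        rw [mul_add, mul_one_div_cancel hpR, hUpb.per]
      · rw [Ep_mult hdat]; exact mean_ok hp
  | add b' t₁ t₀ ih₁ ih₀ =>
    intro b hb hF hW hT j hj
    obtain ⟨hd, h1, h0⟩ := hF
    by_cases hj0 : D.it j ∈ t₀.items
    · have hj1 : D.it j ∉ t₁.items := Finset.disjoint_right.1 hd hj0
      have eU : (D.toFT b 1 (.add b' t₁ t₀)).U b j = (D.toFT b 1 t₀).U b j := by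
        funext x
        show (D.toFT b 1 t₁).U b j x + (D.toFT b 1 t₀).U b j x = _
        rw [D.U_zero t₁ _ _ _ j hj1, zero_add]
      rw [eU]
      refine ih₀ b hb h0 hW.add₀ (fun j hj0' hpp => hT j (Finset.mem_union_right _ hj0') ?_) j hj0
      have e : pp (.add b' t₁ t₀) (D.it j) = pp t₀ (D.it j) := if_pos hj0'
      rw [e]; exact hpp
    · have hj1 : D.it j ∈ t₁.items := (Finset.mem_union.1 hj).resolve_right hj0
      have eU : (D.toFT b 1 (.add b' t₁ t₀)).U b j = (D.toFT b 1 t₁).U b j := by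
        funext x
        show (D.toFT b 1 t₁).U b j x + (D.toFT b 1 t₀).U b j x = _
        rw [D.U_zero t₀ _ _ _ j hj0, add_zero]
      rw [eU]
      refine ih₁ b hb h1 (hW.add₁ hd) (fun j hj1' hpp => hT j (Finset.mem_union_left _ hj1') ?_)
        j hj1
      have hj0' : D.it j ∉ t₀.items := Finset.disjoint_left.1 hd hj1'
      have e : pp (.add b' t₁ t₀) (D.it j) = pp t₁ (D.it j) := if_neg hj0'
      rw [e]; exact hpp
  | up b' Sp t ih => intro b hb hF hW hT j hj; exact ih b hb hF hW hT j hj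
  | pl p t ih =>
    intro b hb hF hW hT j hj
    obtain ⟨hp, hpb, h1⟩ := hF
    have hpR : (p : ℝ) ≠ 0 := by exact_mod_cast hp.ne_zero
    have hA : (D.toFT b (1 * p) t).Adm b := D.toFT_Adm _ b (1 * p) hb h1 hW.pl
    have hUpb : Crest.Agent.R4.Tour104.PB ((D.toFT b (1 * p) t).U b j) := FT.pb hb hA dvd_rfl j
    have hpq : p ∣ D.it j := by
      have := (h1.item _ hj).2.1
      rwa [one_mul] at this
    refine topCredit_per hp hpq (hUpb.pull p) fun x => ?_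
    show (D.toFT b (1 * p) t).U b j (p * (x + 1 / (p : ℝ))) = (D.toFT b (1 * p) t).U b j (p * x)
    rw [mul_add, mul_one_div_cancel hpR, hUpb.per]
  | far b' t₁ t₀ ih₁ ih₀ =>
    intro b hb hF hW hT j hj
    obtain ⟨hd, h1, h0⟩ := hF
    by_cases hj0 : D.it j ∈ t₀.items
    · have hj1 : D.it j ∉ t₁.items := Finset.disjoint_right.1 hd hj0
      have eU : (D.toFT b 1 (.far b' t₁ t₀)).U b j = (D.toFT b 1 t₀).U b j := by
        funext x
        show (D.toFT b 1 t₁).U b j x + (D.toFT b 1 t₀).U b j x = _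
        rw [D.U_zero t₁ _ _ _ j hj1, zero_add]
      rw [eU]
      refine ih₀ b hb h0 hW.far₀ (fun j hj0' hpp => hT j (Finset.mem_union_right _ hj0') ?_) j hj0
      have e : pp (.far b' t₁ t₀) (D.it j) = pp t₀ (D.it j) := if_pos hj0'
      rw [e]; exact hpp
    · have hj1 : D.it j ∈ t₁.items := (Finset.mem_union.1 hj).resolve_right hj0
      have eU : (D.toFT b 1 (.far b' t₁ t₀)).U b j = (D.toFT b 1 t₁).U b j := by
        funext x
        show (D.toFT b 1 t₁).U b j x + (D.toFT b 1 t₀).U b j x = _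
        rw [D.U_zero t₀ _ _ _ j hj0, add_zero]
      rw [eU]
      refine ih₁ b hb h1 (hW.far₁ hd) (fun j hj1' hpp => hT j (Finset.mem_union_left _ hj1') ?_)
        j hj1
      have hj0' : D.it j ∉ t₀.items := Finset.disjoint_left.1 hd hj1'
      have e : pp (.far b' t₁ t₀) (D.it j) = pp t₁ (D.it j) := if_neg hj0'
      rw [e]; exact hpp

end

/-! ### the root -/

section root
open Crest.Agent.R4.Soft104 (Arc)
variable {Λ κ : Type*} [Fintype Λ] [DecidableEq Λ] [Fintype κ] [DecidableEq κ]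

lemma mem_Arc_of {γ r x : ℝ} {q : ℕ} {a : ℤ} (h : |(q : ℝ) * x - γ - a| < r) : x ∈ Arc γ r q :=
  lt_of_le_of_lt (round_le _ a) h

/-- **the root of the closure tree**: everything `MAIN_of_tree'` needs except the energy -/
theorem Par.root (D : Par Λ κ) {t : IT} (hF : Fit 1 1 t) (hW : D.Wts 1 t)
    (hab : ∀ j, D.al j ≤ D.be j) (hlen : ∀ j, D.be j - D.al j ≤ 1)
    (hit : ∀ j, D.it j ∈ t.items)
    (hT : ∀ j, pp t (D.it j) = 1 → TopW (D.it j) (D.om j)) {ψ : ℕ → ℝ}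
    (hψ : ∀ j, -ψ (D.it j) < D.al j ∧ D.be j ≤ ψ (D.it j)) :
    (D.toG 1 1 t).Ok ∧
    (∀ j, D.it j ∈ t.items ∧ TopCredit (D.it j) ((D.toG 1 1 t).val j) ∧
      ∀ x, (D.toG 1 1 t).val j x ≠ 0 → x ∈ Arc D.γ (ψ (D.it j)) (D.it j)) ∧
    (D.toG 1 1 t).mass = ∑ j, (D.be j - D.al j) * prf t (D.it j) *
      mnw (D.it j / pp t (D.it j)) (D.om j) := by
  have hv := D.toG_val one_pos hF hW
  refine ⟨D.toG_Ok one_pos hF hW, fun j => ⟨hit j, ?_, fun x hx => ?_⟩, ?_⟩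
  · rw [hv]
    exact D.topCredit hlen t 1 one_pos hF hW (fun j _ h => hT j h) j (hit j)
  · rw [hv] at hx
    obtain ⟨-, a, -, h1, h2⟩ := D.supp one_pos hF hW (one_dvd 1) hx
    rw [Nat.div_one, Nat.cast_one, div_one, one_mul, one_mul] at h1 h2
    refine mem_Arc_of (a := a) ?_
    rw [abs_lt]
    exact ⟨by linarith [(hψ j).1], by linarith [(hψ j).2]⟩
  · unfold TrG.mass
    rw [hv]
    refine Finset.sum_congr rfl fun j _ => ?_
    rw [D.I_U hab t 1 1 1 one_pos hF hW (one_dvd 1) j (hit j)]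
    rw [Nat.cast_one, div_one, one_mul, one_mul]

end root

/-! ### column errors as item-pair sums -/

section col
variable {Λ κ : Type*} [Fintype Λ] [DecidableEq Λ] [Fintype κ] [DecidableEq κ]

lemma rk_mono {A : Finset Λ} {r : Λ → κ} {G G' : κ → ℝ → ℝ} (h : ∀ c x, G c x ≤ G' c x) (c : κ)
    (x : ℝ) : rk A r G c x ≤ rk A r G' c x := by
  classical
  unfold rk
  split_ifs
  · exact h c x
  · exact le_rfl

lemma PB_rk {A : Finset Λ} {r : Λ → κ} {G : κ → ℝ → ℝ} (h : ∀ c, PB (G c)) (c : κ) :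
    PB (rk A r G c) := by
  classical
  unfold rk
  split_ifs
  · exact h c
  · exact PB.const le_rfl

lemma Q_mono_fun {μ : Type*} {R : Finset (μ × μ)} {f f' g g' : μ → ℝ → ℝ} (hf : ∀ j, PB (f j))
    (hf' : ∀ j, PB (f' j)) (hg : ∀ j, PB (g j)) (hg' : ∀ j, PB (g' j))
    (h : ∀ j x, f j x ≤ g j x) (h' : ∀ j x, f' j x ≤ g' j x) : Q R f f' ≤ Q R g g' := by
  unfold Q
  refine Finset.sum_le_sum fun e _ => ?_
  exact I_mono ((hf e.1).mul (hf' e.2)).integrableOn ((hg e.1).mul (hg' e.2)).integrableOn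
    fun x => mul_le_mul (h _ x) (h' _ x) ((hf' _).nonneg x) ((hg _).nonneg x)

/-- **near misses of two columns** as a sum over pairs of finest worlds -/
theorem Q_offd_le [WRel κ] {A A' : Finset Λ} {r : Λ → κ} (hA : Sat A r) (hA' : Sat A' r) {M M' : ℕ}
    (hM : 0 < M) (hM' : 0 < M') {G G' : κ → ℝ → ℝ} {g g' : Λ → ℝ → ℝ} (pG : ∀ c, PB (G c))
    (pG' : ∀ c, PB (G' c)) (pg : ∀ j, PB (g j)) (pg' : ∀ j, PB (g' j))
    (h : ∀ c x, G c x ≤ sm r g c x) (h' : ∀ c x, G' c x ≤ sm r g' c x) :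
    Q (orel κ) (avg M (rk A r G)) (avg M' (rk A' r G')) ≤
      Q (Ro r) (avg M (rv A g)) (avg M' (rv A' g')) := by
  have pr1 := PB_avg hM (PB_rv pg A)
  have pr2 := PB_avg hM' (PB_rv pg' A')
  rw [← Q_orel_sm r pr1 pr2]
  refine Q_mono_fun (PB_avg hM (PB_rk pG)) (PB_avg hM' (PB_rk pG')) (PB_sm pr1 r) (PB_sm pr2 r)
    (fun c x => ?_) (fun c x => ?_)
  · rw [sm_avg, sm_rv hA]
    exact Ep_mono (fun z => rk_mono h c z) x
  · rw [sm_avg, sm_rv hA']
    exact Ep_mono (fun z => rk_mono h' c z) x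

/-- one-sided errors -/
theorem os_le_Q [WRel κ] {A : Finset Λ} {r : Λ → κ} (hA : Sat A r) {M P : ℕ} (hM : 0 < M) (hP : 0 < P)
    {G : κ → ℝ → ℝ} {g F : Λ → ℝ → ℝ} (pG : ∀ c, PB (G c)) (pg : ∀ j, PB (g j))
    (pF : ∀ j, PB (F j)) (h : ∀ c x, G c x ≤ sm r g c x) :
    os (orel κ) P (avg M (rk A r G)) (sm r F) ≤ Q (Ro r) (avg M (rv A g)) F := by
  have pr1 := PB_avg hM (PB_rv pg A)
  refine (os_le hP (PB_avg hM (PB_rk pG)) (PB_sm pF r)).trans ?_
  rw [← Q_orel_sm r pr1 pF]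
  refine Q_mono_fun (PB_avg hM (PB_rk pG)) (PB_sm pF r) (PB_sm pr1 r) (PB_sm pF r)
    (fun c x => ?_) (fun c x => le_rfl)
  rw [sm_avg, sm_rv hA]
  exact Ep_mono (fun z => rk_mono h c z) x

/-- the near-miss part `G` of a `br` node of a closure tree is at most the un-raised missing part -/
theorem FT.DW_le_sm {p n : ℕ} {ch : ℕ → Λ → κ} {t₁ t₀ : FT Λ κ} {b : ℕ} (hb : 0 < b)
    (h : (FT.br p n ch t₁ t₀).Adm b) (a : κ) (x : ℝ) :
    DW p (fun j => t₁.U 1 j) (fun j => t₀.U p j) (fun j => t₀.U 1 j) ch (n + 1)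
      (clz (ch n) a) x ≤ sm (ch n) (fun j => t₀.U p j) a x :=
  DW_le (FT.dat hb h) _ x

end col

end Crest.Agent.R4P.Item758
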