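import Crest.Agent.R4P.WalkS560
import Crest.Agent.R4P.ItemDT758
import Crest.Agent.R4P.Item758b
import Crest.Agent.R4.Flag532

/-!
R4 (S0004), helper532: **the flag lemma** (S1a of #13289): in a product walk every item pays for its
first criticality at most once, and the walk with memory.

* `nxtM`, `W_mem` : a walk with a memory (any state dependent update).
* `W_flag` : the cost of the first criticalities is at most the item mass.
* `W_flag_split` : total cost ≤ item mass + cost of the repeated criticalities.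
* `NF_item`, `item_super` : single item masses are supermartingales of `Walk560.nxt`.
* `WS_flag` : the flag lemma for `Walk560.WS`, weights `c j`.
-/

set_option autoImplicit false
set_option linter.unusedSectionVars false

namespace Crest.Agent.R4P.Flag532

open Crest.Agent.R4P.Walk560

export Crest.Agent.R4.Flag532 (nxtM nxtM_rank sum_nxtM W_mem sum_map_finset updF W_flag W_flag_split)

/-! ### items of `Walk560` -/

section st
open Crest.Agent.R4.ClosG758 Crest.Agent.R4.ClosR758 Crest.Agent.R4P.Item758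
variable {Λ κ : Type*} [Fintype Λ] [DecidableEq Λ] [DecidableEq κ] [Fintype κ] [WRel κ]
  {wr : ℕ → Λ → κ} {Ad : TrG Λ κ → Finset Λ → Prop} {n : ℕ}

/-- raw mass of the single item piece `j` in the population `A` -/
noncomputable def itm (dec : κ → Finset Λ → ℝ) (j₀ j : Λ) (t : DT Λ κ) (A : Finset Λ) : ℝ :=
  muR dec j₀ t.g (A ∩ {j})

theorem NF_item {dec : κ → Finset Λ → ℝ} (h0 : ∀ k A, 0 ≤ dec k A)
    (h1 : ∀ k A A', Disjoint A A' → dec k A + dec k A' = dec k (A ∪ A')) (j₀ j : Λ)
    {μ : TrG Λ κ → Finset Λ → ℝ} {ν : TrG Λ κ → ℝ} :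
    NF wr Ad μ ν (itm dec j₀ j) where
  nn h := muR_nonneg h0 j₀ h.ok _
  br h := le_rfl
  add h := le_rfl
  up := by
    intro n p t Sp u A h hv hp hp0
    have e := vw_up_g hv
    have e2 : ∀ X, itm dec j₀ j u X = itm dec j₀ j t X := fun X => by unfold itm; rw [e]
    refine ⟨(e2 A).le, ?_⟩
    rw [e2, e2]
    unfold itm
    rw [muR_union h1 j₀]
    · refine le_of_eq ?_
      congr 1
      ext x
      simp only [Finset.mem_union, Finset.mem_inter, Finset.mem_sdiff, Finset.mem_singleton]
      tauto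
    · rw [Finset.disjoint_left]
      intro x hx hx'
      simp only [Finset.mem_inter, Finset.mem_sdiff, Finset.mem_singleton] at hx hx'
      exact hx'.1.2 hx.1.2

/-- the sum of the item masses is the raw mass of the population -/
lemma sum_itm {dec : κ → Finset Λ → ℝ}
    (h1 : ∀ k A A', Disjoint A A' → dec k A + dec k A' = dec k (A ∪ A')) (j₀ : Λ) (t : DT Λ κ)
    (A : Finset Λ) : ∑ j, itm dec j₀ j t A = muR dec j₀ t.g A := by
  have hz : muR dec j₀ t.g ∅ = 0 := by
    have := muR_union h1 j₀ (t := t.g) (A := ∅) (A' := ∅) (Finset.disjoint_empty_left _)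
    rw [Finset.union_empty] at this
    linarith
  have key : ∀ X : Finset Λ, ∑ j ∈ X, muR dec j₀ t.g (A ∩ {j}) = muR dec j₀ t.g (A ∩ X) := by
    intro X
    induction X using Finset.induction_on with
    | empty => simp [hz]
    | insert a X ha ih =>
      rw [Finset.sum_insert ha, ih, muR_union h1 j₀]
      · congr 1
        ext x
        simp only [Finset.mem_union, Finset.mem_inter, Finset.mem_insert, Finset.mem_singleton]
        tauto
      · rw [Finset.disjoint_left]
        intro x hx hx'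
        simp only [Finset.mem_inter, Finset.mem_singleton] at hx hx'
        exact ha (hx.2 ▸ hx'.2)
  have := key Finset.univ
  rw [Finset.inter_univ] at this
  exact this

/-- item masses (left side) are supermartingales -/
theorem item_super {dec : κ → Finset Λ → ℝ} (h0 : ∀ k A, 0 ≤ dec k A)
    (h1 : ∀ k A A', Disjoint A A' → dec k A + dec k A' = dec k (A ∪ A')) (j₀ j : Λ)
    {μ : TrG Λ κ → Finset Λ → ℝ} {ν : TrG Λ κ → ℝ} {stp : Stp Λ κ} (s : St Λ κ)
    (h : Inv wr Ad μ ν n s) :
    ((nxt stp s).map fun q => q.1 * itm dec j₀ j q.2.t q.2.A).sum ≤ itm dec j₀ j s.t s.A := by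
  have h2 := sup_rpow (stp := stp) (NF_item h0 h1 j₀ j) (NF_item h0 h1 j₀ j)
    (α := 1) (β := 0) zero_le_one le_rfl le_rfl zero_le_one (by norm_num) s h
  simpa only [Real.rpow_one, Real.rpow_zero, mul_one] using h2

/-- item masses (right side) are supermartingales -/
theorem item_super' {dec : κ → Finset Λ → ℝ} (h0 : ∀ k A, 0 ≤ dec k A)
    (h1 : ∀ k A A', Disjoint A A' → dec k A + dec k A' = dec k (A ∪ A')) (j₀ j : Λ)
    {μ : TrG Λ κ → Finset Λ → ℝ} {ν : TrG Λ κ → ℝ} {stp : Stp Λ κ} (s : St Λ κ)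
    (h : Inv wr Ad μ ν n s) :
    ((nxt stp s).map fun q => q.1 * itm dec j₀ j q.2.t' q.2.A').sum ≤ itm dec j₀ j s.t' s.A' := by
  have h2 := sup_rpow (stp := stp) (NF_item h0 h1 j₀ j) (NF_item h0 h1 j₀ j)
    (α := 0) (β := 1) le_rfl zero_le_one zero_le_one le_rfl (by norm_num) s h
  simpa only [Real.rpow_one, Real.rpow_zero, one_mul] using h2

/-- **FLAG LEMMA for `Walk560`** (left side): `cr s` = items of the left side which are critical at
the state `s`; the total cost is at most the raw mass of the population plus the repeated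
criticalities. -/
theorem WS_flag {dec : κ → Finset Λ → ℝ} (h0 : ∀ k A, 0 ≤ dec k A)
    (h1 : ∀ k A A', Disjoint A A' → dec k A + dec k A' = dec k (A ∪ A')) (j₀ : Λ)
    {μ : TrG Λ κ → Finset Λ → ℝ} {ν : TrG Λ κ → ℝ} {stp : Stp Λ κ}
    (cr : St Λ κ → Finset Λ) (s : St Λ κ) (h : InvE wr Ad μ ν s) :
    WS stp (fun s => ∑ j ∈ cr s, itm dec j₀ j s.t s.A) s ≤ muR dec j₀ s.t.g s.A +
      W (nxtM (nxt stp) (updF cr)) (fun x => St.rank x.1)
        (fun x => ∑ j ∈ cr x.1 ∩ x.2, itm dec j₀ j x.1.t x.1.A) (s, ∅) := by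
  have := W_flag_split (next := nxt stp) (rank := St.rank) (fun s => nxt_rank stp s)
    (Inv := InvE wr Ad μ ν) (fun s hs => hs.next) cr (fun s j => itm dec j₀ j s.t s.A)
    (fun s hs j => by obtain ⟨n, hs⟩ := hs; exact item_super h0 h1 j₀ j s hs) s h
  rw [sum_itm h1] at this
  exact this

/-- right side version -/
theorem WS_flag' {dec : κ → Finset Λ → ℝ} (h0 : ∀ k A, 0 ≤ dec k A)
    (h1 : ∀ k A A', Disjoint A A' → dec k A + dec k A' = dec k (A ∪ A')) (j₀ : Λ)
    {μ : TrG Λ κ → Finset Λ → ℝ} {ν : TrG Λ κ → ℝ} {stp : Stp Λ κ}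
    (cr : St Λ κ → Finset Λ) (s : St Λ κ) (h : InvE wr Ad μ ν s) :
    WS stp (fun s => ∑ j ∈ cr s, itm dec j₀ j s.t' s.A') s ≤ muR dec j₀ s.t'.g s.A' +
      W (nxtM (nxt stp) (updF cr)) (fun x => St.rank x.1)
        (fun x => ∑ j ∈ cr x.1 ∩ x.2, itm dec j₀ j x.1.t' x.1.A') (s, ∅) := by
  have := W_flag_split (next := nxt stp) (rank := St.rank) (fun s => nxt_rank stp s)
    (Inv := InvE wr Ad μ ν) (fun s hs => hs.next) cr (fun s j => itm dec j₀ j s.t' s.A')
    (fun s hs j => by obtain ⟨n, hs⟩ := hs; exact item_super' h0 h1 j₀ j s hs) s h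
  rw [sum_itm h1] at this
  exact this

end st

end Crest.Agent.R4P.Flag532
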