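import Crest.Agent.R4P.Walk560
import Crest.Agent.R4P.ClosP542

/-!
R4 (S0004), POWERS (port of `R4/WalkB560`, helper560), module L (WALK), part 2.

* `selfR_walk`, `closure_walk` : the closure theorem with walk sums as errors.  The strategy must
  process the `add` nodes of a self state jointly (`hjt`).  Nothing is required at the free pulls
  (`ClosP542.PulG`).
-/

set_option autoImplicit false
set_option linter.unusedSectionVars false
set_option linter.unusedVariables false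
set_option linter.unusedSimpArgs false
open MeasureTheory Filter Set

namespace Crest.Agent.R4P.Walk560

open Crest.Agent.R4.Tour104 Crest.Agent.R4.Tour758 Crest.Agent.R4.Avg758 Crest.Agent.R4.Clos758
open Crest.Agent.R4.ClosL758 Crest.Agent.R4.ClosG758 Crest.Agent.R4.ClosR758
open Crest.Agent.R4P.ClosR442 Crest.Agent.R4P.ClosP542

variable {Λ κ : Type*} [Fintype Λ] [DecidableEq Λ] [DecidableEq κ] [WRel κ]

/-- the self state of a node -/
noncomputable def selfSt (d : DT Λ κ) (A : Finset Λ) : St Λ κ :=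
  ⟨1, 1, ∅, ∅, Ro d.g.part, d, A, d, A⟩

lemma Avgs_one (n : ℕ) : Avgs n 1 ∅ :=
  ⟨one_pos, fun p _ _ => Nat.coprime_one_right p, fun p hp => by simp at hp⟩

section
variable [Fintype κ] {wr : ℕ → Λ → κ} {Ad : TrG Λ κ → Finset Λ → Prop}
  {μ : TrG Λ κ → Finset Λ → ℝ} {ν : TrG Λ κ → ℝ} {n : ℕ}

lemma Inv_self {d : DT Λ κ} {A : Finset Λ} (h : Side wr Ad μ ν n d A) :
    Inv wr Ad μ ν n (selfSt d A) := ⟨h, h, Avgs_one n, Avgs_one n⟩

lemma Qs_sdiff_self (s : St Λ κ) (R : Finset (Λ × Λ)) : Qs { s with R := R \ R } = 0 := by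
  unfold Qs Q; simp

set_option maxHeartbeats 1000000 in
/-- **the self certificate of a node** -/
theorem selfR_walk {stp : Stp Λ κ} {B : ℝ} (hB : 0 ≤ B)
    (hstp : ∀ s : St Λ κ, s.O = ∅ → s.O' = ∅ → ¬ stp s)
    (hjt : ∀ (d : DT Λ κ) (A : Finset Λ), stp.jt (selfSt d A)) (d : DT Λ κ) :
    ∀ (n : ℕ) (A : Finset Λ), Side wr Ad μ ν n d A → ¬ PulG d.g →
      SelfF Ad μ ν B d.g A (WS stp (eAll stp μ ν B) (selfSt d A)) := by
  induction d with
  | leaf r f =>
    intro n A h hpul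
    show (0 : ℝ) ≤ _
    rw [WS_eq0]
    have hl : (selfSt (DT.leaf r f : DT Λ κ) A).t.isLeaf ∨
      (selfSt (DT.leaf r f : DT Λ κ) A).t'.isLeaf := Or.inl trivial
    have e0 : eAll stp μ ν B (selfSt (DT.leaf r f : DT Λ κ) A) = 0 := by
      simp [eAll, eNM, eOS, eSHR, eX, eSTOP, hl]
    have e1 : nxt0 stp (selfSt (DT.leaf r f : DT Λ κ) A) = [] := by simp [nxt0, hl]
    rw [e0, e1]; simp
  | br p w r t₁ t₀ v B₁ G ih₁ ih₀ =>
    intro n A h hpul
    set s := selfSt (DT.br p w r t₁ t₀ v B₁ G : DT Λ κ) A with hs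
    have hl : ¬ (s.t.isLeaf ∨ s.t'.isLeaf) := by simp [hs, selfSt, DT.isLeaf]
    have hst : ¬ stp s := hstp s rfl rfl
    have hj : stp.jt s := hjt _ _
    have hp : s.p = p := by simp [hs, St.p, selfSt, DT.top]
    have hv : vw s.p s.t = .br w r t₁ t₀ v B₁ G := by rw [hp]; simp [hs, selfSt, vw]
    have hv' : vw s.p s.t' = .br w r t₁ t₀ v B₁ G := by rw [hp]; simp [hs, selfSt, vw]
    have hpp : p.Prime := h.col.1
    have hw : w ≠ 0 := fun hw => hpul ⟨hw, (h.wf.1.pul hw).2⟩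
    have hd : ¬ p ∣ 1 := fun hd => hpp.one_lt.ne' (Nat.dvd_one.1 hd)
    have hPL : ¬ s.isPL := by
      unfold St.isPL
      simp only [hv, hv']
      rw [hp]
      exact hd
    have hPR : ¬ s.isPR := by
      unfold St.isPR
      simp only [hv, hv']
      rw [hp]
      exact hd
    have e1 : nxt0 stp s = [((1 - w) * (1 - w), { s with R := Ro r, t := t₁, t' := t₁ }),
        ((1 - w) * w, { s with R := Ro r, t := t₁, t' := t₀ }),
        (w * (1 - w), { s with R := Ro r, t := t₀, t' := t₁ }),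
        (w * w, { s with R := Ro r, t := t₀, t' := t₀ })] := by
      simp [nxt0, hl, hst, hPL, hPR, hv, hv', hj]
    have e0 : eAll stp μ ν B s = Q (orel κ) (avg s.M (rk s.A r G)) (avg s.M' (rk s.A' r G)) +
        Qs { s with R := s.R \ Ro r } := by
      simp [eAll, eNM, eOS, eSHR, eX, eSTOP, hl, hst, hPL, hPR, hv, hv', hj]
    have hI := Inv_self h
    have hc : ∀ q ∈ nxt0 stp s, PWRf Ad μ ν B q.2.M q.2.M' q.2.R q.2.t.g q.2.A q.2.t'.g q.2.A'
        (WS stp (eAll stp μ ν B) q.2) := fun q hq =>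
      walk_cert hB (q.2.rank + 1) s.p q.2 (Nat.lt_succ_self _) (hI.next0 q hq).1
    rw [WS_eq0, e0, e1]
    rw [e1] at hc
    have hR : s.R = Ro r := rfl
    rw [hR, Qs_sdiff_self]
    refine ⟨_, _, _, _, hc _ (List.mem_cons_self),
      hc _ (List.mem_cons_of_mem _ (List.mem_cons_self)),
      hc _ (List.mem_cons_of_mem _ (List.mem_cons_of_mem _ (List.mem_cons_self))),
      hc _ (List.mem_cons_of_mem _ (List.mem_cons_of_mem _
          (List.mem_cons_of_mem _ (List.mem_cons_self)))), ?_⟩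
    have hM : s.M = 1 := rfl
    have hM' : s.M' = 1 := rfl
    have hA : s.A = A := rfl
    have hA' : s.A' = A := rfl
    simp only [List.map_cons, List.map_nil, List.sum_cons, List.sum_nil]
    rw [hM, hM', hA, hA']
    have ea : avg 1 (rk A r G) = rk A r G := avg_one _
    rw [ea]
    linarith
  | add b r t₁ t₀ ih₁ ih₀ =>
    intro n A h hpul
    set s := selfSt (DT.add b r t₁ t₀ : DT Λ κ) A with hs
    have hl : ¬ (s.t.isLeaf ∨ s.t'.isLeaf) := by simp [hs, selfSt, DT.isLeaf]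
    have hst : ¬ stp s := hstp s rfl rfl
    have hj : stp.jt s := hjt _ _
    have hp : s.p = b := by simp [hs, St.p, selfSt, DT.top]
    have hv : vw s.p s.t = .add r t₁ t₀ := by rw [hp]; simp [hs, selfSt, vw]
    have hv' : vw s.p s.t' = .add r t₁ t₀ := by rw [hp]; simp [hs, selfSt, vw]
    have hPL : ¬ s.isPL := by unfold St.isPL; simp only [hv, hv']; exact fun h => h
    have hPR : ¬ s.isPR := by unfold St.isPR; simp only [hv, hv']; exact fun h => h
    have e1 : nxt0 stp s = [(1, { s with t := t₁, t' := t₁ }), (1, { s with t := t₀, t' := t₀ })] := by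
      simp [nxt0, hl, hst, hPL, hPR, hv, hv', hj]
    have e0 : eAll stp μ ν B s =
        Xs μ B { s with t := t₁, t' := t₀ } + Xs μ B { s with t := t₀, t' := t₁ } := by
      simp [eAll, eNM, eOS, eSHR, eX, eSTOP, hl, hst, hPL, hPR, hv, hv', hj]
    have hI := Inv_self h
    have hc : ∀ q ∈ nxt0 stp s, PWRf Ad μ ν B q.2.M q.2.M' q.2.R q.2.t.g q.2.A q.2.t'.g q.2.A'
        (WS stp (eAll stp μ ν B) q.2) := fun q hq =>
      walk_cert hB (q.2.rank + 1) s.p q.2 (Nat.lt_succ_self _) (hI.next0 q hq).1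
    rw [WS_eq0, e0, e1]
    rw [e1] at hc
    have hX := Qs_le_Xs μ B { s with t := t₁, t' := t₀ }
    have hY := Qs_le_Xs μ B { s with t := t₀, t' := t₁ }
    have hQ : ∀ (f f' : Λ → ℝ → ℝ), Q s.R (avg s.M (rv s.A f)) (avg s.M' (rv s.A' f')) =
        Q (Ro r) (rv A f) (rv A f') := by
      intro f f'
      show Q (Ro r) (avg 1 (rv A f)) (avg 1 (rv A f')) = _
      rw [avg_one, avg_one]
    unfold Qs at hX hY
    simp only at hX hY
    rw [hQ] at hX hY
    refine ⟨_, _, _, _, hc _ (List.mem_cons_self),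
      hc _ (List.mem_cons_of_mem _ (List.mem_cons_self)), hX, hY, ?_⟩
    simp only [List.map_cons, List.map_nil, List.sum_cons, List.sum_nil]
    linarith
  | up b Sp u ih =>
    intro n A h hpul
    set s := selfSt (DT.up b Sp u : DT Λ κ) A with hs
    have hl : ¬ (s.t.isLeaf ∨ s.t'.isLeaf) := by simp [hs, selfSt, DT.isLeaf]
    have hst : ¬ stp s := hstp s rfl rfl
    have hj : stp.jt s := hjt _ _
    have hp : s.p = b := by simp [hs, St.p, selfSt, DT.top]
    have hv : vw s.p s.t = .up Sp u := by rw [hp]; simp [hs, selfSt, vw]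
    have hv' : vw s.p s.t' = .up Sp u := by rw [hp]; simp [hs, selfSt, vw]
    have hPL : ¬ s.isPL := by unfold St.isPL; simp only [hv, hv']; exact fun h => h
    have hPR : ¬ s.isPR := by unfold St.isPR; simp only [hv, hv']; exact fun h => h
    have e1 : nxt0 stp s = [(1, { s with t := u, t' := u })] := by
      simp [nxt0, hl, hst, hPL, hPR, hv, hv', hj]
    have e0 : eAll stp μ ν B s = 0 := by
      simp [eAll, eNM, eOS, eSHR, eX, eSTOP, hl, hst, hPL, hPR, hv, hv', hj]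
    have e2 : ({ s with t := u, t' := u } : St Λ κ) = selfSt u A := rfl
    have := ih b A ⟨h.ok, h.ad, h.col.2.2.mono (Nat.le_succ b), h.wf.2⟩ hpul
    rw [WS_eq0, e0, e1, e2]
    simp only [List.map_cons, List.map_nil, List.sum_cons, List.sum_nil, zero_add, one_mul,
      add_zero]
    exact this

lemma all_sub {F : DT Λ κ → Prop} {d : DT Λ κ} (h : d.g.Ok) (hc : d.Col n) (hF : d.All F) :
    d.All fun r => r.g.Ok ∧ (∃ m, r.Col m) ∧ r.All F := by
  induction d generalizing n with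
  | leaf r f => exact ⟨h, ⟨n, hc⟩, hF⟩
  | br p w r t₁ t₀ v B₁ G ih₁ ih₀ =>
    exact ⟨⟨h, ⟨n, hc⟩, hF⟩, ih₁ h.1 hc.2.2.1 hF.2.1, ih₀ h.2.1 hc.2.2.2.1 hF.2.2⟩
  | add b r t₁ t₀ ih₁ ih₀ =>
    exact ⟨⟨h, ⟨n, hc⟩, hF⟩, ih₁ h.1 hc.2.2.1 hF.2.1, ih₀ h.2 hc.2.2.2 hF.2.2⟩
  | up b Sp u ih => exact ⟨⟨h, ⟨n, hc⟩, hF⟩, ih h hc.2.2 hF.2⟩

/-- **closure theorem with walk sums** -/
theorem closure_walk {δ : TrG Λ κ → Finset Λ → ℝ} {C C₀ η B : ℝ} (hC : 0 ≤ C) (hC₀ : 0 ≤ C₀)
    (hη : 0 ≤ η) (hB : 0 ≤ B) {stp : Stp Λ κ}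
    (hstp : ∀ s : St Λ κ, s.O = ∅ → s.O' = ∅ → ¬ stp s)
    (hjt : ∀ (d : DT Λ κ) (A : Finset Λ), stp.jt (selfSt d A)) (d : DT Λ κ) (h : d.g.Ok)
    (hcol : d.Col n) (hwf : d.All (NodeOk wr Ad μ ν)) (hd : d.g.All (SlackR Ad δ))
    (hl : d.g.All (LeafSMR Ad μ ν C)) (hl0 : d.g.All (LeafIn Ad μ C₀))
    (herr : d.All fun r => ¬ PulG r.g →
      Below (SMR Ad μ ν δ (16 * (C + C₀ + η + B + 1))) r.g →
      ∀ A, Ad r.g A → A.Nonempty →
      dseR A r.g + rseR A r.g + WS stp (eAll stp μ ν B) (selfSt r A) ≤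
        η * (μ r.g A + μ r.g A * ν r.g) + δ r.g A)
    (hU : Ad d.g Finset.univ) :
    I (fun x => d.g.tot x ^ 2) ≤ (16 * (C + C₀ + η + B + 1)) *
      (μ d.g Finset.univ + μ d.g Finset.univ * ν d.g + δ d.g Finset.univ) := by
  have hN : d.g.All (AdN Ad) := (hwf.mono fun r hr => hr.adN).g
  have hM : d.g.All (MassOk Ad μ ν) := (hwf.mono fun r hr => hr.mass).g
  have key : d.g.All fun r => ¬ PulG r → Below (SMR Ad μ ν δ (16 * (C + C₀ + η + B + 1))) r →
      ∀ A, Ad r A → A.Nonempty →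
      ∃ e, SelfF Ad μ ν B r A e ∧
        dseR A r + rseR A r + e ≤ η * (μ r A + μ r A * ν r) + δ r A := by
    refine DT.All.g (t := d) ?_
    refine ((all_sub h hcol hwf).and herr).mono ?_
    rintro r ⟨⟨hr, ⟨m, hm⟩, hw⟩, he⟩ hpul hb A hA hne
    exact ⟨_, selfR_walk hB hstp hjt r m A ⟨hr, hA, hm.mono (Nat.le_succ m), hw⟩ hpul, he hpul hb A hA hne⟩
  exact closureP_root hC hC₀ hη hB d.g h hN hM hd hl hl0 key hU

end

end Crest.Agent.R4P.Walk560
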