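import Crest.Agent.R4P.FrameL758
import Crest.Agent.R4P.ItemDT758
import Crest.Agent.R4P.WalkB560

/-!
R4 (S0004), POWERS (port of `R4/Frame758`, helper758): **THE FRAME THEOREM** (energy side).
-/

set_option autoImplicit false
set_option linter.unusedSectionVars false
set_option linter.unusedVariables false
open MeasureTheory Filter

namespace Crest.Agent.R4P.Frame758

open Crest.Agent.R4.Tour104 Crest.Agent.R4.Tour758 Crest.Agent.R4.Avg758 Crest.Agent.R4.Clos758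
open Crest.Agent.R4.ClosL758 Crest.Agent.R4.ClosG758 Crest.Agent.R4.ClosR758
open Crest.Agent.R4.Fam464 Crest.Agent.R4P.Cnt588 Crest.Agent.R4P.Walk560 Crest.Agent.R4P.Item758
open Crest.Agent.R4.Item758 (IL AdS AdI AdI_univ)
open Crest.Agent.R4P.ClosP542 (PulG)

/-! ### two helpers -/

section
variable {Λ κ : Type*} [Fintype Λ] [DecidableEq Λ] [Fintype κ] [DecidableEq κ]

/-- the walk sum of a leaf pair -/
lemma WS_leaf [WRel κ] {stp : Stp Λ κ} {μ : TrG Λ κ → Finset Λ → ℝ} {ν : TrG Λ κ → ℝ} {B : ℝ}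
    (r : Λ → κ) (f : Λ → ℝ → ℝ) (A : Finset Λ) :
    WS stp (eAll stp μ ν B) (selfSt (.leaf r f) A) = 0 := by
  have h1 : (selfSt (.leaf r f : DT Λ κ) A).t.isLeaf ∨
      (selfSt (.leaf r f : DT Λ κ) A).t'.isLeaf := Or.inl trivial
  have e0 : eAll stp μ ν B (selfSt (.leaf r f : DT Λ κ) A) = 0 := by
    simp [eAll, eNM, eOS, eSHR, eX, eSTOP, h1]
  have e1 : nxt stp (selfSt (.leaf r f : DT Λ κ) A) = [] := by simp [nxt, nxt0, h1]
  rw [WS_eq, e0, e1]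
  simp

/-- **node-wise transfer for decorated trees**, with a second property of the closure tree which is
only used at the zero leaves of the pulls -/
lemma toDT_All2 (D : Item758.Par Λ κ) (sp : ℕ → Finset Λ) {Qp : Bld532.NS → IT → Prop}
    {F : DT Λ κ → Prop} {F' : TrG Λ κ → Prop} (hQ : ∀ s t, Qp s t → F (D.toDT sp s.B s.A t))
    (hz : ∀ r : Λ → κ, F' (.leaf r fun _ _ => 0) → F (.leaf r fun _ _ => 0)) (t : IT) :
    ∀ (s : Bld532.NS), Bld532.All Qp s t → (D.toG s.B s.A t).All F' →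
      (D.toDT sp s.B s.A t).All F := by
  induction t with
  | leaf S => intro s h _; exact hQ _ _ h
  | br p Sp t₁ t₀ ih₁ ih₀ =>
    intro s h h'
    exact ⟨hQ _ _ h.1, ih₁ ⟨p, _, s.A * p, s.B⟩ h.2.1 h'.2.1, ih₀ ⟨p, _, s.A, s.B * p⟩ h.2.2 h'.2.2⟩
  | add b t₁ t₀ ih₁ ih₀ =>
    intro s h h'
    exact ⟨hQ _ _ h.1, ih₁ ⟨b + 1, _, s.A, s.B⟩ h.2.1 h'.2.1,
      ih₀ ⟨b + 1, _, s.A, s.B⟩ h.2.2 h'.2.2⟩
  | up b Sp t ih => intro s h h'; exact ⟨hQ _ _ h.1, ih ⟨b, _, s.A, s.B⟩ h.2 h'⟩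
  | pl b t ih =>
    intro s h h'
    exact ⟨hQ _ _ h.1, ih ⟨b + 1, _, s.A * b, s.B⟩ h.2 h'.2.1, hz _ h'.2.2⟩
  | far b t₁ t₀ ih₁ ih₀ =>
    intro s h h'
    exact ⟨hQ _ _ h.1, ih₁ ⟨b + 1, _, s.A, s.B⟩ h.2.1 h'.2.1,
      ih₀ ⟨b + 1, _, s.A, s.B⟩ h.2.2 h'.2.2⟩

end

section
variable {Λ κ : Type*} [Fintype Λ] [DecidableEq Λ] [Fintype κ] [DecidableEq κ]

/-- **energy of the root** -/
theorem energy [WRel κ] (D : Item758.Par Λ κ) {sp : ℕ → Finset Λ} (hsp : D.SpOk sp)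
    (hil : ∀ b, IL D.it (sp b))
    {dec : κ → Finset Λ → ℝ} (h0 : ∀ k A, 0 ≤ dec k A)
    (h1 : ∀ k A A', Disjoint A A' → dec k A + dec k A' = dec k (A ∪ A')) (j₀ : Λ)
    {W : Λ → ℝ} {t : IT} {n b pr : ℕ} {c : ℝ} (hb : 0 < b) (hO : t.Ok n) (hF : Fit b pr t)
    (hW : D.Wts pr t) (hD : D.DecOk W dec j₀ c b pr t)
    {δ : TrG Λ κ → Finset Λ → ℝ} {C C₀ η B : ℝ} (hC0 : 0 ≤ C) (hC₀ : 0 ≤ C₀) (hη : 0 ≤ η)
    (hB : 0 ≤ B) {stp : Stp Λ κ} (hstp : ∀ s : St Λ κ, s.O = ∅ → s.O' = ∅ → ¬ stp s)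
    (hjt : ∀ (d : DT Λ κ) (A : Finset Λ), stp.jt (selfSt d A))
    (hd : (D.toG b pr t).All (SlackR (AdI D.it) δ))
    (hl : (D.toG b pr t).All
      (LeafSMR (AdI D.it) (muR dec j₀) (fun t => muR dec j₀ t Finset.univ) C))
    (hl0 : (D.toG b pr t).All (Crest.Agent.R4.ClosR758.LeafIn (AdI D.it) (muR dec j₀) C₀))
    (herr : (D.toDT sp b pr t).All fun r => ¬ PulG r.g →
      Below (SMR (AdI D.it) (muR dec j₀) (fun t => muR dec j₀ t Finset.univ) δ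
        (16 * (C + C₀ + η + B + 1))) r.g →
      ∀ A, AdI D.it r.g A → A.Nonempty →
      dseR A r.g + rseR A r.g +
        WS stp (eAll stp (muR dec j₀) (fun t => muR dec j₀ t Finset.univ) B) (selfSt r A) ≤
        η * (muR dec j₀ r.g A + muR dec j₀ r.g A * muR dec j₀ r.g Finset.univ) + δ r.g A) :
    I (fun x => (∑ j, (D.toFT b pr t).U 1 j x) ^ 2) ≤
      (16 * (C + C₀ + η + B + 1)) *
        (c * D.rw W t.items Finset.univ + (c * D.rw W t.items Finset.univ) ^ 2 +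
          δ (D.toG b pr t) Finset.univ) := by
  have hg := D.toDT_g sp t b pr
  have hok := D.toG_Ok hb hF hW
  have key := closure_walk (n := n) (δ := δ) (wr := D.rho) (Ad := AdI D.it) (μ := muR dec j₀)
    (ν := fun t => muR dec j₀ t Finset.univ) hC0 hC₀ hη hB hstp hjt (D.toDT sp b pr t)
    (by rw [hg]; exact hok) (D.toDT_Col sp t n b pr hO)
    (D.toDT_NodeOkI hsp hil h0 h1 j₀ t n b pr hb hO hF hW) (by rw [hg]; exact hd)
    (by rw [hg]; exact hl) (by rw [hg]; exact hl0) herr (by rw [hg]; exact AdI_univ _ _)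
  rw [hg] at key
  have hmu := D.muR_toG (W := W) (dec := dec) (j₀ := j₀) Finset.univ t c b pr hF hD
  rw [hmu] at key
  have hval : (D.toG b pr t).tot = fun x => ∑ j, (D.toFT b pr t).U 1 j x := by
    funext x
    show ∑ j, (D.toG b pr t).val j x = _
    rw [D.toG_val hb hF hW]
  rw [hval] at key
  refine key.trans (le_of_eq ?_)
  ring

end

section
variable {Λ κ₀ : Type*} [Fintype Λ] [DecidableEq Λ] [Fintype κ₀] [DecidableEq κ₀]
  {X : Finset (ℕ × ℕ × Finset ℕ)} [Fintype (Lb κ₀ X)] [DecidableEq (Lb κ₀ X)]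

/-- the retained primes are visible in the plain worlds -/
structure SpOk0 (D : Par0 Λ κ₀) (sp : ℕ → Finset Λ) : Prop where
  lev : ∀ b p, p < b → Sat (sp b) (D.rho p)
  leaf : ∀ b, Sat (sp b) D.rhoL
  il : ∀ b, IL D.it (sp b)

lemma SpOk0.spOk {D : Par0 Λ κ₀} {sp : ℕ → Finset Λ} (h : SpOk0 D sp)
    (X : Finset (ℕ × ℕ × Finset ℕ)) : (D.par X).SpOk sp :=
  ⟨fun b p hp j j' e => h.lev b p hp j j' ((D.rho_eq X p j j').1 e),
    fun b c pr S j j' e => h.leaf b j j' ((D.rhoL_eq X c pr S j j').1 e)⟩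

/-- the decorated tree of a node -/
noncomputable def tD (D : Par0 Λ κ₀) (X : Finset (ℕ × ℕ × Finset ℕ)) [Fintype (Lb κ₀ X)]
    [DecidableEq (Lb κ₀ X)] (sp : ℕ → Finset Λ) (b pr : ℕ) (t : IT) : DT Λ (Lb κ₀ X) :=
  (D.par X).toDT sp b pr t

lemma tD_g (D : Par0 Λ κ₀) (sp : ℕ → Finset Λ) (b pr : ℕ) (t : IT) :
    (tD D X sp b pr t).g = tG D X b pr t := (D.par X).toDT_g sp t b pr

/-! ### nodes -/

/-- **the error of a node** (`b`, `pr` = missing / present ties above): in-class column errors, the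
pairs of different classes which are not related (same cell, other retained primes) plus
the walk errors, every saturated population.  `Kb` = bootstrap constant: the second moments of all
saturated populations of the nodes strictly below may be used.  Nothing is required at pulls
(`pl`, and `up` above a `pl`). -/
def NodeE [WRel κ₀] (D : Par0 Λ κ₀) (X : Finset (ℕ × ℕ × Finset ℕ)) [Fintype (Lb κ₀ X)]
    [DecidableEq (Lb κ₀ X)] (sp : ℕ → Finset Λ) (W : Λ → ℝ) (cx : Finset ℕ → ℝ) (j₀ : Λ)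
    (stp : Stp Λ (Lb κ₀ X)) (δ : TrG Λ (Lb κ₀ X) → Finset Λ → ℝ) (B η Kb : ℝ)
    (b pr : ℕ) (t : IT) : Prop :=
  ¬ PulG (tG D X b pr t) →
  Below (SMR (AdI D.it) (tM D W cx j₀ X) (tN D W cx j₀ X) δ Kb) (tG D X b pr t) →
    ∀ A, AdI D.it (tG D X b pr t) A → A.Nonempty →
      dseR A (tG D X b pr t) + rseR A (tG D X b pr t) +
        WS stp (eAll stp (tM D W cx j₀ X) (tN D W cx j₀ X) B) (selfSt (tD D X sp b pr t) A) ≤
      η * (tM D W cx j₀ X (tG D X b pr t) A +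
        tM D W cx j₀ X (tG D X b pr t) A * tN D W cx j₀ X (tG D X b pr t)) + δ (tG D X b pr t) A

/-- nothing is required at a pull -/
lemma NodeE_pl [WRel κ₀] {D : Par0 Λ κ₀} {sp : ℕ → Finset Λ} {W : Λ → ℝ} {cx : Finset ℕ → ℝ}
    {j₀ : Λ} {stp : Stp Λ (Lb κ₀ X)} {δ : TrG Λ (Lb κ₀ X) → Finset Λ → ℝ} {B η Kb : ℝ}
    {b pr p : ℕ} {t : IT} : NodeE D X sp W cx j₀ stp δ B η Kb b pr (.pl p t) :=
  fun h => absurd ⟨rfl, rfl⟩ h

/-- an `up` node is its child -/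
lemma NodeE_up_pl [WRel κ₀] {D : Par0 Λ κ₀} {sp : ℕ → Finset Λ} {W : Λ → ℝ} {cx : Finset ℕ → ℝ}
    {j₀ : Λ} {stp : Stp Λ (Lb κ₀ X)} {δ : TrG Λ (Lb κ₀ X) → Finset Λ → ℝ} {B η Kb : ℝ}
    {b pr p b' : ℕ} {Sp : Finset ℕ} {t : IT} :
    NodeE D X sp W cx j₀ stp δ B η Kb b pr (.up b' Sp (.pl p t)) :=
  fun h => absurd ⟨rfl, rfl⟩ h

/-- **ENERGY of the root, plain parameters.** The remaining hypotheses are the outputs of the
modules: slack, leaves (two facts), errors of the nodes. -/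
theorem energy0 [WRel κ₀] (D : Par0 Λ κ₀) {sp : ℕ → Finset Λ} (hsp : SpOk0 D sp) {W : Λ → ℝ}
    (hW0 : ∀ j, 0 ≤ W j) (j₀ : Λ) {t : IT} {n : ℕ} {c : ℝ} (hX : leafs 1 1 t ⊆ X) (hO : t.Ok n)
    (hF : Fit 1 1 t) (hit : ∀ j, D.it j ∈ t.items)
    (hW : (D.par X).Wts 1 t)
    {δ : TrG Λ (Lb κ₀ X) → Finset Λ → ℝ} {C C₀ η B : ℝ} (hC0 : 0 ≤ C)
    (hC₀ : 0 ≤ C₀) (hη : 0 ≤ η) (hB : 0 ≤ B) {stp : Stp Λ (Lb κ₀ X)}
    (hstp : ∀ s : St Λ (Lb κ₀ X), s.O = ∅ → s.O' = ∅ → ¬ stp s)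
    (hjt : ∀ (d : DT Λ (Lb κ₀ X)) (A : Finset Λ), stp.jt (selfSt d A))
    (hd : (tG D X 1 1 t).All (SlackR (AdI D.it) δ))
    (hl : LeafAll (LeafE D W C) 1 1 1 t) (hl0 : LeafAll (LeafI D W C₀) 1 1 1 t)
    (herr : Bld532.All (fun s t' =>
      NodeE D X sp W (clf t 1) j₀ stp δ B η (16 * (C + C₀ + η + B + 1)) s.B s.A t')
        ⟨n, c, 1, 1⟩ t) :
    I (fun x => (∑ j, ((D.par X).toFT 1 1 t).U 1 j x) ^ 2) ≤
      (16 * (C + C₀ + η + B + 1)) *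
        (∑ j, W j + (∑ j, W j) ^ 2 + δ (tG D X 1 1 t) Finset.univ) := by
  have hcx : ∀ S, 0 ≤ clf t 1 S := clf_nonneg t zero_le_one
  have hcO : CxOk (clf t 1) 1 t := CxOk.clf t 1
  have hdn := D.dec_nonneg hW0 hcx X
  have herr' : (tD D X sp 1 1 t).All fun r => ¬ PulG r.g →
      Below (SMR (AdI D.it) (tM D W (clf t 1) j₀ X) (tN D W (clf t 1) j₀ X) δ
        (16 * (C + C₀ + η + B + 1))) r.g →
      ∀ A, AdI D.it r.g A → A.Nonempty →
      dseR A r.g + rseR A r.g +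
        WS stp (eAll stp (tM D W (clf t 1) j₀ X) (tN D W (clf t 1) j₀ X) B) (selfSt r A) ≤
        η * (tM D W (clf t 1) j₀ X r.g A + tM D W (clf t 1) j₀ X r.g A *
          tN D W (clf t 1) j₀ X r.g) + δ r.g A := by
    refine toDT_All2 (D.par X) sp (Qp := fun s t' =>
      NodeE D X sp W (clf t 1) j₀ stp δ B η (16 * (C + C₀ + η + B + 1)) s.B s.A t')
      (F' := SlackR (AdI D.it) δ) ?_ ?_ t ⟨n, c, 1, 1⟩ herr hd
    · intro s t' h
      have e : ((D.par X).toDT sp s.B s.A t').g = tG D X s.B s.A t' :=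
        (D.par X).toDT_g sp t' s.B s.A
      rw [e]
      exact h
    · intro r hr _ _ A hA _
      have hδ : 0 ≤ δ (.leaf r fun _ _ => 0) A := hr.1 A hA
      have h1 : 0 ≤ tM D W (clf t 1) j₀ X (.leaf r fun _ _ => 0) A := hdn _ _
      have h2 : 0 ≤ tN D W (clf t 1) j₀ X (.leaf r fun _ _ => 0) := hdn _ _
      have e1 : dseR A (TrG.leaf r (fun _ _ => 0) : TrG Λ (Lb κ₀ X)) = 0 := rfl
      have e2 : rseR A (TrG.leaf r (fun _ _ => 0) : TrG Λ (Lb κ₀ X)) = 0 := rfl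
      have e3 := WS_leaf (stp := stp) (μ := tM D W (clf t 1) j₀ X) (ν := tN D W (clf t 1) j₀ X)
        (B := B) r (fun _ _ => 0) A
      show dseR A (TrG.leaf r (fun _ _ => 0) : TrG Λ (Lb κ₀ X)) +
        rseR A (TrG.leaf r (fun _ _ => 0) : TrG Λ (Lb κ₀ X)) + WS stp _ (selfSt (.leaf r _) A) ≤ _
      rw [e1, e2, e3]
      have h3 := mul_nonneg hη (add_nonneg h1 (mul_nonneg h1 h2))
      show (0 : ℝ) + 0 + 0 ≤ η * (tM D W (clf t 1) j₀ X (.leaf r fun _ _ => 0) A +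
        tM D W (clf t 1) j₀ X (.leaf r fun _ _ => 0) A *
          tN D W (clf t 1) j₀ X (.leaf r fun _ _ => 0)) + δ (.leaf r fun _ _ => 0) A
      linarith
  have key := energy (D.par X) (hsp.spOk _) hsp.il hdn (D.dec_union W _ _) j₀
    (W := W) (c := 1) one_pos hO hF hW (D.decOk W _ X j₀ t 1 1 1 hF hX hcO)
    hC0 hC₀ hη hB hstp hjt hd
    (leafSMR_of D (AdL_AdI D.it) hW0 hcx j₀ hC0 t 1 1 1 hF hX hcO hl)
    (leafIn_of D (AdL_AdI D.it) hW0 hcx j₀ hC₀ t 1 1 1 hF hX hcO hl0)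
    herr'
  refine key.trans (le_of_eq ?_)
  have e : (1 : ℝ) * (D.par X).rw W t.items Finset.univ = ∑ j, W j := by
    rw [one_mul]
    show ∑ j ∈ Finset.univ.filter (fun j => D.it j ∈ t.items), W j = _
    rw [Finset.filter_true_of_mem fun j _ => hit j]
  rw [e]
  rfl

end

end Crest.Agent.R4P.Frame758
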