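import Crest.Agent.R4.ResAbs927

/-!
# R4 (S0004), trees with powers, helper263: item walks, point form, chains of columns allowed

Abstract part for the port of `GAsm927`: `Inv a g x`: `a` = level of the random side (its missing
primes so far are `≥ a`), `g` = cost level (all charges from now on are at columns `< g`).  A state
which pays (`Pay`) is closing: its successors have cost level `≤ p x`.  Inside a chain of columns at
the same prime nothing is paid before the closing step, and the column does not decrease.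
-/

set_option autoImplicit false
set_option linter.unusedSectionVars false

namespace Crest.Agent.R4P.Res927

open Crest.Agent.R4.Walk560 Crest.Agent.R4.AdvWin560 Crest.Agent.R4.AdvWin560.WT
open Crest.Agent.R4.Own927
open Crest.Agent.R4.Res927 (wtF GG GG_nonneg WOk_mono filter_eq)

section abs
variable {X : Type*}
variable {next : X → List (ℝ × X)} {rank : X → ℕ} {p : X → ℕ} {u u' T : X → Finset ℕ}
  {c : X → ℝ} {f : ℕ → Finset ℕ → Finset ℕ → ℝ}

/-- the state pays the charge of its own column -/
def Pay (p : X → ℕ) (u u' T : X → Finset ℕ) (c : X → ℝ) (f : ℕ → Finset ℕ → Finset ℕ → ℝ)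
    (a g : ℕ) (x : X) : Prop :=
  p x < a ∧ p x < g ∧ c x ≤ f (p x) (u x) (u' x) ∧ (T x).filter (p x < ·) = u' x

/-- the shape of a step -/
inductive StepP (next : X → List (ℝ × X)) (p : X → ℕ) (u u' T : X → Finset ℕ) (c : X → ℝ)
    (f : ℕ → Finset ℕ → Finset ℕ → ℝ) (Inv : ℕ → ℕ → X → Prop) (a g : ℕ) (x : X) : Prop
  | nil (h : next x = []) (hc : c x ≤ 0 ∨ Pay p u u' T c f a g x)
  | one (y : X) (a' g' : ℕ) (h : next x = [(1, y)]) (hu : u y = u x) (hT : T y = T x)
      (ha : a' ≤ a) (hg : g' ≤ g) (hi : Inv a' g' y)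
      (hc : c x ≤ 0 ∨ (Pay p u u' T c f a g x ∧ a' ≤ p x ∧ g' ≤ p x))
  | two (w : ℝ) (y1 y0 : X) (a1 g1 a0 g0 : ℕ) (h : next x = [(1 - w, y1), (w, y0)]) (hw0 : 0 ≤ w)
      (hw1 : w ≤ 1 / (p x : ℝ)) (hu1 : u y1 = u x) (hu0 : u y0 = insert (p x) (u x))
      (hT1 : T y1 = T x) (hT0 : T y0 = T x) (hp : (p x).Prime) (hpa : p x < a)
      (ha1 : a1 ≤ p x) (ha0 : a0 ≤ p x) (hg1 : g1 ≤ g) (hg0 : g0 ≤ g) (hi1 : Inv a1 g1 y1)
      (hi0 : Inv a0 g0 y0)
      (hc : c x ≤ 0 ∨ (Pay p u u' T c f a g x ∧ g1 ≤ p x ∧ g0 ≤ p x))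

theorem wtF_OkP {Inv : ℕ → ℕ → X → Prop}
    (hrow : ∀ a g x, Inv a g x → StepP next p u u' T c f Inv a g x) :
    ∀ k a g x, Inv a g x → (wtF next p k x).Ok a := by
  intro k
  induction k with
  | zero => intro a g x _; trivial
  | succ k ih =>
    intro a g x hx
    rcases hrow a g x hx with ⟨h, -⟩ | ⟨y, a', g', h, -, -, ha, -, hi, -⟩ |
      ⟨w, y1, y0, a1, g1, a0, g0, h, hw0, hw1, -, -, -, -, hp, hpa, ha1, ha0, -, -, hi1, hi0, -⟩
    · simp only [wtF, h]; trivial
    · simp only [wtF, h]
      exact WOk_mono (ih _ _ _ hi) ha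
    · simp only [wtF, h]
      exact ⟨hp, hpa, hw0, hw1, WOk_mono (ih _ _ _ hi1) ha1, WOk_mono (ih _ _ _ hi0) ha0⟩

lemma GG_mono (hf : ∀ s a b, 0 ≤ f s a b) {g' g : ℕ} (h : g' ≤ g) (T v : Finset ℕ) :
    GG f g' T v ≤ GG f g T v := by
  unfold GG
  exact Finset.sum_le_sum_of_subset_of_nonneg (Finset.range_subset_range.2 h)
    fun P _ _ => hf _ _ _

/-- one paid column -/
lemma GG_pay (hf : ∀ s a b, 0 ≤ f s a b) {g' g P : ℕ} (h : g' ≤ P) (hP : P < g) {U U' T v : Finset ℕ}
    (hv : v.filter (P < ·) = U) (hT : T.filter (P < ·) = U') :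
    f P U U' + GG f g' T v ≤ GG f g T v := by
  have h1 : GG f (P + 1) T v ≤ GG f g T v := GG_mono hf hP T v
  have h2 : GG f (P + 1) T v = GG f P T v + f P U U' := by
    unfold GG
    rw [Finset.sum_range_succ, hv, hT]
  have h3 := GG_mono hf h T v
  linarith

/-- **item walks are expectations over an adapted tie tree**, point form -/
theorem W_le_pt (hr : ∀ x, ∀ q ∈ next x, rank q.2 < rank x) {Inv : ℕ → ℕ → X → Prop}
    (hInv : ∀ a g x, Inv a g x → ∀ q ∈ u x, a ≤ q)
    (hrow : ∀ a g x, Inv a g x → StepP next p u u' T c f Inv a g x)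
    (hf : ∀ s a b, 0 ≤ f s a b) :
    ∀ k a g x, rank x < k → Inv a g x →
      W next rank c x ≤ E (GG f g (T x)) (wtF next p k x) (u x) := by
  intro k
  induction k with
  | zero => intro a g x hk; omega
  | succ k ih =>
    intro a g x hk hx
    have hi := hInv a g x hx
    rw [W_eq hr]
    -- one successor: `c x + E (GG g') ≤ E (GG g)`
    have key : ∀ (y : X) (v0 : Finset ℕ) (a' g' : ℕ), Inv a' g' y → g' ≤ g →
        (v0 = u x ∨ v0 = insert (p x) (u x)) →
        (c x ≤ 0 ∨ (Pay p u u' T c f a g x ∧ a' ≤ p x ∧ g' ≤ p x)) →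
        c x + E (GG f g' (T x)) (wtF next p k y) v0 ≤
          E (GG f g (T x)) (wtF next p k y) v0 := by
      intro y v0 a' g' hy hg hv0 hc
      have hok := wtF_OkP hrow k _ _ _ hy
      rcases hc with hc | ⟨⟨h1, h2, h3, h4⟩, h5, h6⟩
      · have h7 : E (GG f g' (T x)) (wtF next p k y) v0 ≤
            E (GG f g (T x)) (wtF next p k y) v0 :=
          E_mono_on hok fun v _ _ => GG_mono hf hg _ _
        linarith
      · have hsub : u x ⊆ v0 := by
          rcases hv0 with rfl | rfl
          · exact Finset.Subset.refl _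
          · exact Finset.subset_insert _ _
        have h7 : E (fun v => c x + GG f g' (T x) v) (wtF next p k y) v0 ≤
            E (GG f g (T x)) (wtF next p k y) v0 := by
          refine E_mono_on hok fun v hv hq => ?_
          have h8 : v.filter (p x < ·) = u x := by
            refine filter_eq (fun q hq => lt_of_lt_of_le h1 (hi q hq)) (fun q hqv hqu => ?_)
              (hsub.trans hv)
            by_cases hq0 : q ∈ v0
            · rcases hv0 with rfl | rfl
              · exact absurd hq0 hqu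
              · rcases Finset.mem_insert.1 hq0 with rfl | h
                · exact le_rfl
                · exact absurd h hqu
            · exact ((hq q hqv hq0).2.le).trans h5
          have h9 := GG_pay hf h6 h2 h8 h4
          linarith
        have h8 := E_add (fun _ => c x) (GG f g' (T x)) (wtF next p k y) v0
        have h9 := E_const (c x) (wtF next p k y) v0
        linarith
    rcases hrow a g x hx with ⟨h, hc⟩ | ⟨y, a', g', h, hu, hT, ha, hg, hiy, hc⟩ |
      ⟨w, y1, y0, a1, g1, a0, g0, h, hw0, hw1, hu1, hu0, hT1, hT0, hp, hpa, ha1, ha0, hg1, hg0,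
        hi1, hi0, hc⟩
    · simp only [wtF, h, List.map_nil, List.sum_nil, add_zero]
      show c x ≤ GG f g (T x) (u x)
      rcases hc with hc | ⟨h1, h2, h3, h4⟩
      · exact hc.trans (GG_nonneg hf _ _ _)
      · have h5 := GG_pay hf (g' := 0) (Nat.zero_le _) h2 (v := u x) (T := T x) (U := u x)
          (Finset.filter_true_of_mem fun q hq => lt_of_lt_of_le h1 (hi q hq)) h4
        linarith [GG_nonneg hf 0 (T x) (u x)]
    · have hry : rank y < rank x := hr x (1, y) (by rw [h]; simp)
      simp only [wtF, h, List.map_cons, List.map_nil, List.sum_cons, List.sum_nil, add_zero,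
        one_mul]
      have iy := ih a' g' y (by omega) hiy
      rw [hu, hT] at iy
      have := key y (u x) a' g' hiy hg (Or.inl rfl) hc
      linarith
    · have hr1 : rank y1 < rank x := hr x (1 - w, y1) (by rw [h]; simp)
      have hr0 : rank y0 < rank x := hr x (w, y0) (by rw [h]; simp)
      simp only [wtF, h, List.map_cons, List.map_nil, List.sum_cons, List.sum_nil, add_zero]
      show c x + ((1 - w) * W next rank c y1 + w * W next rank c y0) ≤
        (1 - w) * E (GG f g (T x)) (wtF next p k y1) (u x) +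
        w * E (GG f g (T x)) (wtF next p k y0) (insert (p x) (u x))
      have i1 := ih a1 g1 y1 (by omega) hi1
      have i0 := ih a0 g0 y0 (by omega) hi0
      rw [hu1, hT1] at i1
      rw [hu0, hT0] at i0
      have l1 := key y1 (u x) a1 g1 hi1 hg1 (Or.inl rfl)
        (hc.imp id fun h => ⟨h.1, ha1, h.2.1⟩)
      have l0 := key y0 (insert (p x) (u x)) a0 g0 hi0 hg0 (Or.inr rfl)
        (hc.imp id fun h => ⟨h.1, ha0, h.2.2⟩)
      have hw : w ≤ 1 := hw1.trans (inv_le_one _)
      have m1 := mul_le_mul_of_nonneg_left (by linarith : c x + W next rank c y1 ≤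
        E (GG f g (T x)) (wtF next p k y1) (u x)) (by linarith : (0:ℝ) ≤ 1 - w)
      have m0 := mul_le_mul_of_nonneg_left (by linarith : c x + W next rank c y0 ≤
        E (GG f g (T x)) (wtF next p k y0) (insert (p x) (u x))) hw0
      linarith

end abs

end Crest.Agent.R4P.Res927
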