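import Crest.Agent.R4P.Res927
import Crest.Agent.R4P.GapAbs263
import Crest.Agent.R4P.Flag532

/-!
# R4 powers, module G, helper263 (after helper927): GAsm = the assembly of module G, chains of columns

Point form: the paying states `Cl` are genuine tie | tie states (`TT`: `p ∤ M`, `p ∤ M'`, both weights
`≠ 0`); they close the column `x.p`, and the level is `P = x.p` everywhere.

* `gap_right`, `gap_left` : item walks with costs at the `TT` states.
* `gasm` : critical item pairs `K x` (partial matchings); every critical pair is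
  - an event `EvR r p u u'` (fixed right item `r`, random left side), or
  - an event `EvL q p u' u` (fixed left item `q`, random right side), or
  - a criticality `Cr p q r u u'` such that two criticalities of the same `q` at levels `p < P₁`
    give one of the two events at `p`;
  then the walk sum is at most `∑ m_j (1 + E [number of events])`.
-/

set_option autoImplicit false
set_option linter.unusedSectionVars false
set_option linter.unusedVariables false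
set_option linter.unusedSimpArgs false

namespace Crest.Agent.R4P.Res927

open Crest.Agent.R4.Tour104 Crest.Agent.R4.Tour758 Crest.Agent.R4.Avg758 Crest.Agent.R4.Clos758
open Crest.Agent.R4.ClosL758 Crest.Agent.R4.ClosG758 Crest.Agent.R4.ClosR758
open Crest.Agent.R4P.Walk560 Crest.Agent.R4.AdvWin560 Crest.Agent.R4.AdvWin560.WT
open Crest.Agent.R4.Own927 Crest.Agent.R4P.Flag532

lemma RowP.wsum_le {X : Type*} {next : X → List (ℝ × X)} {p a : X → ℕ} {u T : X → Finset ℕ} {x : X}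
    (h : RowP next p a u T x) : ((next x).map fun q => q.1).sum ≤ 1 := by
  rcases h with h | ⟨y, h, -, -, -⟩ | ⟨w, y1, y0, h, -, -, -, -, -, -, -, -, -, -, -⟩ <;>
    rw [h] <;> simp

variable {Λ κ : Type*} [Fintype Λ] [DecidableEq Λ] [Fintype κ] [DecidableEq κ] [WRel κ]

/-- genuine tie | tie states -/
def TT (x : XSt Λ κ) : Prop := ∃ w r t₁ t₀ v B G w' r' t₁' t₀' v' B' G',
  vw x.s.p x.s.t = .br w r t₁ t₀ v B G ∧ vw x.s.p x.s.t' = .br w' r' t₁' t₀' v' B' G' ∧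
  w ≠ 0 ∧ w' ≠ 0 ∧ ¬ x.s.p ∣ x.s.M ∧ ¬ x.s.p ∣ x.s.M'

lemma TT.top {x : XSt Λ κ} (h : TT x) : x.s.t.top = x.s.p ∧ x.s.t'.top = x.s.p := by
  obtain ⟨w, r, t₁, t₀, v, B, G, w', r', t₁', t₀', v', B', G', hv, hv', -⟩ := h
  constructor
  · exact top_eq_of_vw fun Sp u hu => by rw [hv] at hu; cases hu
  · exact top_eq_of_vw fun Sp u hu => by rw [hv'] at hu; cases hu

lemma TT.prime {x : XSt Λ κ} (h : TT x) (hx : XI x) : x.s.p.Prime := by
  obtain ⟨w, r, t₁, t₀, v, B, G, w', r', t₁', t₀', v', B', G', hv, -⟩ := h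
  have := hx.cL
  rw [vw_br hv] at this
  exact this.1

/-- the missing sets of a tie | tie state are above the column -/
lemma TT.gt {x : XSt Λ κ} (h : TT x) (hx : XI x) : (∀ q ∈ x.u, x.p < q) ∧ ∀ q ∈ x.u', x.p < q := by
  have h1 := h.top
  refine ⟨fun q hq => ?_, fun q hq => ?_⟩
  · have := hx.u q hq
    rw [h1.1] at this
    exact this
  · have := hx.u' q hq
    rw [h1.2] at this
    exact this

/-- a tie | tie state closes its column -/
lemma TT.close {stp : Stp Λ κ} {dv : DT Λ κ → Λ → Prop} {x : XSt Λ κ} (h : TT x) (hx : XI x)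
    {e : XStep Λ κ} (he : e ∈ steps stp dv x) : e.y.p < x.p := by
  classical
  have hp := h.prime hx
  obtain ⟨w, r, t₁, t₀, v, B, G, w', r', t₁', t₀', v', B', G', hv, hv', hw, hw', hM, hM'⟩ := h
  have hL : ¬ x.s.isPL := by unfold St.isPL; simp only [hv, hv']; exact hM
  have hR : ¬ x.s.isPR := by unfold St.isPR; simp only [hv, hv']; exact hM'
  have h0 := (mem_steps.1 he).1
  have a := tie_col hv hp.pos hw hx.cL
  have b := tie_col hv' hp.pos hw' hx.cR
  have a1 := a.2.2.1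
  have a0 := a.2.2.2.1
  have b1 := b.2.2.1
  have b0 := b.2.2.2.1
  by_cases h1 : x.s.t.isLeaf ∨ x.s.t'.isLeaf
  · simp [steps0, h1] at h0
  by_cases h2 : stp x.s
  · simp [steps0, h1, h2] at h0
  simp only [steps0, h1, h2, hL, hR, hv, hv', if_false, List.mem_cons, List.not_mem_nil,
    or_false] at h0
  rcases h0 with rfl | rfl | rfl | rfl
  · exact max_lt a1 b1
  · exact max_lt a1 b0
  · exact max_lt a0 b1
  · exact max_lt a0 b0

/-- the level after a step of a tie | tie state -/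
lemma TT.n {stp : Stp Λ κ} {dv : DT Λ κ → Λ → Prop} {x : XSt Λ κ} (h : TT x) (hx : XI x)
    {e : XStep Λ κ} (he : e ∈ steps stp dv x) : e.y.n = x.p := by
  have h1 := (steps_mv he).1.n
  have h2 : e.y.s.p < x.s.p := h.close hx he
  show e.y.n = x.s.p
  rw [h1]
  omega

/-- **gap form**, right item: random left side; costs at the tie | tie states -/
theorem gap_right {stp : Stp Λ κ} {dv : DT Λ κ → Λ → Prop} (j : Λ)
    {f : ℕ → Finset ℕ → Finset ℕ → ℝ} (hf : ∀ s a b, 0 ≤ f s a b) {c : XSt Λ κ → ℝ}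
    {J : XSt Λ κ → Prop} (hJ : ∀ x, J x → ∀ e ∈ steps stp dv x, e.f' j → J e.y)
    (hc : ∀ x, XI x → J x → c x ≤ 0 ∨ (TT x ∧ c x ≤ f x.p x.u x.u'))
    {x : XSt Λ κ} (hx : XI x) (hj : J x) :
    W (nxJ stp dv j) XSt.rank c x ≤
      E (GG f x.n (x.u' ∪ mtD dv j x.s.t')) (wtJ stp dv j x) x.u := by
  have e : (wtF (nxJ stp dv j) XSt.p (x.rank + 1) x) = wtJ stp dv j x := rfl
  have := W_le_pt (next := nxJ stp dv j) (rank := XSt.rank) (p := XSt.p) (u := XSt.u)
    (u' := XSt.u') (T := fun x => x.u' ∪ mtD dv j x.s.t') (c := c) (f := f)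
    (nxJ_rank stp dv j)
    (Inv := fun a g x => (XI x ∧ J x) ∧ a = x.s.t.top + 1 ∧ g = x.n)
    (fun a g x hx q hq => by
      obtain ⟨⟨hx, -⟩, rfl, -⟩ := hx
      exact hx.u q hq)
    (fun a g x hx => by
      obtain ⟨⟨hx, hj⟩, rfl, rfl⟩ := hx
      have hpay : c x ≤ 0 ∨ (TT x ∧ Pay XSt.p XSt.u XSt.u' (fun x => x.u' ∪ mtD dv j x.s.t') c f
          (x.s.t.top + 1) x.n x) := by
        refine (hc x hx hj).imp id fun h => ⟨h.1, ?_, hx.n, h.2, ?_⟩
        · show x.s.p < x.s.t.top + 1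
          rw [h.1.top.1]
          exact Nat.lt_succ_self _
        · have h1 := filt_right (dv := dv) hx j x.p le_rfl hx.n
          rw [Finset.filter_true_of_mem (h.1.gt hx).2] at h1
          exact h1
      have hmem : ∀ q ∈ nxJ stp dv j x, (XI q.2 ∧ J q.2) ∧ q.2.n ≤ x.n ∧
          (TT x → q.2.n ≤ x.p ∧ q.2.s.t.top + 1 ≤ x.p) := by
        intro q hq
        obtain ⟨e, he, hf', rfl⟩ := mem_nxJ hq
        exact ⟨⟨hx.next e he, hJ x hj e he hf'⟩, (steps_top hx he).2.2.2,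
          fun h => ⟨(h.n hx he).le, (le_max_left _ _).trans_lt (h.close hx he)⟩⟩
      rcases row_J (stp := stp) (dv := dv) j hx with h | ⟨y, h, hu, hT, ha⟩ |
        ⟨w, y1, y0, h, hw0, hw2, hw1, hu1, hu0, hT1, hT0, hp, ha, ha1, ha0⟩
      · exact StepP.nil h (hpay.imp id fun h => h.2)
      · obtain ⟨m1, m2, m3⟩ := hmem (1, y) (by rw [h]; simp)
        exact StepP.one y _ _ h hu hT ha m2 ⟨m1, rfl, rfl⟩
          (hpay.imp id fun h' => ⟨h'.2, (m3 h'.1).2, (m3 h'.1).1⟩)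
      · obtain ⟨m1, m2, m3⟩ := hmem (1 - w, y1) (by rw [h]; simp)
        obtain ⟨n1, n2, n3⟩ := hmem (w, y0) (by rw [h]; simp)
        exact StepP.two w y1 y0 _ _ _ _ h hw0.le hw1 hu1 hu0 hT1 hT0 hp ha ha1 ha0 m2 n2
          ⟨m1, rfl, rfl⟩ ⟨n1, rfl, rfl⟩ (hpay.imp id fun h' => ⟨h'.2, (m3 h'.1).1, (n3 h'.1).1⟩))
    hf (x.rank + 1) (x.s.t.top + 1) x.n x (Nat.lt_succ_self _) ⟨⟨hx, hj⟩, rfl, rfl⟩
  rw [e] at this
  exact this

/-- **gap form**, left item: random right side; costs at the tie | tie states -/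
theorem gap_left {stp : Stp Λ κ} {dv : DT Λ κ → Λ → Prop} (j : Λ)
    {f : ℕ → Finset ℕ → Finset ℕ → ℝ} (hf : ∀ s a b, 0 ≤ f s a b) {c : XSt Λ κ → ℝ}
    {J : XSt Λ κ → Prop} (hJ : ∀ x, J x → ∀ e ∈ steps stp dv x, e.f j → J e.y)
    (hc : ∀ x, XI x → J x → c x ≤ 0 ∨ (TT x ∧ c x ≤ f x.p x.u' x.u))
    {x : XSt Λ κ} (hx : XI x) (hj : J x) :
    W (nxI stp dv j) XSt.rank c x ≤
      E (GG f x.n (x.u ∪ mtD dv j x.s.t)) (wtI stp dv j x) x.u' := by
  have e : (wtF (nxI stp dv j) XSt.p (x.rank + 1) x) = wtI stp dv j x := rfl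
  have := W_le_pt (next := nxI stp dv j) (rank := XSt.rank) (p := XSt.p) (u := XSt.u')
    (u' := XSt.u) (T := fun x => x.u ∪ mtD dv j x.s.t) (c := c) (f := f)
    (nxI_rank stp dv j)
    (Inv := fun a g x => (XI x ∧ J x) ∧ a = x.s.t'.top + 1 ∧ g = x.n)
    (fun a g x hx q hq => by
      obtain ⟨⟨hx, -⟩, rfl, -⟩ := hx
      exact hx.u' q hq)
    (fun a g x hx => by
      obtain ⟨⟨hx, hj⟩, rfl, rfl⟩ := hx
      have hpay : c x ≤ 0 ∨ (TT x ∧ Pay XSt.p XSt.u' XSt.u (fun x => x.u ∪ mtD dv j x.s.t) c f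
          (x.s.t'.top + 1) x.n x) := by
        refine (hc x hx hj).imp id fun h => ⟨h.1, ?_, hx.n, h.2, ?_⟩
        · show x.s.p < x.s.t'.top + 1
          rw [h.1.top.2]
          exact Nat.lt_succ_self _
        · have h1 := filt_left (dv := dv) hx j x.p le_rfl hx.n
          rw [Finset.filter_true_of_mem (h.1.gt hx).1] at h1
          exact h1
      have hmem : ∀ q ∈ nxI stp dv j x, (XI q.2 ∧ J q.2) ∧ q.2.n ≤ x.n ∧
          (TT x → q.2.n ≤ x.p ∧ q.2.s.t'.top + 1 ≤ x.p) := by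
        intro q hq
        obtain ⟨e, he, hf', rfl⟩ := mem_nxI hq
        exact ⟨⟨hx.next e he, hJ x hj e he hf'⟩, (steps_top hx he).2.2.2,
          fun h => ⟨(h.n hx he).le, (le_max_right _ _).trans_lt (h.close hx he)⟩⟩
      rcases row_I (stp := stp) (dv := dv) j hx with h | ⟨y, h, hu, hT, ha⟩ |
        ⟨w, y1, y0, h, hw0, hw2, hw1, hu1, hu0, hT1, hT0, hp, ha, ha1, ha0⟩
      · exact StepP.nil h (hpay.imp id fun h => h.2)
      · obtain ⟨m1, m2, m3⟩ := hmem (1, y) (by rw [h]; simp)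
        exact StepP.one y _ _ h hu hT ha m2 ⟨m1, rfl, rfl⟩
          (hpay.imp id fun h' => ⟨h'.2, (m3 h'.1).2, (m3 h'.1).1⟩)
      · obtain ⟨m1, m2, m3⟩ := hmem (1 - w, y1) (by rw [h]; simp)
        obtain ⟨n1, n2, n3⟩ := hmem (w, y0) (by rw [h]; simp)
        exact StepP.two w y1 y0 _ _ _ _ h hw0.le hw1 hu1 hu0 hT1 hT0 hp ha ha1 ha0 m2 n2
          ⟨m1, rfl, rfl⟩ ⟨n1, rfl, rfl⟩ (hpay.imp id fun h' => ⟨h'.2, (m3 h'.1).1, (n3 h'.1).1⟩))
    hf (x.rank + 1) (x.s.t'.top + 1) x.n x (Nat.lt_succ_self _) ⟨⟨hx, hj⟩, rfl, rfl⟩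
  rw [e] at this
  exact this

/-- history of a step -/
lemma steps_hist {stp : Stp Λ κ} {dv : DT Λ κ → Λ → Prop} {x : XSt Λ κ} :
    ∀ e ∈ steps stp dv x, (e.y.u = x.u ∨ e.y.u = insert x.p x.u) ∧
      (e.y.u' = x.u' ∨ e.y.u' = insert x.p x.u') ∧ e.y.n = max x.p (e.y.p + 1) ∧
      e.y.s.A ⊆ x.s.A ∧ e.y.s.A' ⊆ x.s.A' := by
  have key : ∀ {p : ℕ} {t : DT Λ κ} {A : Finset Λ} {u : Finset ℕ} {a : ℝ} {f : Λ → Prop}
      {t₁ : DT Λ κ} {A₁ : Finset Λ} {u₁ : Finset ℕ}, Mv dv p t A u a f t₁ A₁ u₁ →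
      (u₁ = u ∨ u₁ = insert p u) := by
    intro p t A u a f t₁ A₁ u₁ h
    cases h with
    | br0 h => exact Or.inr rfl
    | _ => exact Or.inl rfl
  intro e he
  have hm := (steps_mv he).1
  exact ⟨key hm.L, key hm.R, hm.n, hm.L.sub, hm.R.sub⟩

/-- items with positive mass follow the steps, left side -/
lemma follow_left {stp : Stp Λ κ} {dv : DT Λ κ → Λ → Prop} {m : DT Λ κ → Λ → ℝ}
    {x : XSt Λ κ} (ht : TC dv m x) {e : XStep Λ κ} (he : e ∈ steps stp dv x) {j : Λ}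
    (hj : j ∈ e.y.s.A) (hm : m e.y.s.t j ≠ 0) : j ∈ x.s.A ∧ m x.s.t j ≠ 0 ∧ e.f j ∧
      e.y.u ∪ mtD dv j e.y.s.t = x.u ∪ mtD dv j x.s.t := by
  classical
  have hjx : j ∈ x.s.A := (steps_hist e he).2.2.2.1 hj
  have h1 := step_left ht.L j hjx e he
  rw [if_pos hj] at h1
  have hpos : 0 < e.a * m e.y.s.t j := mul_pos (steps_w ht.wL ht.wR e he).1
    (lt_of_le_of_ne ((ht.next e he).L.self.nn j) (Ne.symm hm))
  have hf : e.f j := by
    by_contra hf
    rw [if_neg hf] at h1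
    linarith
  rw [if_pos hf] at h1
  obtain ⟨hs, ha, -⟩ := steps_mv he
  exact ⟨hjx, (lt_of_lt_of_le hpos h1).ne', hf, hs.L.T ha hf⟩

/-- items with positive mass follow the steps, right side -/
lemma follow_right {stp : Stp Λ κ} {dv : DT Λ κ → Λ → Prop} {m : DT Λ κ → Λ → ℝ}
    {x : XSt Λ κ} (ht : TC dv m x) {e : XStep Λ κ} (he : e ∈ steps stp dv x) {j : Λ}
    (hj : j ∈ e.y.s.A') (hm : m e.y.s.t' j ≠ 0) : j ∈ x.s.A' ∧ m x.s.t' j ≠ 0 ∧ e.f' j ∧
      e.y.u' ∪ mtD dv j e.y.s.t' = x.u' ∪ mtD dv j x.s.t' := by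
  classical
  have hjx : j ∈ x.s.A' := (steps_hist e he).2.2.2.2 hj
  have h1 := step_right ht.R j hjx e he
  rw [if_pos hj] at h1
  have hpos : 0 < e.a' * m e.y.s.t' j := mul_pos (steps_w ht.wL ht.wR e he).2
    (lt_of_le_of_ne ((ht.next e he).R.self.nn j) (Ne.symm hm))
  have hf : e.f' j := by
    by_contra hf
    rw [if_neg hf] at h1
    linarith
  rw [if_pos hf] at h1
  obtain ⟨hs, -, ha'⟩ := steps_mv he
  exact ⟨hjx, (lt_of_lt_of_le hpos h1).ne', hf, hs.R.T ha' hf⟩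

/-- the items of positive mass of a state come from the root: their missing ties are those of the
root, `u` resp. `u'` being the ones seen so far -/
structure FW (dv : DT Λ κ → Λ → Prop) (m : DT Λ κ → Λ → ℝ) (s₀ : St Λ κ) (x : XSt Λ κ) : Prop where
  L : ∀ j ∈ x.s.A, m x.s.t j ≠ 0 → j ∈ s₀.A ∧ m s₀.t j ≠ 0 ∧
    x.u ∪ mtD dv j x.s.t = mtD dv j s₀.t
  R : ∀ j ∈ x.s.A', m x.s.t' j ≠ 0 → j ∈ s₀.A' ∧ m s₀.t' j ≠ 0 ∧
    x.u' ∪ mtD dv j x.s.t' = mtD dv j s₀.t'

/-- all standing invariants -/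
structure GI (dv : DT Λ κ → Λ → Prop) (m : DT Λ κ → Λ → ℝ) (s₀ : St Λ κ) (I : XSt Λ κ → Prop)
    (x : XSt Λ κ) : Prop where
  i : I x
  tc : TC dv m x
  xi : XI x
  fw : FW dv m s₀ x

lemma GI.next {stp : Stp Λ κ} {dv : DT Λ κ → Λ → Prop} {m : DT Λ κ → Λ → ℝ} {s₀ : St Λ κ}
    {I : XSt Λ κ → Prop} (hI : ∀ x, GI dv m s₀ I x → ∀ e ∈ steps stp dv x, I e.y)
    {x : XSt Λ κ} (h : GI dv m s₀ I x) : ∀ e ∈ steps stp dv x, GI dv m s₀ I e.y := by
  intro e he
  refine ⟨hI x h e he, h.tc.next e he, h.xi.next e he, ?_, ?_⟩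
  · intro j hj hm
    obtain ⟨h1, h2, -, h4⟩ := follow_left h.tc he hj hm
    obtain ⟨h5, h6, h7⟩ := h.fw.L j h1 h2
    exact ⟨h5, h6, h4.trans h7⟩
  · intro j hj hm
    obtain ⟨h1, h2, -, h4⟩ := follow_right h.tc he hj hm
    obtain ⟨h5, h6, h7⟩ := h.fw.R j h1 h2
    exact ⟨h5, h6, h4.trans h7⟩

open Classical in
/-- charging a matching to the masses of one side -/
lemma charge {β : Type*} {A : Finset Λ} {w : Λ → ℝ} (it : Λ → ℕ)
    (S : Finset β) (g : β → ℕ) (hg : ∀ b ∈ S, ∀ b' ∈ S, g b = g b' → b = b') :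
    ∑ b ∈ S, ∑ j ∈ A.filter (fun j => it j = g b), w j =
      ∑ j ∈ A.filter (fun j => ∃ b ∈ S, g b = it j), w j := by
  have hd : ((S : Set β)).PairwiseDisjoint fun b => A.filter fun j => it j = g b := by
    intro b hb b' hb' hne
    show Disjoint _ _
    rw [Finset.disjoint_left]
    intro j hj hj'
    have h1 := (Finset.mem_filter.1 hj).2
    have h2 := (Finset.mem_filter.1 hj').2
    exact hne (hg b hb b' hb' (h1.symm.trans h2))
  rw [← Finset.sum_biUnion hd]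
  refine Finset.sum_congr ?_ fun _ _ => rfl
  ext j
  simp only [Finset.mem_biUnion, Finset.mem_filter]
  constructor
  · rintro ⟨b, hb, hj, h⟩; exact ⟨hj, b, hb, h.symm⟩
  · rintro ⟨hj, b, hb, h⟩; exact ⟨b, hb, hj, h.symm⟩

open Classical in
/-- item level masses, left side -/
noncomputable def mL (m : DT Λ κ → Λ → ℝ) (it : Λ → ℕ) (x : XSt Λ κ) (q : ℕ) : ℝ :=
  ∑ j ∈ x.s.A.filter (fun j => it j = q), m x.s.t j

open Classical in
/-- item level masses, right side -/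
noncomputable def mR (m : DT Λ κ → Λ → ℝ) (it : Λ → ℕ) (x : XSt Λ κ) (q : ℕ) : ℝ :=
  ∑ j ∈ x.s.A'.filter (fun j => it j = q), m x.s.t' j

open Classical in
/-- indicator -/
noncomputable def ind (P : Prop) : ℝ := if P then 1 else 0

lemma ind_nonneg (P : Prop) : 0 ≤ ind P := by
  unfold ind; split_ifs <;> norm_num

/-- **hypotheses of the assembly of module G**; `Cl` = the paying states, level `P = x.p` -/
structure GHyp (stp : Stp Λ κ) (dv : DT Λ κ → Λ → Prop) (m : DT Λ κ → Λ → ℝ) (s₀ : St Λ κ)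
    (I : XSt Λ κ → Prop) (it : Λ → ℕ) (Cl : XSt Λ κ → Prop) (K : XSt Λ κ → Finset (ℕ × ℕ))
    (EvR EvL : ℕ → ℕ → Finset ℕ → Finset ℕ → Prop)
    (Cr : ℕ → ℕ → ℕ → Finset ℕ → Finset ℕ → Prop)
    (gR gL : Λ → ℕ → Finset ℕ → Finset ℕ → ℝ) (loc : XSt Λ κ → ℝ) : Prop where
  inv : ∀ x, GI dv m s₀ I x → ∀ e ∈ steps stp dv x, I e.y
  gR0 : ∀ j P a b, 0 ≤ gR j P a b
  gL0 : ∀ j P a b, 0 ≤ gL j P a b
  cl : ∀ x, GI dv m s₀ I x → Cl x → TT x
  loc_le : ∀ x, GI dv m s₀ I x → (¬ Cl x → loc x ≤ 0) ∧ (Cl x → loc x ≤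
    (∑ e ∈ K x, min (mL m it x e.1) (mR m it x e.2)) +
    (∑ j ∈ x.s.A, m x.s.t j * gL j x.p x.u' x.u) +
    ∑ j ∈ x.s.A', m x.s.t' j * gR j x.p x.u x.u')
  inj1 : ∀ x, GI dv m s₀ I x → Cl x → ∀ e ∈ K x, ∀ e' ∈ K x, e.1 = e'.1 → e = e'
  inj2 : ∀ x, GI dv m s₀ I x → Cl x → ∀ e ∈ K x, ∀ e' ∈ K x, e.2 = e'.2 → e = e'
  cases : ∀ x, GI dv m s₀ I x → Cl x → ∀ e ∈ K x,
    EvR e.2 x.p x.u x.u' ∨ EvL e.1 x.p x.u' x.u ∨ Cr x.p e.1 e.2 x.u x.u'
  again : ∀ x, GI dv m s₀ I x → Cl x → ∀ e ∈ K x, ∀ P₁ r₁, x.p < P₁ →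
    Cr P₁ e.1 r₁ (x.u.filter (P₁ < ·)) (x.u'.filter (P₁ < ·)) → Cr x.p e.1 e.2 x.u x.u' →
    EvR e.2 x.p x.u x.u' ∨ EvL e.1 x.p x.u' x.u

section main
variable {stp : Stp Λ κ} {dv : DT Λ κ → Λ → Prop} {m : DT Λ κ → Λ → ℝ} {s₀ : St Λ κ}
  {I : XSt Λ κ → Prop} {it : Λ → ℕ} {Cl : XSt Λ κ → Prop} {K : XSt Λ κ → Finset (ℕ × ℕ)}
  {EvR EvL : ℕ → ℕ → Finset ℕ → Finset ℕ → Prop}
  {Cr : ℕ → ℕ → ℕ → Finset ℕ → Finset ℕ → Prop}
  {gR gL : Λ → ℕ → Finset ℕ → Finset ℕ → ℝ} {loc : XSt Λ κ → ℝ}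

open Classical in
/-- the pieces of the items which are critical at the state and carry no event -/
noncomputable def crit (it : Λ → ℕ) (Cl : XSt Λ κ → Prop) (K : XSt Λ κ → Finset (ℕ × ℕ))
    (EvR EvL : ℕ → ℕ → Finset ℕ → Finset ℕ → Prop) (x : XSt Λ κ) : Finset Λ :=
  x.s.A.filter fun j => Cl x ∧ ∃ e ∈ K x, e.1 = it j ∧
    ¬ EvR e.2 x.p x.u x.u' ∧ ¬ EvL e.1 x.p x.u' x.u

open Classical in
/-- masses of the pieces, left side -/
noncomputable def mp (m : DT Λ κ → Λ → ℝ) (x : XSt Λ κ) (j : Λ) : ℝ :=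
  if j ∈ x.s.A then m x.s.t j else 0

lemma mp_nonneg {x : XSt Λ κ} (hx : GI dv m s₀ I x) (j : Λ) : 0 ≤ mp m x j := by
  unfold mp
  split_ifs
  · exact hx.tc.L.self.nn j
  · exact le_rfl

/-- the local cost, split into the three kinds -/
lemma loc_split (H : GHyp stp dv m s₀ I it Cl K EvR EvL Cr gR gL loc) {x : XSt Λ κ}
    (hx : GI dv m s₀ I x) (hC : Cl x) :
    loc x ≤ (∑ j ∈ crit it Cl K EvR EvL x, mp m x j) +
      (∑ j ∈ x.s.A, m x.s.t j * (ind (EvL (it j) x.p x.u' x.u) + gL j x.p x.u' x.u)) +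
      ∑ j ∈ x.s.A', m x.s.t' j * (ind (EvR (it j) x.p x.u x.u') + gR j x.p x.u x.u') := by
  classical
  have nnL : ∀ j, 0 ≤ m x.s.t j := fun j => hx.tc.L.self.nn j
  have nnR : ∀ j, 0 ≤ m x.s.t' j := fun j => hx.tc.R.self.nn j
  -- right events
  have hR : ∑ e ∈ (K x).filter (fun e => EvR e.2 x.p x.u x.u'),
        min (mL m it x e.1) (mR m it x e.2) ≤
      ∑ j ∈ x.s.A', m x.s.t' j * ind (EvR (it j) x.p x.u x.u') := by
    refine (Finset.sum_le_sum fun e _ => min_le_right _ _).trans ?_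
    unfold mR
    rw [charge it _ Prod.snd (fun e he e' he' h => H.inj2 x hx hC e (Finset.mem_filter.1 he).1 e'
      (Finset.mem_filter.1 he').1 h), Finset.sum_filter]
    refine Finset.sum_le_sum fun j _ => ?_
    split_ifs with h
    · obtain ⟨e, he, h⟩ := h
      have := (Finset.mem_filter.1 he).2
      rw [h] at this
      simp [ind, this]
    · exact mul_nonneg (nnR j) (ind_nonneg _)
  -- left events
  have hL : ∑ e ∈ (K x).filter (fun e => ¬ EvR e.2 x.p x.u x.u' ∧ EvL e.1 x.p x.u' x.u),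
        min (mL m it x e.1) (mR m it x e.2) ≤
      ∑ j ∈ x.s.A, m x.s.t j * ind (EvL (it j) x.p x.u' x.u) := by
    refine (Finset.sum_le_sum fun e _ => min_le_left _ _).trans ?_
    unfold mL
    rw [charge it _ Prod.fst (fun e he e' he' h => H.inj1 x hx hC e (Finset.mem_filter.1 he).1 e'
      (Finset.mem_filter.1 he').1 h), Finset.sum_filter]
    refine Finset.sum_le_sum fun j _ => ?_
    split_ifs with h
    · obtain ⟨e, he, h⟩ := h
      have := (Finset.mem_filter.1 he).2.2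
      rw [h] at this
      simp [ind, this]
    · exact mul_nonneg (nnL j) (ind_nonneg _)
  -- criticalities
  have hCr : ∑ e ∈ (K x).filter (fun e => ¬ EvR e.2 x.p x.u x.u' ∧ ¬ EvL e.1 x.p x.u' x.u),
        min (mL m it x e.1) (mR m it x e.2) ≤ ∑ j ∈ crit it Cl K EvR EvL x, mp m x j := by
    refine (Finset.sum_le_sum fun e _ => min_le_left _ _).trans ?_
    unfold mL
    rw [charge it _ Prod.fst (fun e he e' he' h => H.inj1 x hx hC e (Finset.mem_filter.1 he).1 e'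
      (Finset.mem_filter.1 he').1 h)]
    have e1 : ∑ j ∈ crit it Cl K EvR EvL x, mp m x j =
        ∑ j ∈ crit it Cl K EvR EvL x, m x.s.t j := by
      refine Finset.sum_congr rfl fun j hj => ?_
      unfold mp
      rw [if_pos (Finset.mem_filter.1 hj).1]
    rw [e1]
    refine Finset.sum_le_sum_of_subset_of_nonneg (fun j hj => ?_) fun j _ _ => nnL j
    obtain ⟨hjA, e, he, h⟩ := Finset.mem_filter.1 hj
    obtain ⟨heK, h1, h2⟩ := Finset.mem_filter.1 he
    exact Finset.mem_filter.2 ⟨hjA, hC, e, heK, h, h1, h2⟩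
  have hsplit : ∑ e ∈ K x, min (mL m it x e.1) (mR m it x e.2) ≤
      (∑ j ∈ crit it Cl K EvR EvL x, mp m x j) +
      (∑ j ∈ x.s.A, m x.s.t j * ind (EvL (it j) x.p x.u' x.u)) +
      ∑ j ∈ x.s.A', m x.s.t' j * ind (EvR (it j) x.p x.u x.u') := by
    have e0 : ∑ e ∈ K x, min (mL m it x e.1) (mR m it x e.2) =
        ∑ e ∈ (K x).filter (fun e => EvR e.2 x.p x.u x.u'),
          min (mL m it x e.1) (mR m it x e.2) +
        (∑ e ∈ (K x).filter (fun e => ¬ EvR e.2 x.p x.u x.u' ∧ EvL e.1 x.p x.u' x.u),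
          min (mL m it x e.1) (mR m it x e.2) +
        ∑ e ∈ (K x).filter (fun e => ¬ EvR e.2 x.p x.u x.u' ∧ ¬ EvL e.1 x.p x.u' x.u),
          min (mL m it x e.1) (mR m it x e.2)) := by
      rw [← Finset.sum_filter_add_sum_filter_not (K x) (fun e => EvR e.2 x.p x.u x.u')]
      congr 1
      rw [← Finset.sum_filter_add_sum_filter_not
        ((K x).filter fun e => ¬ EvR e.2 x.p x.u x.u') (fun e => EvL e.1 x.p x.u' x.u)]
      rw [Finset.filter_filter, Finset.filter_filter]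
    rw [e0]
    linarith
  have hloc := (H.loc_le x hx).2 hC
  have a1 : ∑ j ∈ x.s.A, m x.s.t j * (ind (EvL (it j) x.p x.u' x.u) + gL j x.p x.u' x.u) =
      ∑ j ∈ x.s.A, m x.s.t j * ind (EvL (it j) x.p x.u' x.u) +
      ∑ j ∈ x.s.A, m x.s.t j * gL j x.p x.u' x.u := by
    rw [← Finset.sum_add_distrib]
    exact Finset.sum_congr rfl fun j _ => mul_add _ _ _
  have a2 : ∑ j ∈ x.s.A', m x.s.t' j * (ind (EvR (it j) x.p x.u x.u') + gR j x.p x.u x.u') =
      ∑ j ∈ x.s.A', m x.s.t' j * ind (EvR (it j) x.p x.u x.u') +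
      ∑ j ∈ x.s.A', m x.s.t' j * gR j x.p x.u x.u' := by
    rw [← Finset.sum_add_distrib]
    exact Finset.sum_congr rfl fun j _ => mul_add _ _ _
  rw [a1, a2]
  linarith

/-- masses of pieces are supermartingales of the walk with history -/
lemma mp_super {x : XSt Λ κ} (hx : GI dv m s₀ I x) (j : Λ) :
    ((nxH stp dv x).map fun q => q.1 * mp m q.2 j).sum ≤ mp m x j := by
  classical
  have hw := row_I (stp := stp) (dv := dv) j hx.xi
  have h1 : ((nxH stp dv x).map fun q => q.1 * mp m q.2 j).sum ≤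
      ((steps stp dv x).map fun e => if e.f j then e.a' * mp m x j else 0).sum := by
    unfold nxH
    rw [List.map_map]
    refine List.sum_le_sum fun e he => ?_
    simp only [Function.comp]
    have w1 := steps_w hx.tc.wL hx.tc.wR e he
    by_cases hj : j ∈ x.s.A
    · have h2 := step_left hx.tc.L j hj e he
      have h3 := mul_le_mul_of_nonneg_left h2 w1.2.le
      have h4 : mp m x j = m x.s.t j := by unfold mp; rw [if_pos hj]
      rw [h4]
      have h5 : mp m e.y j = if j ∈ e.y.s.A then m e.y.s.t j else 0 := rfl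
      rw [← h5] at h3
      have h6 : e.a' * (if e.f j then m x.s.t j else 0) =
          if e.f j then e.a' * m x.s.t j else 0 := by split_ifs <;> simp
      rw [h6] at h3
      calc e.a * e.a' * mp m e.y j = e.a' * (e.a * mp m e.y j) := by ring
        _ ≤ _ := h3
    · have hj' : j ∉ e.y.s.A := fun h => hj ((steps_hist e he).2.2.2.1 h)
      have h5 : mp m e.y j = 0 := by unfold mp; rw [if_neg hj']
      have h6 : mp m x j = 0 := by unfold mp; rw [if_neg hj]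
      rw [h5, h6]
      simp
  have h2 : ((steps stp dv x).map fun e => if e.f j then e.a' * mp m x j else 0).sum =
      ((nxI stp dv j x).map fun q => q.1).sum * mp m x j := by
    rw [← flt_sum (steps stp dv x) (fun e => e.f j) (fun e => e.a' * mp m x j)]
    unfold nxI
    rw [List.map_map, ← List.sum_map_mul_right]
    rfl
  rw [h2] at h1
  have h3 := mp_nonneg hx j
  nlinarith [hw.wsum_le]

/-- **FIRST CRITICALITIES**: each item pays once -/
theorem first_le (H : GHyp stp dv m s₀ I it Cl K EvR EvL Cr gR gL loc) {x : XSt Λ κ}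
    (hx : GI dv m s₀ I x) :
    W (nxH stp dv) XSt.rank (fun x => ∑ j ∈ crit it Cl K EvR EvL x, mp m x j) x ≤
      ∑ j, mp m x j := by
  classical
  have hI : ∀ x, GI dv m s₀ I x → ∀ p ∈ nxH stp dv x, GI dv m s₀ I p.2 ∧ 0 ≤ p.1 := by
    intro x hx q hq
    obtain ⟨e, he, rfl⟩ := List.mem_map.1 hq
    have := steps_w hx.tc.wL hx.tc.wR e he
    exact ⟨hx.next H.inv e he, mul_nonneg this.1.le this.2.le⟩
  have h1 := W_flag_split (next := nxH stp dv) (rank := XSt.rank) (nxH_rank stp dv) hI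
    (crit it Cl K EvR EvL) (mp m) (fun x hx j => mp_super hx j) x hx
  have h2 : W (nxtM (nxH stp dv) (updF (crit it Cl K EvR EvL))) (fun x => XSt.rank x.1)
      (fun x => ∑ j ∈ crit it Cl K EvR EvL x.1 ∩ x.2, mp m x.1 j) (x, ∅) ≤ 0 := by
    refine W_le_super (nxtM_rank (nxH_rank stp dv))
      (Inv := fun y : XSt Λ κ × Finset Λ => GI dv m s₀ I y.1 ∧ ∀ j ∈ y.2, ∃ P₁ r₁, y.1.p < P₁ ∧
        Cr P₁ (it j) r₁ (y.1.u.filter (P₁ < ·)) (y.1.u'.filter (P₁ < ·)))
      (Φ := fun _ => 0) ?_ ?_ (x, ∅) ⟨hx, fun j hj => absurd hj (Finset.notMem_empty j)⟩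
    · rintro ⟨x, F⟩ ⟨hx, hF⟩ q hq
      obtain ⟨q', hq', rfl⟩ := List.mem_map.1 hq
      have hn := hI x hx q' hq'
      obtain ⟨e, he, rfl⟩ := List.mem_map.1 hq'
      refine ⟨⟨hn.1, ?_⟩, hn.2⟩
      have he : e ∈ steps stp dv x := he
      obtain ⟨hu, hu', -, -, -⟩ := steps_hist e he
      have hpp : e.y.p ≤ x.p := (steps_top hx.xi he).2.2.1
      have key : ∀ P₁, x.p ≤ P₁ → e.y.u.filter (P₁ < ·) = x.u.filter (P₁ < ·) ∧
          e.y.u'.filter (P₁ < ·) = x.u'.filter (P₁ < ·) := by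
        intro P₁ hP
        constructor
        · rcases hu with hu | hu <;> rw [hu]
          rw [Finset.filter_insert, if_neg (by omega)]
        · rcases hu' with hu' | hu' <;> rw [hu']
          rw [Finset.filter_insert, if_neg (by omega)]
      intro j hj
      show ∃ P₁ r₁, e.y.p < P₁ ∧
        Cr P₁ (it j) r₁ (e.y.u.filter (P₁ < ·)) (e.y.u'.filter (P₁ < ·))
      rcases Finset.mem_union.1 hj with hj | hj
      · obtain ⟨P₁, r₁, h1, h2⟩ := hF j hj
        have h1 : x.p < P₁ := h1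
        refine ⟨P₁, r₁, by omega, ?_⟩
        rw [(key P₁ h1.le).1, (key P₁ h1.le).2]
        exact h2
      · obtain ⟨hjA, hC, ee, heK, h1, h2, h3⟩ := Finset.mem_filter.1 hj
        have hT := H.cl x hx hC
        have c1 : Cr x.p ee.1 ee.2 x.u x.u' := by
          rcases H.cases x hx hC ee heK with h | h | h
          exacts [absurd h h2, absurd h h3, h]
        refine ⟨x.p, ee.2, hT.close hx.xi he, ?_⟩
        rw [(key x.p le_rfl).1, (key x.p le_rfl).2,
          Finset.filter_true_of_mem (hT.gt hx.xi).1, Finset.filter_true_of_mem (hT.gt hx.xi).2,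
          ← h1]
        exact c1
    · rintro ⟨x, F⟩ ⟨hx, hF⟩
      have e1 : ((nxtM (nxH stp dv) (updF (crit it Cl K EvR EvL)) (x, F)).map
          fun p => p.1 * (0:ℝ)).sum = 0 := by simp
      rw [e1, add_zero]
      have e2 : crit it Cl K EvR EvL x ∩ F = ∅ := by
        rw [Finset.eq_empty_iff_forall_notMem]
        intro j hj
        obtain ⟨hj, hjF⟩ := Finset.mem_inter.1 hj
        obtain ⟨hjA, hC, ee, heK, h1, h2, h3⟩ := Finset.mem_filter.1 hj
        obtain ⟨P₁, r₁, h4, h5⟩ := hF j hjF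
        have c1 : Cr x.p ee.1 ee.2 x.u x.u' := by
          rcases H.cases x hx hC ee heK with h | h | h
          exacts [absurd h h2, absurd h h3, h]
        rcases H.again x hx hC ee heK P₁ r₁ h4 (by rw [h1]; exact h5) c1 with h | h
        exacts [h2 h, h3 h]
      show ∑ j ∈ crit it Cl K EvR EvL x ∩ F, mp m x j ≤ 0
      rw [e2]
      simp
  linarith

/-- **GAsm**: the assembly of module G -/
theorem gasm (H : GHyp stp dv m s₀ I it Cl K EvR EvL Cr gR gL loc) {x : XSt Λ κ}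
    (hx : GI dv m s₀ I x) :
    W (nxH stp dv) XSt.rank loc x ≤
      (∑ j ∈ x.s.A, m x.s.t j * (1 + E (GG (fun P a b => ind (EvL (it j) P a b) + gL j P a b) x.n
        (x.u ∪ mtD dv j x.s.t)) (wtI stp dv j x) x.u')) +
      ∑ j ∈ x.s.A', m x.s.t' j * E (GG (fun P a b => ind (EvR (it j) P a b) + gR j P a b) x.n
        (x.u' ∪ mtD dv j x.s.t')) (wtJ stp dv j x) x.u := by
  classical
  have hI : ∀ x, GI dv m s₀ I x → ∀ p ∈ nxH stp dv x, GI dv m s₀ I p.2 ∧ 0 ≤ p.1 := by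
    intro x hx q hq
    obtain ⟨e, he, rfl⟩ := List.mem_map.1 hq
    have := steps_w hx.tc.wL hx.tc.wR e he
    exact ⟨hx.next H.inv e he, mul_nonneg this.1.le this.2.le⟩
  set cL : Λ → XSt Λ κ → ℝ := fun j x =>
    if Cl x ∧ TT x then ind (EvL (it j) x.p x.u' x.u) + gL j x.p x.u' x.u else 0 with hcL
  set cR : Λ → XSt Λ κ → ℝ := fun j x =>
    if Cl x ∧ TT x then ind (EvR (it j) x.p x.u x.u') + gR j x.p x.u x.u' else 0 with hcR
  have hL0 : ∀ j P a b, 0 ≤ ind (EvL (it j) P a b) + gL j P a b := fun j P a b =>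
    add_nonneg (ind_nonneg _) (H.gL0 j P a b)
  have hR0 : ∀ j P a b, 0 ≤ ind (EvR (it j) P a b) + gR j P a b := fun j P a b =>
    add_nonneg (ind_nonneg _) (H.gR0 j P a b)
  have cL0 : ∀ j x, 0 ≤ cL j x := by
    intro j x
    simp only [hcL]
    split_ifs
    exacts [hL0 _ _ _ _, le_rfl]
  have cR0 : ∀ j x, 0 ≤ cR j x := by
    intro j x
    simp only [hcR]
    split_ifs
    exacts [hR0 _ _ _ _, le_rfl]
  have h0 := W_mono (nxH_rank stp dv) hI (f := loc)
    (g := fun x => ((∑ j ∈ crit it Cl K EvR EvL x, mp m x j) +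
      (∑ j ∈ x.s.A, m x.s.t j * cL j x)) + ∑ j ∈ x.s.A', m x.s.t' j * cR j x)
    (fun x hx => by
      by_cases hC : Cl x
      · have hT := H.cl x hx hC
        have e1 : ∀ j, cL j x = ind (EvL (it j) x.p x.u' x.u) + gL j x.p x.u' x.u := fun j =>
          if_pos ⟨hC, hT⟩
        have e2 : ∀ j, cR j x = ind (EvR (it j) x.p x.u x.u') + gR j x.p x.u x.u' := fun j =>
          if_pos ⟨hC, hT⟩
        simp only [e1, e2]
        exact loc_split H hx hC
      · refine ((H.loc_le x hx).1 hC).trans ?_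
        exact add_nonneg (add_nonneg (Finset.sum_nonneg fun j _ => mp_nonneg hx j)
          (Finset.sum_nonneg fun j _ => mul_nonneg (hx.tc.L.self.nn j) (cL0 j x)))
          (Finset.sum_nonneg fun j _ => mul_nonneg (hx.tc.R.self.nn j) (cR0 j x))) x hx
  rw [W_add (nxH_rank stp dv), W_add (nxH_rank stp dv)] at h0
  have h1 := first_le H hx
  have h1' : ∑ j, mp m x j = ∑ j ∈ x.s.A, m x.s.t j := by
    unfold mp
    rw [← Finset.sum_filter]
    congr 1
    ext j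
    simp
  rw [h1'] at h1
  have h2 := res_left (stp := stp) (dv := dv) (m := m) (I := GI dv m s₀ I)
    (fun x hx e he => hx.next H.inv e he) (loc := fun x => ∑ j ∈ x.s.A, m x.s.t j * cL j x)
    (c := cL) cL0 (fun x _ _ => le_rfl) x hx hx.tc
  have h3 := res_right (stp := stp) (dv := dv) (m := m) (I := GI dv m s₀ I)
    (fun x hx e he => hx.next H.inv e he) (loc := fun x => ∑ j ∈ x.s.A', m x.s.t' j * cR j x)
    (c := cR) cR0 (fun x _ _ => le_rfl) x hx hx.tc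
  have h4 : ∑ j ∈ x.s.A, m x.s.t j * W (nxI stp dv j) XSt.rank (cL j) x ≤
      ∑ j ∈ x.s.A, m x.s.t j * E (GG (fun P a b => ind (EvL (it j) P a b) + gL j P a b) x.n
        (x.u ∪ mtD dv j x.s.t)) (wtI stp dv j x) x.u' := by
    refine Finset.sum_le_sum fun j _ => mul_le_mul_of_nonneg_left ?_ (hx.tc.L.self.nn j)
    refine gap_left j (hL0 j) (J := fun _ => True) (fun _ _ _ _ _ => trivial)
      (fun x _ _ => ?_) hx.xi trivial
    by_cases hC : Cl x ∧ TT x
    · refine Or.inr ⟨hC.2, ?_⟩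
      simp only [hcL]
      rw [if_pos hC]
    · refine Or.inl ?_
      simp only [hcL]
      rw [if_neg hC]
  have h5 : ∑ j ∈ x.s.A', m x.s.t' j * W (nxJ stp dv j) XSt.rank (cR j) x ≤
      ∑ j ∈ x.s.A', m x.s.t' j * E (GG (fun P a b => ind (EvR (it j) P a b) + gR j P a b) x.n
        (x.u' ∪ mtD dv j x.s.t')) (wtJ stp dv j x) x.u := by
    refine Finset.sum_le_sum fun j _ => mul_le_mul_of_nonneg_left ?_ (hx.tc.R.self.nn j)
    refine gap_right j (hR0 j) (J := fun _ => True) (fun _ _ _ _ _ => trivial)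
      (fun x _ _ => ?_) hx.xi trivial
    by_cases hC : Cl x ∧ TT x
    · refine Or.inr ⟨hC.2, ?_⟩
      simp only [hcR]
      rw [if_pos hC]
    · refine Or.inl ?_
      simp only [hcR]
      rw [if_neg hC]
  have e1 : ∑ j ∈ x.s.A, m x.s.t j * (1 + E (GG (fun P a b => ind (EvL (it j) P a b) +
      gL j P a b) x.n (x.u ∪ mtD dv j x.s.t)) (wtI stp dv j x) x.u') =
      ∑ j ∈ x.s.A, m x.s.t j + ∑ j ∈ x.s.A, m x.s.t j * E (GG (fun P a b =>
        ind (EvL (it j) P a b) + gL j P a b) x.n (x.u ∪ mtD dv j x.s.t)) (wtI stp dv j x) x.u' := by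
    rw [← Finset.sum_add_distrib]
    exact Finset.sum_congr rfl fun j _ => by ring
  rw [e1]
  linarith

/-- the invariants at the start -/
lemma GI.st {n : ℕ} (hI : I (XSt.st n s₀)) (hL : s₀.t.All (IM dv m)) (hR : s₀.t'.All (IM dv m))
    (cL : s₀.t.Col n) (cR : s₀.t'.Col n) (hn : 0 < n) : GI dv m s₀ I (XSt.st n s₀) :=
  ⟨hI, ⟨hL, hR⟩, XI.st cL cR (max_lt (cL.top_lt hn) (cR.top_lt hn)) (hL.mono fun _ k => k.wn)
      (hR.mono fun _ k => k.wn),
    ⟨fun j hj h => ⟨hj, h, Finset.empty_union _⟩, fun j hj h => ⟨hj, h, Finset.empty_union _⟩⟩⟩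

/-- **GAsm for `WS`**, start state with empty history -/
theorem gasm_WS {loc : St Λ κ → ℝ}
    (H : GHyp stp dv m s₀ I it Cl K EvR EvL Cr gR gL (fun x => loc x.s)) {n : ℕ}
    (hI : I (XSt.st n s₀)) (hL : s₀.t.All (IM dv m)) (hR : s₀.t'.All (IM dv m))
    (cL : s₀.t.Col n) (cR : s₀.t'.Col n) (hn : 0 < n) :
    WS stp loc s₀ ≤
      (∑ j ∈ s₀.A, m s₀.t j * (1 + E (GG (fun P a b => ind (EvL (it j) P a b) + gL j P a b) n
        (mtD dv j s₀.t)) (wtI stp dv j (XSt.st n s₀)) ∅)) +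
      ∑ j ∈ s₀.A', m s₀.t' j * E (GG (fun P a b => ind (EvR (it j) P a b) + gR j P a b) n
        (mtD dv j s₀.t')) (wtJ stp dv j (XSt.st n s₀)) ∅ := by
  have h1 := WS_eq_H stp dv loc (XSt.st n s₀)
  have h2 := gasm H (GI.st hI hL hR cL cR hn)
  have e : (XSt.st n s₀).s = s₀ := rfl
  rw [e] at h1
  rw [h1]
  have eu : (XSt.st n s₀).u = ∅ := rfl
  have eu' : (XSt.st n s₀).u' = ∅ := rfl
  simp only [e, eu, eu', Finset.empty_union] at h2
  exact h2

end main

end Crest.Agent.R4P.Res927
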