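import Crest.Agent.R4P.GInstA194
import Crest.Agent.R4P.AvgSym710

/-!
R4 (S0004), POWERS: port of helper194's `R4/GInst194` to the tree with powers (helper820), part B:
masses and near misses on the decorated trees.
-/

set_option autoImplicit false
set_option linter.unusedSectionVars false
set_option linter.unusedVariables false
open MeasureTheory Filter

namespace Crest.Agent.R4P.GInst194

open Crest.Agent.R4.Tour104 Crest.Agent.R4.Tour758 Crest.Agent.R4.Avg758 Crest.Agent.R4.Clos758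
open Crest.Agent.R4.ClosL758 Crest.Agent.R4.ClosG758 Crest.Agent.R4.ClosR758
open Crest.Agent.R4.Fam464 Crest.Agent.R4P.Cnt588 Crest.Agent.R4P.Walk560 Crest.Agent.R4.Piece464
open Crest.Agent.R4P.Item758 Crest.Agent.R4.HVW560 Crest.Agent.R4P.AvgItem710

section state
variable {Λ κ : Type*} [Fintype Λ] [DecidableEq Λ] [Fintype κ] [DecidableEq κ] [WRel κ]
  {D : Item758.Par Λ κ} {sp : ℕ → Finset Λ} {ρ : ℕ → ℝ} {s : St Λ κ} {b pr b' pr' : ℕ}
  {t : IT} {A : Finset Λ}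

/-- integral mass of the pieces of an item on a decorated tree -/
noncomputable def mI (d : DT Λ κ) (j : Λ) : ℝ := I (d.g.val j)

/-- the same on the decorated tree of a side -/
lemma SideI_mI {sp : ℕ → Finset Λ} {d : DT Λ κ} (h : SideI D sp b pr t A d) (j : Λ) :
    mI d j = I ((D.toFT b pr t).U 1 j) := by
  unfold mI
  rw [h.val]

/-- mass of the item `q` at one side of a state -/
noncomputable def mq (D : Item758.Par Λ κ) (d : DT Λ κ) (A : Finset Λ) (q : ℕ) : ℝ :=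
  ∑ j ∈ A.filter (fun j => D.it j = q), mI d j

/-- exact form of the near misses of a pair of columns -/
theorem eNM_le_iF {p : ℕ} {Sq Sq' : Finset ℕ} {t₁ t₀ t₁' t₀' : IT}
    (h : StI D sp s b pr (.br p Sq t₁ t₀) b' pr' (.br p Sq' t₁' t₀')) (stp : Stp Λ κ) :
    eNM stp s ≤ ∑ e ∈ D.PE (Ro (D.rho p)) (D.uA s.M (b * p) pr t₀ s.A p)
        (D.uA s.M' (b' * p) pr' t₀' s.A' p),
      D.iF (Ro (D.rho p)) (D.uA s.M (b * p) pr t₀ s.A p) (D.uA s.M' (b' * p) pr' t₀' s.A' p) e := by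
  have hL := h.L
  have hR' := h.R
  have h0 : 0 ≤ ∑ e ∈ D.PE (Ro (D.rho p)) (D.uA s.M (b * p) pr t₀ s.A p)
      (D.uA s.M' (b' * p) pr' t₀' s.A' p),
      D.iF (Ro (D.rho p)) (D.uA s.M (b * p) pr t₀ s.A p) (D.uA s.M' (b' * p) pr' t₀' s.A' p) e :=
    Finset.sum_nonneg fun e _ => D.iF_nonneg _
      (fun j y => (PB_uA h.M0 hL.br₀.hb hL.br₀.hF hL.br₀.hW (Dvd.intro_left b rfl) j).nonneg y)
      (fun j y => (PB_uA h.M0' hR'.br₀.hb hR'.br₀.hF hR'.br₀.hW (Dvd.intro_left b' rfl) j).nonneg y)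
      e
  unfold eNM
  split_ifs with k1 k2 k3
  · exact h0
  · exact h0
  · exact h0
  · rcases hv : vw s.p s.t with ⟨w, r, u₁, u₀, v, B, G⟩ | ⟨r, u₁, u₀⟩ | ⟨Sp, u⟩ <;>
    rcases hv' : vw s.p s.t' with ⟨w', r', u₁', u₀', v', B', G'⟩ | ⟨r', u₁', u₀'⟩ | ⟨Sp', u'⟩ <;>
    try exact h0
    have e1 := h.L.eq.symm.trans (vw_br hv)
    have e2 := h.R.eq.symm.trans (vw_br hv')
    rcases toDT_br e1 with ⟨Sp, τ₁, τ₀, hτ, hr, -, -, -, hG⟩ | ⟨τ₁, hτ, -⟩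
    swap
    · cases hτ
    rcases toDT_br e2 with ⟨Sp', τ₁', τ₀', hτ', hr', -, -, -, hG'⟩ | ⟨τ₁', hτ', -⟩
    swap
    · cases hτ'
    injection hτ with a1 _ a2 a3
    injection hτ' with a1' _ a2' a3'
    subst a2 a3 a2' a3'
    rw [← D.Q_eq]
    rw [hr, hG, hG', ← a1]
    exact Q_offd_le hL.sat_br hR'.sat_br h.M0 h.M0' hL.pb_G hR'.pb_G hL.pb_g hR'.pb_g hL.G_le
      hR'.G_le

/-- **(H1) for the `[E]` part of an NM column**, masses = integral masses of the state -/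
theorem NM_E_le (hR : D.Rad ρ) (hab : ∀ j, D.al j ≤ D.be j) {p : ℕ} {Sq Sq' : Finset ℕ}
    {t₁ t₀ t₁' t₀' : IT}
    (h : StI D sp s b pr (.br p Sq t₁ t₀) b' pr' (.br p Sq' t₁' t₀')) {N : ℝ → ℝ}
    {P : Finset (ℕ × ℕ)} {N₁ N₁' : ℕ} (hN : 0 < N₁) (hN' : 0 < N₁')
    (hP : ∀ e ∈ P, e.1 ∈ t₀.items ∧ e.2 ∈ t₀'.items ∧
      EP N D.γ ρ s.M (b * p) pr p s.M' (b' * p) pr' p e ∧
        rf (e.1 / pr) s.M ∣ N₁ ∧ rf (e.2 / pr') s.M' ∣ N₁') :
    ∑ e ∈ P, D.iF (Ro (D.rho p)) (D.uA s.M (b * p) pr t₀ s.A p)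
        (D.uA s.M' (b' * p) pr' t₀' s.A' p) e ≤
      ∑ e ∈ P.filter (fun e => rf (e.1 / pr) s.M = 1 ∧ rf (e.2 / pr') s.M' = 1),
        min (mq D s.t s.A e.1) (mq D s.t' s.A' e.2) +
      (xs N₁' * ∑ j ∈ s.A.filter (fun j => D.it j ∈ t₀.items), mI s.t j +
        xs N₁ * ∑ j ∈ s.A'.filter (fun j => D.it j ∈ t₀'.items), mI s.t' j) := by
  have hL := h.L
  have hR' := h.R
  have k1 : ∀ q ∈ t₀.items, mU D (b * p) pr p t₀ s.A q = mq D s.t s.A q := fun q hq => by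
    rw [mU_col hab hL.hb hL.hF hL.hW s.A hq]
    exact Finset.sum_congr rfl fun j _ => (SideI_mI hL j).symm
  have k2 : ∀ q ∈ t₀'.items, mU D (b' * p) pr' p t₀' s.A' q = mq D s.t' s.A' q := fun q hq => by
    rw [mU_col hab hR'.hb hR'.hF hR'.hW s.A' hq]
    exact Finset.sum_congr rfl fun j _ => (SideI_mI hR' j).symm
  have key := E_sum_le (A := s.A) (A' := s.A') hR h.M0 h.M0' hL.br₀.hb hR'.br₀.hb hL.br₀.hF
    hR'.br₀.hF hL.br₀.hW hR'.br₀.hW (Dvd.intro_left b rfl) (Dvd.intro_left b' rfl)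
    (Ro (D.rho p)) hN hN' hP
  refine key.trans (le_of_eq ?_)
  have f1 : ∀ (B : Finset Λ) (d : DT Λ κ) (T : Finset ℕ),
      ∑ q ∈ T, mq D d B q = ∑ j ∈ B.filter (fun j => D.it j ∈ T), mI d j := by
    intro B d T
    unfold mq
    rw [← Finset.sum_fiberwise_of_maps_to (s := B.filter (fun j => D.it j ∈ T)) (t := T)
      (g := D.it) (fun j hj => (Finset.mem_filter.1 hj).2)]
    refine Finset.sum_congr rfl fun q hq => Finset.sum_congr ?_ fun _ _ => rfl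
    ext j
    simp only [Finset.mem_filter]
    constructor
    · rintro ⟨h1, h2⟩; exact ⟨⟨h1, h2 ▸ hq⟩, h2⟩
    · rintro ⟨⟨h1, _⟩, h2⟩; exact ⟨h1, h2⟩
  rw [← f1, ← f1, Finset.sum_congr rfl k1, Finset.sum_congr rfl k2]
  congr 1
  refine Finset.sum_congr rfl fun e he => ?_
  obtain ⟨h1, h2, -⟩ := hP e (Finset.mem_filter.1 he).1
  rw [k1 _ h1, k2 _ h2]

end state

end Crest.Agent.R4P.GInst194
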