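import Crest.Agent.R4.GInst194
import Crest.Agent.R4P.AvgSymA710

/-!
R4 (S0004), POWERS: port of helper194's `R4/GInst194` to the tree with powers (helper820), part A: no
decorated trees; the tree-free names are exported from `R4.GInst194`.
-/

set_option autoImplicit false
set_option linter.unusedSectionVars false
set_option linter.unusedVariables false
open MeasureTheory Filter

namespace Crest.Agent.R4P.GInst194

export Crest.Agent.R4.GInst194 (fam_pair_le_left xs xs_nonneg one_side match_sum rg rg_eq EP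
  EPair_congr EP_iff gcd_of_rf mod_inj)

open Crest.Agent.R4.Tour104 Crest.Agent.R4.Tour758 Crest.Agent.R4.Avg758 Crest.Agent.R4.Clos758
open Crest.Agent.R4.ClosL758 Crest.Agent.R4.ClosG758 Crest.Agent.R4.ClosR758
open Crest.Agent.R4.Fam464 Crest.Agent.R4P.Cnt588 Crest.Agent.R4.Piece464
open Crest.Agent.R4P.Item758 Crest.Agent.R4.HVW560 Crest.Agent.R4P.AvgItem710

section state
variable {Λ κ : Type*} [Fintype Λ] [DecidableEq Λ] [Fintype κ] [DecidableEq κ]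
  {D : Item758.Par Λ κ} {ρ : ℕ → ℝ} {M M' b pr c b' pr' c' : ℕ} {t t' : IT} {A A' : Finset Λ}

/-- mass (integral of the functions) of the pieces of the item `q` in the population `A` -/
noncomputable def mU (D : Item758.Par Λ κ) (b pr c : ℕ) (t : IT) (A : Finset Λ) (q : ℕ) : ℝ :=
  ∑ j ∈ A.filter (fun j => D.it j = q), I ((D.toFT b pr t).U c j)

lemma mU_nonneg (hb : 0 < b) (hF : Fit b pr t) (hW : D.Wts pr t) (hc : c ∣ b) (A : Finset Λ)
    (q : ℕ) : 0 ≤ mU D b pr c t A q :=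
  Finset.sum_nonneg fun j _ => I_nonneg (FT.pb hb (D.toFT_Adm t b pr hb hF hW) hc j).nonneg

/-- the energy of an item pair is a sum over the pieces of the two items -/
theorem iF_le_prod (hM : 0 < M) (hM' : 0 < M') (hb : 0 < b) (hb' : 0 < b')
    (hF : Fit b pr t) (hF' : Fit b' pr' t') (hW : D.Wts pr t) (hW' : D.Wts pr' t') (hc : c ∣ b)
    (hc' : c' ∣ b') (R : Finset (Λ × Λ)) (A A' : Finset Λ) (e : ℕ × ℕ) :
    D.iF R (D.uA M b pr t A c) (D.uA M' b' pr' t' A' c') e ≤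
      ∑ j ∈ A.filter (fun j => D.it j = e.1), ∑ j' ∈ A'.filter (fun j => D.it j = e.2),
        I (fun y => Ep M ((D.toFT b pr t).U c j) y * Ep M' ((D.toFT b' pr' t').U c' j') y) := by
  unfold Par.iF
  rw [← Finset.sum_product']
  have hsub : ∀ x ∈ R.filter (fun x => (D.it x.1, D.it x.2) = e),
      x ∉ (A.filter fun j => D.it j = e.1) ×ˢ (A'.filter fun j => D.it j = e.2) →
      I (fun y => D.uA M b pr t A c x.1 y * D.uA M' b' pr' t' A' c' x.2 y) = 0 := by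
    intro x hx hx'
    by_contra h
    obtain ⟨y, h5, h6⟩ := exists_of_I_ne h
    apply hx'
    have h3 := (Finset.mem_filter.1 hx).2
    have h7 : x.1 ∈ A := by
      by_contra h
      exact h5 (uA_zero hM (fun k => h k.1) y)
    have h8 : x.2 ∈ A' := by
      by_contra h
      exact h6 (uA_zero hM' (fun k => h k.1) y)
    rw [← h3]
    exact Finset.mem_product.2 ⟨Finset.mem_filter.2 ⟨h7, rfl⟩, Finset.mem_filter.2 ⟨h8, rfl⟩⟩
  rw [← Finset.sum_filter_add_sum_filter_not (R.filter (fun x => (D.it x.1, D.it x.2) = e))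
    (fun x => x ∈ (A.filter fun j => D.it j = e.1) ×ˢ (A'.filter fun j => D.it j = e.2))]
  rw [Finset.sum_eq_zero (s := (R.filter (fun x => (D.it x.1, D.it x.2) = e)).filter
    (fun x => ¬ x ∈ (A.filter fun j => D.it j = e.1) ×ˢ (A'.filter fun j => D.it j = e.2)))
    (fun x hx => hsub x (Finset.mem_filter.1 hx).1 (Finset.mem_filter.1 hx).2), add_zero]
  have hval : ∀ x ∈ (A.filter fun j => D.it j = e.1) ×ˢ (A'.filter fun j => D.it j = e.2),
      I (fun y => D.uA M b pr t A c x.1 y * D.uA M' b' pr' t' A' c' x.2 y) =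
      I (fun y => Ep M ((D.toFT b pr t).U c x.1) y * Ep M' ((D.toFT b' pr' t').U c' x.2) y) := by
    intro x hx
    obtain ⟨h1, h2⟩ := Finset.mem_product.1 hx
    unfold Par.uA avg
    rw [rv_of_mem (Finset.mem_filter.1 h1).1, rv_of_mem (Finset.mem_filter.1 h2).1]
  refine le_trans (Finset.sum_le_sum_of_subset_of_nonneg (t := (A.filter fun j => D.it j = e.1) ×ˢ
    (A'.filter fun j => D.it j = e.2)) (fun x hx => (Finset.mem_filter.1 hx).2) fun x _ _ => ?_)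
    (Finset.sum_congr rfl hval).le
  exact I_nonneg fun y => mul_nonneg ((PB_uA hM hb hF hW hc _).nonneg y)
    ((PB_uA hM' hb' hF' hW' hc' _).nonneg y)

/-- **left bound** -/
theorem iF_le_left (hR : D.Rad ρ) (hM : 0 < M) (hM' : 0 < M') (hb : 0 < b) (hb' : 0 < b')
    (hF : Fit b pr t) (hF' : Fit b' pr' t') (hW : D.Wts pr t) (hW' : D.Wts pr' t') (hc : c ∣ b)
    (hc' : c' ∣ b') (R : Finset (Λ × Λ)) (A A' : Finset Λ) (e : ℕ × ℕ)
    (he' : e.2 ∈ t'.items) (hs : (rf (e.2 / pr') M' : ℝ) * ((b' : ℝ) / c' * ρ e.2) ≤ 1 / 2) :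
    D.iF R (D.uA M b pr t A c) (D.uA M' b' pr' t' A' c') e ≤
      1 / (rf (e.2 / pr') M' : ℝ) * mU D b pr c t A e.1 :=
  (iF_le_prod hM hM' hb hb' hF hF' hW hW' hc hc' R A A' e).trans
    (fam_pair_le_left (fun j _ => FT.pb hb (D.toFT_Adm t b pr hb hF hW) hc j)
      (fam_node hR hb' hF' hW' hc' he' A') hM hM' hs)

/-- **right bound** -/
theorem iF_le_right (hR : D.Rad ρ) (hM : 0 < M) (hM' : 0 < M') (hb : 0 < b) (hb' : 0 < b')
    (hF : Fit b pr t) (hF' : Fit b' pr' t') (hW : D.Wts pr t) (hW' : D.Wts pr' t') (hc : c ∣ b)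
    (hc' : c' ∣ b') (R : Finset (Λ × Λ)) (A A' : Finset Λ) (e : ℕ × ℕ)
    (he : e.1 ∈ t.items) (hs : (rf (e.1 / pr) M : ℝ) * ((b : ℝ) / c * ρ e.1) ≤ 1 / 2) :
    D.iF R (D.uA M b pr t A c) (D.uA M' b' pr' t' A' c') e ≤
      1 / (rf (e.1 / pr) M : ℝ) * mU D b' pr' c' t' A' e.2 := by
  refine (iF_le_prod hM hM' hb hb' hF hF' hW hW' hc hc' R A A' e).trans ?_
  rw [Finset.sum_comm]
  have h := fam_pair_le_left (M := M') (fun j (_ : j ∈ A'.filter (fun j => D.it j = e.2)) =>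
      FT.pb hb' (D.toFT_Adm t' b' pr' hb' hF' hW') hc' j)
      (fam_node hR hb hF hW hc he A) hM' hM hs
  refine le_trans (le_of_eq ?_) h
  refine Finset.sum_congr rfl fun j' _ => Finset.sum_congr rfl fun j _ => ?_
  congr 1
  funext y
  ring

end state

section sums
variable {Λ κ : Type*} [Fintype Λ] [DecidableEq Λ] [Fintype κ] [DecidableEq κ]
  {D : Item758.Par Λ κ} {ρ : ℕ → ℝ} {M M' b pr c b' pr' c' : ℕ} {t t' : IT} {A A' : Finset Λ}

/-- **THE `[E]` PART OF A SYMBOL**: `K` = the pairs with raising factors one (a partial matching,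
`K_left`, `K_right`), the other groups cost `xs`. -/
theorem E_sum_le (hR : D.Rad ρ) (hM : 0 < M) (hM' : 0 < M') (hb : 0 < b) (hb' : 0 < b')
    (hF : Fit b pr t) (hF' : Fit b' pr' t') (hW : D.Wts pr t) (hW' : D.Wts pr' t') (hc : c ∣ b)
    (hc' : c' ∣ b') (R : Finset (Λ × Λ)) {N : ℝ → ℝ} {P : Finset (ℕ × ℕ)} {N₁ N₁' : ℕ}
    (hN : 0 < N₁) (hN' : 0 < N₁')
    (hP : ∀ e ∈ P, e.1 ∈ t.items ∧ e.2 ∈ t'.items ∧
      EP N D.γ ρ M b pr c M' b' pr' c' e ∧ rf (e.1 / pr) M ∣ N₁ ∧ rf (e.2 / pr') M' ∣ N₁') :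
    ∑ e ∈ P, D.iF R (D.uA M b pr t A c) (D.uA M' b' pr' t' A' c') e ≤
      ∑ e ∈ P.filter (fun e => rf (e.1 / pr) M = 1 ∧ rf (e.2 / pr') M' = 1),
        min (mU D b pr c t A e.1) (mU D b' pr' c' t' A' e.2) +
      (xs N₁' * ∑ q ∈ t.items, mU D b pr c t A q +
        xs N₁ * ∑ r ∈ t'.items, mU D b' pr' c' t' A' r) := by
  have hd : ∀ e ∈ P, pr ∣ e.1 := fun e he => (hF.item _ (hP e he).1).2.1
  have hd' : ∀ e ∈ P, pr' ∣ e.2 := fun e he => (hF'.item _ (hP e he).2.1).2.1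
  refine match_sum (m := fun q => rf (q / pr) M) (m' := fun r => rf (r / pr') M') hN hN'
    (fun e he => Finset.mem_product.2 ⟨(hP e he).1, (hP e he).2.1⟩)
    (fun q _ => mU_nonneg hb hF hW hc A q) (fun q _ => mU_nonneg hb' hF' hW' hc' A' q)
    (fun e he => (hP e he).2.2.2.1) (fun e he => (hP e he).2.2.2.2)
    (fun e he => ?_) (fun e he => ?_) (fun q r₁ r₂ k1 k2 k3 => ?_) fun q₁ q₂ r k1 k2 k3 => ?_
  · obtain ⟨h1, h2, h3, -⟩ := hP e he
    exact iF_le_left hR hM hM' hb hb' hF hF' hW hW' hc hc' R A A' e h2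
      (h3.small (hd e he) (hd' e he)).2
  · obtain ⟨h1, h2, h3, -⟩ := hP e he
    exact iF_le_right hR hM hM' hb hb' hF hF' hW hW' hc hc' R A A' e h1
      (h3.small (hd e he) (hd' e he)).1
  · exact Crest.Agent.R4.GInst194.EP.uniq hM' (hd' _ k1) (hd' _ k2) (hP _ k1).2.2.1 (hP _ k2).2.2.1 k3
  · exact Crest.Agent.R4.GInst194.EP.uniq' hM (hd _ k1) (hd _ k2) (hP _ k1).2.2.1 (hP _ k2).2.2.1 k3

/-- the pairs with raising factors one form a partial matching -/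
theorem K_match (hM : 0 < M) (hM' : 0 < M') (hF : Fit b pr t) (hF' : Fit b' pr' t') {N : ℝ → ℝ}
    {P : Finset (ℕ × ℕ)} (hP : ∀ e ∈ P, e.1 ∈ t.items ∧ e.2 ∈ t'.items ∧
      EP N D.γ ρ M b pr c M' b' pr' c' e ∧ rf (e.1 / pr) M = 1 ∧ rf (e.2 / pr') M' = 1) :
    (∀ q r₁ r₂, (q, r₁) ∈ P → (q, r₂) ∈ P → r₁ = r₂) ∧
      ∀ q₁ q₂ r, (q₁, r) ∈ P → (q₂, r) ∈ P → q₁ = q₂ := by
  have hd : ∀ e ∈ P, pr ∣ e.1 := fun e he => (hF.item _ (hP e he).1).2.1
  have hd' : ∀ e ∈ P, pr' ∣ e.2 := fun e he => (hF'.item _ (hP e he).2.1).2.1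
  refine ⟨fun q r₁ r₂ k1 k2 => ?_, fun q₁ q₂ r k1 k2 => ?_⟩
  · exact Crest.Agent.R4.GInst194.EP.uniq hM' (hd' _ k1) (hd' _ k2) (hP _ k1).2.2.1 (hP _ k2).2.2.1
      ((hP _ k1).2.2.2.2.trans (hP _ k2).2.2.2.2.symm)
  · exact Crest.Agent.R4.GInst194.EP.uniq' hM (hd _ k1) (hd _ k2) (hP _ k1).2.2.1 (hP _ k2).2.2.1
      ((hP _ k1).2.2.2.1.trans (hP _ k2).2.2.2.1.symm)

/-! ### masses -/

/-- un-raised functions below a tie: the mass of the missing item is the mass at the tie -/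
theorem mU_col (hab : ∀ j, D.al j ≤ D.be j) {p : ℕ} {Sp : Finset ℕ} {t₁ t₀ : IT} (hb : 0 < b)
    (hF : Fit b pr (.br p Sp t₁ t₀)) (hW : D.Wts pr (.br p Sp t₁ t₀)) (A : Finset Λ) {q : ℕ}
    (hq : q ∈ t₀.items) :
    mU D (b * p) pr p t₀ A q = ∑ j ∈ A.filter (fun j => D.it j = q),
      I ((D.toFT b pr (.br p Sp t₁ t₀)).U 1 j) := by
  unfold mU
  refine Finset.sum_congr rfl fun j hj => ?_
  have hj' : D.it j = q := (Finset.mem_filter.1 hj).2
  have hp : p.Prime := hF.1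
  have hpR : (p : ℝ) ≠ 0 := by exact_mod_cast hp.ne_zero
  have h1 := D.I_U hab t₀ (b * p) pr p (Nat.mul_pos hb hp.pos) hF.2.2.2.2 hW.br₀
    (Dvd.intro_left b rfl) j (hj' ▸ hq)
  have h2 := D.I_U hab (.br p Sp t₁ t₀) b pr 1 hb hF hW (one_dvd _) j
    (Finset.mem_union.2 (Or.inr (hj' ▸ hq)))
  rw [h1, h2]
  have e1 : prf (.br p Sp t₁ t₀) (D.it j) = prf t₀ (D.it j) := if_pos (hj' ▸ hq)
  have e2 : pp (.br p Sp t₁ t₀) (D.it j) = pp t₀ (D.it j) := if_pos (hj' ▸ hq)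
  rw [e1, e2]
  push_cast
  rw [mul_div_cancel_right₀ _ hpR, div_one]

/-- total mass = sum over the items -/
lemma sum_mU (hb : 0 < b) (hF : Fit b pr t) (hW : D.Wts pr t) (hc : c ∣ b) (A : Finset Λ) :
    ∑ q ∈ t.items, mU D b pr c t A q =
      ∑ j ∈ A.filter (fun j => D.it j ∈ t.items), I ((D.toFT b pr t).U c j) := by
  unfold mU
  rw [← Finset.sum_fiberwise_of_maps_to (s := A.filter (fun j => D.it j ∈ t.items)) (t := t.items)
    (g := D.it) (fun j hj => (Finset.mem_filter.1 hj).2)]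
  refine Finset.sum_congr rfl fun q hq => Finset.sum_congr ?_ fun _ _ => rfl
  ext j
  simp only [Finset.mem_filter]
  constructor
  · rintro ⟨h1, h2⟩; exact ⟨⟨h1, h2 ▸ hq⟩, h2⟩
  · rintro ⟨⟨h1, _⟩, h2⟩; exact ⟨h1, h2⟩

/-- raw mass of a piece at a node -/
theorem I_U_le_raw (hab : ∀ j, D.al j ≤ D.be j) (hb : 0 < b) (hF : Fit b pr t)
    (hW : D.Wts pr t) (hc : c ∣ b) {C : ℝ} {j : Λ} (hj : D.it j ∈ t.items)
    (hpos : 0 ≤ prf t (D.it j)) {raw : ℝ}
    (hom : prf t (D.it j) * mnw (D.it j / (pr * pp t (D.it j))) (D.om j) ≤ C * raw) :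
    I ((D.toFT b pr t).U c j) ≤ C * ((b : ℝ) / c * (D.be j - D.al j) * raw) := by
  rw [D.I_U hab t b pr c hb hF hW hc j hj]
  have h1 : 0 ≤ (b : ℝ) / c * (D.be j - D.al j) :=
    mul_nonneg (by positivity) (sub_nonneg.2 (hab j))
  calc _ = (b : ℝ) / c * (D.be j - D.al j) *
        (prf t (D.it j) * mnw (D.it j / (pr * pp t (D.it j))) (D.om j)) := by ring
    _ ≤ (b : ℝ) / c * (D.be j - D.al j) * (C * raw) := mul_le_mul_of_nonneg_left hom h1
    _ = _ := by ring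

end sums

end Crest.Agent.R4P.GInst194
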