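import Crest.Agent.R4.GInst194
import Crest.Agent.R4P.Walk560

/-!
R4 powers pass (S0004), helper800: **structure of the averaging moduli** on the tree with powers
(`MS n M O`: the primes of `M` are exactly the one-sided columns `O`, all at least the level `n`; no retained
SEP primes, so there is no common factor) and the bound of the groups of an `[E]` part:
`xs M = ∑_{d ∣ M, d ≠ 1} 1/d ≤ 2 ∑_{l ∣ M} 1/l` also for moduli which are not squarefree.
-/

set_option autoImplicit false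

namespace Crest.Agent.R4P.GSt927

open Crest.Agent.R4P.Walk560 (dwn)

/-- the primes of `M` are the one-sided columns `O`, all at least the level `n` -/
structure MS (n M : ℕ) (O : Finset ℕ) : Prop where
  pos : 0 < M
  eq : M.primeFactors = O
  ge : ∀ l ∈ O, n ≤ l

lemma MS.prime {n M : ℕ} {O : Finset ℕ} (h : MS n M O) {l : ℕ} (hl : l ∈ O) : l.Prime := by
  rw [← h.eq] at hl
  exact Nat.prime_of_mem_primeFactors hl

lemma MS.geM {n M : ℕ} {O : Finset ℕ} (h : MS n M O) {l : ℕ} (hl : l.Prime) (hd : l ∣ M) : n ≤ l :=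
  h.ge l (by rw [← h.eq]; exact Nat.mem_primeFactors.2 ⟨hl, hd, h.pos.ne'⟩)

lemma MS.mem {n M : ℕ} {O : Finset ℕ} (h : MS n M O) {l : ℕ} (hl : l.Prime) :
    l ∈ O ↔ l ∣ M := by
  rw [← h.eq]
  exact ⟨fun h => Nat.dvd_of_mem_primeFactors h, fun hd => Nat.mem_primeFactors.2 ⟨hl, hd, h.pos.ne'⟩⟩

lemma MS.one {n : ℕ} : MS n 1 ∅ := ⟨one_pos, by simp, fun l hl => absurd hl (Finset.notMem_empty l)⟩

lemma MS.down {n m M : ℕ} {O : Finset ℕ} (h : MS n M O) (hm : m ≤ n) : MS m M O :=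
  ⟨h.pos, h.eq, fun l hl => hm.trans (h.ge l hl)⟩

/-- one-sided column or pull of the other side -/
lemma MS.mul {n p M : ℕ} {O : Finset ℕ} (h : MS n M O) (hp : p ≤ n) (hpp : p.Prime) :
    MS p (p * M) (insert p O) := by
  refine ⟨Nat.mul_pos hpp.pos h.pos, ?_, fun l hl => ?_⟩
  · rw [Nat.primeFactors_mul hpp.ne_zero h.pos.ne', hpp.primeFactors, h.eq]
    rfl
  · rcases Finset.mem_insert.1 hl with rfl | hl
    · exact le_rfl
    · exact hp.trans (h.ge l hl)

open Classical in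
/-- free step -/
lemma MS.free {n p M : ℕ} {O : Finset ℕ} (h : MS n M O) (hp : p ≤ n) (hpp : p.Prime)
    (hd : p ∣ M) : MS p (M / p) (dwn p (M / p) O) := by
  obtain ⟨k, hk⟩ := hd
  have hk0 : 0 < k := by
    rcases Nat.eq_zero_or_pos k with h0 | h0
    · have := h.pos; rw [hk, h0] at this; omega
    · exact h0
  have e : M / p = k := by rw [hk]; exact Nat.mul_div_cancel_left k hpp.pos
  have eO : O = insert p k.primeFactors := by
    rw [← h.eq, hk, Nat.primeFactors_mul hpp.ne_zero hk0.ne', hpp.primeFactors]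
    rfl
  rw [e]
  have h1 : k.primeFactors = dwn p k O := by
    unfold dwn
    split_ifs with h2
    · rw [eO, Finset.insert_eq_of_mem (Nat.mem_primeFactors.2 ⟨hpp, h2, hk0.ne'⟩)]
    · rw [eO, Finset.erase_insert]
      exact fun h3 => h2 (Nat.dvd_of_mem_primeFactors h3)
  refine ⟨hk0, h1, fun l hl => hp.trans (h.ge l ?_)⟩
  rw [← h1] at hl
  rw [eO]
  exact Finset.mem_insert_of_mem hl

/-! ### `xs` -/

/-- `(∑_{d ∣ M} 1/d) ∏_{l ∣ M} (1 - 1/l) ≤ 1` -/
lemma sum_div_mul_le (M : ℕ) :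
    (∑ d ∈ M.divisors, (1 : ℝ) / d) * ∏ l ∈ M.primeFactors, (1 - 1 / (l : ℝ)) ≤ 1 := by
  classical
  induction M using Nat.recOnPosPrimePosCoprime with
  | zero => simp
  | one => simp
  | prime_pow p n hp hn =>
    rw [Nat.divisors_prime_pow hp, Finset.sum_map, Nat.primeFactors_prime_pow hn.ne' hp,
      Finset.prod_singleton]
    have hp1 : (1 : ℝ) < p := by exact_mod_cast hp.one_lt
    have hp0 : (0 : ℝ) < p := by linarith
    set x : ℝ := 1 / (p : ℝ) with hx
    have e1 : ∑ i ∈ Finset.range (n + 1), (1 : ℝ) / (((⟨(p ^ ·), Nat.pow_right_injective hp.two_le⟩ :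
        ℕ ↪ ℕ) i : ℕ) : ℝ) = ∑ i ∈ Finset.range (n + 1), x ^ i := by
      refine Finset.sum_congr rfl fun i _ => ?_
      show (1 : ℝ) / (((p ^ i : ℕ)) : ℝ) = x ^ i
      rw [hx, one_div_pow]
      push_cast
      rfl
    rw [e1, geom_sum_mul_neg]
    have : 0 ≤ x ^ (n + 1) := by positivity
    linarith
  | coprime a b ha hb hab iha ihb =>
    have e1 : (a * b).divisors = (a.divisors ×ˢ b.divisors).image fun x => x.1 * x.2 := by
      rw [Nat.divisors_mul, Finset.mul_def]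
    rw [e1, Finset.sum_image hab.mul_injOn_divisors, Finset.sum_product,
      Nat.primeFactors_mul (by omega) (by omega), Finset.prod_union hab.disjoint_primeFactors]
    have e2 : ∀ x ∈ a.divisors, ∑ y ∈ b.divisors, (1 : ℝ) / ((x * y : ℕ) : ℝ) =
        1 / (x : ℝ) * ∑ y ∈ b.divisors, (1 : ℝ) / y := by
      intro x _
      rw [Finset.mul_sum]
      refine Finset.sum_congr rfl fun y _ => ?_
      push_cast
      rw [one_div_mul_one_div]
    rw [Finset.sum_congr rfl e2, ← Finset.sum_mul]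
    have nn : ∀ m : ℕ, 0 ≤ ∏ l ∈ m.primeFactors, (1 - 1 / (l : ℝ)) := fun m =>
      Finset.prod_nonneg fun l hl => by
        have h1 : (1 : ℝ) ≤ l := by exact_mod_cast (Nat.prime_of_mem_primeFactors hl).one_lt.le
        have h2 : 1 / (l : ℝ) ≤ 1 := by
          rw [div_le_one (by linarith)]; exact h1
        linarith
    have hb0 : 0 ≤ (∑ y ∈ b.divisors, (1 : ℝ) / y) * ∏ l ∈ b.primeFactors, (1 - 1 / (l : ℝ)) :=
      mul_nonneg (Finset.sum_nonneg fun y _ => by positivity) (nn b)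
    calc _ = ((∑ x ∈ a.divisors, (1 : ℝ) / x) * ∏ l ∈ a.primeFactors, (1 - 1 / (l : ℝ))) *
          ((∑ y ∈ b.divisors, (1 : ℝ) / y) * ∏ l ∈ b.primeFactors, (1 - 1 / (l : ℝ))) := by ring
      _ ≤ 1 * 1 := mul_le_mul iha ihb hb0 zero_le_one
      _ = 1 := one_mul 1

/-- **`xs M ≤ 2 ∑_{l ∣ M} 1/l`** if the sum is at most one half -/
theorem xs_le {M : ℕ} (hM : 0 < M) (h : ∑ l ∈ M.primeFactors, (1 : ℝ) / l ≤ 1 / 2) :
    Crest.Agent.R4.GInst194.xs M ≤ 2 * ∑ l ∈ M.primeFactors, (1 : ℝ) / l := by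
  classical
  have h1 := sum_div_mul_le M
  have h3 : ∑ d ∈ M.divisors, (1 : ℝ) / d = Crest.Agent.R4.GInst194.xs M + 1 := by
    unfold Crest.Agent.R4.GInst194.xs
    rw [← Finset.sum_erase_add _ _ (Nat.one_mem_divisors.2 hM.ne')]
    simp
  have h2 : ∀ s : Finset ℕ, (∀ l ∈ s, Nat.Prime l) →
      1 - ∑ l ∈ s, (1 : ℝ) / l ≤ ∏ l ∈ s, (1 - 1 / (l : ℝ)) := by
    intro s
    induction s using Finset.induction_on with
    | empty => simp
    | insert a s ha ih =>
      intro hs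
      rw [Finset.sum_insert ha, Finset.prod_insert ha]
      have h1 := ih fun p hp => hs p (Finset.mem_insert_of_mem hp)
      have ha1 : (1 : ℝ) < a := by exact_mod_cast (hs a (Finset.mem_insert_self _ _)).one_lt
      have h2 : 1 / (a : ℝ) ≤ 1 := by rw [div_le_one (by linarith)]; exact ha1.le
      have h5 : 0 ≤ 1 / (a : ℝ) := by positivity
      have h4 : 0 ≤ ∑ p ∈ s, 1 / (p : ℝ) := Finset.sum_nonneg fun p _ => by positivity
      nlinarith [mul_le_mul_of_nonneg_left h1 (sub_nonneg.2 h2), mul_nonneg h5 h4]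
  have h4 := h2 M.primeFactors fun l hl => Nat.prime_of_mem_primeFactors hl
  set S := ∑ l ∈ M.primeFactors, (1 : ℝ) / l with hS
  have hS0 : 0 ≤ S := Finset.sum_nonneg fun l _ => by positivity
  have hx0 := Crest.Agent.R4.GInst194.xs_nonneg M
  rw [h3] at h1
  have h5 : (Crest.Agent.R4.GInst194.xs M + 1) * (1 - S) ≤ 1 :=
    (mul_le_mul_of_nonneg_left h4 (by linarith)).trans h1
  nlinarith

/-- the raising factor divides the modulus -/
lemma rf_dvd {w M : ℕ} : Crest.Agent.R4.AvgItem710.rf w M ∣ M :=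
  Nat.div_dvd_of_dvd (Nat.gcd_dvd_left _ _)

end Crest.Agent.R4P.GSt927
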