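import Crest.Agent.R4P.ResDef753
import Crest.Agent.R4P.MS800
import Crest.Agent.R4P.Top546
import Crest.Agent.R4P.AvgSym710
import Crest.Agent.R4P.WalkB560

/-!
R4 powers pass (S0004), helper800 (after helper927's `R4/GSt927`, `R4/GStJ927`): states of the walk with history
on item trees with powers.

* `HI` : both sides are decorated item trees (`SideI`), node facts `Qp` at all subnodes, missing products
  `B = B₀ ∏ u`, averaging moduli `MS x.s.p M O'`, `MS x.s.p M' O`, item-level populations;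
* `JS` : `A B M = A' B' M'` and the levels (`lv`, the text of helper442's `IS`);
* `HJ.next` : both are preserved by the steps (same nodes); `HJ.self`, `HI.self`.
-/

set_option autoImplicit false
set_option linter.unusedSectionVars false
set_option linter.unusedVariables false
set_option linter.unusedSimpArgs false

namespace Crest.Agent.R4P.GSt927

open Crest.Agent.R4.Tour104 Crest.Agent.R4.Tour758 Crest.Agent.R4.Avg758 Crest.Agent.R4.Clos758
open Crest.Agent.R4.ClosL758 Crest.Agent.R4.ClosG758 Crest.Agent.R4.ClosR758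
open Crest.Agent.R4P.Cnt588 Crest.Agent.R4P.Walk560 Crest.Agent.R4P.Item758
open Crest.Agent.R4P.AvgItem710
open Crest.Agent.R4P.Bld532 (NS All NodeOk Bk)
open Crest.Agent.R4P.Res927 Crest.Agent.R4P.WalkIT579
open Crest.Agent.R4P

variable {Λ κ : Type*} [Fintype Λ] [DecidableEq Λ] [Fintype κ] [DecidableEq κ] [WRel κ]
  {D : Par Λ κ} {sp : ℕ → Finset Λ} {P : Bld532.Par} {W : ℕ → ℝ} {Qp : NS → IT → Prop}

lemma IL_inter {it : Λ → ℕ} {A B : Finset Λ} (hA : IL it A) (hB : IL it B) : IL it (A ∩ B) := by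
  intro j j' h
  rw [Finset.mem_inter, Finset.mem_inter, hA j j' h, hB j j' h]

lemma IL_sdiff {it : Λ → ℕ} {A B : Finset Λ} (hA : IL it A) (hB : IL it B) : IL it (A \ B) := by
  intro j j' h
  rw [Finset.mem_sdiff, Finset.mem_sdiff, hA j j' h, hB j j' h]

lemma prod_ins {B₀ b p : ℕ} {v : Finset ℕ} (h : b = B₀ * ∏ i ∈ v, i) (hp : p ∉ v) :
    b * p = B₀ * ∏ i ∈ insert p v, i := by
  rw [Finset.prod_insert hp, h]; ring

/-! ### one side -/

/-- the data of one side -/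
structure SD (D : Par Λ κ) (sp : ℕ → Finset Λ) (Qp : NS → IT → Prop) (B₀ : ℕ) (U : Finset ℕ)
    (u : NS) (τ : IT) (A : Finset Λ) (d : DT Λ κ) : Prop where
  I : SideI D sp u.B u.A τ A d
  ok : τ.Ok u.n
  q : All Qp u τ
  b : u.B = B₀ * ∏ i ∈ U, i
  il : IL D.it A

/-- level of a node: the primes below it are at most `m`, the primes below `m` are below it -/
def Lv (m : ℕ) (u : NS) : Prop :=
  (∀ l : ℕ, l.Prime → l < u.n → l ≤ m) ∧ ∀ l : ℕ, l.Prime → l < m → l < u.n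

lemma Lv_of {p : ℕ} {u : NS} (h : u.n = p ∨ u.n = p + 1) : Lv p u := by
  constructor
  · intro l _ hl; rcases h with h | h <;> omega
  · intro l _ hl; rcases h with h | h <;> omega

lemma SD.top_lt {B₀ : ℕ} {U : Finset ℕ} {u : NS} {τ : IT} {A : Finset Λ} {d : DT Λ κ}
    (h : SD D sp Qp B₀ U u τ A d) (hn : 0 < u.n) : d.top < u.n := by
  rw [h.I.eq]
  exact (D.toDT_Col sp τ u.n u.B u.A h.ok).top_lt hn

lemma SD.top_le {B₀ : ℕ} {U : Finset ℕ} {u : NS} {τ : IT} {A : Finset Λ} {d : DT Λ κ}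
    (h : SD D sp Qp B₀ U u τ A d) {p : ℕ} (hp : 0 < p) (hn : u.n = p ∨ u.n = p + 1) : d.top ≤ p := by
  have := h.top_lt (by omega)
  omega

/-- a move of one side at the column `p`: new node, `A B` multiplied by `f` -/
def Mv (D : Par Λ κ) (sp : ℕ → Finset Λ) (Qp : NS → IT → Prop) (B₀ : ℕ) (u : NS) (p f : ℕ)
    (U₁ : Finset ℕ) (A₁ : Finset Λ) (d₁ : DT Λ κ) : Prop :=
  ∃ v σ, SD D sp Qp B₀ U₁ v σ A₁ d₁ ∧ v.A * v.B = u.A * u.B * f ∧ Lv p v ∧ d₁.top ≤ p

section side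
variable {B₀ p : ℕ} {U : Finset ℕ} {u : NS} {τ : IT} {A : Finset Λ} {d : DT Λ κ}
  {w : ℝ} {r : Λ → κ} {t₁ t₀ : DT Λ κ} {v : Λ → ℝ → ℝ} {B G : κ → ℝ → ℝ}

/-- present child of a tie, child of a pull -/
lemma SD.br₁ (h : SD D sp Qp B₀ U u τ A (.br p w r t₁ t₀ v B G)) :
    Mv D sp Qp B₀ u p p U A t₁ := by
  rcases toDT_br h.I.eq.symm with ⟨Sp, τ₁, τ₀, rfl, -, rfl, -, -, -⟩ | ⟨τ₁, rfl, -, rfl, -, -, -⟩
  · have hs : SD D sp Qp B₀ U ⟨p, _, u.A * p, u.B⟩ τ₁ A (D.toDT sp u.B (u.A * p) τ₁) :=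
      ⟨h.I.br₁, h.ok.2.2.2.2.1, h.q.2.1, h.b, h.il⟩
    refine ⟨_, _, hs, ?_, Lv_of (Or.inl rfl), hs.top_le h.I.hF.1.pos (Or.inl rfl)⟩
    show u.A * p * u.B = u.A * u.B * p
    ring
  · have hs : SD D sp Qp B₀ U ⟨p + 1, _, u.A * p, u.B⟩ τ₁ A (D.toDT sp u.B (u.A * p) τ₁) :=
      ⟨h.I.pl, h.ok.2.2, h.q.2, h.b, h.il⟩
    refine ⟨_, _, hs, ?_, Lv_of (Or.inr rfl), hs.top_le h.I.hF.1.pos (Or.inr rfl)⟩
    show u.A * p * u.B = u.A * u.B * p
    ring

/-- missing child of a tie -/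
lemma SD.br₀ (h : SD D sp Qp B₀ U u τ A (.br p w r t₁ t₀ v B G)) (hw : w ≠ 0) (hU : p ∉ U) :
    Mv D sp Qp B₀ u p p (insert p U) A t₀ := by
  rcases toDT_br h.I.eq.symm with ⟨Sp, τ₁, τ₀, rfl, -, -, rfl, -, -⟩ | ⟨τ₁, -, -, -, -, hw0, -⟩
  · have hs : SD D sp Qp B₀ (insert p U) ⟨p, _, u.A, u.B * p⟩ τ₀ A
        (D.toDT sp (u.B * p) u.A τ₀) :=
      ⟨h.I.br₀, h.ok.2.2.2.2.2, h.q.2.2, prod_ins h.b hU, h.il⟩
    refine ⟨_, _, hs, ?_, Lv_of (Or.inl rfl), hs.top_le h.I.hF.1.pos (Or.inl rfl)⟩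
    show u.A * (u.B * p) = u.A * u.B * p
    ring
  · exact absurd hw0 hw

/-- children of an `add` view -/
lemma SD.add (h : SD D sp Qp B₀ U u τ A (.add p r t₁ t₀)) :
    Mv D sp Qp B₀ u p 1 U A t₁ ∧ Mv D sp Qp B₀ u p 1 U A t₀ := by
  obtain ⟨τ₁, τ₀, hτ, -, rfl, rfl⟩ := toDT_add h.I.eq.symm
  have hp : p.Prime := by
    rcases hτ with rfl | rfl
    · exact h.ok.1
    · exact h.ok.1
  obtain ⟨i1, i0⟩ := h.I.addfar hτ
  have hs1 : SD D sp Qp B₀ U ⟨p + 1, u.c, u.A, u.B⟩ τ₁ A (D.toDT sp u.B u.A τ₁) := by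
    refine ⟨i1, ?_, ?_, h.b, h.il⟩
    · rcases hτ with rfl | rfl
      · exact h.ok.2.2.2.1
      · exact h.ok.2.2.2.1
    · rcases hτ with rfl | rfl
      · exact h.q.2.1
      · exact h.q.2.1
  have hs0 : SD D sp Qp B₀ U ⟨p + 1, u.c, u.A, u.B⟩ τ₀ A (D.toDT sp u.B u.A τ₀) := by
    refine ⟨i0, ?_, ?_, h.b, h.il⟩
    · rcases hτ with rfl | rfl
      · exact h.ok.2.2.2.2
      · exact h.ok.2.2.2.2
    · rcases hτ with rfl | rfl
      · exact h.q.2.2
      · exact h.q.2.2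
  exact ⟨⟨_, _, hs1, (mul_one _).symm, Lv_of (Or.inr rfl), hs1.top_le hp.pos (Or.inr rfl)⟩,
    ⟨_, _, hs0, (mul_one _).symm, Lv_of (Or.inr rfl), hs0.top_le hp.pos (Or.inr rfl)⟩⟩

/-- the side does not move -/
lemma SD.stay (h : SD D sp Qp B₀ U u τ A d) (hl : Lv p u) (ht : d.top ≤ p) :
    Mv D sp Qp B₀ u p 1 U A d := ⟨u, τ, h, (mul_one _).symm, hl, ht⟩

/-- `up` view -/
lemma SD.up (h : SD D sp Qp B₀ U u τ A d) (hsp : D.SpOk sp) (hil : ∀ b, IL D.it (sp b))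
    (hl : Lv p u) (ht : d.top ≤ p) {Sp : Finset Λ} {e : DT Λ κ} (hv : vw p d = .up Sp e) :
    Mv D sp Qp B₀ u p 1 U A e ∧ Mv D sp Qp B₀ u p 1 U (A ∩ Sp) e ∧
      Mv D sp Qp B₀ u p 1 U (A \ Sp) e := by
  rcases vw_up hv with h1 | ⟨rfl, rfl, -⟩
  · obtain ⟨S, τ₁, rfl, rfl, rfl⟩ := toDT_up (h.I.eq.symm.trans h1)
    have hp : p.Prime := h.ok.1
    have key : ∀ A₁ : Finset Λ, SideI D sp u.B u.A τ₁ A₁ (D.toDT sp u.B u.A τ₁) → IL D.it A₁ →
        Mv D sp Qp B₀ u p 1 U A₁ (D.toDT sp u.B u.A τ₁) := by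
      intro A₁ hA hi
      have hs : SD D sp Qp B₀ U ⟨p, u.c, u.A, u.B⟩ τ₁ A₁ (D.toDT sp u.B u.A τ₁) :=
        ⟨hA, h.ok.2.2.2, h.q.2, h.b, hi⟩
      exact ⟨_, _, hs, (mul_one _).symm, Lv_of (Or.inl rfl), hs.top_le hp.pos (Or.inl rfl)⟩
    exact ⟨key _ h.I.up h.il, key _ (h.I.spl hsp).1 (IL_inter h.il (hil _)),
      key _ (h.I.spl hsp).2 (IL_sdiff h.il (hil _))⟩
  · simp only [Finset.inter_empty, Finset.sdiff_empty]
    refine ⟨h.stay hl ht, ?_, h.stay hl ht⟩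
    refine ⟨u, τ, ⟨h.I.pop (AdS_empty _), h.ok, h.q, h.b, ?_⟩, (mul_one _).symm, hl, ht⟩
    intro j j' _
    simp

end side

/-! ### states -/

/-- **item form of a state with history** -/
structure HI (D : Par Λ κ) (sp : ℕ → Finset Λ) (Qp : NS → IT → Prop) (B₀ B₀' : ℕ) (x : XSt Λ κ)
    (u u' : NS) (τ τ' : IT) : Prop where
  L : SideI D sp u.B u.A τ x.s.A x.s.t
  R : SideI D sp u'.B u'.A τ' x.s.A' x.s.t'
  okL : τ.Ok u.n
  okR : τ'.Ok u'.n
  qL : All Qp u τ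
  qR : All Qp u' τ'
  bL : u.B = B₀ * ∏ i ∈ x.u, i
  bR : u'.B = B₀' * ∏ i ∈ x.u', i
  ilL : IL D.it x.s.A
  ilR : IL D.it x.s.A'
  mL : MS x.s.p x.s.M x.s.O'
  mR : MS x.s.p x.s.M' x.s.O

/-- circle and levels -/
structure JS (s : St Λ κ) (u u' : NS) : Prop where
  circ : u.A * u.B * s.M = u'.A * u'.B * s.M'
  lv : ∃ m : ℕ, (∀ l : ℕ, l.Prime → l < u.n → l ≤ m) ∧ (∀ l : ℕ, l.Prime → l < u'.n → l ≤ m) ∧
    (∀ l : ℕ, l.Prime → l < m → l < u.n ∧ l < u'.n) ∧ (∀ l : ℕ, l.Prime → l ∣ s.M → m ≤ l) ∧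
    ∀ l : ℕ, l.Prime → l ∣ s.M' → m ≤ l

/-- the state without history -/
lemma HI.st {B₀ B₀' : ℕ} {x : XSt Λ κ} {u u' : NS} {τ τ' : IT}
    (h : HI D sp Qp B₀ B₀' x u u' τ τ') : StI D sp x.s u.B u.A τ u'.B u'.A τ' :=
  ⟨h.L, h.R, h.mL.pos, h.mR.pos⟩

lemma HI.sL {B₀ B₀' : ℕ} {x : XSt Λ κ} {u u' : NS} {τ τ' : IT}
    (h : HI D sp Qp B₀ B₀' x u u' τ τ') : SD D sp Qp B₀ x.u u τ x.s.A x.s.t :=
  ⟨h.L, h.okL, h.qL, h.bL, h.ilL⟩

lemma HI.sR {B₀ B₀' : ℕ} {x : XSt Λ κ} {u u' : NS} {τ τ' : IT}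
    (h : HI D sp Qp B₀ B₀' x u u' τ τ') : SD D sp Qp B₀' x.u' u' τ' x.s.A' x.s.t' :=
  ⟨h.R, h.okR, h.qR, h.bR, h.ilR⟩

/-- a step from the moves of the two sides -/
lemma HJ_mk {B₀ B₀' : ℕ} {y : XSt Λ κ} {u u' : NS} {p f f' : ℕ}
    (hL : Mv D sp Qp B₀ u p f y.u y.s.A y.s.t) (hR : Mv D sp Qp B₀' u' p f' y.u' y.s.A' y.s.t')
    (mL : MS p y.s.M y.s.O') (mR : MS p y.s.M' y.s.O)
    (hc : u.A * u.B * f * y.s.M = u'.A * u'.B * f' * y.s.M') :
    ∃ v v' σ σ', HI D sp Qp B₀ B₀' y v v' σ σ' ∧ JS y.s v v' := by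
  obtain ⟨v, σ, h1, h2, h3, h4⟩ := hL
  obtain ⟨v', σ', h1', h2', h3', h4'⟩ := hR
  have hp : y.s.p ≤ p := max_le h4 h4'
  refine ⟨v, v', σ, σ', ⟨h1.I, h1'.I, h1.ok, h1'.ok, h1.q, h1'.q, h1.b, h1'.b, h1.il, h1'.il,
    mL.down hp, mR.down hp⟩, ?_, p, h3.1, h3'.1, fun l hl hlp => ⟨h3.2 l hl hlp, h3'.2 l hl hlp⟩,
    fun l hl hd => mL.geM hl hd, fun l hl hd => mR.geM hl hd⟩
  rw [h2, h2']
  exact hc

/-- facts at a state which is not a leaf on both sides -/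
lemma HJ.lev {B₀ B₀' : ℕ} {x : XSt Λ κ} {u u' : NS} {τ τ' : IT}
    (hQ : ∀ u τ, Qp u τ → NodeOk P W u τ) (h : HI D sp Qp B₀ B₀' x u u' τ τ') (hj : JS x.s u u')
    (hl : ¬ x.s.t.isLeaf) (hl' : ¬ x.s.t'.isLeaf) :
    Lv x.s.p u ∧ Lv x.s.p u' ∧ x.s.p.Prime := by
  have n1 := hQ _ _ h.qL.self
  have n2 := hQ _ _ h.qR.self
  have i1 : ¬ isL τ := by
    intro hi
    apply hl
    rw [h.L.eq]
    cases τ with
    | leaf S => trivial
    | _ => exact absurd hi id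
  have i2 : ¬ isL τ' := by
    intro hi
    apply hl'
    rw [h.R.eq]
    cases τ' with
    | leaf S => trivial
    | _ => exact absurd hi id
  have e1 : x.s.t.top = tp τ := by
    rw [h.L.eq]
    cases τ <;> rfl
  have e2 : x.s.t'.top = tp τ' := by
    rw [h.R.eq]
    cases τ' <;> rfl
  obtain ⟨a1, a2, a3⟩ := top_of_nodeOk n1 i1
  obtain ⟨b1, b2, b3⟩ := top_of_nodeOk n2 i2
  obtain ⟨m, l1, l2, l3, -, -⟩ := hj.lv
  have hpe : x.s.p = max (tp τ) (tp τ') := by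
    show max x.s.t.top x.s.t'.top = _
    rw [e1, e2]
  have hpp : x.s.p.Prime := by
    rw [hpe]
    rcases le_total (tp τ) (tp τ') with h | h
    · rw [max_eq_right h]; exact b1
    · rw [max_eq_left h]; exact a1
  have hpm : x.s.p ≤ m := by
    rw [hpe]
    exact max_le (l1 _ a1 a2) (l2 _ b1 b2)
  refine ⟨⟨fun l hl hn => ?_, fun l hl hn => ?_⟩, ⟨fun l hl hn => ?_, fun l hl hn => ?_⟩, hpp⟩
  · rw [hpe]; exact (a3 l hl hn).trans (le_max_left _ _)
  · exact (l3 l hl (lt_of_lt_of_le hn hpm)).1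
  · rw [hpe]; exact (b3 l hl hn).trans (le_max_right _ _)
  · exact (l3 l hl (lt_of_lt_of_le hn hpm)).2

set_option maxHeartbeats 2000000 in
/-- **item form with history is preserved by the steps** -/
theorem HJ.next (hsp : D.SpOk sp) (hil : ∀ b, IL D.it (sp b))
    (hQ : ∀ u τ, Qp u τ → NodeOk P W u τ) {stp : Stp Λ κ} {dv : DT Λ κ → Λ → Prop}
    {B₀ B₀' : ℕ} {x : XSt Λ κ} (hx : XI x) {u u' : NS} {τ τ' : IT}
    (h : HI D sp Qp B₀ B₀' x u u' τ τ') (hj : JS x.s u u') :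
    ∀ e ∈ steps stp dv x, ∃ v v' σ σ', HI D sp Qp B₀ B₀' e.y v v' σ σ' ∧ JS e.y.s v v' := by
  classical
  intro e he
  obtain ⟨he, hne⟩ := mem_steps.1 he
  have hna : e.a ≠ 0 := left_ne_zero_of_mul hne
  have hna' : e.a' ≠ 0 := right_ne_zero_of_mul hne
  by_cases h1 : x.s.t.isLeaf ∨ x.s.t'.isLeaf
  · simp [steps0, h1] at he
  by_cases h2 : stp x.s
  · simp [steps0, h1, h2] at he
  have hl : ¬ x.s.t.isLeaf := fun h => h1 (Or.inl h)
  have hl' : ¬ x.s.t'.isLeaf := fun h => h1 (Or.inr h)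
  obtain ⟨lvL, lvR, hpp⟩ := HJ.lev hQ h hj hl hl'
  have topL : x.s.t.top ≤ x.s.p := le_max_left _ _
  have topR : x.s.t'.top ≤ x.s.p := le_max_right _ _
  have sL := h.sL
  have sR := h.sR
  have mL := h.mL
  have mR := h.mR
  have circ := hj.circ
  have stL : Mv D sp Qp B₀ u x.s.p 1 x.u x.s.A x.s.t := sL.stay lvL topL
  have stR : Mv D sp Qp B₀' u' x.s.p 1 x.u' x.s.A' x.s.t' := sR.stay lvR topR
  have huL : x.s.t.top = x.s.p → x.s.p ∉ x.u := fun e hm => by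
    have := hx.u _ hm
    omega
  have huR : x.s.t'.top = x.s.p → x.s.p ∉ x.u' := fun e hm => by
    have := hx.u' _ hm
    omega
  -- the pre-step on the left
  by_cases hPL : x.s.isPL
  · have e0 : steps0 stp dv x = preL dv x := by simp [steps0, h1, h2, hPL]
    rw [e0] at he
    obtain ⟨w, r, t₁, t₀, v, B, G, hv, ht, -⟩ := St.isPL_cases hPL
    have hu := huL (by rw [ht]; rfl)
    have sL' := sL
    rw [ht] at sL'
    unfold preL at he
    rw [hv] at he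
    simp only at he
    by_cases hd : x.s.p ∣ x.s.M
    · rw [if_pos hd] at he
      simp only [List.mem_cons, List.not_mem_nil, or_false] at he
      have hm := mL.free le_rfl hpp hd
      have hc : u.A * u.B * x.s.p * (x.s.M / x.s.p) = u'.A * u'.B * 1 * x.s.M' := by
        rw [mul_assoc, Nat.mul_div_cancel' hd, mul_one]; exact circ
      rcases he with rfl | rfl
      · exact HJ_mk (y := .go x.s.p (x.s.fL r t₁) x.u x.u') sL'.br₁ stR hm mR hc
      · exact HJ_mk (y := .go x.s.p (x.s.fL r t₀) (insert x.s.p x.u) x.u') (sL'.br₀ hna hu) stR hm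
          mR hc
    · rw [if_neg hd] at he
      simp only [List.mem_cons, List.not_mem_nil, or_false] at he
      have hm := mR.mul le_rfl hpp
      have hc : u.A * u.B * x.s.p * x.s.M = u'.A * u'.B * 1 * (x.s.p * x.s.M') := by
        calc u.A * u.B * x.s.p * x.s.M = x.s.p * (u.A * u.B * x.s.M) := by ring
          _ = x.s.p * (u'.A * u'.B * x.s.M') := by rw [circ]
          _ = _ := by ring
      rcases he with rfl | rfl
      · exact HJ_mk (y := .go x.s.p (x.s.pL r t₁) x.u x.u') sL'.br₁ stR mL hm hc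
      · exact HJ_mk (y := .go x.s.p (x.s.pL r t₀) (insert x.s.p x.u) x.u') (sL'.br₀ hna hu) stR mL
          hm hc
  -- the pre-step on the right
  by_cases hPR : x.s.isPR
  · have e0 : steps0 stp dv x = preR dv x := by simp [steps0, h1, h2, hPL, hPR]
    rw [e0] at he
    obtain ⟨w, r, t₁, t₀, v, B, G, hv, ht, -⟩ := St.isPR_cases hPR
    have hu := huR (by rw [ht]; rfl)
    have sR' := sR
    rw [ht] at sR'
    unfold preR at he
    rw [hv] at he
    simp only at he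
    by_cases hd : x.s.p ∣ x.s.M'
    · rw [if_pos hd] at he
      simp only [List.mem_cons, List.not_mem_nil, or_false] at he
      have hm := mR.free le_rfl hpp hd
      have hc : u.A * u.B * 1 * x.s.M = u'.A * u'.B * x.s.p * (x.s.M' / x.s.p) := by
        rw [mul_assoc (u'.A * u'.B), Nat.mul_div_cancel' hd, mul_one]; exact circ
      rcases he with rfl | rfl
      · exact HJ_mk (y := .go x.s.p (x.s.fR r t₁) x.u x.u') stL sR'.br₁ mL hm hc
      · exact HJ_mk (y := .go x.s.p (x.s.fR r t₀) x.u (insert x.s.p x.u')) stL (sR'.br₀ hna' hu) mL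
          hm hc
    · rw [if_neg hd] at he
      simp only [List.mem_cons, List.not_mem_nil, or_false] at he
      have hm := mL.mul le_rfl hpp
      have hc : u.A * u.B * 1 * (x.s.p * x.s.M) = u'.A * u'.B * x.s.p * x.s.M' := by
        calc u.A * u.B * 1 * (x.s.p * x.s.M) = x.s.p * (u.A * u.B * x.s.M) := by ring
          _ = x.s.p * (u'.A * u'.B * x.s.M') := by rw [circ]
          _ = _ := by ring
      rcases he with rfl | rfl
      · exact HJ_mk (y := .go x.s.p (x.s.pR r t₁) x.u x.u') stL sR'.br₁ hm mR hc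
      · exact HJ_mk (y := .go x.s.p (x.s.pR r t₀) x.u (insert x.s.p x.u')) stL (sR'.br₀ hna' hu) hm
          mR hc
  have c11 : u.A * u.B * 1 * x.s.M = u'.A * u'.B * 1 * x.s.M' := by
    rw [mul_one, mul_one]; exact circ
  have cpp : u.A * u.B * x.s.p * x.s.M = u'.A * u'.B * x.s.p * x.s.M' := by
    calc u.A * u.B * x.s.p * x.s.M = x.s.p * (u.A * u.B * x.s.M) := by ring
      _ = x.s.p * (u'.A * u'.B * x.s.M') := by rw [circ]
      _ = _ := by ring
  -- add nodes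
  have oA : ∀ t₁ t₀ : DT Λ κ, Mv D sp Qp B₀ u x.s.p 1 x.u x.s.A t₁ →
      Mv D sp Qp B₀ u x.s.p 1 x.u x.s.A t₀ → e ∈ oneA stp dv x t₁ t₀ →
      ∃ v v' σ σ', HI D sp Qp B₀ B₀' e.y v v' σ σ' ∧ JS e.y.s v v' := by
    intro t₁ t₀ h1 h0 he
    unfold oneA at he
    split_ifs at he <;> simp only [List.mem_cons, List.not_mem_nil, or_false] at he <;> subst he
    · exact HJ_mk (y := .go x.s.p { x.s with t := t₁ } x.u x.u') h1 stR mL mR c11
    · exact HJ_mk (y := .go x.s.p { x.s with t := t₀ } x.u x.u') h0 stR mL mR c11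
  have oB : ∀ t₁ t₀ : DT Λ κ, Mv D sp Qp B₀' u' x.s.p 1 x.u' x.s.A' t₁ →
      Mv D sp Qp B₀' u' x.s.p 1 x.u' x.s.A' t₀ → e ∈ oneB stp dv x t₁ t₀ →
      ∃ v v' σ σ', HI D sp Qp B₀ B₀' e.y v v' σ σ' ∧ JS e.y.s v v' := by
    intro t₁ t₀ h1 h0 he
    unfold oneB at he
    split_ifs at he <;> simp only [List.mem_cons, List.not_mem_nil, or_false] at he <;> subst he
    · exact HJ_mk (y := .go x.s.p { x.s with t' := t₁ } x.u x.u') stL h1 mL mR c11
    · exact HJ_mk (y := .go x.s.p { x.s with t' := t₀ } x.u x.u') stL h0 mL mR c11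
  rcases hv : vw x.s.p x.s.t with ⟨w, r, t₁, t₀, v, B₁, G⟩ | ⟨r, t₁, t₀⟩ | ⟨Sp, d⟩ <;>
  rcases hv' : vw x.s.p x.s.t' with ⟨w', r', t₁', t₀', v', B', G'⟩ | ⟨r', t₁', t₀'⟩ | ⟨Sp', d'⟩ <;>
  simp only [steps0, h1, h2, hPL, hPR, hv, hv', if_false] at he
  · -- br, br
    have sL' := sL
    rw [vw_br hv] at sL'
    have sR' := sR
    rw [vw_br hv'] at sR'
    have hu := huL (by rw [vw_br hv]; rfl)
    have hu' := huR (by rw [vw_br hv']; rfl)
    simp only [List.mem_cons, List.not_mem_nil, or_false] at he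
    rcases he with rfl | rfl | rfl | rfl
    · exact HJ_mk (y := .go x.s.p { x.s with R := Ro r, t := t₁, t' := t₁' } x.u x.u')
        sL'.br₁ sR'.br₁ mL mR cpp
    · exact HJ_mk (y := .go x.s.p { x.s with R := Ro r, t := t₁, t' := t₀' } x.u
        (insert x.s.p x.u')) sL'.br₁ (sR'.br₀ hna' hu') mL mR cpp
    · exact HJ_mk (y := .go x.s.p { x.s with R := Ro r, t := t₀, t' := t₁' } (insert x.s.p x.u)
        x.u') (sL'.br₀ hna hu) sR'.br₁ mL mR cpp
    · exact HJ_mk (y := .go x.s.p { x.s with R := Ro r, t := t₀, t' := t₀' } (insert x.s.p x.u)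
        (insert x.s.p x.u')) (sL'.br₀ hna hu) (sR'.br₀ hna' hu') mL mR cpp
  · -- br, add
    have sR' := sR
    rw [vw_add hv'] at sR'
    exact oB _ _ sR'.add.1 sR'.add.2 he
  · -- br, up
    have sL' := sL
    rw [vw_br hv] at sL'
    have hu := huL (by rw [vw_br hv]; rfl)
    have r1 := (sR.up hsp hil lvR topR hv').1
    have hm := mR.mul le_rfl hpp
    have hc : u.A * u.B * x.s.p * x.s.M = u'.A * u'.B * 1 * (x.s.p * x.s.M') := by
      rw [cpp]; ring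
    simp only [List.mem_cons, List.not_mem_nil, or_false] at he
    rcases he with rfl | rfl
    · exact HJ_mk (y := .go x.s.p
        { x.s with M' := x.s.p * x.s.M', O := insert x.s.p x.s.O, R := Ro r, t := t₁, t' := d' }
        x.u x.u') sL'.br₁ r1 mL hm hc
    · exact HJ_mk (y := .go x.s.p
        { x.s with M' := x.s.p * x.s.M', O := insert x.s.p x.s.O, R := Ro r, t := t₀, t' := d' }
        (insert x.s.p x.u) x.u') (sL'.br₀ hna hu) r1 mL hm hc
  · -- add, br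
    have sL' := sL
    rw [vw_add hv] at sL'
    exact oA _ _ sL'.add.1 sL'.add.2 he
  · -- add, add
    have sL' := sL
    rw [vw_add hv] at sL'
    have sR' := sR
    rw [vw_add hv'] at sR'
    split_ifs at he
    · simp only [List.mem_cons, List.not_mem_nil, or_false] at he
      rcases he with rfl | rfl
      · exact HJ_mk (y := .go x.s.p { x.s with t := t₁, t' := t₁' } x.u x.u')
          sL'.add.1 sR'.add.1 mL mR c11
      · exact HJ_mk (y := .go x.s.p { x.s with t := t₀, t' := t₀' } x.u x.u')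
          sL'.add.2 sR'.add.2 mL mR c11
    · exact oA _ _ sL'.add.1 sL'.add.2 he
    · exact oB _ _ sR'.add.1 sR'.add.2 he
  · -- add, up
    have sL' := sL
    rw [vw_add hv] at sL'
    obtain ⟨r1, r2, r3⟩ := sR.up hsp hil lvR topR hv'
    split_ifs at he
    · simp only [List.mem_cons, List.not_mem_nil, or_false] at he
      rcases he with rfl | rfl
      · exact HJ_mk (y := .go x.s.p { x.s with t := t₁, t' := d', A' := x.s.A' ∩ Sp' } x.u x.u')
          sL'.add.1 r2 mL mR c11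
      · exact HJ_mk (y := .go x.s.p { x.s with t := t₀, t' := d', A' := x.s.A' \ Sp' } x.u x.u')
          sL'.add.2 r3 mL mR c11
    · exact oA _ _ sL'.add.1 sL'.add.2 he
  · -- up, br
    have sR' := sR
    rw [vw_br hv'] at sR'
    have hu' := huR (by rw [vw_br hv']; rfl)
    have l1 := (sL.up hsp hil lvL topL hv).1
    have hm := mL.mul le_rfl hpp
    have hc : u.A * u.B * 1 * (x.s.p * x.s.M) = u'.A * u'.B * x.s.p * x.s.M' := by
      rw [← cpp]; ring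
    simp only [List.mem_cons, List.not_mem_nil, or_false] at he
    rcases he with rfl | rfl
    · exact HJ_mk (y := .go x.s.p
        { x.s with M := x.s.p * x.s.M, O' := insert x.s.p x.s.O', R := Ro r', t := d, t' := t₁' }
        x.u x.u') l1 sR'.br₁ hm mR hc
    · exact HJ_mk (y := .go x.s.p
        { x.s with M := x.s.p * x.s.M, O' := insert x.s.p x.s.O', R := Ro r', t := d, t' := t₀' }
        x.u (insert x.s.p x.u')) l1 (sR'.br₀ hna' hu') hm mR hc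
  · -- up, add
    have sR' := sR
    rw [vw_add hv'] at sR'
    obtain ⟨l1, l2, l3⟩ := sL.up hsp hil lvL topL hv
    split_ifs at he
    · simp only [List.mem_cons, List.not_mem_nil, or_false] at he
      rcases he with rfl | rfl
      · exact HJ_mk (y := .go x.s.p { x.s with t := d, A := x.s.A ∩ Sp, t' := t₁' } x.u x.u')
          l2 sR'.add.1 mL mR c11
      · exact HJ_mk (y := .go x.s.p { x.s with t := d, A := x.s.A \ Sp, t' := t₀' } x.u x.u')
          l3 sR'.add.2 mL mR c11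
    · exact oB _ _ sR'.add.1 sR'.add.2 he
  · -- up, up
    have l1 := (sL.up hsp hil lvL topL hv).1
    have r1 := (sR.up hsp hil lvR topR hv').1
    simp only [List.mem_cons, List.not_mem_nil, or_false] at he
    subst he
    exact HJ_mk (y := .go x.s.p { x.s with t := d, t' := d' } x.u x.u') l1 r1 mL mR c11

/-! ### self states -/

/-- the self states -/
lemma HI.self {u : NS} {τ : IT} {A : Finset Λ} {n : ℕ}
    (hs : SideI D sp u.B u.A τ A (D.toDT sp u.B u.A τ)) (hO : τ.Ok u.n) (hq : All Qp u τ)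
    (hil : IL D.it A) :
    HI D sp Qp u.B u.B (XSt.st n (selfSt (D.toDT sp u.B u.A τ) A)) u u τ τ where
  L := hs
  R := hs
  okL := hO
  okR := hO
  qL := hq
  qR := hq
  bL := by simp [XSt.st]
  bR := by simp [XSt.st]
  ilL := hil
  ilR := hil
  mL := MS.one
  mR := MS.one

lemma JS.self (u : NS) (d : DT Λ κ) (A : Finset Λ) : JS (selfSt d A) u u where
  circ := rfl
  lv := ⟨u.n, fun l _ h => h.le, fun l _ h => h.le, fun l _ h => ⟨h, h⟩,
    fun l hl h => absurd (Nat.dvd_one.1 h) hl.one_lt.ne',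
    fun l hl h => absurd (Nat.dvd_one.1 h) hl.one_lt.ne'⟩

end Crest.Agent.R4P.GSt927
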