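import Crest.Agent.R4.ResAbs927
import Crest.Agent.R4P.Walk560

/-!
# R4 powers, helper753 (after helper927): DISINTEGRATION of the pair walk of `R4P/Walk560`: definitions

* `XSt` : states with the sets `u`, `u'` of the missing ties of the two sides since the start and the
  upper end `n` of the gap `[p, n)` of columns: after a step at column `p` one has
  `n = max p (p(new) + 1)`, so `n = p` if the step closes the column `p` and `n = p + 1` otherwise;
  always `p x < x.n`.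
* `steps0` (with the phantoms of weight `0` of the pulls), `steps` (without), `nxH`, `nxJ`, `nxI`.
* `dv : DT Λ κ → Λ → Prop`: the piece `j` goes to the first child of the node.
* `WN`, `IMr`, `IM`, `mtD`.
-/

set_option autoImplicit false
set_option linter.unusedSectionVars false
set_option linter.unusedVariables false
set_option linter.unusedSimpArgs false

namespace Crest.Agent.R4P.Res927

open Crest.Agent.R4.Tour104 Crest.Agent.R4.Tour758 Crest.Agent.R4.Avg758 Crest.Agent.R4.Clos758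
open Crest.Agent.R4.ClosL758 Crest.Agent.R4.ClosG758 Crest.Agent.R4.ClosR758
open Crest.Agent.R4P.Walk560 Crest.Agent.R4.AdvWin560 Crest.Agent.R4.AdvWin560.WT
open Crest.Agent.R4.Own927

export Crest.Agent.R4.Res927 (wtF GE GG GE_nonneg GG_nonneg filter_eq GE_step WOk_mono)

variable {Λ κ : Type*} [Fintype Λ] [DecidableEq Λ] [Fintype κ] [DecidableEq κ] [WRel κ]

/-- states with the missing ties of the two sides and the upper end of the gap -/
structure XSt (Λ κ : Type*) where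
  s : St Λ κ
  u : Finset ℕ
  u' : Finset ℕ
  n : ℕ

def XSt.rank (x : XSt Λ κ) : ℕ := x.s.rank

/-- the column of a state -/
def XSt.p (x : XSt Λ κ) : ℕ := x.s.p

/-- a step: weights of the two sides, items which follow it on the two sides, new state -/
structure XStep (Λ κ : Type*) where
  a : ℝ
  a' : ℝ
  f : Λ → Prop
  f' : Λ → Prop
  y : XSt Λ κ

/-- the state after a step at the column `p` -/
def XSt.go (p : ℕ) (s : St Λ κ) (u u' : Finset ℕ) : XSt Λ κ := ⟨s, u, u', max p (s.p + 1)⟩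

open Classical in
/-- the steps of the pre-step on the left -/
noncomputable def preL (dv : DT Λ κ → Λ → Prop) (x : XSt Λ κ) : List (XStep Λ κ) :=
  match vw x.s.p x.s.t with
  | .br w r t₁ t₀ _ _ _ =>
      if x.s.p ∣ x.s.M then
        [⟨1 - w, 1, dv x.s.t, fun _ => True, .go x.s.p (x.s.fL r t₁) x.u x.u'⟩,
         ⟨w, 1, fun j => ¬ dv x.s.t j, fun _ => True,
            .go x.s.p (x.s.fL r t₀) (insert x.s.p x.u) x.u'⟩]
      else
        [⟨1 - w, 1, dv x.s.t, fun _ => True, .go x.s.p (x.s.pL r t₁) x.u x.u'⟩,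
         ⟨w, 1, fun j => ¬ dv x.s.t j, fun _ => True,
            .go x.s.p (x.s.pL r t₀) (insert x.s.p x.u) x.u'⟩]
  | _ => []

open Classical in
/-- the steps of the pre-step on the right -/
noncomputable def preR (dv : DT Λ κ → Λ → Prop) (x : XSt Λ κ) : List (XStep Λ κ) :=
  match vw x.s.p x.s.t' with
  | .br w r t₁ t₀ _ _ _ =>
      if x.s.p ∣ x.s.M' then
        [⟨1, 1 - w, fun _ => True, dv x.s.t', .go x.s.p (x.s.fR r t₁) x.u x.u'⟩,
         ⟨1, w, fun _ => True, fun j => ¬ dv x.s.t' j,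
            .go x.s.p (x.s.fR r t₀) x.u (insert x.s.p x.u')⟩]
      else
        [⟨1, 1 - w, fun _ => True, dv x.s.t', .go x.s.p (x.s.pR r t₁) x.u x.u'⟩,
         ⟨1, w, fun _ => True, fun j => ¬ dv x.s.t' j,
            .go x.s.p (x.s.pR r t₀) x.u (insert x.s.p x.u')⟩]
  | _ => []

open Classical in
/-- the processed add node on the left -/
noncomputable def oneA (stp : Stp Λ κ) (dv : DT Λ κ → Λ → Prop) (x : XSt Λ κ) (t₁ t₀ : DT Λ κ) :
    List (XStep Λ κ) :=
  if stp.on x.s then [⟨1, 1, dv x.s.t, fun _ => True, .go x.s.p { x.s with t := t₁ } x.u x.u'⟩]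
  else [⟨1, 1, fun j => ¬ dv x.s.t j, fun _ => True, .go x.s.p { x.s with t := t₀ } x.u x.u'⟩]

open Classical in
/-- the processed add node on the right -/
noncomputable def oneB (stp : Stp Λ κ) (dv : DT Λ κ → Λ → Prop) (x : XSt Λ κ) (t₁ t₀ : DT Λ κ) :
    List (XStep Λ κ) :=
  if stp.on x.s then [⟨1, 1, fun _ => True, dv x.s.t', .go x.s.p { x.s with t' := t₁ } x.u x.u'⟩]
  else [⟨1, 1, fun _ => True, fun j => ¬ dv x.s.t' j, .go x.s.p { x.s with t' := t₀ } x.u x.u'⟩]

open Classical in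
/-- the steps of the walk, with the phantoms (weight `0`) of the pulls; `dv t j` = the item `j` goes to
the first child of the node `t` -/
noncomputable def steps0 (stp : Stp Λ κ) (dv : DT Λ κ → Λ → Prop) (x : XSt Λ κ) :
    List (XStep Λ κ) :=
  if x.s.t.isLeaf ∨ x.s.t'.isLeaf then [] else if stp x.s then [] else
  if x.s.isPL then preL dv x else if x.s.isPR then preR dv x else
  match vw x.s.p x.s.t, vw x.s.p x.s.t' with
  | .br w r t₁ t₀ _ _ _, .br w' _ t₁' t₀' _ _ _ =>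
      [⟨1 - w, 1 - w', dv x.s.t, dv x.s.t',
          .go x.s.p { x.s with R := Ro r, t := t₁, t' := t₁' } x.u x.u'⟩,
       ⟨1 - w, w', dv x.s.t, fun j => ¬ dv x.s.t' j,
          .go x.s.p { x.s with R := Ro r, t := t₁, t' := t₀' } x.u (insert x.s.p x.u')⟩,
       ⟨w, 1 - w', fun j => ¬ dv x.s.t j, dv x.s.t',
          .go x.s.p { x.s with R := Ro r, t := t₀, t' := t₁' } (insert x.s.p x.u) x.u'⟩,
       ⟨w, w', fun j => ¬ dv x.s.t j, fun j => ¬ dv x.s.t' j,
          .go x.s.p { x.s with R := Ro r, t := t₀, t' := t₀' } (insert x.s.p x.u)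
            (insert x.s.p x.u')⟩]
  | .br w r t₁ t₀ _ _ _, .up _ u =>
      [⟨1 - w, 1, dv x.s.t, fun _ => True,
          .go x.s.p { x.s with M' := x.s.p * x.s.M', O := insert x.s.p x.s.O, R := Ro r, t := t₁,
                               t' := u } x.u x.u'⟩,
       ⟨w, 1, fun j => ¬ dv x.s.t j, fun _ => True,
          .go x.s.p { x.s with M' := x.s.p * x.s.M', O := insert x.s.p x.s.O, R := Ro r, t := t₀,
                               t' := u } (insert x.s.p x.u) x.u'⟩]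
  | .up _ u, .br w r t₁' t₀' _ _ _ =>
      [⟨1, 1 - w, fun _ => True, dv x.s.t',
          .go x.s.p { x.s with M := x.s.p * x.s.M, O' := insert x.s.p x.s.O', R := Ro r, t := u,
                               t' := t₁' } x.u x.u'⟩,
       ⟨1, w, fun _ => True, fun j => ¬ dv x.s.t' j,
          .go x.s.p { x.s with M := x.s.p * x.s.M, O' := insert x.s.p x.s.O', R := Ro r, t := u,
                               t' := t₀' } x.u (insert x.s.p x.u')⟩]
  | .br _ _ _ _ _ _ _, .add _ t₁' t₀' => oneB stp dv x t₁' t₀'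
  | .add _ t₁ t₀, .br _ _ _ _ _ _ _ => oneA stp dv x t₁ t₀
  | .add _ t₁ t₀, .add _ t₁' t₀' =>
      if stp.jt x.s then
        [⟨1, 1, dv x.s.t, dv x.s.t', .go x.s.p { x.s with t := t₁, t' := t₁' } x.u x.u'⟩,
         ⟨1, 1, fun j => ¬ dv x.s.t j, fun j => ¬ dv x.s.t' j,
            .go x.s.p { x.s with t := t₀, t' := t₀' } x.u x.u'⟩]
      else if stp.lf x.s then oneA stp dv x t₁ t₀ else oneB stp dv x t₁' t₀'
  | .add _ t₁ t₀, .up Sp u =>
      if stp.jt x.s then
        [⟨1, 1, dv x.s.t, fun j => j ∈ Sp,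
            .go x.s.p { x.s with t := t₁, t' := u, A' := x.s.A' ∩ Sp } x.u x.u'⟩,
         ⟨1, 1, fun j => ¬ dv x.s.t j, fun j => j ∉ Sp,
            .go x.s.p { x.s with t := t₀, t' := u, A' := x.s.A' \ Sp } x.u x.u'⟩]
      else oneA stp dv x t₁ t₀
  | .up Sp u, .add _ t₁' t₀' =>
      if stp.jt x.s then
        [⟨1, 1, fun j => j ∈ Sp, dv x.s.t',
            .go x.s.p { x.s with t := u, A := x.s.A ∩ Sp, t' := t₁' } x.u x.u'⟩,
         ⟨1, 1, fun j => j ∉ Sp, fun j => ¬ dv x.s.t' j,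
            .go x.s.p { x.s with t := u, A := x.s.A \ Sp, t' := t₀' } x.u x.u'⟩]
      else oneB stp dv x t₁' t₀'
  | .up _ u, .up _ u' =>
      [⟨1, 1, fun _ => True, fun _ => True, .go x.s.p { x.s with t := u, t' := u' } x.u x.u'⟩]

open Classical in
/-- the steps of the walk -/
noncomputable def steps (stp : Stp Λ κ) (dv : DT Λ κ → Λ → Prop) (x : XSt Λ κ) :
    List (XStep Λ κ) := (steps0 stp dv x).filter fun e => e.a * e.a' ≠ 0

/-- the walk with history -/
noncomputable def nxH (stp : Stp Λ κ) (dv : DT Λ κ → Λ → Prop) (x : XSt Λ κ) :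
    List (ℝ × XSt Λ κ) :=
  (steps stp dv x).map fun e => (e.a * e.a', e.y)

open Classical in
/-- the right side follows the item `j`, the left side is random -/
noncomputable def nxJ (stp : Stp Λ κ) (dv : DT Λ κ → Λ → Prop) (j : Λ) (x : XSt Λ κ) :
    List (ℝ × XSt Λ κ) :=
  ((steps stp dv x).filter fun e => e.f' j).map fun e => (e.a, e.y)

open Classical in
/-- the left side follows the item `j`, the right side is random -/
noncomputable def nxI (stp : Stp Λ κ) (dv : DT Λ κ → Λ → Prop) (j : Λ) (x : XSt Λ κ) :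
    List (ℝ × XSt Λ κ) :=
  ((steps stp dv x).filter fun e => e.f j).map fun e => (e.a', e.y)

lemma mem_steps {stp : Stp Λ κ} {dv : DT Λ κ → Λ → Prop} {x : XSt Λ κ} {e : XStep Λ κ} :
    e ∈ steps stp dv x ↔ e ∈ steps0 stp dv x ∧ e.a * e.a' ≠ 0 := by
  simp [steps, List.mem_filter]

/-- the steps with phantoms project to `nxt0` -/
theorem steps0_proj (stp : Stp Λ κ) (dv : DT Λ κ → Λ → Prop) (x : XSt Λ κ) :
    (steps0 stp dv x).map (fun e => (e.a * e.a', e.y.s)) = nxt0 stp x.s := by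
  classical
  by_cases h1 : x.s.t.isLeaf ∨ x.s.t'.isLeaf
  · simp [steps0, nxt0, h1]
  by_cases h2 : stp x.s
  · simp [steps0, nxt0, h1, h2]
  by_cases hL : x.s.isPL
  · obtain ⟨w, r, t₁, t₀, v, B, G, hv, -, h⟩ := St.isPL_cases hL
    have e1 : nxt0 stp x.s = x.s.stL := by simp [nxt0, h1, h2, hL]
    have e2 : steps0 stp dv x = preL dv x := by simp [steps0, h1, h2, hL]
    rw [e1, e2]
    rcases h with ⟨hd, h⟩ | ⟨hd, -, h⟩ <;> rw [h] <;> simp [preL, hv, hd, XSt.go]
  by_cases hR : x.s.isPR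
  · obtain ⟨w, r, t₁, t₀, v, B, G, hv, -, h⟩ := St.isPR_cases hR
    have e1 : nxt0 stp x.s = x.s.stR := by simp [nxt0, h1, h2, hL, hR]
    have e2 : steps0 stp dv x = preR dv x := by simp [steps0, h1, h2, hL, hR]
    rw [e1, e2]
    rcases h with ⟨hd, h⟩ | ⟨hd, -, h⟩ <;> rw [h] <;> simp [preR, hv, hd, XSt.go]
  rcases hv : vw x.s.p x.s.t with ⟨w, r, t₁, t₀, v, B₁, G⟩ | ⟨r, t₁, t₀⟩ | ⟨Sp, u⟩ <;>
  rcases hv' : vw x.s.p x.s.t' with ⟨w', r', t₁', t₀', v', B', G'⟩ | ⟨r', t₁', t₀'⟩ | ⟨Sp', u'⟩ <;>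
  by_cases hj : stp.jt x.s <;> by_cases hl : stp.lf x.s <;> by_cases ho : stp.on x.s <;>
  simp [steps0, nxt0, h1, h2, hL, hR, hv, hv', hj, hl, ho, oneA, oneB, Stp.c, XSt.go]

/-- the steps project to `nxt` -/
theorem steps_proj (stp : Stp Λ κ) (dv : DT Λ κ → Λ → Prop) (x : XSt Λ κ) :
    (steps stp dv x).map (fun e => (e.a * e.a', e.y.s)) = nxt stp x.s := by
  classical
  rw [steps, nxt, ← steps0_proj stp dv x, List.filter_map]
  rfl

/-! ### node conditions -/

/-- weights of the ties and pulls -/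
def WN : DT Λ κ → Prop
  | .br p w _ _ _ _ _ _ => w = 0 ∨ (0 < w ∧ w < 1 ∧ w ≤ 1 / (p : ℝ))
  | _ => True

/-- item masses at a node -/
def IMr (dv : DT Λ κ → Λ → Prop) (m : DT Λ κ → Λ → ℝ) : DT Λ κ → Prop
  | .leaf _ _ => True
  | .br p w r t₁ t₀ v B G => ∀ j,
      (dv (.br p w r t₁ t₀ v B G) j →
        m t₀ j = 0 ∧ (1 - w) * m t₁ j ≤ m (.br p w r t₁ t₀ v B G) j) ∧
      (¬ dv (.br p w r t₁ t₀ v B G) j →
        m t₁ j = 0 ∧ w * m t₀ j ≤ m (.br p w r t₁ t₀ v B G) j)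
  | .add b r t₁ t₀ => ∀ j,
      (dv (.add b r t₁ t₀) j → m t₀ j = 0 ∧ m t₁ j ≤ m (.add b r t₁ t₀) j) ∧
      (¬ dv (.add b r t₁ t₀) j → m t₁ j = 0 ∧ m t₀ j ≤ m (.add b r t₁ t₀) j)
  | .up b Sp t => ∀ j, m t j ≤ m (.up b Sp t) j

/-- item masses -/
structure IM (dv : DT Λ κ → Λ → Prop) (m : DT Λ κ → Λ → ℝ) (d : DT Λ κ) : Prop where
  nn : ∀ j, 0 ≤ m d j
  wn : WN d
  st : IMr dv m d

/-- tree conditions of a state -/
structure TC (dv : DT Λ κ → Λ → Prop) (m : DT Λ κ → Λ → ℝ) (x : XSt Λ κ) : Prop where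
  L : x.s.t.All (IM dv m)
  R : x.s.t'.All (IM dv m)

lemma TC.wL {dv : DT Λ κ → Λ → Prop} {m : DT Λ κ → Λ → ℝ} {x : XSt Λ κ} (h : TC dv m x) :
    x.s.t.All WN := h.L.mono fun _ k => k.wn

lemma TC.wR {dv : DT Λ κ → Λ → Prop} {m : DT Λ κ → Λ → ℝ} {x : XSt Λ κ} (h : TC dv m x) :
    x.s.t'.All WN := h.R.mono fun _ k => k.wn

open Classical in
/-- the missing ties of the item `j` below a node -/
noncomputable def mtD (dv : DT Λ κ → Λ → Prop) (j : Λ) : DT Λ κ → Finset ℕ
  | .leaf _ _ => ∅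
  | .br p w r t₁ t₀ v B G => if w = 0 ∨ dv (.br p w r t₁ t₀ v B G) j then mtD dv j t₁
      else insert p (mtD dv j t₀)
  | .add b r t₁ t₀ => if dv (.add b r t₁ t₀) j then mtD dv j t₁ else mtD dv j t₀
  | .up _ _ t => mtD dv j t

/-- the start state -/
def XSt.st (n : ℕ) (s : St Λ κ) : XSt Λ κ := ⟨s, ∅, ∅, n⟩

/-- invariant of the item walks; `x.n` = the upper end of the gap of columns `[p, n)` -/
structure XI (x : XSt Λ κ) : Prop where
  cL : x.s.t.Col (x.s.t.top + 1)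
  cR : x.s.t'.Col (x.s.t'.top + 1)
  u : ∀ q ∈ x.u, x.s.t.top < q
  u' : ∀ q ∈ x.u', x.s.t'.top < q
  wL : x.s.t.All WN
  wR : x.s.t'.All WN
  n : x.s.p < x.n
  nu : ∀ q ∈ x.u, x.n ≤ q ∨ q = x.s.p
  nu' : ∀ q ∈ x.u', x.n ≤ q ∨ q = x.s.p

end Crest.Agent.R4P.Res927
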