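import Crest.Agent.R4P.GInst194
import Crest.Agent.R4P.ResDef753
import Crest.Agent.R4P.OmData532
import Crest.Agent.R4P.Frame758b
import Crest.Agent.R4P.PhiU820
import Crest.Agent.R4.IMI194

/-!
R4 (S0004), POWERS: port of helper194's `R4/IMI194` to the tree with powers (helper820): node
conditions `Res927.IM` for the integral masses `mI`, and the comparison of the integral masses with the
raw masses for the leaf weights of module OM.

* `dvM m d j` = the canonical node predicate 'the piece `j` goes to the first child of `d`'.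
* `IM_toDT` needs only `t.Ok n`, `Fit`, `Wts` (no divisibility data).
* `Mn D C c b pr t` : `b · prf · (mean of the weight) ≤ C (c φ(q)/q)` (`c` = factor of the node), stable
  along the tree (`Mn.all`), true at the root with `C = 4` (`Mn_root`).
-/

set_option autoImplicit false
set_option linter.unusedSectionVars false
set_option linter.unusedVariables false

namespace Crest.Agent.R4P.IMI194

export Crest.Agent.R4.IMI194 (omw_mean_le)

open Crest.Agent.R4.Tour104 Crest.Agent.R4.Tour758 Crest.Agent.R4.Avg758 Crest.Agent.R4.Clos758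
open Crest.Agent.R4.ClosL758 Crest.Agent.R4.ClosG758 Crest.Agent.R4.ClosR758
open Crest.Agent.R4P.W363 Crest.Agent.R4P.Cnt588 Crest.Agent.R4.Item464
open Crest.Agent.R4P.Item758 Crest.Agent.R4.Piece464 Crest.Agent.R4.Fam464
open Crest.Agent.R4P.Walk560 Crest.Agent.R4P.GInst194

section
variable {Λ κ : Type*}

/-- the piece `j` goes to the first child -/
def dvM (m : DT Λ κ → Λ → ℝ) : DT Λ κ → Λ → Prop
  | .leaf _ _, _ => True
  | .br _ _ _ t₁ t₀ _ _ _, j => m t₁ j ≠ 0 ∨ m t₀ j = 0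
  | .add _ _ t₁ t₀, j => m t₁ j ≠ 0 ∨ m t₀ j = 0
  | .up _ _ _, _ => True

end

section
variable {Λ κ : Type*} [Fintype Λ] [DecidableEq Λ] [Fintype κ] [DecidableEq κ]
  {D : Item758.Par Λ κ} {sp : ℕ → Finset Λ}

/-- masses of a decorated item tree -/
lemma mI_toDT {b pr : ℕ} {t : IT} (hb : 0 < b) (hF : Fit b pr t) (hW : D.Wts pr t) (j : Λ) :
    mI (D.toDT sp b pr t) j = I ((D.toFT b pr t).U 1 j) := by
  unfold mI
  rw [D.toDT_g, D.toG_val hb hF hW]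

lemma mI_nonneg {b pr : ℕ} {t : IT} (hb : 0 < b) (hF : Fit b pr t) (hW : D.Wts pr t) (j : Λ) :
    0 ≤ mI (D.toDT sp b pr t) j := by
  rw [mI_toDT hb hF hW]
  exact I_nonneg fun y => (FT.pb hb (D.toFT_Adm _ _ _ hb hF hW) (one_dvd _) j).nonneg y

lemma mI_zero {b pr : ℕ} {t : IT} (hb : 0 < b) (hF : Fit b pr t) (hW : D.Wts pr t) {j : Λ}
    (hj : D.it j ∉ t.items) : mI (D.toDT sp b pr t) j = 0 := by
  rw [mI_toDT hb hF hW]
  have e : (D.toFT b pr t).U 1 j = fun _ => 0 := funext fun x => D.U_zero t b pr 1 j hj x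
  rw [e]
  simp [I]

lemma mI_eq (hab : ∀ j, D.al j ≤ D.be j) {b pr : ℕ} {t : IT} (hb : 0 < b) (hF : Fit b pr t)
    (hW : D.Wts pr t) {j : Λ} (hj : D.it j ∈ t.items) :
    mI (D.toDT sp b pr t) j = (b : ℝ) * (D.be j - D.al j) * prf t (D.it j) *
      mnw (D.it j / (pr * pp t (D.it j))) (D.om j) := by
  rw [mI_toDT hb hF hW, D.I_U hab t b pr 1 hb hF hW (one_dvd _) j hj]
  push_cast
  rw [div_one]

lemma mI_phantom (r : Λ → κ) (j : Λ) : mI (DT.leaf r fun _ _ => (0 : ℝ)) j = 0 := by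
  have e : mI (DT.leaf r fun _ _ => (0 : ℝ)) j = I (fun _ : ℝ => (0 : ℝ)) := rfl
  rw [e]
  simp [I]

/-! ### the masses of the children -/

section children
variable (hab : ∀ j, D.al j ≤ D.be j) {b pr p : ℕ} {Sp : Finset ℕ} {t₁ t₀ t : IT} (hb : 0 < b)
include hab hb

lemma mI_br₁ (hF : Fit b pr (.br p Sp t₁ t₀)) (hW : D.Wts pr (.br p Sp t₁ t₀)) {j : Λ}
    (hj1 : D.it j ∈ t₁.items) :
    (1 - 1 / (p : ℝ)) * mI (D.toDT sp b (pr * p) t₁) j =
      mI (D.toDT sp b pr (.br p Sp t₁ t₀)) j := by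
  have hd := hF.2.2.1
  have hj0 : D.it j ∉ t₀.items := Finset.disjoint_left.1 hd hj1
  have hj : D.it j ∈ (IT.br p Sp t₁ t₀).items := Finset.mem_union_left _ hj1
  rw [mI_eq hab hb hF.2.2.2.1 (hW.br₁ hd) hj1, mI_eq hab hb hF hW hj]
  have e : pp (.br p Sp t₁ t₀) (D.it j) = p * pp t₁ (D.it j) := if_neg hj0
  have e' : prf (.br p Sp t₁ t₀) (D.it j) = (1 - 1 / (p : ℝ)) * prf t₁ (D.it j) := if_neg hj0
  rw [e, e', mul_assoc pr p]
  ring

lemma mI_br₀ (hF : Fit b pr (.br p Sp t₁ t₀)) (hW : D.Wts pr (.br p Sp t₁ t₀)) {j : Λ}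
    (hj0 : D.it j ∈ t₀.items) :
    1 / (p : ℝ) * mI (D.toDT sp (b * p) pr t₀) j =
      mI (D.toDT sp b pr (.br p Sp t₁ t₀)) j := by
  have hp : p.Prime := hF.1
  have hp0 : (p : ℝ) ≠ 0 := by exact_mod_cast hp.ne_zero
  have hj : D.it j ∈ (IT.br p Sp t₁ t₀).items := Finset.mem_union_right _ hj0
  rw [mI_eq hab (Nat.mul_pos hb hp.pos) hF.2.2.2.2 hW.br₀ hj0, mI_eq hab hb hF hW hj]
  have e : pp (.br p Sp t₁ t₀) (D.it j) = pp t₀ (D.it j) := if_pos hj0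
  have e' : prf (.br p Sp t₁ t₀) (D.it j) = prf t₀ (D.it j) := if_pos hj0
  rw [e, e']
  push_cast
  field_simp

lemma mI_add₁ (hF : Fit b pr (.add p t₁ t₀)) (hW : D.Wts pr (.add p t₁ t₀)) {j : Λ}
    (hj1 : D.it j ∈ t₁.items) :
    mI (D.toDT sp b pr t₁) j = mI (D.toDT sp b pr (.add p t₁ t₀)) j := by
  have hj0 : D.it j ∉ t₀.items := Finset.disjoint_left.1 hF.1 hj1
  have hj : D.it j ∈ (IT.add p t₁ t₀).items := Finset.mem_union_left _ hj1
  rw [mI_eq hab hb hF.2.1 (hW.add₁ hF.1) hj1, mI_eq hab hb hF hW hj]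
  have e : pp (.add p t₁ t₀) (D.it j) = pp t₁ (D.it j) := if_neg hj0
  have e' : prf (.add p t₁ t₀) (D.it j) = prf t₁ (D.it j) := if_neg hj0
  rw [e, e']

lemma mI_add₀ (hF : Fit b pr (.add p t₁ t₀)) (hW : D.Wts pr (.add p t₁ t₀)) {j : Λ}
    (hj0 : D.it j ∈ t₀.items) :
    mI (D.toDT sp b pr t₀) j = mI (D.toDT sp b pr (.add p t₁ t₀)) j := by
  have hj : D.it j ∈ (IT.add p t₁ t₀).items := Finset.mem_union_right _ hj0
  rw [mI_eq hab hb hF.2.2 hW.add₀ hj0, mI_eq hab hb hF hW hj]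
  have e : pp (.add p t₁ t₀) (D.it j) = pp t₀ (D.it j) := if_pos hj0
  have e' : prf (.add p t₁ t₀) (D.it j) = prf t₀ (D.it j) := if_pos hj0
  rw [e, e']

lemma mI_far₁ (hF : Fit b pr (.far p t₁ t₀)) (hW : D.Wts pr (.far p t₁ t₀)) {j : Λ}
    (hj1 : D.it j ∈ t₁.items) :
    mI (D.toDT sp b pr t₁) j = mI (D.toDT sp b pr (.far p t₁ t₀)) j :=
  mI_add₁ hab hb (p := p) (t₀ := t₀) hF hW hj1

lemma mI_far₀ (hF : Fit b pr (.far p t₁ t₀)) (hW : D.Wts pr (.far p t₁ t₀)) {j : Λ}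
    (hj0 : D.it j ∈ t₀.items) :
    mI (D.toDT sp b pr t₀) j = mI (D.toDT sp b pr (.far p t₁ t₀)) j :=
  mI_add₀ hab hb (p := p) (t₁ := t₁) hF hW hj0

lemma mI_pl (hF : Fit b pr (.pl p t)) (hW : D.Wts pr (.pl p t)) (j : Λ) :
    mI (D.toDT sp b (pr * p) t) j = mI (D.toDT sp b pr (.pl p t)) j := by
  by_cases hj : D.it j ∈ t.items
  · have hj' : D.it j ∈ (IT.pl p t).items := hj
    rw [mI_eq hab hb hF.2.2 hW.pl hj, mI_eq hab hb hF hW hj']
    have e : pp (.pl p t) (D.it j) = p * pp t (D.it j) := rfl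
    have e' : prf (.pl p t) (D.it j) = prf t (D.it j) := rfl
    rw [e, e', mul_assoc pr p]
  · have hj' : D.it j ∉ (IT.pl p t).items := hj
    rw [mI_zero hb hF.2.2 hW.pl hj, mI_zero hb hF hW hj']

end children

/-- the row of a node with two children of disjoint items -/
lemma row2 {m₁ m₀ m α β : ℝ} (hm : 0 ≤ m) (h : (m₀ = 0 ∧ α * m₁ = m) ∨ (m₁ = 0 ∧ β * m₀ = m) ∨
      (m₁ = 0 ∧ m₀ = 0)) :
    ((m₁ ≠ 0 ∨ m₀ = 0) → m₀ = 0 ∧ α * m₁ ≤ m) ∧
      (¬ (m₁ ≠ 0 ∨ m₀ = 0) → m₁ = 0 ∧ β * m₀ ≤ m) := by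
  rcases h with ⟨h0, h1⟩ | ⟨h0, h1⟩ | ⟨h0, h1⟩
  · exact ⟨fun _ => ⟨h0, h1.le⟩, fun h => absurd (Or.inr h0) h⟩
  · refine ⟨fun h => ?_, fun h => ⟨h0, h1.le⟩⟩
    rcases h with h | h
    · exact absurd h0 h
    · exact ⟨h, by rw [h0, mul_zero]; exact hm⟩
  · exact ⟨fun _ => ⟨h1, by rw [h0, mul_zero]; exact hm⟩, fun h => absurd (Or.inr h1) h⟩

/-- **node conditions** -/
theorem IM_toDT (hab : ∀ j, D.al j ≤ D.be j) (t : IT) : ∀ b pr n : ℕ, 0 < b → t.Ok n →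
    Fit b pr t → D.Wts pr t →
    (D.toDT sp b pr t).All (Res927.IM (dvM mI) mI) := by
  induction t with
  | leaf S =>
    intro b pr n hb hO hF hW
    exact ⟨fun j => mI_nonneg (sp := sp) hb hF hW j, trivial, trivial⟩
  | br p Sp t₁ t₀ ih₁ ih₀ =>
    intro b pr n hb hO hF hW
    have hp : p.Prime := hF.1
    have hd := hF.2.2.1
    have hF1 := hF.2.2.2.1
    have hF0 := hF.2.2.2.2
    have hbp : 0 < b * p := Nat.mul_pos hb hp.pos
    have hp1 : (1 : ℝ) < p := by exact_mod_cast hp.one_lt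
    have hp0 : (0 : ℝ) < p := by linarith
    refine ⟨⟨fun j => mI_nonneg (sp := sp) hb hF hW j, ?_, fun j => ?_⟩,
      ih₁ b (pr * p) p hb hO.2.2.2.2.1 hF1 (hW.br₁ hd),
      ih₀ (b * p) pr p hbp hO.2.2.2.2.2 hF0 hW.br₀⟩
    · right
      refine ⟨by positivity, ?_, le_rfl⟩
      rw [div_lt_one hp0]; exact hp1
    · refine row2 (mI_nonneg (sp := sp) hb hF hW j) ?_
      by_cases hj1 : D.it j ∈ t₁.items
      · exact Or.inl ⟨mI_zero hbp hF0 hW.br₀ (Finset.disjoint_left.1 hd hj1),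
          mI_br₁ hab hb hF hW hj1⟩
      · by_cases hj0 : D.it j ∈ t₀.items
        · exact Or.inr (Or.inl ⟨mI_zero hb hF1 (hW.br₁ hd) hj1, mI_br₀ hab hb hF hW hj0⟩)
        · exact Or.inr (Or.inr ⟨mI_zero hb hF1 (hW.br₁ hd) hj1, mI_zero hbp hF0 hW.br₀ hj0⟩)
  | add p t₁ t₀ ih₁ ih₀ =>
    intro b pr n hb hO hF hW
    have hd := hF.1
    have hF1 := hF.2.1
    have hF0 := hF.2.2
    refine ⟨⟨fun j => mI_nonneg (sp := sp) hb hF hW j, trivial, fun j => ?_⟩,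
      ih₁ b pr _ hb hO.2.2.2.1 hF1 (hW.add₁ hd), ih₀ b pr _ hb hO.2.2.2.2 hF0 hW.add₀⟩
    have key := row2 (m₁ := mI (D.toDT sp b pr t₁) j) (m₀ := mI (D.toDT sp b pr t₀) j)
      (m := mI (D.toDT sp b pr (.add p t₁ t₀)) j) (α := 1) (β := 1)
      (mI_nonneg (sp := sp) hb hF hW j) (by
      by_cases hj1 : D.it j ∈ t₁.items
      · exact Or.inl ⟨mI_zero hb hF0 hW.add₀ (Finset.disjoint_left.1 hd hj1),
          by rw [one_mul]; exact mI_add₁ hab hb hF hW hj1⟩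
      · by_cases hj0 : D.it j ∈ t₀.items
        · exact Or.inr (Or.inl ⟨mI_zero hb hF1 (hW.add₁ hd) hj1,
            by rw [one_mul]; exact mI_add₀ hab hb hF hW hj0⟩)
        · exact Or.inr (Or.inr ⟨mI_zero hb hF1 (hW.add₁ hd) hj1, mI_zero hb hF0 hW.add₀ hj0⟩))
    rw [one_mul, one_mul] at key
    exact key
  | up b' Sp t ih =>
    intro b pr n hb hO hF hW
    refine ⟨⟨fun j => mI_nonneg (sp := sp) (t := t) hb hF hW j, trivial, fun j => ?_⟩,
      ih b pr _ hb hO.2.2.2 hF hW⟩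
    exact le_rfl
  | pl p t ih =>
    intro b pr n hb hO hF hW
    refine ⟨⟨fun j => mI_nonneg (sp := sp) hb hF hW j, Or.inl rfl, fun j => ?_⟩,
      ih b (pr * p) _ hb hO.2.2 hF.2.2 hW.pl, ?_⟩
    · refine row2 (mI_nonneg (sp := sp) hb hF hW j) (Or.inl ⟨mI_phantom _ _, ?_⟩)
      rw [sub_zero, one_mul]
      exact mI_pl hab hb hF hW j
    · exact ⟨fun j => (mI_phantom _ _).ge, trivial, trivial⟩
  | far p t₁ t₀ ih₁ ih₀ =>
    intro b pr n hb hO hF hW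
    have hd := hF.1
    have hF1 := hF.2.1
    have hF0 := hF.2.2
    refine ⟨⟨fun j => mI_nonneg (sp := sp) hb hF hW j, trivial, fun j => ?_⟩,
      ih₁ b pr _ hb hO.2.2.2.1 hF1 (hW.far₁ hd), ih₀ b pr _ hb hO.2.2.2.2 hF0 hW.far₀⟩
    have key := row2 (m₁ := mI (D.toDT sp b pr t₁) j) (m₀ := mI (D.toDT sp b pr t₀) j)
      (m := mI (D.toDT sp b pr (.far p t₁ t₀)) j) (α := 1) (β := 1)
      (mI_nonneg (sp := sp) hb hF hW j) (by
      by_cases hj1 : D.it j ∈ t₁.items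
      · exact Or.inl ⟨mI_zero hb hF0 hW.far₀ (Finset.disjoint_left.1 hd hj1),
          by rw [one_mul]; exact mI_far₁ hab hb hF hW hj1⟩
      · by_cases hj0 : D.it j ∈ t₀.items
        · exact Or.inr (Or.inl ⟨mI_zero hb hF1 (hW.far₁ hd) hj1,
            by rw [one_mul]; exact mI_far₀ hab hb hF hW hj0⟩)
        · exact Or.inr (Or.inr ⟨mI_zero hb hF1 (hW.far₁ hd) hj1, mI_zero hb hF0 hW.far₀ hj0⟩))
    rw [one_mul, one_mul] at key
    exact key

/-! ### integral masses and raw masses -/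

/-- node condition: `b · prf · (mean of the weight) ≤ C · (c φ(q)/q)` -/
def Mn (D : Item758.Par Λ κ) (C c : ℝ) (b pr : ℕ) (t : IT) : Prop :=
  ∀ j, D.it j ∈ t.items →
    (b : ℝ) * prf t (D.it j) * mnw (D.it j / (pr * pp t (D.it j))) (D.om j) ≤
      C * (c * (((D.it j).totient : ℝ) / (D.it j : ℝ)))

lemma Mn.br₁ {C c : ℝ} {b pr p : ℕ} {Sp : Finset ℕ} {t₁ t₀ : IT} (hp : p.Prime)
    (hd : Disjoint t₁.items t₀.items)
    (h : Mn D C c b pr (.br p Sp t₁ t₀)) : Mn D C (c / (1 - 1 / (p : ℝ))) b (pr * p) t₁ := by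
  intro j hj
  have h2 := h j (Finset.mem_union_left _ hj)
  have h3 : D.it j ∉ t₀.items := Finset.disjoint_left.1 hd hj
  have e : pp (.br p Sp t₁ t₀) (D.it j) = p * pp t₁ (D.it j) := if_neg h3
  have e' : prf (.br p Sp t₁ t₀) (D.it j) = (1 - 1 / (p : ℝ)) * prf t₁ (D.it j) := if_neg h3
  rw [e, e', ← mul_assoc pr p] at h2
  have hp1 : (1 : ℝ) < p := by exact_mod_cast hp.one_lt
  have hf : (0 : ℝ) < 1 - 1 / (p : ℝ) := by
    rw [sub_pos, div_lt_one (by linarith)]; exact hp1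
  have h4 : (1 - 1 / (p : ℝ)) * ((b : ℝ) * prf t₁ (D.it j) *
      mnw (D.it j / (pr * p * pp t₁ (D.it j))) (D.om j)) ≤
      (1 - 1 / (p : ℝ)) * (C * (c / (1 - 1 / (p : ℝ)) *
        (((D.it j).totient : ℝ) / (D.it j : ℝ)))) := by
    calc (1 - 1 / (p : ℝ)) * ((b : ℝ) * prf t₁ (D.it j) *
        mnw (D.it j / (pr * p * pp t₁ (D.it j))) (D.om j)) =
        (b : ℝ) * ((1 - 1 / (p : ℝ)) * prf t₁ (D.it j)) *
          mnw (D.it j / (pr * p * pp t₁ (D.it j))) (D.om j) := by ring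
      _ ≤ _ := h2
      _ = C * ((1 - 1 / (p : ℝ)) * (c / (1 - 1 / (p : ℝ))) *
            (((D.it j).totient : ℝ) / (D.it j : ℝ))) := by
          rw [mul_div_cancel₀ _ hf.ne']
      _ = _ := by ring
  exact le_of_mul_le_mul_left h4 hf

lemma Mn.br₀ {C c : ℝ} {b pr p : ℕ} {Sp : Finset ℕ} {t₁ t₀ : IT}
    (h : Mn D C c b pr (.br p Sp t₁ t₀)) : Mn D C (c * p) (b * p) pr t₀ := by
  intro j hj
  have h2 := h j (Finset.mem_union_right _ hj)
  have e : pp (.br p Sp t₁ t₀) (D.it j) = pp t₀ (D.it j) := if_pos hj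
  have e' : prf (.br p Sp t₁ t₀) (D.it j) = prf t₀ (D.it j) := if_pos hj
  rw [e, e'] at h2
  have h3 := mul_le_mul_of_nonneg_left h2 (Nat.cast_nonneg (α := ℝ) p)
  push_cast
  linarith

lemma Mn.add₁ {C c : ℝ} {b pr p : ℕ} {t₁ t₀ : IT} (hd : Disjoint t₁.items t₀.items)
    (h : Mn D C c b pr (.add p t₁ t₀)) : Mn D C c b pr t₁ := by
  intro j hj
  have h2 := h j (Finset.mem_union_left _ hj)
  have h3 : D.it j ∉ t₀.items := Finset.disjoint_left.1 hd hj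
  have e : pp (.add p t₁ t₀) (D.it j) = pp t₁ (D.it j) := if_neg h3
  have e' : prf (.add p t₁ t₀) (D.it j) = prf t₁ (D.it j) := if_neg h3
  rw [e, e'] at h2
  exact h2

lemma Mn.add₀ {C c : ℝ} {b pr p : ℕ} {t₁ t₀ : IT} (h : Mn D C c b pr (.add p t₁ t₀)) :
    Mn D C c b pr t₀ := by
  intro j hj
  have h2 := h j (Finset.mem_union_right _ hj)
  have e : pp (.add p t₁ t₀) (D.it j) = pp t₀ (D.it j) := if_pos hj
  have e' : prf (.add p t₁ t₀) (D.it j) = prf t₀ (D.it j) := if_pos hj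
  rw [e, e'] at h2
  exact h2

lemma Mn.pl {C c : ℝ} {b pr p : ℕ} {t : IT} (h : Mn D C c b pr (.pl p t)) :
    Mn D C c b (pr * p) t := by
  intro j hj
  have h2 := h j hj
  have e : pp (.pl p t) (D.it j) = p * pp t (D.it j) := rfl
  have e' : prf (.pl p t) (D.it j) = prf t (D.it j) := rfl
  rw [e, e', ← mul_assoc pr p] at h2
  exact h2

/-- **`Mn` passes to all the nodes** -/
theorem Mn.all {C : ℝ} (t : IT) : ∀ s : Bld532.NS, t.Ok s.n → Fit s.B s.A t →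
    Mn D C s.c s.B s.A t →
    Bld532.All (fun u τ => Mn D C u.c u.B u.A τ) s t := by
  induction t with
  | leaf S => intro s hO hF h; exact h
  | br p Sp t₁ t₀ ih₁ ih₀ =>
    intro s hO hF h
    exact ⟨h, ih₁ ⟨p, s.c / (1 - 1 / (p : ℝ)), s.A * p, s.B⟩ hO.2.2.2.2.1 hF.2.2.2.1
        (h.br₁ hF.1 hF.2.2.1),
      ih₀ ⟨p, s.c * p, s.A, s.B * p⟩ hO.2.2.2.2.2 hF.2.2.2.2 h.br₀⟩
  | add p t₁ t₀ ih₁ ih₀ =>
    intro s hO hF h
    have h1 := ih₁ ⟨p + 1, s.c, s.A, s.B⟩ hO.2.2.2.1 hF.2.1 (h.add₁ hF.1)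
    have h0 := ih₀ ⟨p + 1, s.c, s.A, s.B⟩ hO.2.2.2.2 hF.2.2 h.add₀
    exact ⟨h, h1, h0⟩
  | up p Sp t ih => intro s hO hF h; exact ⟨h, ih ⟨p, s.c, s.A, s.B⟩ hO.2.2.2 hF h⟩
  | pl p t ih =>
    intro s hO hF h
    exact ⟨h, ih ⟨p + 1, s.c, s.A * p, s.B⟩ hO.2.2 hF.2.2 h.pl⟩
  | far p t₁ t₀ ih₁ ih₀ =>
    intro s hO hF h
    exact ⟨h, ih₁ ⟨p + 1, s.c, s.A, s.B⟩ hO.2.2.2.1 hF.2.1
        (Mn.add₁ (p := p) (t₀ := t₀) hF.1 h),
      ih₀ ⟨p + 1, s.c, s.A, s.B⟩ hO.2.2.2.2 hF.2.2 (Mn.add₀ (p := p) (t₁ := t₁) h)⟩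

/-- **integral masses are at most `C` raw masses** -/
theorem mI_le_raw (hab : ∀ j, D.al j ≤ D.be j) {C c : ℝ} {b pr : ℕ} {t : IT} (hb : 0 < b)
    (hF : Fit b pr t) (hW : D.Wts pr t) (hM : Mn D C c b pr t) {j : Λ}
    (hj : D.it j ∈ t.items) :
    mI (D.toDT sp b pr t) j ≤ C * (c *
      ((D.be j - D.al j) * (((D.it j).totient : ℝ) / (D.it j : ℝ)))) := by
  rw [mI_eq hab hb hF hW hj]
  have h := mul_le_mul_of_nonneg_left (hM j hj) (sub_nonneg.2 (hab j))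
  calc (b : ℝ) * (D.be j - D.al j) * prf t (D.it j) *
      mnw (D.it j / (pr * pp t (D.it j))) (D.om j) =
      (D.be j - D.al j) * ((b : ℝ) * prf t (D.it j) *
        mnw (D.it j / (pr * pp t (D.it j))) (D.om j)) := by ring
    _ ≤ _ := h
    _ = _ := by ring

end

/-! ### upper bound for the means of the weights of module OM -/

/-- means of the weights `omT` -/
lemma omT_mean_le {t : IT} {S' : Finset ℕ} {T' : ℕ → ℕ → Finset ℚ} {th ph : ℕ → ℝ}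
    {lab : ℕ → Option ℚ} {q : ℕ} (hq : 0 < q / pp t q)
    (hs : ∑ b ∈ Data758.rt t q, 1 / (b : ℝ) ≤ 1 / 2) :
    mnw (q / pp t q) (OmData532.omT t S' T' th ph lab q) ≤
      2 * (((q / pp t q).totient : ℝ) / ((q / pp t q : ℕ) : ℝ)) := by
  unfold OmData532.omT
  refine omw_mean_le hq (Crest.Agent.R4.LF363.LW_uw _ _ _ _) (fun l hl _ =>
    (Crest.Agent.R4.LF363.mn_uw _ _ _ (Nat.prime_of_mem_primeFactors hl)).le) ?_
  refine le_trans (Finset.sum_le_sum_of_subset_of_nonneg ?_ fun i _ _ => by positivity) hs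
  intro l hl
  exact (Finset.mem_filter.1 hl).2

lemma mnw_mono {w : ℕ} {f g : ℤ → ℝ} (h : ∀ a, f a ≤ g a) : mnw w f ≤ mnw w g := by
  unfold mnw
  exact div_le_div_of_nonneg_right (Finset.sum_le_sum fun i _ => h _) (Nat.cast_nonneg _)

lemma mnw_zero (w : ℕ) : mnw w (fun _ => 0) = 0 := by
  unfold mnw; simp

section root
variable {Λ κ : Type*} [Fintype Λ] [DecidableEq Λ] [Fintype κ] [DecidableEq κ]
  {D : Item758.Par Λ κ}

/-- **`Mn` at the root** with the constant `4`: weights `≤ omT` on the pruned set, `0` outside -/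
theorem Mn_root {t : IT} {n : ℕ} (hO : t.Ok n) (hF : Fit 1 1 t) (hP : PhiU820.PlOk ∅ t)
    {S' : Finset ℕ} {T' : ℕ → ℕ → Finset ℚ} {th ph : ℕ → ℝ} {lab : ℕ → Option ℚ}
    (hom : ∀ j, D.it j ∈ t.items → ∀ a, D.om j a ≤ OmData532.omT t S' T' th ph lab (D.it j) a)
    (h0 : ∀ j, D.it j ∈ t.items → ∀ a, 0 ≤ D.om j a)
    (hs : ∀ q ∈ t.items, q ∈ S' → ∑ b ∈ Data758.rt t q, 1 / (b : ℝ) ≤ 1 / 2 ∧
      ∑ b ∈ t.mt q ∪ t.sp q, 1 / (b : ℝ) ≤ 1 / 2)
    (hpp : ∀ q ∈ t.items, pp t q ∣ q) : Mn D 4 1 1 1 t := by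
  intro j hj
  have hq0 : 0 < D.it j := (hF.item _ hj).1
  have hprf := (BldF542.prf_pos t n hO (D.it j)).1
  by_cases hq : D.it j ∈ S'
  · obtain ⟨s1, s2⟩ := hs _ hj hq
    have hw : 0 < D.it j / pp t (D.it j) :=
      Nat.div_pos (Nat.le_of_dvd hq0 (hpp _ hj)) (Nat.pos_of_dvd_of_pos (hpp _ hj) hq0)
    have h1 : mnw (D.it j / pp t (D.it j)) (D.om j) ≤
        2 * (((D.it j / pp t (D.it j)).totient : ℝ) / ((D.it j / pp t (D.it j) : ℕ) : ℝ)) :=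
      (mnw_mono (hom j hj)).trans (omT_mean_le hw s1)
    have h2 := PhiU820.phi_ge_two t hO hF hP hj s2
    rw [one_mul, Nat.cast_one, one_mul, one_mul]
    calc prf t (D.it j) * mnw (D.it j / pp t (D.it j)) (D.om j) ≤
        prf t (D.it j) * (2 * (((D.it j / pp t (D.it j)).totient : ℝ) /
          ((D.it j / pp t (D.it j) : ℕ) : ℝ))) := mul_le_mul_of_nonneg_left h1 hprf.le
      _ = 2 * (prf t (D.it j) * (((D.it j / pp t (D.it j)).totient : ℝ) /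
          ((D.it j / pp t (D.it j) : ℕ) : ℝ))) := by ring
      _ ≤ 2 * (2 * (((D.it j).totient : ℝ) / (D.it j : ℝ))) :=
          mul_le_mul_of_nonneg_left h2 (by norm_num)
      _ = _ := by ring
  · have e : D.om j = fun _ => 0 := by
      funext a
      exact le_antisymm ((hom j hj a).trans (OmData532.omT_of_not_mem hq a).le) (h0 j hj a)
    rw [e, mnw_zero, mul_zero]
    positivity

end root

section frame
open Crest.Agent.R4P.Frame758
variable {Λ κ₀ : Type*} [Fintype Λ] [DecidableEq Λ] [Fintype κ₀] [DecidableEq κ₀]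
  {X : Finset (ℕ × ℕ × Finset ℕ)} [Fintype (Lb κ₀ X)] [DecidableEq (Lb κ₀ X)]

/-- **the integral mass of a population is at most `C` times its raw mass** -/
theorem sum_mI_le (D : Par0 Λ κ₀) {sp : ℕ → Finset Λ} (j₀ : Λ) (hab : ∀ j, D.al j ≤ D.be j)
    {cx : Finset ℕ → ℝ} {C c : ℝ} {b pr : ℕ} {t : IT} (hX : leafs b pr t ⊆ X) (hb : 0 < b)
    (hc : CxOk cx c t)
    (hF : Fit b pr t) (hW : (D.par X).Wts pr t) (hM : Mn (D.par X) C c b pr t)
    (A : Finset Λ) :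
    ∑ j ∈ A, mI (tD D X sp b pr t) j ≤ C * tM D (wt D) cx j₀ X (tG D X b pr t) A := by
  rw [tM_eq D (wt D) j₀ hF hX hc A]
  have h1 : ∑ j ∈ A, mI (tD D X sp b pr t) j =
      ∑ j ∈ A.filter (fun j => D.it j ∈ t.items), mI (tD D X sp b pr t) j := by
    rw [Finset.sum_filter]
    refine Finset.sum_congr rfl fun j _ => ?_
    split_ifs with hj
    · rfl
    · exact mI_zero hb hF hW hj
  rw [h1, Finset.mul_sum, Finset.mul_sum]
  refine Finset.sum_le_sum fun j hj => ?_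
  exact mI_le_raw (D := D.par X) (sp := sp) hab hb hF hW hM (Finset.mem_filter.1 hj).2

end frame

end Crest.Agent.R4P.IMI194
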