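import Crest.Agent.R4.Fam464
import Crest.Agent.R4P.Cnt588
import Crest.Agent.R4.ClosR758
import Crest.Agent.R4.Fin532

/-!
R4 (S0004), module A3b: **from item trees to closure trees** (port of R4/Item758 to the tree with
powers, 33's `R4P.Cnt588.IT`; new: `pl p t` = value pulled by `p` (`FT.push`), `far` = `add`).

Every item is in exactly one node per level, so the worlds, leaf partitions and leaf weights are
functions of the item piece and of the level only.
-/

set_option autoImplicit false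
set_option linter.unusedSectionVars false
set_option linter.unusedVariables false
open MeasureTheory Filter

namespace Crest.Agent.R4P.Item758

open Crest.Agent.R4.Tour104 Crest.Agent.R4.Tour758 Crest.Agent.R4.Avg758 Crest.Agent.R4.Clos758
open Crest.Agent.R4.ClosL758 Crest.Agent.R4.ClosG758 Crest.Agent.R4.Lam368
open Crest.Agent.R4.Piece464 Crest.Agent.R4.Fam464 Crest.Agent.R4P.Cnt588

/-- parameters of the construction: `it j` = item of the piece `j`, `[al j, be j)` = the piece (in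
terms of `q x - γ - a`), `om j` = raised leaf weight, `rho p` = worlds at column `p`, `rhoL` = leaf
partition (may encode the leaf) -/
structure Par (Λ κ : Type*) where
  γ : ℝ
  it : Λ → ℕ
  al : Λ → ℝ
  be : Λ → ℝ
  om : Λ → ℤ → ℝ
  rho : ℕ → Λ → κ
  rhoL : ℕ → ℕ → Finset ℕ → Λ → κ

/-- product of the present ties of `q` in `t` -/
def pp : IT → ℕ → ℕ
  | .leaf _, _ => 1
  | .br p Sp t₁ t₀, q => if q ∈ t₀.items then pp t₀ q else p * pp t₁ q
  | .add _ t₁ t₀, q => if q ∈ t₀.items then pp t₀ q else pp t₁ q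
  | .up _ _ t, q => pp t q
  | .pl p t, q => p * pp t q
  | .far _ t₁ t₀, q => if q ∈ t₀.items then pp t₀ q else pp t₁ q

/-- product of the missing ties of `q` in `t` -/
def mp : IT → ℕ → ℕ
  | .leaf _, _ => 1
  | .br p Sp t₁ t₀, q => if q ∈ t₀.items then p * mp t₀ q else mp t₁ q
  | .add _ t₁ t₀, q => if q ∈ t₀.items then mp t₀ q else mp t₁ q
  | .up _ _ t, q => mp t q
  | .pl _ t, q => mp t q
  | .far _ t₁ t₀, q => if q ∈ t₀.items then mp t₀ q else mp t₁ q

/-- `∏ (1 - 1/p)` over the present ties of `q` in `t` -/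
noncomputable def prf : IT → ℕ → ℝ
  | .leaf _, _ => 1
  | .br p Sp t₁ t₀, q => if q ∈ t₀.items then prf t₀ q else (1 - 1 / (p : ℝ)) * prf t₁ q
  | .add _ t₁ t₀, q => if q ∈ t₀.items then prf t₀ q else prf t₁ q
  | .up _ _ t, q => prf t q
  | .pl _ t, q => prf t q
  | .far _ t₁ t₀, q => if q ∈ t₀.items then prf t₀ q else prf t₁ q

/-- divisibility structure: `b` = product of the missing ties above, `pr` = product of the present
ties and of the free pulls above; with powers `b` is coprime to `q / pr` (not to `q`) -/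
def Fit : ℕ → ℕ → IT → Prop
  | b, pr, .leaf S => ∀ q ∈ S, 0 < q ∧ pr ∣ q ∧ Nat.Coprime (q / pr) b
  | b, pr, .br p Sp t₁ t₀ => p.Prime ∧ Nat.Coprime p b ∧ Disjoint t₁.items t₀.items ∧
      Fit b (pr * p) t₁ ∧ Fit (b * p) pr t₀
  | b, pr, .add _ t₁ t₀ => Disjoint t₁.items t₀.items ∧ Fit b pr t₁ ∧ Fit b pr t₀
  | b, pr, .up _ _ t => Fit b pr t
  | b, pr, .pl p t => p.Prime ∧ Nat.Coprime p b ∧ Fit b (pr * p) t
  | b, pr, .far _ t₁ t₀ => Disjoint t₁.items t₀.items ∧ Fit b pr t₁ ∧ Fit b pr t₀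

lemma div_step {q pr p : ℕ} (hq : 0 < q) (h : pr * p ∣ q) : q / pr = p * (q / (pr * p)) := by
  obtain ⟨k, rfl⟩ := h
  have hpr : 0 < pr * p := Nat.pos_of_mul_pos_right hq
  have hpr0 : 0 < pr := Nat.pos_of_mul_pos_right hpr
  rw [Nat.mul_div_cancel_left k hpr, mul_assoc, Nat.mul_div_cancel_left _ hpr0]

lemma Fit.item {t : IT} : ∀ {b pr : ℕ}, Fit b pr t → ∀ q ∈ t.items,
    0 < q ∧ pr ∣ q ∧ Nat.Coprime (q / pr) b := by
  induction t with
  | leaf S => intro b pr h; exact h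
  | br p Sp t₁ t₀ ih₁ ih₀ =>
    intro b pr h q hq
    obtain ⟨hp, hpb, hd, h1, h0⟩ := h
    rcases Finset.mem_union.1 hq with hq | hq
    · obtain ⟨a1, a2, a3⟩ := ih₁ h1 q hq
      refine ⟨a1, (Dvd.intro p rfl).trans a2, ?_⟩
      rw [div_step a1 a2]
      exact Nat.Coprime.mul_left hpb a3
    · obtain ⟨a1, a2, a3⟩ := ih₀ h0 q hq
      exact ⟨a1, a2, Nat.Coprime.coprime_mul_right_right a3⟩
  | add b' t₁ t₀ ih₁ ih₀ =>
    intro b pr h q hq
    obtain ⟨hd, h1, h0⟩ := h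
    rcases Finset.mem_union.1 hq with hq | hq
    · exact ih₁ h1 q hq
    · exact ih₀ h0 q hq
  | up b' Sp t ih => intro b pr h q hq; exact ih h q hq
  | pl p t ih =>
    intro b pr h q hq
    obtain ⟨hp, hpb, h1⟩ := h
    obtain ⟨a1, a2, a3⟩ := ih h1 q hq
    refine ⟨a1, (Dvd.intro p rfl).trans a2, ?_⟩
    rw [div_step a1 a2]
    exact Nat.Coprime.mul_left hpb a3
  | far b' t₁ t₀ ih₁ ih₀ =>
    intro b pr h q hq
    obtain ⟨hd, h1, h0⟩ := h
    rcases Finset.mem_union.1 hq with hq | hq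
    · exact ih₁ h1 q hq
    · exact ih₀ h0 q hq

lemma Wt_scale {w : ℕ} {κ : ℤ → ℝ} (h : Wt w κ) (c : ℤ) : Wt w fun a => κ (c * a) := by
  refine ⟨fun a => h.nonneg _, fun a => ?_⟩
  have e : c * (a + w) = c * a + w * c := by ring
  rw [e, h.add_mul]

section
variable {Λ κ : Type*}

/-- the piece `j` scaled by `s` on the modulus `w` -/
noncomputable def Par.pcs (D : Par Λ κ) (j : Λ) (s : ℝ) (w : ℕ) (ω : ℤ → ℝ) (x : ℝ) : ℝ :=
  pc (s * D.γ) (s * D.al j) (s * D.be j) w ω x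

/-- leaf functions -/
noncomputable def Par.L (D : Par Λ κ) (b pr : ℕ) (S : Finset ℕ) (c : ℕ) (j : Λ) (x : ℝ) : ℝ :=
  if D.it j ∈ S then D.pcs j ((b : ℝ) / c) (D.it j / pr) (fun a => D.om j (c * a)) x else 0

/-- weights are periodic modulo the leaf modulus -/
def Par.Wts (D : Par Λ κ) (pr : ℕ) (t : IT) : Prop :=
  ∀ j, D.it j ∈ t.items → Wt (D.it j / (pr * pp t (D.it j))) (D.om j)

/-- the spec tree -/
noncomputable def Par.toFT (D : Par Λ κ) : ℕ → ℕ → IT → FT Λ κ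
  | b, pr, .leaf S => .leaf (D.rhoL b pr S) (D.L b pr S)
  | b, pr, .br p Sp t₁ t₀ => .br p 0 (fun _ => D.rho p) (D.toFT b (pr * p) t₁) (D.toFT (b * p) pr t₀)
  | b, pr, .add p t₁ t₀ => .add (D.rho p) (D.toFT b pr t₁) (D.toFT b pr t₀)
  | b, pr, .up _ _ t => D.toFT b pr t
  | b, pr, .pl p t => .push p (D.rho p) (D.toFT b (pr * p) t)
  | b, pr, .far p t₁ t₀ => .add (D.rho p) (D.toFT b pr t₁) (D.toFT b pr t₀)

lemma Par.Wts.br₁ {D : Par Λ κ} {pr p : ℕ} {Sp : Finset ℕ} {t₁ t₀ : IT} (hd : Disjoint t₁.items t₀.items)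
    (h : D.Wts pr (.br p Sp t₁ t₀)) : D.Wts (pr * p) t₁ := by
  intro j hj
  have h2 := h j (Finset.mem_union_left _ hj)
  have h3 : D.it j ∉ t₀.items := Finset.disjoint_left.1 hd hj
  have e : pp (.br p Sp t₁ t₀) (D.it j) = p * pp t₁ (D.it j) := if_neg h3
  rw [e, ← mul_assoc] at h2
  exact h2

lemma Par.Wts.br₀ {D : Par Λ κ} {pr p : ℕ} {Sp : Finset ℕ} {t₁ t₀ : IT}
    (h : D.Wts pr (.br p Sp t₁ t₀)) : D.Wts pr t₀ := by
  intro j hj
  have h2 := h j (Finset.mem_union_right _ hj)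
  have e : pp (.br p Sp t₁ t₀) (D.it j) = pp t₀ (D.it j) := if_pos hj
  rw [e] at h2
  exact h2

lemma Par.Wts.add₁ {D : Par Λ κ} {pr p : ℕ} {t₁ t₀ : IT} (hd : Disjoint t₁.items t₀.items)
    (h : D.Wts pr (.add p t₁ t₀)) : D.Wts pr t₁ := by
  intro j hj
  have h2 := h j (Finset.mem_union_left _ hj)
  have h3 : D.it j ∉ t₀.items := Finset.disjoint_left.1 hd hj
  have e : pp (.add p t₁ t₀) (D.it j) = pp t₁ (D.it j) := if_neg h3
  rw [e] at h2
  exact h2

lemma Par.Wts.add₀ {D : Par Λ κ} {pr p : ℕ} {t₁ t₀ : IT}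
    (h : D.Wts pr (.add p t₁ t₀)) : D.Wts pr t₀ := by
  intro j hj
  have h2 := h j (Finset.mem_union_right _ hj)
  have e : pp (.add p t₁ t₀) (D.it j) = pp t₀ (D.it j) := if_pos hj
  rw [e] at h2
  exact h2

lemma Par.Wts.far₁ {D : Par Λ κ} {pr p : ℕ} {t₁ t₀ : IT} (hd : Disjoint t₁.items t₀.items)
    (h : D.Wts pr (.far p t₁ t₀)) : D.Wts pr t₁ :=
  Par.Wts.add₁ (p := p) hd h

lemma Par.Wts.far₀ {D : Par Λ κ} {pr p : ℕ} {t₁ t₀ : IT}
    (h : D.Wts pr (.far p t₁ t₀)) : D.Wts pr t₀ :=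
  Par.Wts.add₀ (p := p) (t₁ := t₁) h

lemma Par.Wts.pl {D : Par Λ κ} {pr p : ℕ} {t : IT}
    (h : D.Wts pr (.pl p t)) : D.Wts (pr * p) t := by
  intro j hj
  have h2 := h j hj
  have e : pp (.pl p t) (D.it j) = p * pp t (D.it j) := rfl
  rw [e, ← mul_assoc] at h2
  exact h2

/-- leaf functions are lifts of each other -/
lemma Par.L_ok (D : Par Λ κ) {b pr : ℕ} {S : Finset ℕ} (hb : 0 < b)
    (hF : Fit b pr (.leaf S)) (hW : D.Wts pr (.leaf S)) :
    (∀ c, c ∣ b → ∀ j, PB (D.L b pr S c j)) ∧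
      ∀ c c', c * c' ∣ b → ∀ j, Lift c' (D.L b pr S c j) (D.L b pr S (c * c') j) := by
  have hw : ∀ j, D.it j ∈ S → 0 < D.it j / pr ∧ Wt (D.it j / pr) (D.om j) ∧
      Nat.Coprime (D.it j / pr) b := by
    intro j hj
    obtain ⟨a1, a2, a3⟩ := hF _ hj
    have h2 := hW j hj
    have e : pr * pp (.leaf S) (D.it j) = pr := by show pr * 1 = pr; ring
    rw [e] at h2
    exact ⟨Nat.div_pos (Nat.le_of_dvd a1 a2) (Nat.pos_of_dvd_of_pos a2 a1), h2, a3⟩
  refine ⟨fun c hc j => ?_, fun c c' hcc j y => ?_⟩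
  · by_cases hj : D.it j ∈ S
    · have e : D.L b pr S c j = pc ((b : ℝ) / c * D.γ) ((b : ℝ) / c * D.al j)
          ((b : ℝ) / c * D.be j) (D.it j / pr) (fun a => D.om j (c * a)) := by
        funext x; unfold Par.L; rw [if_pos hj]; rfl
      rw [e]
      exact PB_pc (hw j hj).1 (Wt_scale (hw j hj).2.1 _)
    · have e : D.L b pr S c j = fun _ => 0 := by
        funext x; unfold Par.L; rw [if_neg hj]
      rw [e]; exact PB.const le_rfl
  · have hc' : c' ∣ b := (Dvd.intro_left c rfl).trans hcc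
    have hc : c ∣ b := (Dvd.intro c' rfl).trans hcc
    have hc0 : 0 < c := Nat.pos_of_dvd_of_pos hc hb
    have hc'0 : 0 < c' := Nat.pos_of_dvd_of_pos hc' hb
    have hcR : (c : ℝ) ≠ 0 := by exact_mod_cast hc0.ne'
    have hc'R : (c' : ℝ) ≠ 0 := by exact_mod_cast hc'0.ne'
    by_cases hj : D.it j ∈ S
    · obtain ⟨w0, hwt, hco⟩ := hw j hj
      have key := sum_pc_fibre (θ := (b : ℝ) / (c * c' : ℕ) * D.γ)
        (α := (b : ℝ) / (c * c' : ℕ) * D.al j) (β := (b : ℝ) / (c * c' : ℕ) * D.be j)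
        (w := D.it j / pr) hc'0 (hco.coprime_dvd_right hc')
        (κ := fun a => D.om j (((c * c' : ℕ) : ℤ) * a)) (κ' := fun a => D.om j (c * a))
        (fun a m ham => by
          refine hwt.congr ?_
          have h1 := (ham.symm.mul_left (c : ℤ))
          have e : (c : ℤ) * ((c' : ℤ) * a) = ((c * c' : ℕ) : ℤ) * a := by push_cast; ring
          rw [e] at h1
          exact h1) y
      have eL : ∀ x, D.L b pr S (c * c') j x = pc ((b : ℝ) / (c * c' : ℕ) * D.γ)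
          ((b : ℝ) / (c * c' : ℕ) * D.al j) ((b : ℝ) / (c * c' : ℕ) * D.be j) (D.it j / pr)
          (fun a => D.om j (((c * c' : ℕ) : ℤ) * a)) x := fun x => by
        unfold Par.L; rw [if_pos hj]; rfl
      rw [Finset.sum_congr rfl fun i _ => eL _, key]
      unfold Par.L; rw [if_pos hj]
      unfold Par.pcs
      have e1 : ∀ z : ℝ, (c' : ℝ) * ((b : ℝ) / (c * c' : ℕ) * z) = (b : ℝ) / c * z := fun z => by
        push_cast; field_simp
      rw [e1, e1, e1]
    · unfold Par.L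
      rw [if_neg hj]
      exact Finset.sum_eq_zero fun i _ => if_neg hj

variable [Fintype Λ] [DecidableEq κ]

/-- **admissibility** -/
theorem Par.toFT_Adm (D : Par Λ κ) (t : IT) : ∀ b pr : ℕ, 0 < b → Fit b pr t → D.Wts pr t →
    (D.toFT b pr t).Adm b := by
  induction t with
  | leaf S => intro b pr hb hF hW; exact D.L_ok hb hF hW
  | br p Sp t₁ t₀ ih₁ ih₀ =>
    intro b pr hb hF hW
    obtain ⟨hp, hpb, hd, h1, h0⟩ := hF
    exact ⟨hp.pos, hpb, fun k w w' h => h, ih₁ b (pr * p) hb h1 (hW.br₁ hd),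
      ih₀ (b * p) pr (Nat.mul_pos hb hp.pos) h0 hW.br₀⟩
  | add b' t₁ t₀ ih₁ ih₀ =>
    intro b pr hb hF hW
    obtain ⟨hd, h1, h0⟩ := hF
    exact ⟨ih₁ b pr hb h1 (hW.add₁ hd), ih₀ b pr hb h0 hW.add₀⟩
  | up b' Sp t ih => intro b pr hb hF hW; exact ih b pr hb hF hW
  | pl p t ih =>
    intro b pr hb hF hW
    obtain ⟨hp, hpb, h1⟩ := hF
    exact ⟨hp.pos, hpb, ih b (pr * p) hb h1 hW.pl⟩
  | far b' t₁ t₀ ih₁ ih₀ =>
    intro b pr hb hF hW
    obtain ⟨hd, h1, h0⟩ := hF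
    exact ⟨ih₁ b pr hb h1 (hW.far₁ hd), ih₀ b pr hb h0 hW.far₀⟩

/-- values vanish outside the items -/
theorem Par.U_zero (D : Par Λ κ) (t : IT) : ∀ b pr c : ℕ, ∀ j, D.it j ∉ t.items →
    ∀ x, (D.toFT b pr t).U c j x = 0 := by
  induction t with
  | leaf S => intro b pr c j hj x; exact if_neg hj
  | br p Sp t₁ t₀ ih₁ ih₀ =>
    intro b pr c j hj x
    have h1 : D.it j ∉ t₁.items := fun h => hj (Finset.mem_union_left _ h)
    have h0 : D.it j ∉ t₀.items := fun h => hj (Finset.mem_union_right _ h)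
    show _ * (D.toFT b (pr * p) t₁).U c j (p * x) + (D.toFT (b * p) pr t₀).U (c * p) j x = 0
    rw [ih₁ _ _ _ _ h1, ih₀ _ _ _ _ h0]; ring
  | add b' t₁ t₀ ih₁ ih₀ =>
    intro b pr c j hj x
    have h1 : D.it j ∉ t₁.items := fun h => hj (Finset.mem_union_left _ h)
    have h0 : D.it j ∉ t₀.items := fun h => hj (Finset.mem_union_right _ h)
    show (D.toFT b pr t₁).U c j x + (D.toFT b pr t₀).U c j x = 0
    rw [ih₁ _ _ _ _ h1, ih₀ _ _ _ _ h0]; ring
  | up b' Sp t ih => intro b pr c j hj x; exact ih b pr c j hj x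
  | pl p t ih => intro b pr c j hj x; exact ih b (pr * p) c j hj (p * x)
  | far b' t₁ t₀ ih₁ ih₀ =>
    intro b pr c j hj x
    have h1 : D.it j ∉ t₁.items := fun h => hj (Finset.mem_union_left _ h)
    have h0 : D.it j ∉ t₀.items := fun h => hj (Finset.mem_union_right _ h)
    show (D.toFT b pr t₁).U c j x + (D.toFT b pr t₀).U c j x = 0
    rw [ih₁ _ _ _ _ h1, ih₀ _ _ _ _ h0]; ring

lemma mult_bounds {p : ℕ} {f g G : Λ → ℝ → ℝ} (hd : Dat p f g G) {c : ℕ → Λ → κ} {n : ℕ} (j : Λ)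
    (x : ℝ) : 0 ≤ mult p f g G c n j x ∧ mult p f g G c n j x ≤ 1 :=
  ⟨mult_nonneg hd j x, mult_le_one hd j x⟩

/-- **pointwise upper bound by the raw piece** -/
theorem Par.U_le (D : Par Λ κ) (t : IT) : ∀ b pr c : ℕ, 0 < b → Fit b pr t → D.Wts pr t → c ∣ b →
    ∀ j, D.it j ∈ t.items → ∀ x, (D.toFT b pr t).U c j x ≤
      D.pcs j ((b : ℝ) / c) (D.it j / pr) (fun a => D.om j ((c * mp t (D.it j) : ℕ) * a)) x := by
  induction t with
  | leaf S =>
    intro b pr c hb hF hW hc j hj x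
    show D.L b pr S c j x ≤ _
    unfold Par.L
    rw [if_pos (show D.it j ∈ S from hj)]
    have e : c * mp (.leaf S) (D.it j) = c := by show c * 1 = c; ring
    rw [e]
  | br p Sp t₁ t₀ ih₁ ih₀ =>
    intro b pr c hb hF hW hc j hj x
    have hA : (D.toFT b pr (.br p Sp t₁ t₀)).Adm b := D.toFT_Adm _ b pr hb hF hW
    have hdat := FT.dat hb hA
    obtain ⟨hp, hpb, hd, h1, h0⟩ := hF
    have hbp : 0 < b * p := Nat.mul_pos hb hp.pos
    have hpR : (p : ℝ) ≠ 0 := by exact_mod_cast hp.ne_zero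
    have hc0 : 0 < c := Nat.pos_of_dvd_of_pos hc hb
    have hcR : (c : ℝ) ≠ 0 := by exact_mod_cast hc0.ne'
    by_cases hj0 : D.it j ∈ t₀.items
    · have hj1 : D.it j ∉ t₁.items := Finset.disjoint_right.1 hd hj0
      show mult p _ _ _ _ _ j (c * x) * (D.toFT b (pr * p) t₁).U c j (p * x) +
        (D.toFT (b * p) pr t₀).U (c * p) j x ≤ _
      rw [D.U_zero t₁ _ _ _ j hj1, mul_zero, zero_add]
      refine (ih₀ (b * p) pr (c * p) hbp h0 hW.br₀ (mul_dvd_mul_right hc p) j hj0 x).trans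
        (le_of_eq ?_)
      have e : mp (.br p Sp t₁ t₀) (D.it j) = p * mp t₀ (D.it j) := if_pos hj0
      have e2 : ((b * p : ℕ) : ℝ) / (c * p : ℕ) = (b : ℝ) / c := by push_cast; field_simp
      have e3 : c * p * mp t₀ (D.it j) = c * (p * mp t₀ (D.it j)) := by ring
      rw [e, e2, e3]
    · have hj1 : D.it j ∈ t₁.items := (Finset.mem_union.1 hj).resolve_right hj0
      show mult p _ _ _ _ _ j (c * x) * (D.toFT b (pr * p) t₁).U c j (p * x) +
        (D.toFT (b * p) pr t₀).U (c * p) j x ≤ _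
      rw [D.U_zero t₀ _ _ _ j hj0, add_zero]
      have hU := (FT.pb hb hA.2.2.2.1 hc j).nonneg (p * x)
      have hm := mult_bounds (c := fun _ => D.rho p) (n := 1) hdat j (c * x)
      refine (mul_le_of_le_one_left hU hm.2).trans ?_
      refine (ih₁ b (pr * p) c hb h1 (hW.br₁ hd) hc j hj1 (p * x)).trans (le_of_eq ?_)
      have e : mp (.br p Sp t₁ t₀) (D.it j) = mp t₁ (D.it j) := if_neg hj0
      rw [e]
      unfold Par.pcs
      rw [← pc_push]
      congr 1
      obtain ⟨a1, a2, a3⟩ := h1.item _ hj1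
      obtain ⟨k, hk⟩ := a2
      have hpr : 0 < pr * p := Nat.pos_of_dvd_of_pos ⟨k, hk⟩ a1
      have hpr0 : 0 < pr := Nat.pos_of_mul_pos_right hpr
      rw [hk, Nat.mul_div_cancel_left k hpr, mul_assoc pr p k, Nat.mul_div_cancel_left _ hpr0]
  | add b' t₁ t₀ ih₁ ih₀ =>
    intro b pr c hb hF hW hc j hj x
    obtain ⟨hd, h1, h0⟩ := hF
    show (D.toFT b pr t₁).U c j x + (D.toFT b pr t₀).U c j x ≤ _
    by_cases hj0 : D.it j ∈ t₀.items
    · have hj1 : D.it j ∉ t₁.items := Finset.disjoint_right.1 hd hj0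
      rw [D.U_zero t₁ _ _ _ j hj1, zero_add]
      have e : mp (.add b' t₁ t₀) (D.it j) = mp t₀ (D.it j) := if_pos hj0
      rw [e]
      exact ih₀ b pr c hb h0 hW.add₀ hc j hj0 x
    · have hj1 : D.it j ∈ t₁.items := (Finset.mem_union.1 hj).resolve_right hj0
      rw [D.U_zero t₀ _ _ _ j hj0, add_zero]
      have e : mp (.add b' t₁ t₀) (D.it j) = mp t₁ (D.it j) := if_neg hj0
      rw [e]
      exact ih₁ b pr c hb h1 (hW.add₁ hd) hc j hj1 x
  | up b' Sp t ih => intro b pr c hb hF hW hc j hj x; exact ih b pr c hb hF hW hc j hj x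
  | pl p t ih =>
    intro b pr c hb hF hW hc j hj x
    obtain ⟨hp, hpb, h1⟩ := hF
    show (D.toFT b (pr * p) t).U c j (p * x) ≤ _
    refine (ih b (pr * p) c hb h1 hW.pl hc j hj (p * x)).trans (le_of_eq ?_)
    have e : mp (.pl p t) (D.it j) = mp t (D.it j) := rfl
    rw [e]
    unfold Par.pcs
    rw [← pc_push]
    congr 1
    obtain ⟨a1, a2, a3⟩ := h1.item _ hj
    obtain ⟨k, hk⟩ := a2
    have hpr : 0 < pr * p := Nat.pos_of_dvd_of_pos ⟨k, hk⟩ a1
    have hpr0 : 0 < pr := Nat.pos_of_mul_pos_right hpr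
    rw [hk, Nat.mul_div_cancel_left k hpr, mul_assoc pr p k, Nat.mul_div_cancel_left _ hpr0]
  | far b' t₁ t₀ ih₁ ih₀ =>
    intro b pr c hb hF hW hc j hj x
    obtain ⟨hd, h1, h0⟩ := hF
    show (D.toFT b pr t₁).U c j x + (D.toFT b pr t₀).U c j x ≤ _
    by_cases hj0 : D.it j ∈ t₀.items
    · have hj1 : D.it j ∉ t₁.items := Finset.disjoint_right.1 hd hj0
      rw [D.U_zero t₁ _ _ _ j hj1, zero_add]
      have e : mp (.far b' t₁ t₀) (D.it j) = mp t₀ (D.it j) := if_pos hj0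
      rw [e]
      exact ih₀ b pr c hb h0 hW.far₀ hc j hj0 x
    · have hj1 : D.it j ∈ t₁.items := (Finset.mem_union.1 hj).resolve_right hj0
      rw [D.U_zero t₀ _ _ _ j hj0, add_zero]
      have e : mp (.far b' t₁ t₀) (D.it j) = mp t₁ (D.it j) := if_neg hj0
      rw [e]
      exact ih₁ b pr c hb h1 (hW.far₁ hd) hc j hj1 x

/-- **support**, with the leaf weight -/
theorem Par.supp (D : Par Λ κ) {t : IT} {b pr c : ℕ} (hb : 0 < b) (hF : Fit b pr t)
    (hW : D.Wts pr t) (hc : c ∣ b) {j : Λ} {x : ℝ} (h : (D.toFT b pr t).U c j x ≠ 0) :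
    D.it j ∈ t.items ∧ ∃ a : ℤ, D.om j ((c * mp t (D.it j) : ℕ) * a) ≠ 0 ∧
      (b : ℝ) / c * D.al j ≤ ((D.it j / pr : ℕ) : ℝ) * x - (b : ℝ) / c * D.γ - a ∧
      ((D.it j / pr : ℕ) : ℝ) * x - (b : ℝ) / c * D.γ - a < (b : ℝ) / c * D.be j := by
  have hj : D.it j ∈ t.items := by
    by_contra hj
    exact h (D.U_zero t b pr c j hj x)
  refine ⟨hj, ?_⟩
  have h1 := D.U_le t b pr c hb hF hW hc j hj x
  have h0 := (FT.pb hb (D.toFT_Adm t b pr hb hF hW) hc j).nonneg x
  have h2 : D.pcs j ((b : ℝ) / c) (D.it j / pr)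
      (fun a => D.om j ((c * mp t (D.it j) : ℕ) * a)) x ≠ 0 := by
    intro h3
    rw [h3] at h1
    exact h (le_antisymm h1 h0)
  exact exists_of_pc_ne_zero h2

/-- **mass formula** -/
theorem Par.I_U (D : Par Λ κ) (hab : ∀ j, D.al j ≤ D.be j) (t : IT) : ∀ b pr c : ℕ, 0 < b →
    Fit b pr t → D.Wts pr t → c ∣ b → ∀ j, D.it j ∈ t.items →
    I ((D.toFT b pr t).U c j) = (b : ℝ) / c * (D.be j - D.al j) * prf t (D.it j) *
      mnw (D.it j / (pr * pp t (D.it j))) (D.om j) := by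
  induction t with
  | leaf S =>
    intro b pr c hb hF hW hc j hj
    obtain ⟨a1, a2, a3⟩ := hF _ hj
    have h2 := hW j hj
    have e : pr * pp (.leaf S) (D.it j) = pr := by show pr * 1 = pr; ring
    rw [e] at h2 ⊢
    have w0 : 0 < D.it j / pr := Nat.div_pos (Nat.le_of_dvd a1 a2) (Nat.pos_of_dvd_of_pos a2 a1)
    have hc0 : 0 < c := Nat.pos_of_dvd_of_pos hc hb
    have hcR : (0 : ℝ) < c := by exact_mod_cast hc0
    have hbR : (0 : ℝ) < b := by exact_mod_cast hb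
    have eL : (D.toFT b pr (.leaf S)).U c j = pc ((b : ℝ) / c * D.γ) ((b : ℝ) / c * D.al j)
        ((b : ℝ) / c * D.be j) (D.it j / pr) (fun a => D.om j (c * a)) := by
      funext x
      show D.L b pr S c j x = _
      unfold Par.L; rw [if_pos (show D.it j ∈ S from hj)]; rfl
    have hco : Nat.Coprime c (D.it j / pr) := (a3.coprime_dvd_right hc).symm
    have hle : (b : ℝ) / c * D.al j ≤ (b : ℝ) / c * D.be j :=
      mul_le_mul_of_nonneg_left (hab j) (by positivity)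
    rw [eL, I_pc hle w0 (Wt_scale h2 _)]
    have hm : mnw (D.it j / pr) (fun a => D.om j (c * a)) = mnw (D.it j / pr) (D.om j) := by
      have h3 := mnw_rs w0 hco (Wt_scale h2 (c : ℤ))
      have h4 : rs (D.it j / pr) c (fun a => D.om j (c * a)) = D.om j := by
        symm
        refine rs_unique hco fun a m ham => ?_
        exact h2.congr ham.symm
      rw [h4] at h3
      exact h3.symm
    rw [hm]
    show _ = _ * 1 * _
    ring
  | br p Sp t₁ t₀ ih₁ ih₀ =>
    intro b pr c hb hF hW hc j hj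
    have hA : (D.toFT b pr (.br p Sp t₁ t₀)).Adm b := D.toFT_Adm _ b pr hb hF hW
    have hdat := FT.dat hb hA
    obtain ⟨hp, hpb, hd, h1, h0⟩ := hF
    have hbp : 0 < b * p := Nat.mul_pos hb hp.pos
    have hpR : (p : ℝ) ≠ 0 := by exact_mod_cast hp.ne_zero
    have hc0 : 0 < c := Nat.pos_of_dvd_of_pos hc hb
    have hcR : (c : ℝ) ≠ 0 := by exact_mod_cast hc0.ne'
    by_cases hj0 : D.it j ∈ t₀.items
    · have hj1 : D.it j ∉ t₁.items := Finset.disjoint_right.1 hd hj0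
      have eU : (D.toFT b pr (.br p Sp t₁ t₀)).U c j = (D.toFT (b * p) pr t₀).U (c * p) j := by
        funext x
        show mult p _ _ _ _ _ j (c * x) * (D.toFT b (pr * p) t₁).U c j (p * x) +
          (D.toFT (b * p) pr t₀).U (c * p) j x = _
        rw [D.U_zero t₁ _ _ _ j hj1, mul_zero, zero_add]
      have e : pp (.br p Sp t₁ t₀) (D.it j) = pp t₀ (D.it j) := if_pos hj0
      have e' : prf (.br p Sp t₁ t₀) (D.it j) = prf t₀ (D.it j) := if_pos hj0
      have e2 : ((b * p : ℕ) : ℝ) / (c * p : ℕ) = (b : ℝ) / c := by push_cast; field_simp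
      rw [eU, ih₀ (b * p) pr (c * p) hbp h0 hW.br₀ (mul_dvd_mul_right hc p) j hj0, e, e', e2]
    · have hj1 : D.it j ∈ t₁.items := (Finset.mem_union.1 hj).resolve_right hj0
      set M := mult p (fun j => (D.toFT b (pr * p) t₁).U 1 j)
        (fun j => (D.toFT (b * p) pr t₀).U p j) (fun j => (D.toFT (b * p) pr t₀).U 1 j)
        (fun _ => D.rho p) (0 + 1) j with hM
      have hMpb : PB M := PB_mult hdat j
      have hUpb : PB ((D.toFT b (pr * p) t₁).U c j) := FT.pb hb hA.2.2.2.1 hc j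
      have eU : (D.toFT b pr (.br p Sp t₁ t₀)).U c j = fun x =>
          (D.toFT b (pr * p) t₁).U c j (p * x) * M (c * x) := by
        funext x
        show M (c * x) * (D.toFT b (pr * p) t₁).U c j (p * x) +
          (D.toFT (b * p) pr t₀).U (c * p) j x = _
        rw [D.U_zero t₀ _ _ _ j hj0, add_zero, mul_comm]
      have hcp : Nat.Coprime c p := (hpb.coprime_dvd_right hc).symm
      have hEM : ∀ y, Ep p (fun x => M (c * x)) y = 1 - 1 / (p : ℝ) := by
        intro y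
        have h3 := Ep_mult (c := fun _ => D.rho p) (n := 0 + 1) hdat j (c * y)
        rw [← h3]
        unfold Ep
        rw [← hM]
        congr 1
        exact sum_push_coprime hp.pos hcp hMpb.per y
      have e : pp (.br p Sp t₁ t₀) (D.it j) = p * pp t₁ (D.it j) := if_neg hj0
      have e' : prf (.br p Sp t₁ t₀) (D.it j) = (1 - 1 / (p : ℝ)) * prf t₁ (D.it j) := if_neg hj0
      rw [eU, push_left hp.pos hUpb (hMpb.pull c)]
      have e3 : (fun y => (D.toFT b (pr * p) t₁).U c j y * Ep p (fun x => M (c * x)) y) =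
          fun y => (1 - 1 / (p : ℝ)) * (D.toFT b (pr * p) t₁).U c j y := by
        funext y; rw [hEM]; ring
      rw [e3, I_smul, ih₁ b (pr * p) c hb h1 (hW.br₁ hd) hc j hj1, e, e', mul_assoc pr p]
      ring
  | add b' t₁ t₀ ih₁ ih₀ =>
    intro b pr c hb hF hW hc j hj
    obtain ⟨hd, h1, h0⟩ := hF
    by_cases hj0 : D.it j ∈ t₀.items
    · have hj1 : D.it j ∉ t₁.items := Finset.disjoint_right.1 hd hj0
      have eU : (D.toFT b pr (.add b' t₁ t₀)).U c j = (D.toFT b pr t₀).U c j := by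
        funext x
        show (D.toFT b pr t₁).U c j x + (D.toFT b pr t₀).U c j x = _
        rw [D.U_zero t₁ _ _ _ j hj1, zero_add]
      have e : pp (.add b' t₁ t₀) (D.it j) = pp t₀ (D.it j) := if_pos hj0
      have e' : prf (.add b' t₁ t₀) (D.it j) = prf t₀ (D.it j) := if_pos hj0
      rw [eU, e, e']
      exact ih₀ b pr c hb h0 hW.add₀ hc j hj0
    · have hj1 : D.it j ∈ t₁.items := (Finset.mem_union.1 hj).resolve_right hj0
      have eU : (D.toFT b pr (.add b' t₁ t₀)).U c j = (D.toFT b pr t₁).U c j := by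
        funext x
        show (D.toFT b pr t₁).U c j x + (D.toFT b pr t₀).U c j x = _
        rw [D.U_zero t₀ _ _ _ j hj0, add_zero]
      have e : pp (.add b' t₁ t₀) (D.it j) = pp t₁ (D.it j) := if_neg hj0
      have e' : prf (.add b' t₁ t₀) (D.it j) = prf t₁ (D.it j) := if_neg hj0
      rw [eU, e, e']
      exact ih₁ b pr c hb h1 (hW.add₁ hd) hc j hj1
  | up b' Sp t ih => intro b pr c hb hF hW hc j hj; exact ih b pr c hb hF hW hc j hj
  | pl p t ih =>
    intro b pr c hb hF hW hc j hj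
    obtain ⟨hp, hpb, h1⟩ := hF
    have hA : (D.toFT b (pr * p) t).Adm b := D.toFT_Adm _ b (pr * p) hb h1 hW.pl
    have hUpb : PB ((D.toFT b (pr * p) t).U c j) := FT.pb hb hA hc j
    have eU : (D.toFT b pr (.pl p t)).U c j = fun x => (D.toFT b (pr * p) t).U c j (p * x) * 1 := by
      funext x
      show (D.toFT b (pr * p) t).U c j (p * x) = _
      rw [mul_one]
    have e : pp (.pl p t) (D.it j) = p * pp t (D.it j) := rfl
    have e' : prf (.pl p t) (D.it j) = prf t (D.it j) := rfl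
    have hone : PB (fun _ : ℝ => (1 : ℝ)) := PB.const zero_le_one
    rw [eU, push_left hp.pos hUpb hone]
    have e3 : (fun y => (D.toFT b (pr * p) t).U c j y * Ep p (fun _ => (1 : ℝ)) y) =
        (D.toFT b (pr * p) t).U c j := by
      funext y; rw [Ep_const hp.pos, mul_one]
    rw [e3, ih b (pr * p) c hb h1 hW.pl hc j hj, e, e', mul_assoc pr p]
  | far b' t₁ t₀ ih₁ ih₀ =>
    intro b pr c hb hF hW hc j hj
    obtain ⟨hd, h1, h0⟩ := hF
    by_cases hj0 : D.it j ∈ t₀.items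
    · have hj1 : D.it j ∉ t₁.items := Finset.disjoint_right.1 hd hj0
      have eU : (D.toFT b pr (.far b' t₁ t₀)).U c j = (D.toFT b pr t₀).U c j := by
        funext x
        show (D.toFT b pr t₁).U c j x + (D.toFT b pr t₀).U c j x = _
        rw [D.U_zero t₁ _ _ _ j hj1, zero_add]
      have e : pp (.far b' t₁ t₀) (D.it j) = pp t₀ (D.it j) := if_pos hj0
      have e' : prf (.far b' t₁ t₀) (D.it j) = prf t₀ (D.it j) := if_pos hj0
      rw [eU, e, e']
      exact ih₀ b pr c hb h0 hW.far₀ hc j hj0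
    · have hj1 : D.it j ∈ t₁.items := (Finset.mem_union.1 hj).resolve_right hj0
      have eU : (D.toFT b pr (.far b' t₁ t₀)).U c j = (D.toFT b pr t₁).U c j := by
        funext x
        show (D.toFT b pr t₁).U c j x + (D.toFT b pr t₀).U c j x = _
        rw [D.U_zero t₀ _ _ _ j hj0, add_zero]
      have e : pp (.far b' t₁ t₀) (D.it j) = pp t₁ (D.it j) := if_neg hj0
      have e' : prf (.far b' t₁ t₀) (D.it j) = prf t₁ (D.it j) := if_neg hj0
      rw [eU, e, e']
      exact ih₁ b pr c hb h1 (hW.far₁ hd) hc j hj1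

end

end Crest.Agent.R4P.Item758
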