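import Crest.Agent.R4.LeafN734
import Crest.Agent.R4P.LeafS734
import Crest.Agent.R4P.LfDat734
import Crest.Agent.R4P.PhiU820

/-!
R4 (S0004), POWERS (port of `R4/LeafN734` of helper734 by helper438): **numbers for the total energy
of a leaf** (module J1).

The tree-free statements `T12_num`, `HT_L`, `HT_U` are used from `R4.LeafN734`.  The masses are
compared by 820's one-sided `PhiU820.leaf_mass` (hypothesis `hlm`).
-/

set_option autoImplicit false
set_option linter.unusedSectionVars false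
open Finset MeasureTheory

namespace Crest.Agent.R4P.LeafN734

open Crest.Agent.R4P
open Crest.Agent.R4.LF363 (uw Lab LW_uw)
open Crest.Agent.R4.LFA (XTame)
open Crest.Agent.R4.ClsB (Tame)
open Crest.Agent.R4P.Bld532 (NS NodeOk Bk)
open Crest.Agent.R4P.Data758 Crest.Agent.R4P.LfDat734 Crest.Agent.R4P.LeafS734
open Crest.Agent.R4P.Frame758 (lf LeafE)
open Crest.Agent.R4P.Item758 (pp)
open Crest.Agent.R4.Item758 (IL)
open Crest.Agent.R4.Tour104 (I)
open Crest.Agent.R4.LeafN734 (HT_L HT_U)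

/-- raw mass of a piece: length times `φ(q)/q` (the same term as `Frame758.wt` of `Frame758b`) -/
noncomputable def wtF {Λ κ₀ : Type*} (D : Item758.Par0 Λ κ₀) (j : Λ) : ℝ :=
  (D.be j - D.al j) * ((Nat.totient (D.it j) : ℝ) / (D.it j : ℝ))

section
variable {c : Cf} {n : ℕ} {P : Bld532.Par} {W : ℕ → ℝ} {u : NS} {Sl : Finset ℕ} {G : ℕ} {wp : W363.WP}

/-- the pieces of the good items of a leaf -/
theorem mkLD (hc : c.Ok n) (hF : LeafF P W c.t n u Sl G) (hlv : c.lv = lv c.t n)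
    (hom : ∀ q z a, c.om q z a ≤ omL wp c.wpL c.γ c.r c.t c.lv c.S' q a)
    (hrt : ∀ q ∈ Sl, q ∈ c.S' → ∑ b ∈ rt c.t q, (1 : ℝ) / b ≤ 1 / 2)
    (hlm : ∀ q ∈ Sl, q ∈ c.S' → (u.B : ℝ) * (((q / u.A).totient : ℝ) / ((q / u.A : ℕ) : ℝ)) ≤
      2 * (u.c * ((q.totient : ℝ) / q))) {S₁ : Finset ℕ}
    (hS₁ : S₁ ⊆ Sl) (hS' : S₁ ⊆ c.S') :
    LD c.D u.c u.B u.A G S₁ 2 c.r (phL c.wpL c.γ c.r c.t c.lv) (labL c.wpL c.γ c.r c.t c.lv) := by
  have bk := hF.bk
  have hS : ∀ q ∈ S₁, q ∈ c.S := fun q hq => hc.sub (hS' hq)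
  have hq0 : ∀ q ∈ S₁, 0 < q := fun q hq => hc.pos q (hS q hq)
  have hd2 : ∀ q ∈ S₁, u.A * G ∣ q := fun q hq =>
    Nat.mul_dvd_of_dvd_div (bk.dvd q (hS₁ hq)) (hF.Gd q (hS₁ hq))
  refine
    { c0 := le_trans zero_le_one bk.one_le_c
      b0 := bk.Bpos
      K0 := by norm_num
      pr0 := bk.Apos
      G0 := hF.G0
      pos := hq0
      dvd := hd2
      mass := fun q hq => ?_
      ρ0 := fun q hq => hc.r' q (hS' hq)
      win := fun j _ => ⟨hc.bp_ge j _, hc.bp_le j (Cf.k_lt j)⟩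
      disj := hc.disj'
      omw := fun j hj => ?_
      om1 := fun j hj a => ?_ }
  · have h1 := hlm q (hS₁ hq) (hS' hq)
    have hGd := hF.Gd q (hS₁ hq)
    have hw0 : 0 < q / u.A := Nat.div_pos (Nat.le_of_dvd (hq0 q hq) (bk.dvd q (hS₁ hq))) bk.Apos
    have h2 := hF.G_le (hS₁ hq) (hrt q (hS₁ hq) (hS' hq))
    rw [← Nat.div_div_eq_div_mul]
    set w := q / u.A with hw
    have hv0 : 0 < w / G := Nat.div_pos (Nat.le_of_dvd hw0 hGd) hF.G0
    have e : w = G * (w / G) := (Nat.mul_div_cancel' hGd).symm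
    have hGR : (0 : ℝ) < G := by exact_mod_cast hF.G0
    have hvR : (0 : ℝ) < ((w / G : ℕ) : ℝ) := by exact_mod_cast hv0
    have h3 : (G.totient : ℝ) / G * (((w / G).totient : ℝ) / ((w / G : ℕ) : ℝ)) ≤
        (w.totient : ℝ) / w := by
      have h4 : ((G.totient * (w / G).totient : ℕ) : ℝ) ≤ ((w.totient : ℕ) : ℝ) := by
        have h5 := Nat.totient_super_multiplicative G (w / G)
        rw [← e] at h5
        exact_mod_cast h5
      have e2 : (w : ℝ) = G * ((w / G : ℕ) : ℝ) := by exact_mod_cast e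
      rw [div_mul_div_comm, ← e2]
      refine div_le_div_of_nonneg_right ?_ (by positivity)
      push_cast at h4
      exact h4
    have hphi : 0 ≤ ((w / G).totient : ℝ) / ((w / G : ℕ) : ℝ) := by positivity
    have h6 : ((w / G).totient : ℝ) / ((w / G : ℕ) : ℝ) ≤ 2 * ((w.totient : ℝ) / w) := by
      have := mul_le_mul_of_nonneg_right h2 hphi
      linarith
    have hB : (0 : ℝ) ≤ u.B := by positivity
    calc (u.B : ℝ) * (((w / G).totient : ℝ) / ((w / G : ℕ) : ℝ))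
        ≤ u.B * (2 * ((w.totient : ℝ) / w)) := mul_le_mul_of_nonneg_left h6 hB
      _ = 2 * (u.B * ((w.totient : ℝ) / w)) := by ring
      _ ≤ 2 * (2 * (u.c * ((q.totient : ℝ) / q))) := by linarith
      _ = _ := by ring
  · have h1 := hc.wt _ (Cf.mem_S j) (c.bp j.1.1 j.1.2)
    have h2 : pp c.t j.1.1 = u.A := hF.A _ (hS₁ hj)
    rw [h2] at h1
    exact h1
  · have h1 := hF.omL_le wp c.wpL c.γ c.r c.lv c.S' (hS₁ hj) (hrt _ (hS₁ hj) (hS' hj)) a
    rw [Nat.div_div_eq_div_mul] at h1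
    exact (hom _ _ a).trans h1

end

/-- **TOTAL ENERGY OF A LEAF** with explicit numerical conditions. -/
theorem leafE_leaf (a : ℕ) : ∃ c0 : ℝ, 0 < c0 ∧ ∀ ε ε' : ℝ, 0 < ε → ε ≤ 1/4 → 0 < ε' →
    ∃ C : ℝ, 1 ≤ C ∧ ∀ c1 : ℝ, 0 < c1 → c1 ≤ c0 → ∃ T0 : ℝ, 2^50 ≤ T0 ∧
    ∀ (c : Cf) (n : ℕ) (P : Bld532.Par) (W : ℕ → ℝ) (u : NS) (Sl : Finset ℕ) (G : ℕ)
      (wp : W363.WP) (T X K1 ν : ℝ),
    c.Ok n → LeafF P W c.t n u Sl G → c.lv = lv c.t n →
    (∀ q z a, c.om q z a ≤ omL wp c.wpL c.γ c.r c.t c.lv c.S' q a) →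
    (∀ q ∈ Sl, q ∈ c.S' → ∑ b ∈ rt c.t q, (1 : ℝ) / b ≤ 1 / 2) →
    (∀ q ∈ Sl, q ∈ c.S' → (u.B : ℝ) * (((q / u.A).totient : ℝ) / ((q / u.A : ℕ) : ℝ)) ≤
      2 * (u.c * ((q.totient : ℝ) / q))) →
    (∀ q ∈ c.S, ∀ z a, q ∉ c.S' → c.om q z a = 0) →
    (∀ q ∈ Sl, q ∈ c.S' → ∀ z : ℝ, X ≤ z → Tame z 1 (q / (u.A * G))) →
    T0 ≤ T → X ≤ Real.exp (T^c1) → 1 ≤ K1 →
    ν = 2 * (u.c * ∑ j ∈ Finset.univ.filter (fun j => c.D.it j ∈ Sl), wtF c.D j) →
    (T * ν)^(2*ε) ≤ K1 * (1 + ν) →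
    1 / T ≤ c.wpL.thr (u.n - 1) → c.wpL.thr (u.n - 1) ≤ 1/10 →
    (c.wpL.thr (u.n - 1))^a ≤ etaL c.wpL (u.n - 1) → etaL c.wpL (u.n - 1) ≤ 1 →
    (∀ q ∈ Sl, q ∈ c.S' → (u.B : ℝ) * c.r q ≤ c.wpL.thr (u.n - 1) ∨
      ∀ s L', W363.lst u.B.primeFactors (u.n - 1) = s :: L' →
        (L'.prod : ℝ) * c.r q ≤ c.wpL.thr s) →
    ((∀ q ∈ Sl, q ∈ c.S' → (u.B : ℝ) * c.r q ≤ c.wpL.thr (u.n - 1)) ∨
      (etaL c.wpL (u.n - 1))^(-ε') ≤ K1 * (1 + ν)) →
    LeafE c.D (wtF c.D) (2 * (16 * (C * K1))) u.c u.B u.A Sl := by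
  classical
  obtain ⟨cL, hcL, HL⟩ := HT_L
  obtain ⟨cU, hcU, HU⟩ := HT_U a
  refine ⟨min cL cU, lt_min hcL hcU, fun ε ε' hε hε4 hε' => ?_⟩
  obtain ⟨CL, hCL, HL⟩ := HL ε hε hε4
  obtain ⟨CU, hCU, HU⟩ := HU ε ε' hε hε4 hε'
  refine ⟨CL + CU, by linarith, fun c1 h1 h2 => ?_⟩
  obtain ⟨TL, hTL, HL⟩ := HL c1 h1 (h2.trans (min_le_left _ _))
  obtain ⟨TU, hTU, HU⟩ := HU c1 h1 (h2.trans (min_le_right _ _))
  refine ⟨max TL TU, hTL.trans (le_max_left _ _), ?_⟩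
  intro c n P W u Sl G wp T X K1 ν hc hF hlv hom hrt hlm hom0 htame hT hX hK1 hνd hnum hthr hthr1 hthra
    hη1 hfat hcase
  have bk := hF.bk
  set L := W363.lst u.B.primeFactors (u.n - 1) with hL
  have hLp : L.prod = u.B := hF.lst_prod
  have hL0 : ∀ s ∈ L, 0 < s := fun s hs => (LeafF.lst_mem (u := u) hs).1.pos
  have hη0 := etaL_pos c.wpL (u.n - 1)
  set S₁ := Sl.filter (fun q => q ∈ c.S' ∧ (stL c.wpL c.γ c.r c.t c.lv q).isSome) with hS₁
  set S₂ := Sl.filter (fun q => q ∈ c.S' ∧ stL c.wpL c.γ c.r c.t c.lv q = none) with hS₂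
  have i₁ : S₁ ⊆ Sl := Finset.filter_subset _ _
  have i₂ : S₂ ⊆ Sl := Finset.filter_subset _ _
  have j₁ : S₁ ⊆ c.S' := fun q hq => (Finset.mem_filter.1 hq).2.1
  have j₂ : S₂ ⊆ c.S' := fun q hq => (Finset.mem_filter.1 hq).2.1
  have d₁ := mkLD (wp := wp) hc hF hlv hom hrt hlm i₁ j₁
  have d₂ := mkLD (wp := wp) hc hF hlv hom hrt hlm i₂ j₂
  have hW0 : ∀ j, 0 ≤ wtF c.D j := by
    intro j
    unfold wtF
    have : c.D.al j ≤ c.D.be j := hc.bpm _ (Cf.mem_S j) (Cf.r_pos j) (Nat.le_succ _)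
    exact mul_nonneg (by linarith) (by positivity)
  have hfull : ∀ S₀ : Finset ℕ, S₀ ⊆ c.S' → ∀ q ∈ S₀, 2 * (c.r q * ((Nat.totient q : ℝ) / q)) ≤
      ∑ j ∈ Finset.univ.filter (fun j => c.D.it j = q), wtF c.D j := by
    intro S₀ hS₀ q hq
    have h3 := hc.len (hc.sub (hS₀ hq)) (hc.r' q (hS₀ hq))
    have h4 : ∑ j ∈ Finset.univ.filter (fun j => c.D.it j = q), wtF c.D j =
        (∑ j ∈ Finset.univ.filter (fun j : c.Lam => j.1.1 = q), (c.D.be j - c.D.al j)) *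
          ((Nat.totient q : ℝ) / q) := by
      rw [Finset.sum_mul]
      refine Finset.sum_congr rfl fun j hj => ?_
      have e : c.D.it j = q := (Finset.mem_filter.1 hj).2
      unfold wtF
      rw [e]
    rw [h4, h3]
    linarith
  have huc : 0 ≤ u.c := le_trans zero_le_one bk.one_le_c
  have hN0 : 0 ≤ u.c * ∑ j ∈ Finset.univ.filter (fun j => c.D.it j ∈ Sl), wtF c.D j :=
    mul_nonneg huc (Finset.sum_nonneg fun j _ => hW0 j)
  have hν0 : 0 ≤ ν := by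
    rw [hνd]
    linarith
  have hνS : ∀ S₀ : Finset ℕ, S₀ ⊆ Sl →
      2 * (u.c * ∑ j ∈ Finset.univ.filter (fun j => c.D.it j ∈ S₀), wtF c.D j) ≤ ν := by
    intro S₀ hS₀
    rw [hνd]
    refine mul_le_mul_of_nonneg_left (mul_le_mul_of_nonneg_left ?_ huc) (by norm_num)
    refine Finset.sum_le_sum_of_subset_of_nonneg ?_ fun j _ _ => hW0 j
    intro j hj
    exact Finset.mem_filter.2 ⟨Finset.mem_univ _, hS₀ (Finset.mem_filter.1 hj).2⟩
  have hb0 : (0 : ℝ) < u.B := by exact_mod_cast d₁.b0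
  -- common facts about a modulus of the family
  have hV : ∀ (S₀ V : Finset ℕ), S₀ ⊆ Sl → S₀ ⊆ c.S' →
      LD c.D u.c u.B u.A G S₀ 2 c.r (phL c.wpL c.γ c.r c.t c.lv) (labL c.wpL c.γ c.r c.t c.lv) →
      V ⊆ S₀.image (fun q => q / (u.A * G)) → ∀ v ∈ V, ∃ q ∈ S₀, u.A * G * v = q ∧ 0 < v ∧
        v = q / (u.A * G) := by
    intro S₀ V _ _ d hV v hv
    obtain ⟨q, hq, rfl⟩ := Finset.mem_image.1 (hV hv)
    exact ⟨q, hq, d.mul hq, d.vpos hq, rfl⟩
  have hmp : ∀ q ∈ Sl, (Crest.Agent.R4P.Item758.mp c.t q : ℝ) = u.B := fun q hq => by rw [hF.B q hq]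
  have hmpQ : ∀ q ∈ Sl, (Crest.Agent.R4P.Item758.mp c.t q : ℚ) = u.B := fun q hq => by rw [hF.B q hq]
  have E₁ : ∀ A : Finset c.Lam, IL c.D.it A →
      I (fun x => (∑ j ∈ A.filter (fun j => c.D.it j ∈ S₁), lf c.D u.B u.A j x) ^ 2) ≤
      (16 * ((CL + CU) * K1)) *
      ((u.c * ∑ j ∈ A.filter (fun j => c.D.it j ∈ S₁), wtF c.D j) *
        (1 + u.c * ∑ j ∈ Finset.univ.filter (fun j => c.D.it j ∈ Sl),
          wtF c.D j)) := by
    intro A hA
    have key := leafE_core d₁ (C := CL * K1) hW0 (hfull S₁ j₁) (by positivity) hν0 (hνS S₁ i₁)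
      (fun V hVs hVm => ?_) A hA
    · refine key.trans ?_
      rw [hνd]
      set M := u.c * ∑ j ∈ Finset.univ.filter (fun j => c.D.it j ∈ Sl), wtF c.D j with hM
      have h3 : 0 ≤ u.c * ∑ j ∈ A.filter (fun j => c.D.it j ∈ S₁), wtF c.D j :=
        mul_nonneg huc (Finset.sum_nonneg fun j _ => hW0 j)
      set m := u.c * ∑ j ∈ A.filter (fun j => c.D.it j ∈ S₁), wtF c.D j with hm
      have h4 : 0 ≤ CL * K1 := by positivity
      have h5 : 0 ≤ CU * K1 := by positivity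
      have h6 : 0 ≤ m * (1 + M) := by positivity
      have h7 : m * (1 + 2 * M) ≤ 2 * (m * (1 + M)) := by nlinarith
      calc 2 * 2 ^ 2 * (CL * K1) * (m * (1 + 2 * M))
          ≤ 2 * 2 ^ 2 * (CL * K1) * (2 * (m * (1 + M))) :=
            mul_le_mul_of_nonneg_left h7 (by positivity)
        _ = 16 * (CL * K1) * (m * (1 + M)) := by ring
        _ ≤ 16 * ((CL + CU) * K1) * (m * (1 + M)) := by
            refine mul_le_mul_of_nonneg_right ?_ h6
            nlinarith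
    · have hq := hV S₁ V i₁ j₁ d₁ hVs
      have k := HL T X ν K1 c.γ V (fun v => c.r (u.A * G * v))
        (fun v => phL c.wpL c.γ c.r c.t c.lv (u.A * G * v))
        (fun v => labL c.wpL c.γ c.r c.t c.lv (u.A * G * v)) c.wpL.thr L (u.n - 1)
        ((le_max_left _ _).trans hT) hX (by
          intro z hz v hv
          obtain ⟨q, hq1, hq2, hq3, hq4⟩ := hq v hv
          rw [hq4]; exact htame q (i₁ hq1) (j₁ hq1) z hz) hν0 hK1 hnum
        (by rw [hLp]; exact hVm) hthr hL0 (fun v hv => (hq v hv).choose_spec.2.2.1)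
        (fun v hv => by
          obtain ⟨q, hq1, hq2, hq3, hq4⟩ := hq v hv
          rw [hq2]; exact hc.r' q (j₁ hq1))
        (fun v hv => by
          obtain ⟨q, hq1, hq2, hq3, hq4⟩ := hq v hv
          rw [hq2, hLp]
          obtain ⟨σ, hσ⟩ := Option.isSome_iff_exists.1 (Finset.mem_filter.1 hq1).2.2
          rw [phL_some hσ, hmp q (i₁ hq1)])
        (fun v hv => by
          obtain ⟨q, hq1, hq2, hq3, hq4⟩ := hq v hv
          rw [hq2, hLp]
          obtain ⟨σ, hσ⟩ := Option.isSome_iff_exists.1 (Finset.mem_filter.1 hq1).2.2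
          rw [labL_some hσ, hmpQ q (i₁ hq1)]
          have h3 := hF.stL_eq c.wpL c.γ c.r (i₁ hq1)
          rw [← hlv, hσ] at h3
          rw [← h3]; rfl)
        (fun v hv => by
          obtain ⟨q, hq1, hq2, hq3, hq4⟩ := hq v hv
          rw [hq2, hLp]
          exact hfat q (i₁ hq1) (j₁ hq1))
      rw [hLp] at k
      refine k.trans (le_of_eq ?_)
      show CL * (K1 * ((∑ q ∈ V, Crest.Agent.R4.HVW560.wt (rad u.B (u.A * G) c.r) q) * (1 + ν))) = _
      ring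
  have E₂ : ∀ A : Finset c.Lam, IL c.D.it A →
      I (fun x => (∑ j ∈ A.filter (fun j => c.D.it j ∈ S₂), lf c.D u.B u.A j x) ^ 2) ≤
      (16 * ((CL + CU) * K1)) *
      ((u.c * ∑ j ∈ A.filter (fun j => c.D.it j ∈ S₂), wtF c.D j) *
        (1 + u.c * ∑ j ∈ Finset.univ.filter (fun j => c.D.it j ∈ Sl),
          wtF c.D j)) := by
    intro A hA
    have key := leafE_core d₂ (C := CU * K1) hW0 (hfull S₂ j₂) (by positivity) hν0 (hνS S₂ i₂)
      (fun V hVs hVm => ?_) A hA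
    · refine key.trans ?_
      rw [hνd]
      set M := u.c * ∑ j ∈ Finset.univ.filter (fun j => c.D.it j ∈ Sl), wtF c.D j with hM
      have h3 : 0 ≤ u.c * ∑ j ∈ A.filter (fun j => c.D.it j ∈ S₂), wtF c.D j :=
        mul_nonneg huc (Finset.sum_nonneg fun j _ => hW0 j)
      set m := u.c * ∑ j ∈ A.filter (fun j => c.D.it j ∈ S₂), wtF c.D j with hm
      have h4 : 0 ≤ CU * K1 := by positivity
      have h5 : 0 ≤ CL * K1 := by positivity
      have h6 : 0 ≤ m * (1 + M) := by positivity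
      have h7 : m * (1 + 2 * M) ≤ 2 * (m * (1 + M)) := by nlinarith
      calc 2 * 2 ^ 2 * (CU * K1) * (m * (1 + 2 * M))
          ≤ 2 * 2 ^ 2 * (CU * K1) * (2 * (m * (1 + M))) :=
            mul_le_mul_of_nonneg_left h7 (by positivity)
        _ = 16 * (CU * K1) * (m * (1 + M)) := by ring
        _ ≤ 16 * ((CL + CU) * K1) * (m * (1 + M)) := by
            refine mul_le_mul_of_nonneg_right ?_ h6
            nlinarith
    · have hq := hV S₂ V i₂ j₂ d₂ hVs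
      have hlvq : ∀ q ∈ Sl, c.lv q = u.n - 1 := fun q hq => by rw [hlv]; exact hF.lvl q hq
      have k := HU T X ν K1 c.γ (etaL c.wpL (u.n - 1)) V (fun v => c.r (u.A * G * v))
        (fun v => phL c.wpL c.γ c.r c.t c.lv (u.A * G * v))
        (fun v => labL c.wpL c.γ c.r c.t c.lv (u.A * G * v)) c.wpL.thr L (u.n - 1)
        ((le_max_right _ _).trans hT) hX (by
          intro z hz v hv
          obtain ⟨q, hq1, hq2, hq3, hq4⟩ := hq v hv
          rw [hq4]; exact htame q (i₂ hq1) (j₂ hq1) z hz) hν0 hK1 hnum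
        (by rw [hLp]; exact hVm) hthr hL0 (fun v hv => (hq v hv).choose_spec.2.2.1)
        (fun v hv => by
          obtain ⟨q, hq1, hq2, hq3, hq4⟩ := hq v hv
          rw [hq2]; exact hc.r' q (j₂ hq1))
        hη0 hη1 hthr1 hthra
        (fun v hv => by
          obtain ⟨q, hq1, hq2, hq3, hq4⟩ := hq v hv
          rw [hq2, hLp, phL_none (Finset.mem_filter.1 hq1).2.2, hmp q (i₂ hq1),
            hlvq q (i₂ hq1)])
        (fun v hv ρ hρ => by
          obtain ⟨q, hq1, hq2, hq3, hq4⟩ := hq v hv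
          rw [hq2] at hρ ⊢
          rw [labL_none (Finset.mem_filter.1 hq1).2.2, lcl_iff, hmp q (i₂ hq1)] at hρ
          rw [hLp, phL_none (Finset.mem_filter.1 hq1).2.2, hmp q (i₂ hq1)]
          exact hρ)
        (fun v hv => by
          obtain ⟨q, hq1, hq2, hq3, hq4⟩ := hq v hv
          rw [hq2]
          have h3 := hF.stL_eq c.wpL c.γ c.r (i₂ hq1)
          rw [← hlv, (Finset.mem_filter.1 hq1).2.2] at h3
          exact h3.symm)
        (by
          rcases hcase with h3 | h3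
          · left
            intro v hv
            obtain ⟨q, hq1, hq2, hq3, hq4⟩ := hq v hv
            rw [hq2, hLp]
            exact h3 q (i₂ hq1) (j₂ hq1)
          · right; exact h3)
      rw [hLp] at k
      refine k.trans (le_of_eq ?_)
      show CU * (K1 * ((∑ q ∈ V, Crest.Agent.R4.HVW560.wt (rad u.B (u.A * G) c.r) q) * (1 + ν))) = _
      ring
  refine leafE_two (C := 16 * ((CL + CU) * K1)) huc i₁ i₂ ?_ ?_
    (fun j hj => lf_nonneg_PB d₁ hj) (fun j hj => lf_nonneg_PB d₂ hj) hW0 (by positivity) E₁ E₂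
  · rw [Finset.disjoint_left]
    intro q h3 h4
    have h5 := (Finset.mem_filter.1 h3).2.2
    rw [(Finset.mem_filter.1 h4).2.2] at h5
    simp at h5
  · intro j hj h3 h4 x
    have h5 : c.D.it j ∉ c.S' := by
      intro h6
      rcases hst : stL c.wpL c.γ c.r c.t c.lv (c.D.it j) with _ | σ
      · exact h4 (Finset.mem_filter.2 ⟨hj, h6, hst⟩)
      · exact h3 (Finset.mem_filter.2 ⟨hj, h6, by rw [hst]; rfl⟩)
    exact hom0 _ (Cf.mem_S j) _ x h5

end Crest.Agent.R4P.LeafN734
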