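import Crest.Agent.R4P.PhiU820
import Crest.Agent.R4P.Bld532

/-!
R4 (S0004), POWERS (helper820): the built tree satisfies `PlOk` (every pull is below a SEP node of the
same prime or belongs to the chain of pulls above a tie), so `PhiU820.leaf_mass` applies to it.
-/

set_option autoImplicit false

namespace Crest.Agent.R4P.PhiU820

open Crest.Agent.R4P.Cnt588 Crest.Agent.R4P.Item758 Crest.Agent.R4P.Bld532
open Crest.Agent.R4P.BldF542 Crest.Agent.R4P.Phi542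

lemma PlOk_plk_mem {k : ℕ} {Z : Finset ℕ} (hk : k ∈ Z) {t : IT} (h : PlOk Z t) :
    ∀ j : ℕ, PlOk Z (plk k j t)
  | 0 => h
  | j + 1 => ⟨Or.inl hk, PlOk_plk_mem hk h j⟩

lemma Nxt_plk {k : ℕ} {t : IT} (h : Nxt k t) : ∀ j : ℕ, Nxt k (plk k j t)
  | 0 => h
  | j + 1 => ⟨rfl, Nxt_plk h j⟩

lemma PlOk_plk_nxt {k : ℕ} {Z : Finset ℕ} {t : IT} (hn : Nxt k t) (h : PlOk Z t) :
    ∀ j : ℕ, PlOk Z (plk k j t)
  | 0 => h
  | j + 1 => ⟨Or.inr (Nxt_plk hn j), PlOk_plk_nxt hn h j⟩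

theorem fin_PlOk {k : ℕ} {rec : ℝ → ℕ → Finset ℕ → IT} (hrec : ∀ c A S Z, PlOk Z (rec c A S))
    (c : ℝ) (A K : ℕ) (S Z : Finset ℕ) : PlOk Z (fin k rec c A K S) := by
  cases K with
  | zero => exact hrec _ _ _ _
  | succ K =>
    show PlOk Z (plk k K (.br k (dv (A * k ^ K) (k ^ 2) S)
      (rec (c / (1 - 1 / (k : ℝ))) (A * k ^ K * k) (dv (A * k ^ K) k S))
      (rec (c * k) (A * k ^ K) (nd (A * k ^ K) k S))))
    refine PlOk_plk_nxt ?_ ?_ K
    · show k = k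
      rfl
    · exact And.intro (hrec _ _ _ _) (hrec _ _ _ _)

theorem fin1_PlOk {P : Par} {W : ℕ → ℝ} {k : ℕ} {rec : ℝ → ℕ → Finset ℕ → IT}
    (hrec : ∀ c A S Z, PlOk Z (rec c A S))
    (c : ℝ) (A K : ℕ) (S Z : Finset ℕ) : PlOk Z (fin1 P W k rec c A K S) := by
  unfold fin1
  split_ifs
  · trivial
  · exact fin_PlOk hrec c A K S Z

theorem chain_PlOk {P : Par} {W : ℕ → ℝ} {k : ℕ} {rec : ℝ → ℕ → Finset ℕ → IT}
    (hrec : ∀ c A S Z, PlOk Z (rec c A S)) :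
    ∀ (f : ℕ) (c : ℝ) (A : ℕ) (S Z : Finset ℕ), PlOk Z (chain P W k rec f c A S) := by
  intro f
  induction f with
  | zero => intro c A S Z; trivial
  | succ f ih =>
    intro c A S Z
    rw [chain]
    split_ifs with h1 h2
    · trivial
    · exact ⟨PlOk_plk_mem (Finset.mem_insert_self _ _) (ih _ _ _ _) _, ih _ _ _ _⟩
    · unfold farw
      split_ifs
      · exact fin1_PlOk hrec _ _ _ _ _
      · exact ⟨trivial, fin1_PlOk hrec _ _ _ _ _⟩

/-- **the built tree satisfies `PlOk`** -/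
theorem bld_PlOk (P : Par) (W : ℕ → ℝ) : ∀ (n : ℕ) (c : ℝ) (A : ℕ) (S Z : Finset ℕ),
    PlOk Z (bld P W n c A S) := by
  intro n
  induction n with
  | zero => intro c A S Z; trivial
  | succ k ih =>
    intro c A S Z
    rw [bld]
    split_ifs
    · exact chain_PlOk ih _ _ _ _ _
    · exact ih _ _ _ _

end Crest.Agent.R4P.PhiU820
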