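import Mathlib
import Crest.Agent.R4P.CntB33

/-! R4 (S0004), module B: (P) pruning. -/

set_option autoImplicit false

namespace Crest.Agent.R4P.Cnt588

open Finset

/-- Markov's inequality for finitely many nonnegative functions at once. -/
theorem markov33 {ι : Type*} (J : Finset ι) (W : ℕ → ℝ) (hW : ∀ q, 0 ≤ W q) (S : Finset ℕ)
    (f : ι → ℕ → ℝ) (hf : ∀ i ∈ J, ∀ q ∈ S, 0 ≤ f i q) (A : ι → ℝ) (δ : ι → ℝ)
    (hδ : ∀ i ∈ J, 0 < δ i) (hA : ∀ i ∈ J, ∑ q ∈ S, W q * f i q ≤ A i * Ws W S) :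
    ∃ S' ⊆ S, (1 - ∑ i ∈ J, δ i) * Ws W S ≤ Ws W S' ∧
      ∀ q ∈ S', ∀ i ∈ J, f i q ≤ A i / δ i := by
  classical
  refine ⟨S.filter (fun q => ∀ i ∈ J, f i q ≤ A i / δ i), Finset.filter_subset _ _, ?_, ?_⟩
  · have hbad : ∀ i ∈ J, Ws W (S.filter (fun q => A i / δ i < f i q)) ≤ δ i * Ws W S := by
      intro i hi
      have hd := hδ i hi
      have hS : 0 ≤ Ws W S := Ws_nonneg33 hW _
      -- Σ over bad of W f ≤ A Ws
      have h1 : ∑ q ∈ S.filter (fun q => A i / δ i < f i q), W q * f i q ≤ A i * Ws W S := by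
        refine le_trans ?_ (hA i hi)
        refine Finset.sum_le_sum_of_subset_of_nonneg (Finset.filter_subset _ _) ?_
        intro q hq _
        exact mul_nonneg (hW q) (hf i hi q hq)
      by_cases hAi : 0 < A i
      · have h2 : ∑ q ∈ S.filter (fun q => A i / δ i < f i q), W q * (A i / δ i) ≤
            ∑ q ∈ S.filter (fun q => A i / δ i < f i q), W q * f i q := by
          refine Finset.sum_le_sum fun q hq => ?_
          exact mul_le_mul_of_nonneg_left (Finset.mem_filter.1 hq).2.le (hW q)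
        have h3 : ∑ q ∈ S.filter (fun q => A i / δ i < f i q), W q * (A i / δ i) =
            Ws W (S.filter (fun q => A i / δ i < f i q)) * (A i / δ i) := by
          rw [Ws, Finset.sum_mul]
        rw [h3] at h2
        have h4 : Ws W (S.filter (fun q => A i / δ i < f i q)) * (A i / δ i) ≤ A i * Ws W S :=
          h2.trans h1
        have h5 : Ws W (S.filter (fun q => A i / δ i < f i q)) * A i ≤ (δ i * Ws W S) * A i := by
          have h6 := mul_le_mul_of_nonneg_left h4 hd.le
          have h7 : δ i * (Ws W (S.filter (fun q => A i / δ i < f i q)) * (A i / δ i)) =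
              Ws W (S.filter (fun q => A i / δ i < f i q)) * A i := by
            field_simp
          rw [h7] at h6
          linarith
        exact le_of_mul_le_mul_right h5 hAi
      · -- A i ≤ 0 : all terms vanish
        have hAi' : A i ≤ 0 := not_lt.1 hAi
        have h8 : A i * Ws W S ≤ 0 := mul_nonpos_of_nonpos_of_nonneg hAi' hS
        have h9 : ∑ q ∈ S, W q * f i q = 0 := by
          apply le_antisymm ((hA i hi).trans h8)
          exact Finset.sum_nonneg fun q hq => mul_nonneg (hW q) (hf i hi q hq)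
        have h10 : ∀ q ∈ S, W q * f i q = 0 :=
          (Finset.sum_eq_zero_iff_of_nonneg
            (fun q hq => mul_nonneg (hW q) (hf i hi q hq))).1 h9
        by_cases hAS : A i = 0 ∨ Ws W S = 0
        · have h11 : Ws W (S.filter (fun q => A i / δ i < f i q)) = 0 := by
            rcases hAS with h | h
            · apply Finset.sum_eq_zero
              intro q hq
              have hq' := Finset.mem_filter.1 hq
              have h12 := h10 q hq'.1
              have h13 : 0 < f i q := by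
                have := hq'.2
                rw [h, zero_div] at this
                exact this
              rcases mul_eq_zero.1 h12 with h14 | h14
              · exact h14
              · exact absurd h14 h13.ne'
            · apply le_antisymm _ (Ws_nonneg33 hW _)
              rw [← h]
              exact Finset.sum_le_sum_of_subset_of_nonneg (Finset.filter_subset _ _)
                fun q _ _ => hW q
          rw [h11]; positivity
        · exfalso
          push Not at hAS
          have h15 : A i < 0 := lt_of_le_of_ne hAi' hAS.1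
          have h16 : 0 < Ws W S := lt_of_le_of_ne hS (Ne.symm hAS.2)
          have h17 : A i * Ws W S < 0 := mul_neg_of_neg_of_pos h15 h16
          have := hA i hi
          rw [h9] at this
          linarith
    have hcover : S ⊆ S.filter (fun q => ∀ i ∈ J, f i q ≤ A i / δ i) ∪
        J.biUnion (fun i => S.filter (fun q => A i / δ i < f i q)) := by
      intro q hq
      by_cases h : ∀ i ∈ J, f i q ≤ A i / δ i
      · exact Finset.mem_union_left _ (Finset.mem_filter.2 ⟨hq, h⟩)
      · push Not at h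
        obtain ⟨i, hi, hlt⟩ := h
        exact Finset.mem_union_right _
          (Finset.mem_biUnion.2 ⟨i, hi, Finset.mem_filter.2 ⟨hq, hlt⟩⟩)
    have h1 : Ws W S ≤ Ws W (S.filter (fun q => ∀ i ∈ J, f i q ≤ A i / δ i)) +
        ∑ i ∈ J, Ws W (S.filter (fun q => A i / δ i < f i q)) := by
      have h2 : Ws W S ≤ Ws W (S.filter (fun q => ∀ i ∈ J, f i q ≤ A i / δ i) ∪
          J.biUnion (fun i => S.filter (fun q => A i / δ i < f i q))) :=
        Finset.sum_le_sum_of_subset_of_nonneg hcover fun q _ _ => hW q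
      have h3 : ∀ (X Y : Finset ℕ), Ws W (X ∪ Y) ≤ Ws W X + Ws W Y := by
        intro X Y
        have := Finset.sum_union_inter (s₁ := X) (s₂ := Y) (f := W)
        have h4 : 0 ≤ ∑ q ∈ X ∩ Y, W q := Finset.sum_nonneg fun q _ => hW q
        simp only [Ws]
        linarith
      have h5 : ∀ (J' : Finset ι), Ws W (J'.biUnion (fun i => S.filter (fun q => A i / δ i < f i q))) ≤
          ∑ i ∈ J', Ws W (S.filter (fun q => A i / δ i < f i q)) := by
        intro J'
        induction J' using Finset.induction_on with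
        | empty => simp [Ws]
        | insert a s ha ih =>
            rw [Finset.biUnion_insert, Finset.sum_insert ha]
            exact (h3 _ _).trans (by linarith)
      exact h2.trans ((h3 _ _).trans (by linarith [h5 J]))
    have h6 : ∑ i ∈ J, Ws W (S.filter (fun q => A i / δ i < f i q)) ≤
        (∑ i ∈ J, δ i) * Ws W S := by
      rw [Finset.sum_mul]
      exact Finset.sum_le_sum hbad
    linarith
  · intro q hq i hi
    exact (Finset.mem_filter.1 hq).2 i hi

/-- `Σ_{k<K} 2^{-(k+1)} ≤ 1` -/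
theorem geo33 (K : ℕ) : ∑ k ∈ Finset.range K, (1 / 2 : ℝ) ^ (k + 1) ≤ 1 := by
  have : ∀ K : ℕ, ∑ k ∈ Finset.range K, (1 / 2 : ℝ) ^ (k + 1) = 1 - (1 / 2) ^ K := by
    intro K
    induction K with
    | zero => simp
    | succ n ih => rw [Finset.sum_range_succ, ih]; ring
  rw [this]
  have : (0 : ℝ) ≤ (1 / 2) ^ K := by positivity
  linarith

/-- **(P)**: pruning of the items of a tree.  Blocks `I_k = blk (Pk k) (Pk (k+1))`, `k < K`. -/
theorem prune (W : ℕ → ℝ) (hW : ∀ q, 0 ≤ W q) (t : IT) (n : ℕ) (hok : t.Ok n) (K : ℕ)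
    (Pk : ℕ → ℕ) (lam Lam L : ℕ → ℝ) (hl : ∀ k < K, 0 < lam k) (hL : ∀ k < K, lam k ≤ Lam k)
    (hLs : ∀ k < K, 0 < L k)
    (hal : ∀ k < K, t.Alive W (blk (Pk k) (Pk (k + 1))) (lam k) (Lam k) 1)
    (hsep : ∀ k < K, t.SepRule W (blk (Pk k) (Pk (k + 1))) (L k))
    (g σ : ℕ → ℝ) (hg : ∀ b, 0 ≤ g b) (hσ : ∀ b, 0 ≤ σ b) (hup : t.UpRule W σ)
    {ε : ℝ} (hε : 0 < ε) :
    ∃ S' ⊆ t.items, (1 - ε) * Ws W t.items ≤ Ws W S' ∧
      ∀ q ∈ S', ∀ k < K,
        (((t.mt q).filter (· ∈ blk (Pk k) (Pk (k + 1)))).card : ℝ) ≤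
          3 * 2 ^ (k + 1) * KA (blk (Pk k) (Pk (k + 1))) (lam k) (Lam k) / ε ∧
        ∑ b ∈ (t.sp q).filter (· ∈ blk (Pk k) (Pk (k + 1))), (1 / (b : ℝ)) ≤
          3 * 2 ^ (k + 1) * (KE (blk (Pk k) (Pk (k + 1))) (lam k) (Lam k) / L k) / ε ∧
        ∑ b ∈ (t.uq q).filter (· ∈ blk (Pk k) (Pk (k + 1))), g b ≤
          3 * 2 ^ (k + 1) * (∑ b ∈ blk (Pk k) (Pk (k + 1)), g b * σ b) / ε := by
  classical
  set I : ℕ → Finset ℕ := fun k => blk (Pk k) (Pk (k + 1)) with hI
  let J : Finset (Fin 3 × ℕ) := Finset.univ ×ˢ Finset.range K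
  let f : Fin 3 × ℕ → ℕ → ℝ := fun i q =>
    if i.1 = 0 then (((t.mt q).filter (· ∈ I i.2)).card : ℝ)
    else if i.1 = 1 then ∑ b ∈ (t.sp q).filter (· ∈ I i.2), (1 / (b : ℝ))
    else ∑ b ∈ (t.uq q).filter (· ∈ I i.2), g b
  let A : Fin 3 × ℕ → ℝ := fun i =>
    if i.1 = 0 then KA (I i.2) (lam i.2) (Lam i.2)
    else if i.1 = 1 then KE (I i.2) (lam i.2) (Lam i.2) / L i.2
    else ∑ b ∈ I i.2, g b * σ b
  let δ : Fin 3 × ℕ → ℝ := fun i => ε / 3 * (1 / 2) ^ (i.2 + 1)
  have hδ : ∀ i ∈ J, 0 < δ i := fun i _ => by positivity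
  have hf : ∀ i ∈ J, ∀ q ∈ t.items, 0 ≤ f i q := by
    intro i _ q _
    simp only [f]
    split_ifs
    · positivity
    · exact Finset.sum_nonneg fun b _ => by positivity
    · exact Finset.sum_nonneg fun b _ => hg b
  have hA : ∀ i ∈ J, ∑ q ∈ t.items, W q * f i q ≤ A i * Ws W t.items := by
    intro i hi
    have hk : i.2 < K := Finset.mem_range.1 (Finset.mem_product.1 hi).2
    simp only [f, A]
    split_ifs
    · exact mt_le W hW _ _ (hl _ hk) (hL _ hk) t n 1 one_pos hok (hal _ hk)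
    · have h1 := sp_le W hW (I i.2) (hLs _ hk) t n hok (hsep _ hk)
      have h2 := cmin_le W hW _ _ (hl _ hk) (hL _ hk) t n 1 one_pos hok (hal _ hk)
      refine h1.trans ?_
      have h3 : 1 / L i.2 * t.cmin W (I i.2) ≤
          1 / L i.2 * (KE (I i.2) (lam i.2) (Lam i.2) * Ws W t.items) :=
        mul_le_mul_of_nonneg_left h2 (by have := hLs _ hk; positivity)
      refine h3.trans (le_of_eq ?_)
      ring
    · exact uq_le W hW (I i.2) hg hσ t n hok hup
  obtain ⟨S', hsub, hmass, hbd⟩ := markov33 J W hW t.items f hf A δ hδ hA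
  refine ⟨S', hsub, ?_, ?_⟩
  · refine le_trans ?_ hmass
    apply mul_le_mul_of_nonneg_right _ (Ws_nonneg33 hW _)
    have : ∑ i ∈ J, δ i ≤ ε := by
      have h1 : ∑ i ∈ J, δ i = ∑ _a : Fin 3, ∑ k ∈ Finset.range K, ε / 3 * (1 / 2) ^ (k + 1) :=
        Finset.sum_product _ _ _
      rw [h1, Finset.sum_const, Finset.card_univ, Fintype.card_fin, ← Finset.mul_sum]
      have := geo33 K
      simp only [nsmul_eq_mul]
      push_cast
      nlinarith
    linarith
  · intro q hq k hk
    have hmem : ∀ a : Fin 3, (a, k) ∈ J := fun a =>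
      Finset.mem_product.2 ⟨Finset.mem_univ _, Finset.mem_range.2 hk⟩
    have hdiv : ∀ x : ℝ, x / (ε / 3 * (1 / 2) ^ (k + 1)) = 3 * 2 ^ (k + 1) * x / ε := by
      intro x
      have h2 : (1 / 2 : ℝ) ^ (k + 1) = 1 / 2 ^ (k + 1) := by
        rw [one_div, inv_pow, one_div]
      rw [h2]
      field_simp
    have h0 := hbd q hq (0, k) (hmem 0)
    have h1 := hbd q hq (1, k) (hmem 1)
    have h2 := hbd q hq (2, k) (hmem 2)
    simp only [f, A, δ, if_true, if_neg (show (1 : Fin 3) ≠ 0 by decide),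
      if_neg (show (2 : Fin 3) ≠ 0 by decide), if_neg (show (2 : Fin 3) ≠ 1 by decide), hdiv]
      at h0 h1 h2
    exact ⟨h0, h1, h2⟩

end Crest.Agent.R4P.Cnt588
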