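import Mathlib
import Crest.Agent.R4P.Prune33
import Crest.Agent.Lib.Mertens

/-! R4 (S0004), powers form: numeric half of the pruning, for ANY tree `t` with `Ok`, `Alive`,
`SepRule`, `UpRule` (no builder). -/

set_option autoImplicit false

namespace Crest.Agent.R4P.PrunePar33

open Finset Crest.Agent.R4P.Cnt588

theorem one_le_log_nat {k : ℕ} (hk : 3 ≤ k) : 1 ≤ Real.log k := by
  rw [Real.le_log_iff_exp_le (by positivity)]
  have : (3 : ℝ) ≤ k := by exact_mod_cast hk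
  have := Real.exp_one_lt_d9
  linarith

/-- squaring scale -/
def Pk (p0 k : ℕ) : ℕ := p0 ^ (2 ^ k)

theorem Pk_zero (p0 : ℕ) : Pk p0 0 = p0 := by simp [Pk]

theorem Pk_succ (p0 k : ℕ) : Pk p0 (k + 1) = (Pk p0 k) ^ 2 := by
  simp [Pk, pow_succ, pow_mul]

theorem log_Pk (p0 k : ℕ) : Real.log (Pk p0 k) = 2 ^ k * Real.log p0 := by
  simp [Pk, Real.log_pow]

theorem Pk_mono {p0 : ℕ} (h : 1 ≤ p0) : Monotone (Pk p0) := by
  intro a b hab
  exact Nat.pow_le_pow_right h (Nat.pow_le_pow_right (by norm_num) hab)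

theorem Pk_ge {p0 : ℕ} (h : 1 ≤ p0) (k : ℕ) : p0 ≤ Pk p0 k := by
  have := Pk_mono h (Nat.zero_le k)
  rwa [Pk_zero] at this

theorem lt_Pk {p0 : ℕ} (h : 2 ≤ p0) (n : ℕ) : n < Pk p0 n := by
  have h1 : n < 2 ^ n := Nat.lt_two_pow_self
  have h2 : 2 ^ n < 2 ^ (2 ^ n) := Nat.lt_two_pow_self
  have h3 : 2 ^ (2 ^ n) ≤ p0 ^ (2 ^ n) := Nat.pow_le_pow_left h _
  exact h1.trans (h2.trans_le h3)

theorem exists_blk {p0 p : ℕ} (h2 : 2 ≤ p0) (h : p0 < p) :
    ∃ k, Pk p0 k < p ∧ p ≤ Pk p0 (k + 1) := by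
  classical
  have hex : ∃ m, p ≤ Pk p0 m := ⟨p, (lt_Pk h2 p).le⟩
  have hf := Nat.find_spec hex
  have hne : Nat.find hex ≠ 0 := by
    intro h0
    rw [h0, Pk_zero] at hf
    omega
  obtain ⟨k, hk⟩ := Nat.exists_eq_succ_of_ne_zero hne
  refine ⟨k, ?_, ?_⟩
  · have := Nat.find_min hex (m := k) (by omega)
    omega
  · rw [hk] at hf; exact hf

theorem exists_blk' {p0 P : ℕ} (h2 : 2 ≤ p0) (h : p0 ≤ P) :
    ∃ j, Pk p0 j ≤ P ∧ P < Pk p0 (j + 1) := by
  obtain ⟨k, h1, h3⟩ := exists_blk (p := P + 1) h2 (by omega)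
  exact ⟨k, by omega, by omega⟩

/-- Mertens on a squaring block -/
theorem blk_sum_le {p0 : ℕ} (h : 24 ≤ Real.log p0) (h2 : 2 ≤ p0) (k : ℕ) :
    ∑ p ∈ blk (Pk p0 k) (Pk p0 (k + 1)), (1 / (p : ℝ)) ≤ 1 := by
  have hm : 2 ≤ Pk p0 k := h2.trans (Pk_ge (by omega) k)
  have hmn : Pk p0 k ≤ Pk p0 (k + 1) := Pk_mono (by omega) (Nat.le_succ k)
  have h3 := Crest.Agent.Lib.Mertens.mertens_two_nat _ _ hm hmn
  have h4 : ∑ p ∈ blk (Pk p0 k) (Pk p0 (k + 1)), (1 / (p : ℝ)) =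
      Crest.Agent.Lib.Mertens.S (Pk p0 k) (Pk p0 (k + 1)) := rfl
  rw [h4]
  have h5 := (abs_le.1 h3).2
  have hx : 24 ≤ Real.log (Pk p0 k) := by
    rw [log_Pk]
    have : (1 : ℝ) ≤ 2 ^ k := one_le_pow₀ (by norm_num)
    nlinarith
  have h6 : Real.log (Pk p0 (k + 1)) = 2 * Real.log (Pk p0 k) := by
    rw [log_Pk, log_Pk, pow_succ]; ring
  rw [h6, Real.log_mul (by norm_num) (by linarith)] at h5
  have h7 := Real.log_two_lt_d9
  have h8 : 7 / Real.log (Pk p0 k) ≤ 7 / 24 :=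
    div_le_div_of_nonneg_left (by norm_num) (by norm_num) hx
  linarith

/-- bound of the constant `KA` -/
theorem KA_le {I : Finset ℕ} (hI : ∑ p ∈ I, (1 / (p : ℝ)) ≤ 1) {X C1 c2 : ℝ} (hX : 1 ≤ X)
    (hC1 : 0 ≤ C1) (hc2 : 0 ≤ c2) : KA I (X ^ (-C1)) (X ^ c2) ≤ 2 * X ^ (C1 + c2) := by
  have hX0 : 0 < X := by linarith
  have h1 : X ^ c2 / X ^ (-C1) = X ^ (C1 + c2) := by
    rw [← Real.rpow_sub hX0]; congr 1; ring
  unfold KA
  rw [h1]
  have h2 : 1 ≤ X ^ (C1 + c2) := Real.one_le_rpow hX (by linarith)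
  nlinarith

/-- bound of the constant `KE` -/
theorem KE_le {I : Finset ℕ} (hI : ∑ p ∈ I, (1 / (p : ℝ)) ≤ 1) {X C1 c2 : ℝ} (hX : 1 ≤ X)
    (hC1 : 0 ≤ C1) (hc2 : 0 ≤ c2) :
    KE I (X ^ (-C1)) (X ^ c2) ≤ 10 * (1 + (C1 + c2)) * X ^ (C1 + c2 + 1) := by
  have hX0 : 0 < X := by linarith
  have h1 : X ^ c2 / X ^ (-C1) = X ^ (C1 + c2) := by
    rw [← Real.rpow_sub hX0]; congr 1; ring
  unfold KE
  rw [h1, Real.log_rpow hX0]
  set C := C1 + c2 with hC
  have hC0 : 0 ≤ C := by positivity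
  have h2 : 1 ≤ X ^ C := Real.one_le_rpow hX hC0
  have h3 : 0 ≤ Real.log X := Real.log_nonneg hX
  have h4 : Real.log X ≤ X := (Real.log_le_sub_one_of_pos hX0).trans (by linarith)
  have h5 : 0 ≤ C * Real.log X := mul_nonneg hC0 h3
  have h6 : X ^ (C + 1) = X ^ C * X := by rw [Real.rpow_add hX0, Real.rpow_one]
  have h7 : 1 + C * Real.log X ≤ (1 + C) * X := by nlinarith
  have h8 : 0 ≤ 8 * X ^ C * (1 + C * Real.log X) := by positivity
  calc 2 * (C * Real.log X) + 2 + 8 * X ^ C * (1 + C * Real.log X) * ∑ p ∈ I, (1 / (p : ℝ))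
      ≤ 2 * (1 + C * Real.log X) + 8 * X ^ C * (1 + C * Real.log X) * 1 := by
        have := mul_le_mul_of_nonneg_left hI h8
        linarith
    _ ≤ 2 * X ^ C * (1 + C * Real.log X) + 8 * X ^ C * (1 + C * Real.log X) := by
        have : 2 * (1 + C * Real.log X) * 1 ≤ 2 * (1 + C * Real.log X) * X ^ C :=
          mul_le_mul_of_nonneg_left h2 (by positivity)
        linarith
    _ = 10 * X ^ C * (1 + C * Real.log X) := by ring
    _ ≤ 10 * X ^ C * ((1 + C) * X) := mul_le_mul_of_nonneg_left h7 (by positivity)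
    _ = 10 * (1 + C) * X ^ (C + 1) := by rw [h6]; ring

/-- from block counts to counts up to `P` -/
theorem cnt_of_blk {p0 : ℕ} (h2 : 2 ≤ p0) {D K : ℝ} (hD : 0 ≤ D) (hK : 0 ≤ K)
    (h1 : 1 ≤ Real.log p0) (hbig : 2 * K * 2 ^ (D + 1) ≤ Real.log p0) (M : Finset ℕ)
    (hM : ∀ p ∈ M, p.Prime ∧ p0 < p)
    (hblk : ∀ k, ((M.filter (· ∈ blk (Pk p0 k) (Pk p0 (k + 1)))).card : ℝ) ≤
      K * 2 ^ (k + 1) * Real.log (Pk p0 (k + 1)) ^ D) (P : ℕ) (hP : p0 ≤ P) :
    ((M.filter (· ≤ P)).card : ℝ) ≤ Real.log P ^ (D + 1) := by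
  classical
  obtain ⟨j, hj, hj'⟩ := exists_blk' h2 hP
  have hP0 : (0 : ℝ) < P := by
    have : 0 < P := by omega
    exact_mod_cast this
  have hsub : M.filter (· ≤ P) ⊆ (Finset.range (j + 1)).biUnion
      (fun k => M.filter (· ∈ blk (Pk p0 k) (Pk p0 (k + 1)))) := by
    intro p hp
    obtain ⟨hpM, hpP⟩ := Finset.mem_filter.1 hp
    obtain ⟨hpp, hp0⟩ := hM p hpM
    obtain ⟨k, hk1, hk2⟩ := exists_blk h2 hp0
    refine Finset.mem_biUnion.2 ⟨k, ?_, ?_⟩
    · rw [Finset.mem_range]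
      by_contra hcon
      push Not at hcon
      have := Pk_mono (p0 := p0) (by omega) hcon
      omega
    · refine Finset.mem_filter.2 ⟨hpM, ?_⟩
      exact Finset.mem_filter.2 ⟨Finset.mem_Ioc.2 ⟨hk1, hk2⟩, hpp⟩
  set X := Real.log (Pk p0 (j + 1)) with hX
  have hXe : X = 2 ^ (j + 1) * Real.log p0 := by rw [hX, log_Pk]
  have hl0 : 0 < Real.log p0 := by linarith
  have hX0 : 0 < X := by rw [hXe]; positivity
  have hcard : ((M.filter (· ≤ P)).card : ℝ) ≤ ∑ k ∈ Finset.range (j + 1),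
      K * 2 ^ (k + 1) * X ^ D := by
    calc ((M.filter (· ≤ P)).card : ℝ)
        ≤ (((Finset.range (j + 1)).biUnion
            (fun k => M.filter (· ∈ blk (Pk p0 k) (Pk p0 (k + 1))))).card : ℝ) := by
          exact_mod_cast Finset.card_le_card hsub
      _ ≤ ∑ k ∈ Finset.range (j + 1),
            ((M.filter (· ∈ blk (Pk p0 k) (Pk p0 (k + 1)))).card : ℝ) := by
          exact_mod_cast Finset.card_biUnion_le
      _ ≤ ∑ k ∈ Finset.range (j + 1), K * 2 ^ (k + 1) * X ^ D := by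
          refine Finset.sum_le_sum fun k hk => (hblk k).trans ?_
          have hkj : k ≤ j := Nat.lt_succ_iff.1 (Finset.mem_range.1 hk)
          have h3 : Real.log (Pk p0 (k + 1)) ≤ X := by
            rw [hXe, log_Pk]
            exact mul_le_mul_of_nonneg_right
              (pow_le_pow_right₀ (by norm_num) (by omega)) hl0.le
          have h4 : 0 ≤ Real.log (Pk p0 (k + 1)) := by rw [log_Pk]; positivity
          exact mul_le_mul_of_nonneg_left (Real.rpow_le_rpow h4 h3 hD) (by positivity)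
  have hsum : ∑ k ∈ Finset.range (j + 1), K * 2 ^ (k + 1) * X ^ D ≤ K * (2 * 2 ^ (j + 1)) * X ^ D := by
    have h5 : ∀ m : ℕ, ∑ k ∈ Finset.range m, (2 : ℝ) ^ (k + 1) ≤ 2 * 2 ^ m := by
      intro m
      induction m with
      | zero => simp
      | succ n ih => rw [Finset.sum_range_succ, pow_succ 2 n]; linarith [pow_succ (2:ℝ) n]
    have h6 : ∑ k ∈ Finset.range (j + 1), K * 2 ^ (k + 1) * X ^ D =
        K * (∑ k ∈ Finset.range (j + 1), (2 : ℝ) ^ (k + 1)) * X ^ D := by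
      rw [Finset.mul_sum, Finset.sum_mul]
    rw [h6]
    exact mul_le_mul_of_nonneg_right (mul_le_mul_of_nonneg_left (h5 _) hK) (by positivity)
  have hXP : X ≤ 2 * Real.log P := by
    have h7 : Real.log (Pk p0 j) ≤ Real.log P := by
      apply Real.log_le_log
      · have : 0 < Pk p0 j := by have := Pk_ge (p0 := p0) (by omega) j; omega
        exact_mod_cast this
      · exact_mod_cast hj
    rw [log_Pk] at h7
    rw [hXe, pow_succ]
    linarith
  have hLP : 0 < Real.log P := by linarith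
  have h2j : (2 : ℝ) ^ (j + 1) = X / Real.log p0 := by
    rw [hXe]; field_simp
  calc ((M.filter (· ≤ P)).card : ℝ) ≤ K * (2 * 2 ^ (j + 1)) * X ^ D := hcard.trans hsum
    _ = 2 * K * X ^ (D + 1) / Real.log p0 := by
        rw [h2j, Real.rpow_add hX0, Real.rpow_one]; ring
    _ ≤ 2 * K * (2 * Real.log P) ^ (D + 1) / Real.log p0 := by
        apply div_le_div_of_nonneg_right _ hl0.le
        exact mul_le_mul_of_nonneg_left (Real.rpow_le_rpow hX0.le hXP (by linarith))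
          (by positivity)
    _ = (2 * K * 2 ^ (D + 1)) * Real.log P ^ (D + 1) / Real.log p0 := by
        rw [Real.mul_rpow (by norm_num) hLP.le]; ring
    _ ≤ Real.log p0 * Real.log P ^ (D + 1) / Real.log p0 := by
        apply div_le_div_of_nonneg_right _ hl0.le
        exact mul_le_mul_of_nonneg_right hbig (by positivity)
    _ = Real.log P ^ (D + 1) := by field_simp

/-- the pruned items -/
structure Pr (t : IT) (p0 : ℕ) (C B : ℝ) (q : ℕ) : Prop where
  mt : ∀ P : ℕ, p0 ≤ P → (((t.mt q).filter (· ≤ P)).card : ℝ) ≤ Real.log P ^ (C + 1)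
  uq : ∀ P : ℕ, p0 ≤ P → (((t.uq q).filter (· ≤ P)).card : ℝ) ≤ Real.log P ^ (B + 1)
  sp : ∀ P : ℕ, p0 ≤ P → ∑ b ∈ (t.sp q).filter (fun b => P < b ∧ b ≤ P ^ 2), (1 / (b : ℝ)) ≤
    Real.log P ^ (-(B - C - 2))

/-- sum over squaring blocks -/
theorem sum_blk_le {P : ℕ} (h2 : 2 ≤ P) (M : Finset ℕ) (f : ℕ → ℝ) (hf : ∀ b ∈ M, 0 ≤ f b)
    {T : ℝ} (hT : 0 ≤ T)
    (h : ∀ k, ∑ b ∈ M.filter (fun b => Pk P k < b ∧ b ≤ Pk P (k + 1)), f b ≤
      T * (1 / 2) ^ (k + 1)) :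
    ∑ b ∈ M.filter (fun b => P < b), f b ≤ T := by
  classical
  set N := M.sup id + 1 with hN
  have hsub : M.filter (fun b => P < b) ⊆ (Finset.range N).biUnion
      (fun k => M.filter (fun b => Pk P k < b ∧ b ≤ Pk P (k + 1))) := by
    intro b hb
    obtain ⟨hbM, hPb⟩ := Finset.mem_filter.1 hb
    obtain ⟨k, hk1, hk2⟩ := exists_blk h2 hPb
    refine Finset.mem_biUnion.2 ⟨k, ?_, Finset.mem_filter.2 ⟨hbM, hk1, hk2⟩⟩
    rw [Finset.mem_range]
    have h3 : b ≤ M.sup id := Finset.le_sup (f := id) hbM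
    have h4 := lt_Pk h2 k
    omega
  calc ∑ b ∈ M.filter (fun b => P < b), f b
      ≤ ∑ b ∈ (Finset.range N).biUnion
          (fun k => M.filter (fun b => Pk P k < b ∧ b ≤ Pk P (k + 1))), f b := by
        refine Finset.sum_le_sum_of_subset_of_nonneg hsub ?_
        intro b hb _
        obtain ⟨k, _, hk⟩ := Finset.mem_biUnion.1 hb
        exact hf b (Finset.mem_filter.1 hk).1
    _ ≤ ∑ k ∈ Finset.range N,
          ∑ b ∈ M.filter (fun b => Pk P k < b ∧ b ≤ Pk P (k + 1)), f b := by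
        have : ∀ (J : Finset ℕ), ∑ b ∈ J.biUnion
            (fun k => M.filter (fun b => Pk P k < b ∧ b ≤ Pk P (k + 1))), f b ≤
            ∑ k ∈ J, ∑ b ∈ M.filter (fun b => Pk P k < b ∧ b ≤ Pk P (k + 1)), f b := by
          intro J
          induction J using Finset.induction_on with
          | empty => simp
          | insert a s ha ih =>
            rw [Finset.biUnion_insert, Finset.sum_insert ha]
            set X := M.filter (fun b => Pk P a < b ∧ b ≤ Pk P (a + 1))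
            set Y := s.biUnion (fun k => M.filter (fun b => Pk P k < b ∧ b ≤ Pk P (k + 1)))
            have h5 := Finset.sum_union_inter (s₁ := X) (s₂ := Y) (f := f)
            have h6 : 0 ≤ ∑ q ∈ X ∩ Y, f q := Finset.sum_nonneg fun q hq =>
              hf q (Finset.mem_filter.1 (Finset.mem_inter.1 hq).1).1
            linarith
        exact this _
    _ ≤ ∑ k ∈ Finset.range N, T * (1 / 2) ^ (k + 1) := Finset.sum_le_sum fun k _ => h k
    _ = T * ∑ k ∈ Finset.range N, (1 / 2 : ℝ) ^ (k + 1) := by rw [Finset.mul_sum]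
    _ ≤ T * 1 := mul_le_mul_of_nonneg_left (geo33 N) hT
    _ = T := mul_one T

/-- tail of a sparse set: polynomially small -/
theorem tail_pow (D c : ℝ) (hc : 0 < c) : ∃ p₁ : ℕ, ∀ p0 ≥ p₁, ∀ M : Finset ℕ,
    (∀ P : ℕ, p0 ≤ P → ((M.filter (· ≤ P)).card : ℝ) ≤ Real.log P ^ D) →
    ∀ P : ℕ, p0 ≤ P → ∑ s ∈ M.filter (fun b => P < b), (s : ℝ) ^ (-c) ≤ (P : ℝ) ^ (-(c / 2)) := by
  have hlit := isLittleO_rpow_exp_pos_mul_atTop (D + 1) (show 0 < c / 4 by positivity)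
  have hev := hlit.bound (show (0 : ℝ) < 1 by norm_num)
  obtain ⟨y0, hy0⟩ := Filter.eventually_atTop.1 hev
  set T := max y0 1 with hT
  refine ⟨⌈Real.exp T⌉₊ + 3, fun p0 hp0 M hM P hP => ?_⟩
  have hPT : Real.exp T ≤ P := by
    have h1 : Real.exp T ≤ ⌈Real.exp T⌉₊ := Nat.le_ceil _
    have h2 : ((⌈Real.exp T⌉₊ : ℕ) : ℝ) ≤ P := by
      have : ⌈Real.exp T⌉₊ ≤ P := by omega
      exact_mod_cast this
    linarith
  have hP0 : (0 : ℝ) < P := lt_of_lt_of_le (Real.exp_pos _) hPT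
  have hL : T ≤ Real.log P := (Real.le_log_iff_exp_le hP0).2 hPT
  have hL1 : 1 ≤ Real.log P := (le_max_right _ _).trans hL
  have hLy : y0 ≤ Real.log P := (le_max_left _ _).trans hL
  have h2P : 2 ≤ P := by omega
  apply sum_blk_le h2P M _ (fun b _ => by positivity) (by positivity)
  intro k
  set y := 2 ^ (k + 1) * Real.log P with hy
  have h2k : (1 : ℝ) ≤ 2 ^ (k + 1) := one_le_pow₀ (by norm_num)
  have hyL : Real.log P ≤ y := by rw [hy]; nlinarith
  have hyL2 : 2 * Real.log P ≤ y := by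
    rw [hy, pow_succ]
    have : (1 : ℝ) ≤ 2 ^ k := one_le_pow₀ (by norm_num)
    nlinarith
  have hy1 : 0 < y := by linarith
  have hkey : y ^ (D + 1) ≤ Real.exp (c / 4 * y) := by
    have := hy0 y (by linarith)
    rw [Real.norm_eq_abs, Real.norm_eq_abs, one_mul, abs_of_nonneg (by positivity),
      abs_of_nonneg (Real.exp_pos _).le] at this
    exact this
  have hPkpos : 0 < Pk P k := lt_of_lt_of_le (by omega) (Pk_ge (p0 := P) (by omega) k)
  have hPkR : (0 : ℝ) < (Pk P k : ℝ) := by exact_mod_cast hPkpos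
  have hterm : ∀ s ∈ M.filter (fun b => Pk P k < b ∧ b ≤ Pk P (k + 1)),
      (s : ℝ) ^ (-c) ≤ Real.exp (-(c * y / 2)) := by
    intro s hs
    obtain ⟨_, hs1, _⟩ := Finset.mem_filter.1 hs
    have h3 : (s : ℝ) ^ (-c) ≤ (Pk P k : ℝ) ^ (-c) :=
      Real.rpow_le_rpow_of_nonpos hPkR (by exact_mod_cast hs1.le) (by linarith)
    refine h3.trans (le_of_eq ?_)
    rw [Real.rpow_def_of_pos hPkR, log_Pk]
    congr 1
    rw [hy, pow_succ]; ring
  have hcard : ((M.filter (fun b => Pk P k < b ∧ b ≤ Pk P (k + 1))).card : ℝ) ≤ y ^ D := by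
    have h4 : ((M.filter (fun b => Pk P k < b ∧ b ≤ Pk P (k + 1))).card : ℝ) ≤
        ((M.filter (· ≤ Pk P (k + 1))).card : ℝ) := by
      have : (M.filter (fun b => Pk P k < b ∧ b ≤ Pk P (k + 1))) ⊆
          M.filter (· ≤ Pk P (k + 1)) := by
        intro b hb
        obtain ⟨h5, _, h6⟩ := Finset.mem_filter.1 hb
        exact Finset.mem_filter.2 ⟨h5, h6⟩
      exact_mod_cast Finset.card_le_card this
    refine h4.trans ((hM _ (hP.trans (Pk_ge (p0 := P) (by omega) _))).trans (le_of_eq ?_))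
    rw [log_Pk]
  have hsum : ∑ s ∈ M.filter (fun b => Pk P k < b ∧ b ≤ Pk P (k + 1)), (s : ℝ) ^ (-c) ≤
      y ^ D * Real.exp (-(c * y / 2)) := by
    refine (Finset.sum_le_card_nsmul _ _ _ hterm).trans ?_
    rw [nsmul_eq_mul]
    exact mul_le_mul_of_nonneg_right hcard (Real.exp_pos _).le
  refine hsum.trans ?_
  have hPc : (P : ℝ) ^ (-(c / 2)) = Real.exp (-(c / 2) * Real.log P) := by
    rw [Real.rpow_def_of_pos hP0]; congr 1; ring
  rw [hPc]
  have h2y : (2 : ℝ) ^ (k + 1) ≤ y := by rw [hy]; nlinarith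
  have hyD : y ^ D * 2 ^ (k + 1) ≤ Real.exp (c / 4 * y) := by
    calc y ^ D * 2 ^ (k + 1) ≤ y ^ D * y := mul_le_mul_of_nonneg_left h2y (by positivity)
      _ = y ^ (D + 1) := by rw [Real.rpow_add hy1, Real.rpow_one]
      _ ≤ _ := hkey
  have hhalf : (1 / 2 : ℝ) ^ (k + 1) = 1 / 2 ^ (k + 1) := by rw [one_div, inv_pow, one_div]
  rw [hhalf, mul_one_div, le_div_iff₀ (by positivity)]
  calc y ^ D * Real.exp (-(c * y / 2)) * 2 ^ (k + 1)
      = (y ^ D * 2 ^ (k + 1)) * Real.exp (-(c * y / 2)) := by ring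
    _ ≤ Real.exp (c / 4 * y) * Real.exp (-(c * y / 2)) :=
        mul_le_mul_of_nonneg_right hyD (Real.exp_pos _).le
    _ = Real.exp (-(c * y / 4)) := by rw [← Real.exp_add]; congr 1; ring
    _ ≤ Real.exp (-(c / 2) * Real.log P) := by
        apply Real.exp_le_exp.2
        nlinarith

/-- tail of a set with small logarithmic blocks -/
theorem tail_log (E a A : ℝ) (ha : 0 ≤ a) (hA : 0 ≤ A) (hE : A + a + 1 ≤ E) :
    ∃ p₁ : ℕ, ∀ p0 ≥ p₁, ∀ M : Finset ℕ,
    (∀ P : ℕ, p0 ≤ P → ∑ b ∈ M.filter (fun b => P < b ∧ b ≤ P ^ 2), (1 / (b : ℝ)) ≤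
      Real.log P ^ (-E)) →
    ∀ P : ℕ, p0 ≤ P → ∑ b ∈ M.filter (fun b => P < b), Real.log b ^ a / b ≤
      1 / 2 * Real.log P ^ (-A) := by
  set T := (2 : ℝ) ^ (a + 2) with hT
  have hT1 : 1 ≤ T := Real.one_le_rpow (by norm_num) (by linarith)
  refine ⟨⌈Real.exp T⌉₊ + 3, fun p0 hp0 M hM P hP => ?_⟩
  have hPT : Real.exp T ≤ P := by
    have h1 : Real.exp T ≤ ⌈Real.exp T⌉₊ := Nat.le_ceil _
    have h2 : ((⌈Real.exp T⌉₊ : ℕ) : ℝ) ≤ P := by
      have : ⌈Real.exp T⌉₊ ≤ P := by omega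
      exact_mod_cast this
    linarith
  have hP0 : (0 : ℝ) < P := lt_of_lt_of_le (Real.exp_pos _) hPT
  have hL : T ≤ Real.log P := (Real.le_log_iff_exp_le hP0).2 hPT
  have hL1 : 1 ≤ Real.log P := hT1.trans hL
  have hL0 : 0 < Real.log P := by linarith
  have h2P : 2 ≤ P := by omega
  apply sum_blk_le h2P M _ (fun b _ => by
    have := Real.log_natCast_nonneg b
    positivity) (by positivity)
  intro k
  set x := 2 ^ k * Real.log P with hx
  have h2k : (1 : ℝ) ≤ 2 ^ k := one_le_pow₀ (by norm_num)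
  have hxL : Real.log P ≤ x := by rw [hx]; nlinarith
  have hx1 : 1 ≤ x := by linarith
  have hx0 : 0 < x := by linarith
  have hPk2 : Pk P (k + 1) = (Pk P k) ^ 2 := Pk_succ P k
  have hblk := hM (Pk P k) (hP.trans (Pk_ge (p0 := P) (by omega) k))
  rw [← hPk2, log_Pk, ← hx] at hblk
  have hterm : ∀ b ∈ M.filter (fun b => Pk P k < b ∧ b ≤ Pk P (k + 1)),
      Real.log b ^ a / b ≤ (2 * x) ^ a * (1 / b) := by
    intro b hb
    obtain ⟨_, hb1, hb2⟩ := Finset.mem_filter.1 hb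
    have hb0 : 0 < b := by omega
    have hbR : (0 : ℝ) < b := by exact_mod_cast hb0
    have h3 : Real.log b ≤ 2 * x := by
      have h4 : Real.log b ≤ Real.log (Pk P (k + 1)) :=
        Real.log_le_log hbR (by exact_mod_cast hb2)
      rw [log_Pk, pow_succ] at h4
      rw [hx]; linarith
    have h5 : Real.log b ^ a ≤ (2 * x) ^ a :=
      Real.rpow_le_rpow (Real.log_natCast_nonneg b) h3 ha
    rw [div_eq_mul_one_div]
    exact mul_le_mul_of_nonneg_right h5 (by positivity)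
  refine (Finset.sum_le_sum hterm).trans ?_
  rw [← Finset.mul_sum]
  refine (mul_le_mul_of_nonneg_left hblk (by positivity)).trans ?_
  -- (2x)^a x^(-E) ≤ 2^a x^(-A-1)
  have h6 : (2 * x) ^ a * x ^ (-E) = 2 ^ a * x ^ (a - E) := by
    rw [Real.mul_rpow (by norm_num) hx0.le, mul_assoc, ← Real.rpow_add hx0]; congr 2
  rw [h6]
  have h7 : x ^ (a - E) ≤ x ^ (-A - 1) := Real.rpow_le_rpow_of_exponent_le hx1 (by linarith)
  have h8 : x ^ (-A - 1) ≤ Real.log P ^ (-A) * x⁻¹ := by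
    have : x ^ (-A - 1) = x ^ (-A) * x⁻¹ := by
      rw [sub_eq_add_neg, Real.rpow_add hx0, Real.rpow_neg_one]
    rw [this]
    exact mul_le_mul_of_nonneg_right
      (Real.rpow_le_rpow_of_nonpos hL0 hxL (by linarith)) (by positivity)
  have h9 : x⁻¹ = 2 * (1 / 2) ^ (k + 1) / Real.log P := by
    rw [hx, one_div, inv_pow, pow_succ]
    field_simp
  calc 2 ^ a * x ^ (a - E) ≤ 2 ^ a * (Real.log P ^ (-A) * x⁻¹) :=
        mul_le_mul_of_nonneg_left (h7.trans h8) (by positivity)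
    _ = (2 ^ a * 2 * Real.log P ^ (-A) * (1 / 2) ^ (k + 1)) / Real.log P := by rw [h9]; ring
    _ ≤ 1 / 2 * Real.log P ^ (-A) * (1 / 2) ^ (k + 1) := by
        rw [div_le_iff₀ hL0]
        have h10 : (2 : ℝ) ^ a * 4 ≤ Real.log P := by
          have : T = 2 ^ a * 4 := by
            rw [hT, Real.rpow_add (by norm_num)]; norm_num
          linarith
        have h11 : 0 ≤ Real.log P ^ (-A) * (1 / 2) ^ (k + 1) := by positivity
        nlinarith [mul_le_mul_of_nonneg_right h10 h11]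

/-- **pruning of a tree**, numeric form.  `Cs` = constant of the UP rule, `cL` = constant of the SEP
rule. -/
theorem prunePar (B C1 c2 Cs cL ε : ℝ) (hε : 0 < ε) (hC1 : 0 ≤ C1) (hc2 : 0 ≤ c2)
    (hCs : 0 ≤ Cs) (hcL : 0 < cL) (hB : C1 + c2 + 2 ≤ B) :
    ∃ p₁ : ℕ, ∀ p0 ≥ p₁, ∀ W : ℕ → ℝ, (∀ q, 0 ≤ W q) → ∀ (n : ℕ) (t : IT), t.Ok n →
      (∀ q p, (p ∈ t.mt q ∨ p ∈ t.sp q ∨ p ∈ t.uq q) → p.Prime ∧ p0 < p ∧ p < n) →
      (∀ k, t.Alive W (blk (Pk p0 k) (Pk p0 (k + 1))) (Real.log (Pk p0 (k + 1)) ^ (-C1))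
        (Real.log (Pk p0 (k + 1)) ^ c2) 1) →
      (∀ k, t.SepRule W (blk (Pk p0 k) (Pk p0 (k + 1))) (cL * Real.log (Pk p0 k) ^ B)) →
      t.UpRule W (fun b => Cs * (Real.log b ^ B / b)) →
      ∃ S' ⊆ t.items, (1 - ε) * Ws W t.items ≤ Ws W S' ∧
        ∀ q ∈ S', Pr t p0 (C1 + c2) B q := by
  classical
  set C := C1 + c2 with hC
  have hC0 : 0 ≤ C := by positivity
  have hB0 : 0 ≤ B := by linarith
  set T1 := 2 * (6 / ε) * 2 ^ (C + 1) with hT1
  set T2 := 2 * (3 * Cs / ε) * 2 ^ (B + 1) with hT2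
  set T3 := 60 * (1 + C) * 2 ^ B / (cL * ε) with hT3
  have hT1' : 0 ≤ T1 := by positivity
  have hT2' : 0 ≤ T2 := by positivity
  have hT3' : 0 ≤ T3 := by positivity
  set T := 24 + T1 + T2 + T3 with hT
  refine ⟨⌈Real.exp T⌉₊ + 3, fun p0 hp0 W hW n t hok hgt0 hal hsepr hupr => ?_⟩
  have hp2 : 2 ≤ p0 := by omega
  have hpT : Real.exp T ≤ p0 := by
    have h1 : Real.exp T ≤ ⌈Real.exp T⌉₊ := Nat.le_ceil _
    have h2 : ((⌈Real.exp T⌉₊ : ℕ) : ℝ) ≤ p0 := by
      have : ⌈Real.exp T⌉₊ ≤ p0 := by omega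
      exact_mod_cast this
    linarith
  have hp0R : (0 : ℝ) < p0 := lt_of_lt_of_le (Real.exp_pos _) hpT
  have hl : T ≤ Real.log p0 := (Real.le_log_iff_exp_le hp0R).2 hpT
  have hl24 : 24 ≤ Real.log p0 := by linarith
  have hl0 : 0 < Real.log p0 := by linarith
  -- scales
  have hXk : ∀ k, 24 ≤ Real.log (Pk p0 k) := by
    intro k
    rw [log_Pk]
    have : (1 : ℝ) ≤ 2 ^ k := one_le_pow₀ (by norm_num)
    nlinarith
  have hXs : ∀ k, Real.log (Pk p0 (k + 1)) = 2 * Real.log (Pk p0 k) := by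
    intro k; rw [log_Pk, log_Pk, pow_succ]; ring
  have hX2 : ∀ k, (2 : ℝ) ^ (k + 1) = Real.log (Pk p0 (k + 1)) / Real.log p0 := by
    intro k; rw [log_Pk]; field_simp
  have hPk2 : ∀ k, 2 ≤ Pk p0 k := fun k => hp2.trans (Pk_ge (by omega) k)
  obtain ⟨S', hsub, hmass, hbd⟩ := prune W hW t n hok n (Pk p0)
    (fun k => Real.log (Pk p0 (k + 1)) ^ (-C1)) (fun k => Real.log (Pk p0 (k + 1)) ^ c2)
    (fun k => cL * Real.log (Pk p0 k) ^ B)
    (fun k _ => by
      have := hXk (k + 1)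
      exact Real.rpow_pos_of_pos (by linarith) _)
    (fun k _ => by
      have := hXk (k + 1)
      exact Real.rpow_le_rpow_of_exponent_le (by linarith) (by linarith))
    (fun k _ => by
      have := hXk k
      exact mul_pos hcL (Real.rpow_pos_of_pos (by linarith) _))
    (fun k _ => hal k)
    (fun k _ => hsepr k)
    (fun b => Real.log b ^ (-B)) (fun b => Cs * (Real.log b ^ B / b))
    (fun b => Real.rpow_nonneg (Real.log_natCast_nonneg b) _)
    (fun b => mul_nonneg hCs (div_nonneg (Real.rpow_nonneg (Real.log_natCast_nonneg b) _)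
      (Nat.cast_nonneg b)))
    hupr hε
  refine ⟨S', hsub, hmass, fun q hq => ?_⟩
  have hgt' : ∀ p, (p ∈ t.mt q ∨ p ∈ t.sp q ∨ p ∈ t.uq q) → p.Prime ∧ p0 < p ∧ p < n := hgt0 q
  -- empty blocks
  have hempty : ∀ k, n ≤ k → ∀ p, (p ∈ t.mt q ∨ p ∈ t.sp q ∨ p ∈ t.uq q) →
      p ∉ blk (Pk p0 k) (Pk p0 (k + 1)) := by
    intro k hk p hp hpb
    have h1 := (hgt' p hp).2.2
    have h2 := (Finset.mem_Ioc.1 (Finset.mem_filter.1 hpb).1).1
    have h3 := lt_Pk hp2 k
    omega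
  -- (1)
  have hmt : ∀ k, (((t.mt q).filter (· ∈ blk (Pk p0 k) (Pk p0 (k + 1)))).card : ℝ) ≤
      6 / ε * 2 ^ (k + 1) * Real.log (Pk p0 (k + 1)) ^ C := by
    intro k
    have hXp : 0 < Real.log (Pk p0 (k + 1)) := by have := hXk (k + 1); linarith
    by_cases hk : k < n
    · refine (hbd q hq k hk).1.trans ?_
      have h1 := KA_le (blk_sum_le hl24 hp2 k) (X := Real.log (Pk p0 (k + 1)))
        (by have := hXk (k + 1); linarith) hC1 hc2
      have h2 : (0 : ℝ) ≤ 3 * 2 ^ (k + 1) := by positivity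
      calc 3 * 2 ^ (k + 1) * KA (blk (Pk p0 k) (Pk p0 (k + 1)))
            (Real.log (Pk p0 (k + 1)) ^ (-C1)) (Real.log (Pk p0 (k + 1)) ^ c2) / ε
          ≤ 3 * 2 ^ (k + 1) * (2 * Real.log (Pk p0 (k + 1)) ^ (C1 + c2)) / ε :=
            div_le_div_of_nonneg_right (mul_le_mul_of_nonneg_left h1 h2) hε.le
        _ = 6 / ε * 2 ^ (k + 1) * Real.log (Pk p0 (k + 1)) ^ C := by rw [hC]; ring
    · have : (t.mt q).filter (· ∈ blk (Pk p0 k) (Pk p0 (k + 1))) = ∅ := by
        apply Finset.filter_eq_empty_iff.2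
        intro p hp
        exact hempty k (not_lt.1 hk) p (Or.inl hp)
      rw [this, Finset.card_empty, Nat.cast_zero]
      positivity
  -- (3)
  have huq : ∀ k, (((t.uq q).filter (· ∈ blk (Pk p0 k) (Pk p0 (k + 1)))).card : ℝ) ≤
      3 * Cs / ε * 2 ^ (k + 1) * Real.log (Pk p0 (k + 1)) ^ B := by
    intro k
    have hXp : 0 < Real.log (Pk p0 (k + 1)) := by have := hXk (k + 1); linarith
    by_cases hk : k < n
    · have h1 := (hbd q hq k hk).2.2
      have h2 : ∑ b ∈ blk (Pk p0 k) (Pk p0 (k + 1)),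
          Real.log b ^ (-B) * (Cs * (Real.log b ^ B / b)) ≤ Cs := by
        refine le_trans (le_of_eq ?_) ((mul_le_mul_of_nonneg_left (blk_sum_le hl24 hp2 k)
          hCs).trans (mul_one Cs).le)
        rw [Finset.mul_sum]
        refine Finset.sum_congr rfl fun b hb => ?_
        have hb1 := (Finset.mem_Ioc.1 (Finset.mem_filter.1 hb).1).1
        have hb2 : (0 : ℝ) < Real.log b := by
          have : Real.log (Pk p0 k) ≤ Real.log b := by
            apply Real.log_le_log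
            · have : 0 < Pk p0 k := by have := hPk2 k; omega
              exact_mod_cast this
            · exact_mod_cast hb1.le
          have := hXk k
          linarith
        have hb3 : Real.log b ^ B ≠ 0 := (Real.rpow_pos_of_pos hb2 B).ne'
        rw [Real.rpow_neg hb2.le]
        field_simp
      have h3 : ∑ b ∈ (t.uq q).filter (· ∈ blk (Pk p0 k) (Pk p0 (k + 1))),
          Real.log b ^ (-B) ≤ 3 * 2 ^ (k + 1) * Cs / ε := by
        refine h1.trans ?_
        apply div_le_div_of_nonneg_right _ hε.le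
        have h4 : (0 : ℝ) ≤ 3 * 2 ^ (k + 1) := by positivity
        exact mul_le_mul_of_nonneg_left h2 h4
      have h5 : (((t.uq q).filter (· ∈ blk (Pk p0 k) (Pk p0 (k + 1)))).card : ℝ) *
          Real.log (Pk p0 (k + 1)) ^ (-B) ≤
          ∑ b ∈ (t.uq q).filter (· ∈ blk (Pk p0 k) (Pk p0 (k + 1))), Real.log b ^ (-B) := by
        rw [← nsmul_eq_mul]
        apply Finset.card_nsmul_le_sum
        intro b hb
        have hbb := (Finset.mem_filter.1 hb).2
        have hb1 := (Finset.mem_Ioc.1 (Finset.mem_filter.1 hbb).1)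
        have hb2 : (0 : ℝ) < Real.log b := by
          have : Real.log (Pk p0 k) ≤ Real.log b := by
            apply Real.log_le_log
            · have : 0 < Pk p0 k := by have := hPk2 k; omega
              exact_mod_cast this
            · exact_mod_cast hb1.1.le
          have := hXk k
          linarith
        apply Real.rpow_le_rpow_of_nonpos hb2 _ (by linarith)
        apply Real.log_le_log
        · have : 0 < b := by omega
          exact_mod_cast this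
        · exact_mod_cast hb1.2
      have h6 := h5.trans h3
      rw [Real.rpow_neg hXp.le, ← div_eq_mul_inv, div_le_iff₀ (by positivity)] at h6
      refine h6.trans (le_of_eq ?_)
      ring
    · have : (t.uq q).filter (· ∈ blk (Pk p0 k) (Pk p0 (k + 1))) = ∅ := by
        apply Finset.filter_eq_empty_iff.2
        intro p hp
        exact hempty k (not_lt.1 hk) p (Or.inr (Or.inr hp))
      rw [this, Finset.card_empty, Nat.cast_zero]
      positivity
  -- (2)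
  have hsp : ∀ k, ∑ b ∈ (t.sp q).filter (· ∈ blk (Pk p0 k) (Pk p0 (k + 1))), (1 / (b : ℝ)) ≤
      1 / 2 * Real.log (Pk p0 (k + 1)) ^ (-(B - C - 2)) := by
    intro k
    set X := Real.log (Pk p0 (k + 1)) with hX
    have hXp : 0 < X := by have := hXk (k + 1); linarith
    by_cases hk : k < n
    · refine (hbd q hq k hk).2.1.trans ?_
      have h1 := KE_le (blk_sum_le hl24 hp2 k) (X := X)
        (by have := hXk (k + 1); linarith) hC1 hc2
      have h3 : Real.log (Pk p0 k) = X / 2 := by rw [hX, hXs]; ring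
      have h2 : (0 : ℝ) ≤ 3 * 2 ^ (k + 1) := by positivity
      have hLk : (0 : ℝ) < Real.log (Pk p0 k) ^ B := by
        have := hXk k
        exact Real.rpow_pos_of_pos (by linarith) _
      calc 3 * 2 ^ (k + 1) * (KE (blk (Pk p0 k) (Pk p0 (k + 1))) (X ^ (-C1)) (X ^ c2) /
            (cL * Real.log (Pk p0 k) ^ B)) / ε
          ≤ 3 * 2 ^ (k + 1) * (10 * (1 + (C1 + c2)) * X ^ (C1 + c2 + 1) /
            (cL * Real.log (Pk p0 k) ^ B)) / ε := by
            apply div_le_div_of_nonneg_right _ hε.le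
            apply mul_le_mul_of_nonneg_left _ h2
            exact div_le_div_of_nonneg_right h1 (mul_pos hcL hLk).le
        _ = (30 * (1 + C) * 2 ^ B / (cL * ε)) * (X ^ (C + 1) * X * X ^ (-B)) / Real.log p0 := by
            rw [h3, Real.div_rpow hXp.le (by norm_num), hX2 k, ← hX, Real.rpow_neg hXp.le, ← hC]
            have : (0 : ℝ) < 2 ^ B := by positivity
            have : (0 : ℝ) < X ^ B := by positivity
            field_simp
            ring
        _ = (T3 / 2) * X ^ (-(B - C - 2)) / Real.log p0 := by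
            have h4 : X ^ (C + 1) * X * X ^ (-B) = X ^ (-(B - C - 2)) := by
              have h5 : X ^ (C + 1) * X = X ^ (C + 1 + 1) := by
                rw [Real.rpow_add hXp (C + 1) 1, Real.rpow_one]
              rw [h5, ← Real.rpow_add hXp]
              congr 1; ring
            rw [h4, hT3]; ring
        _ ≤ (Real.log p0 / 2) * X ^ (-(B - C - 2)) / Real.log p0 := by
            apply div_le_div_of_nonneg_right _ hl0.le
            apply mul_le_mul_of_nonneg_right _ (by positivity)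
            linarith
        _ = 1 / 2 * X ^ (-(B - C - 2)) := by field_simp
    · have : (t.sp q).filter (· ∈ blk (Pk p0 k) (Pk p0 (k + 1))) = ∅ := by
        apply Finset.filter_eq_empty_iff.2
        intro p hp
        exact hempty k (not_lt.1 hk) p (Or.inr (Or.inl hp))
      rw [this, Finset.sum_empty]
      positivity
  refine ⟨?_, ?_, ?_⟩
  · intro P hP
    exact cnt_of_blk hp2 hC0 (by positivity) (by linarith) (by linarith) (t.mt q)
      (fun p hp => ⟨(hgt' p (Or.inl hp)).1, (hgt' p (Or.inl hp)).2.1⟩) hmt P hP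
  · intro P hP
    exact cnt_of_blk hp2 hB0 (by positivity) (by linarith) (by linarith) (t.uq q)
      (fun p hp => ⟨(hgt' p (Or.inr (Or.inr hp))).1, (hgt' p (Or.inr (Or.inr hp))).2.1⟩) huq P hP
  · intro P hP
    obtain ⟨j, hj, hj'⟩ := exists_blk' hp2 hP
    have hPpos : 0 < P := by omega
    have hPR : (0 : ℝ) < P := by exact_mod_cast hPpos
    have hLP : Real.log p0 ≤ Real.log P := Real.log_le_log hp0R (by exact_mod_cast hP)
    have hLP0 : 0 < Real.log P := by linarith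
    have hsub2 : (t.sp q).filter (fun b => P < b ∧ b ≤ P ^ 2) ⊆
        (t.sp q).filter (· ∈ blk (Pk p0 j) (Pk p0 (j + 1))) ∪
        (t.sp q).filter (· ∈ blk (Pk p0 (j + 1)) (Pk p0 (j + 1 + 1))) := by
      intro b hb
      obtain ⟨hbs, hb1, hb2⟩ := Finset.mem_filter.1 hb
      have hbp := (hgt' b (Or.inr (Or.inl hbs))).1
      have hle : P ^ 2 ≤ Pk p0 (j + 1 + 1) := by
        rw [Pk_succ p0 (j + 1)]
        exact Nat.pow_le_pow_left hj'.le 2
      by_cases hc : b ≤ Pk p0 (j + 1)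
      · apply Finset.mem_union_left
        exact Finset.mem_filter.2 ⟨hbs, Finset.mem_filter.2
          ⟨Finset.mem_Ioc.2 ⟨by omega, hc⟩, hbp⟩⟩
      · apply Finset.mem_union_right
        exact Finset.mem_filter.2 ⟨hbs, Finset.mem_filter.2
          ⟨Finset.mem_Ioc.2 ⟨by omega, by omega⟩, hbp⟩⟩
    have hXj : ∀ i, j + 1 ≤ i → Real.log (Pk p0 i) ^ (-(B - C - 2)) ≤
        Real.log P ^ (-(B - C - 2)) := by
      intro i hi
      apply Real.rpow_le_rpow_of_nonpos hLP0 _ (by linarith)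
      apply Real.log_le_log hPR
      have := Pk_mono (p0 := p0) (by omega) hi
      exact_mod_cast (hj'.le.trans this)
    calc ∑ b ∈ (t.sp q).filter (fun b => P < b ∧ b ≤ P ^ 2), (1 / (b : ℝ))
        ≤ ∑ b ∈ (t.sp q).filter (· ∈ blk (Pk p0 j) (Pk p0 (j + 1))) ∪
          (t.sp q).filter (· ∈ blk (Pk p0 (j + 1)) (Pk p0 (j + 1 + 1))), (1 / (b : ℝ)) :=
          Finset.sum_le_sum_of_subset_of_nonneg hsub2 fun b _ _ => by positivity
      _ ≤ ∑ b ∈ (t.sp q).filter (· ∈ blk (Pk p0 j) (Pk p0 (j + 1))), (1 / (b : ℝ)) +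
          ∑ b ∈ (t.sp q).filter (· ∈ blk (Pk p0 (j + 1)) (Pk p0 (j + 1 + 1))), (1 / (b : ℝ)) := by
          have h5 := Finset.sum_union_inter
            (s₁ := (t.sp q).filter (· ∈ blk (Pk p0 j) (Pk p0 (j + 1))))
            (s₂ := (t.sp q).filter (· ∈ blk (Pk p0 (j + 1)) (Pk p0 (j + 1 + 1))))
            (f := fun b : ℕ => (1 / (b : ℝ)))
          have h6 : 0 ≤ ∑ b ∈ (t.sp q).filter (· ∈ blk (Pk p0 j) (Pk p0 (j + 1))) ∩
            (t.sp q).filter (· ∈ blk (Pk p0 (j + 1)) (Pk p0 (j + 1 + 1))), (1 / (b : ℝ)) :=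
            Finset.sum_nonneg fun b _ => by positivity
          linarith
      _ ≤ 1 / 2 * Real.log P ^ (-(B - C - 2)) + 1 / 2 * Real.log P ^ (-(B - C - 2)) := by
          have h7 := hsp j
          have h8 := hsp (j + 1)
          have h9 := hXj (j + 1) le_rfl
          have h10 := hXj (j + 1 + 1) (by omega)
          linarith
      _ = Real.log P ^ (-(B - C - 2)) := by ring

/-- **tails of the pruned items** -/
theorem Pr_tails (B C a A c : ℝ) (hc : 0 < c) (ha : 0 ≤ a) (hA : 0 ≤ A)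
    (hB : A + a + C + 3 ≤ B) : ∃ p₁ : ℕ, ∀ p0 ≥ p₁, ∀ (t : IT) (q : ℕ), Pr t p0 C B q →
      ∀ P : ℕ, p0 ≤ P →
        ∑ s ∈ (t.mt q).filter (fun b => P < b), (s : ℝ) ^ (-c) ≤ (P : ℝ) ^ (-(c / 2)) ∧
        ∑ s ∈ (t.uq q).filter (fun b => P < b), (s : ℝ) ^ (-c) ≤ (P : ℝ) ^ (-(c / 2)) ∧
        ∑ b ∈ (t.sp q ∪ t.uq q).filter (fun b => P < b), Real.log b ^ a / b ≤
          Real.log P ^ (-A) := by
  classical
  obtain ⟨p1, h1⟩ := tail_pow (C + 1) c hc
  obtain ⟨p2, h2⟩ := tail_pow (B + 1) c hc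
  obtain ⟨p3, h3⟩ := tail_pow (B + 1) (1 / 2) (by norm_num)
  obtain ⟨p4, h4⟩ := tail_log (B - C - 2) a A ha hA (by linarith)
  have hlit1 := (isLittleO_log_rpow_rpow_atTop a (show (0 : ℝ) < 1 / 2 by norm_num)).bound
    (show (0 : ℝ) < 1 by norm_num)
  have hlit2 := (isLittleO_log_rpow_rpow_atTop A (show (0 : ℝ) < 1 / 4 by norm_num)).bound
    (show (0 : ℝ) < 1 / 2 by norm_num)
  obtain ⟨x1, hx1⟩ := Filter.eventually_atTop.1 hlit1
  obtain ⟨x2, hx2⟩ := Filter.eventually_atTop.1 hlit2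
  refine ⟨p1 + p2 + p3 + p4 + ⌈|x1|⌉₊ + ⌈|x2|⌉₊ + 3, fun p0 hp0 t q hq P hP => ?_⟩
  have hmt := h1 p0 (by omega) (t.mt q) hq.mt P hP
  have huq := h2 p0 (by omega) (t.uq q) hq.uq P hP
  have huq2 := h3 p0 (by omega) (t.uq q) hq.uq P hP
  have hsp := h4 p0 (by omega) (t.sp q) hq.sp P hP
  refine ⟨hmt, huq, ?_⟩
  have hP3 : 3 ≤ P := by omega
  have hPR : (0 : ℝ) < P := by
    have : 0 < P := by omega
    exact_mod_cast this
  have hL : 0 < Real.log P := by have := one_le_log_nat hP3; linarith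
  have hPx1 : x1 ≤ P := by
    have h5 : |x1| ≤ ⌈|x1|⌉₊ := Nat.le_ceil _
    have h6 : ((⌈|x1|⌉₊ : ℕ) : ℝ) ≤ P := by
      have : ⌈|x1|⌉₊ ≤ P := by omega
      exact_mod_cast this
    linarith [le_abs_self x1]
  have hPx2 : x2 ≤ P := by
    have h5 : |x2| ≤ ⌈|x2|⌉₊ := Nat.le_ceil _
    have h6 : ((⌈|x2|⌉₊ : ℕ) : ℝ) ≤ P := by
      have : ⌈|x2|⌉₊ ≤ P := by omega
      exact_mod_cast this
    linarith [le_abs_self x2]
  have hu : ∑ b ∈ (t.uq q).filter (fun b => P < b), Real.log b ^ a / b ≤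
      1 / 2 * Real.log P ^ (-A) := by
    have h7 : ∑ b ∈ (t.uq q).filter (fun b => P < b), Real.log b ^ a / b ≤
        ∑ b ∈ (t.uq q).filter (fun b => P < b), (b : ℝ) ^ (-(1 / 2 : ℝ)) := by
      refine Finset.sum_le_sum fun b hb => ?_
      have hPb := (Finset.mem_filter.1 hb).2
      have hbR : (0 : ℝ) < b := lt_trans hPR (by exact_mod_cast hPb)
      have hbP : (P : ℝ) ≤ b := by exact_mod_cast hPb.le
      have h8 := hx1 b (by linarith)
      have hlb := Real.log_natCast_nonneg b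
      rw [Real.norm_eq_abs, Real.norm_eq_abs, one_mul, abs_of_nonneg (by positivity),
        abs_of_nonneg (by positivity)] at h8
      rw [div_le_iff₀ hbR]
      calc Real.log b ^ a ≤ (b : ℝ) ^ (1 / 2 : ℝ) := h8
        _ = (b : ℝ) ^ (-(1 / 2 : ℝ)) * b := by
          nth_rewrite 3 [← Real.rpow_one (b : ℝ)]
          rw [← Real.rpow_add hbR]; norm_num
    refine h7.trans (huq2.trans ?_)
    have h9 := hx2 P hPx2
    rw [Real.norm_eq_abs, Real.norm_eq_abs, abs_of_nonneg (by positivity),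
      abs_of_nonneg (by positivity)] at h9
    have h10 : (P : ℝ) ^ (-(1 / 2 / 2 : ℝ)) = ((P : ℝ) ^ (1 / 4 : ℝ))⁻¹ := by
      rw [← Real.rpow_neg hPR.le]; norm_num
    rw [h10, Real.rpow_neg hL.le, inv_eq_one_div, div_le_iff₀ (by positivity)]
    have h11 : 0 < Real.log P ^ A := Real.rpow_pos_of_pos hL _
    have h12 : 1 / 2 * (Real.log P ^ A)⁻¹ * (P : ℝ) ^ (1 / 4 : ℝ) =
        (1 / 2 * (P : ℝ) ^ (1 / 4 : ℝ)) / Real.log P ^ A := by ring
    rw [h12, le_div_iff₀ h11]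
    linarith
  calc ∑ b ∈ (t.sp q ∪ t.uq q).filter (fun b => P < b), Real.log b ^ a / b
      ≤ ∑ b ∈ (t.sp q).filter (fun b => P < b), Real.log b ^ a / b +
        ∑ b ∈ (t.uq q).filter (fun b => P < b), Real.log b ^ a / b := by
        rw [Finset.filter_union]
        have h5 := Finset.sum_union_inter (s₁ := (t.sp q).filter (fun b => P < b))
          (s₂ := (t.uq q).filter (fun b => P < b)) (f := fun b : ℕ => Real.log b ^ a / (b : ℝ))
        have h6 : 0 ≤ ∑ b ∈ (t.sp q).filter (fun b => P < b) ∩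
            (t.uq q).filter (fun b => P < b), Real.log b ^ a / (b : ℝ) :=
          Finset.sum_nonneg fun b _ => by
            have := Real.log_natCast_nonneg b
            positivity
        linarith
    _ ≤ 1 / 2 * Real.log P ^ (-A) + 1 / 2 * Real.log P ^ (-A) := add_le_add hsp hu
    _ = Real.log P ^ (-A) := by ring

/-- **pruning, final form**: one set `S'` (independent of `a, A, c`), all tails. -/
theorem prune_all (B C1 c2 Cs cL a A c ε : ℝ) (hε : 0 < ε) (hc : 0 < c) (ha : 0 ≤ a) (hA : 0 ≤ A)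
    (hC1 : 0 ≤ C1) (hc2 : 0 ≤ c2) (hCs : 0 ≤ Cs) (hcL : 0 < cL)
    (hB : A + a + (C1 + c2) + 3 ≤ B) :
    ∃ p₁ : ℕ, ∀ p0 ≥ p₁, ∀ W : ℕ → ℝ, (∀ q, 0 ≤ W q) → ∀ (n : ℕ) (t : IT), t.Ok n →
      (∀ q p, (p ∈ t.mt q ∨ p ∈ t.sp q ∨ p ∈ t.uq q) → p.Prime ∧ p0 < p ∧ p < n) →
      (∀ k, t.Alive W (blk (Pk p0 k) (Pk p0 (k + 1))) (Real.log (Pk p0 (k + 1)) ^ (-C1))
        (Real.log (Pk p0 (k + 1)) ^ c2) 1) →
      (∀ k, t.SepRule W (blk (Pk p0 k) (Pk p0 (k + 1))) (cL * Real.log (Pk p0 k) ^ B)) →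
      t.UpRule W (fun b => Cs * (Real.log b ^ B / b)) →
      ∃ S' ⊆ t.items, (1 - ε) * Ws W t.items ≤ Ws W S' ∧ ∀ q ∈ S',
        Pr t p0 (C1 + c2) B q ∧ ∀ P : ℕ, p0 ≤ P →
        ∑ s ∈ (t.mt q).filter (fun b => P < b), (s : ℝ) ^ (-c) ≤ (P : ℝ) ^ (-(c / 2)) ∧
        ∑ s ∈ (t.uq q).filter (fun b => P < b), (s : ℝ) ^ (-c) ≤ (P : ℝ) ^ (-(c / 2)) ∧
        ∑ b ∈ (t.sp q ∪ t.uq q).filter (fun b => P < b), Real.log b ^ a / b ≤
          Real.log P ^ (-A) := by
  obtain ⟨p1, h1⟩ := prunePar B C1 c2 Cs cL ε hε hC1 hc2 hCs hcL (by linarith)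
  obtain ⟨p2, h2⟩ := Pr_tails B (C1 + c2) a A c hc ha hA hB
  refine ⟨p1 + p2, fun p0 hp0 W hW n t hok hgt hal hs hu => ?_⟩
  obtain ⟨S', hs, hm, hq⟩ := h1 p0 (by omega) W hW n t hok hgt hal hs hu
  exact ⟨S', hs, hm, fun q hqS => ⟨hq q hqS, h2 p0 (by omega) _ q (hq q hqS)⟩⟩

end Crest.Agent.R4P.PrunePar33
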