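import Crest.Agent.R4P.Bld532
import Crest.Agent.R4P.PrunePar33
import Crest.Agent.R4P.Item758b

/-!
R4 (S0004), powers pass: pruning of the built tree, `FitN` from `NodeOk`.
-/

set_option autoImplicit false

namespace Crest.Agent.R4P.Bld532

open Crest.Agent.R4P.Cnt588 Crest.Agent.R4P.PrunePar33

/-- **pruning of the built tree** -/
theorem prune_bld (B C1 c2 a A c ε : ℝ) (hε : 0 < ε) (hc : 0 < c) (ha : 0 ≤ a) (hA : 0 ≤ A)
    (hC1 : 0 ≤ C1) (hc2 : 0 ≤ c2) (hB : A + a + (C1 + c2) + 3 ≤ B) :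
    ∃ p₁ : ℕ, ∀ p0 ≥ p₁, (par B C1 c2 p0).Good ∧ ∀ W : ℕ → ℝ, (∀ q, 0 ≤ W q) →
      ∀ (n : ℕ) (S : Finset ℕ), (∀ q ∈ S, 0 < q) →
      ∃ S' ⊆ S, (1 - ε) * Ws W S ≤ Ws W S' ∧ ∀ q ∈ S',
        Pr (bld (par B C1 c2 p0) W n 1 1 S) p0 (C1 + c2) B q ∧ ∀ P : ℕ, p0 ≤ P →
        ∑ s ∈ ((bld (par B C1 c2 p0) W n 1 1 S).mt q).filter (fun b => P < b), (s : ℝ) ^ (-c) ≤
          (P : ℝ) ^ (-(c / 2)) ∧
        ∑ s ∈ ((bld (par B C1 c2 p0) W n 1 1 S).uq q).filter (fun b => P < b), (s : ℝ) ^ (-c) ≤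
          (P : ℝ) ^ (-(c / 2)) ∧
        ∑ b ∈ ((bld (par B C1 c2 p0) W n 1 1 S).sp q ∪
          (bld (par B C1 c2 p0) W n 1 1 S).uq q).filter (fun b => P < b), Real.log b ^ a / b ≤
          Real.log P ^ (-A) := by
  have hB0 : 0 ≤ B := by linarith
  obtain ⟨p1, h1⟩ := prune_all B C1 c2 2 1 a A c ε hε hc ha hA hC1 hc2 (by norm_num) (by norm_num) hB
  obtain ⟨p2, h2⟩ := par_Good B C1 c2 hB0 hC1 hc2
  refine ⟨p1 + p2 + 2, fun p0 hp0 => ⟨h2 p0 (by omega), fun W hW n S hS => ?_⟩⟩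
  have hG := h2 p0 (by omega)
  have hAll := bld_All_root (par B C1 c2 p0) W hW hG n S hS
  have hit : (bld (par B C1 c2 p0) W n 1 1 S).items = S :=
    bld_items _ W hW hG n 1 1 1 S (Bk.root S hS n)
  have hP : ∀ k, 1 ≤ Pk p0 k := fun k => le_trans (by omega) (Pk_ge (by omega : 1 ≤ p0) k)
  have h3 := h1 p0 (by omega) W hW n (bld (par B C1 c2 p0) W n 1 1 S) (Ok_of_All _ W _ _ hAll)
    (fun q p h => cols_of_All _ W _ _ hAll q p h)
    (fun k => par_Alive B C1 c2 p0 hC1 hc2 (by omega) W _ _ _ _ hAll)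
    (fun k => by
      have := par_SepRule B C1 c2 p0 hB0 W hW (Pk p0 k) (Pk p0 (k + 1)) (hP k) _ _ hAll
      simpa using this)
    (UpRule_of_All _ W _ _ hAll)
  rw [hit] at h3
  exact h3

/-- the node condition for `Fit` -/
theorem FitN_of_NodeOk {P : Par} {W : ℕ → ℝ} {s : NS} {t : IT} (h : NodeOk P W s t) :
    Item758.FitN s t := by
  cases t with
  | leaf S => exact fun q hq => ⟨h.1.pos q hq, h.1.dvd q hq, h.1.cop q hq⟩
  | br p Sp t₁ t₀ =>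
    obtain ⟨h1, h2, _, _, h5, h3, h4, _⟩ := h
    refine ⟨h1, h5.copB h1 h2, ?_⟩
    have := disj_dv_nd s.A p (t₁.items ∪ t₀.items)
    rw [← h3, ← h4] at this; exact this
  | add b t₁ t₀ =>
    obtain ⟨h1, h2, _, _, _, ⟨j, t', _, _, h3, h4, _⟩, _⟩ := h
    show Disjoint t₁.items t₀.items
    have := disj_dv_nd s.A (b ^ j) (t₁.items ∪ t₀.items)
    rw [← h3, ← h4] at this; exact this
  | up b Sp t => trivial
  | pl b t =>
    obtain ⟨h1, h2, _, _, h5, _⟩ := h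
    exact ⟨h1, h5.copB h1 h2⟩
  | far b t₁ t₀ =>
    obtain ⟨h1, h2, _, _, _, ⟨K, h3, h4, _⟩, _⟩ := h
    show Disjoint t₁.items t₀.items
    have h5 : t₁.items = farS b s.A K (t₁.items ∪ t₀.items) := by
      conv_lhs => rw [h3]
      rfl
    have := disj_far_near b s.A K (t₁.items ∪ t₀.items)
    rw [← h5, ← h4] at this; exact this

/-- `Fit` of the built tree -/
theorem Fit_of_NodeOk {P : Par} {W : ℕ → ℝ} {s : NS} {t : IT} (h : All (NodeOk P W) s t) :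
    Item758.Fit s.B s.A t :=
  Item758.Fit_of_All t s (h.mono fun _ _ => FitN_of_NodeOk)

end Crest.Agent.R4P.Bld532
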