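import Crest.Agent.R4.LeafA734
import Crest.Agent.R4P.LeafN734
import Crest.Agent.R4P.PruneB153
import Crest.Agent.R4P.PlOk820

/-!
R4 (S0004), POWERS (port of `R4/LeafA734` of helper734 by helper438): **total energy of the leaves**,
final assembly (module J1).

Facts about the leaves of the tree with the parameters `par B C1 c2 p0`, and the three cases
light / heavy / bottom.
-/

set_option autoImplicit false
set_option linter.unusedSectionVars false
open Finset MeasureTheory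

namespace Crest.Agent.R4P.LeafA734

open Crest.Agent.R4P
open Crest.Agent.R4P.Cnt588 Crest.Agent.R4P.PrunePar33
open Crest.Agent.R4.ClsB (Tame)
open Crest.Agent.R4P.Bld532 (NS NodeOk Bk bld par)
open Crest.Agent.R4P.Data758 Crest.Agent.R4P.LfDat734 Crest.Agent.R4P.LeafS734
open Crest.Agent.R4P.LeafN734
open Crest.Agent.R4P.Frame758 (lf LeafE LeafAll)
open Crest.Agent.R4P.Item758 (pp mp)
open Crest.Agent.R4.Item758 (IL)
open Crest.Agent.R4.Soft104 (w)
open Crest.Agent.R4.Om532 (phi_prod)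
open Crest.Agent.R4.LeafA734 (level_le log_add_le rpow_neg_log_ge)

/-! ### pruned items -/

/-- the retained primes of a pruned item have small reciprocal sum, and so have the missing ties and
the SEP primes -/
theorem rt_half (B C : ℝ) (hB : C + 4 ≤ B) : ∃ p₁ : ℕ, ∀ p0 ≥ p₁,
    ∀ (t : IT) (q : ℕ), Pr t p0 C B q →
      (∀ b, (b ∈ t.mt q ∨ b ∈ t.sp q ∨ b ∈ t.uq q) → p0 < b) →
      ∑ b ∈ rt t q, (1 : ℝ) / b ≤ 1 / 2 ∧ ∑ b ∈ t.mt q ∪ t.sp q, (1 : ℝ) / b ≤ 1 / 2 := by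
  classical
  obtain ⟨p2, h2⟩ := Pr_tails B C 0 1 1 (by norm_num) le_rfl (by norm_num) (by linarith)
  refine ⟨p2 + ⌈Real.exp 4⌉₊, fun p0 hp0 t q hq hgt => ?_⟩
  obtain ⟨h0, -, h1⟩ := h2 p0 (by omega) t q hq p0 le_rfl
  have hlog : 4 ≤ Real.log p0 := by
    have h4 : Real.exp 4 ≤ p0 := by
      have h5 : Real.exp 4 ≤ ⌈Real.exp 4⌉₊ := Nat.le_ceil _
      have h6 : ((⌈Real.exp 4⌉₊ : ℕ) : ℝ) ≤ p0 := by
        have : ⌈Real.exp 4⌉₊ ≤ p0 := by omega
        exact_mod_cast this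
      linarith
    have hp : (0 : ℝ) < p0 := lt_of_lt_of_le (Real.exp_pos 4) h4
    rwa [Real.le_log_iff_exp_le hp]
  have hp16 : (16 : ℝ) ≤ p0 := by
    have h3 : Real.exp 4 ≤ p0 := by
      have hp : (0 : ℝ) < p0 := by
        by_contra hc
        have h5 : (p0 : ℝ) = 0 := le_antisymm (not_lt.1 hc) (Nat.cast_nonneg _)
        rw [h5, Real.log_zero] at hlog
        linarith
      rwa [Real.le_log_iff_exp_le hp] at hlog
    have h4 : (16 : ℝ) ≤ Real.exp 4 := by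
      have h5 : (2 : ℝ) ≤ Real.exp 1 := by
        have := Real.add_one_le_exp (1 : ℝ); linarith
      have h6 : Real.exp 4 = Real.exp 1 ^ 4 := by rw [← Real.exp_nat_mul]; norm_num
      rw [h6]
      calc (16 : ℝ) = 2 ^ 4 := by norm_num
        _ ≤ _ := pow_le_pow_left₀ (by norm_num) h5 4
    linarith
  have e : (t.sp q ∪ t.uq q).filter (fun b => p0 < b) = t.sp q ∪ t.uq q :=
    Finset.filter_true_of_mem fun b hb => hgt b (Or.inr (Finset.mem_union.1 hb))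
  have e0 : (t.mt q).filter (fun b => p0 < b) = t.mt q :=
    Finset.filter_true_of_mem fun b hb => hgt b (Or.inl hb)
  rw [e] at h1
  rw [e0] at h0
  simp only [Real.rpow_zero] at h1
  have h3 : ∑ b ∈ t.sp q ∪ t.uq q, (1 : ℝ) / b ≤ 1 / 4 := by
    refine h1.trans ?_
    rw [Real.rpow_neg_one, inv_eq_one_div]
    exact one_div_le_one_div_of_le (by norm_num) hlog
  have h4 : ∑ b ∈ t.mt q, (1 : ℝ) / b ≤ 1 / 4 := by
    have h5 : ∑ b ∈ t.mt q, (1 : ℝ) / b = ∑ s ∈ t.mt q, (s : ℝ) ^ (-1 : ℝ) :=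
      Finset.sum_congr rfl fun b _ => by rw [Real.rpow_neg_one, one_div]
    rw [h5]
    refine h0.trans ?_
    have h6 : (p0 : ℝ) ^ (-(1 / 2) : ℝ) ≤ (16 : ℝ) ^ (-(1 / 2) : ℝ) :=
      Real.rpow_le_rpow_of_nonpos (by norm_num) hp16 (by norm_num)
    refine h6.trans (le_of_eq ?_)
    have h7 : (16 : ℝ) = 2 ^ (4 : ℝ) := by norm_num
    rw [h7, ← Real.rpow_mul (by norm_num)]
    norm_num
  constructor
  · refine le_trans (Finset.sum_le_sum_of_subset_of_nonneg (Finset.subset_union_right)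
      fun i _ _ => by positivity) (h3.trans (by norm_num))
  · have h8 : ∑ b ∈ t.mt q ∪ t.sp q, (1 : ℝ) / b ≤
        ∑ b ∈ t.mt q, (1 : ℝ) / b + ∑ b ∈ t.sp q, (1 : ℝ) / b := by
      rw [← Finset.sum_union_inter]
      have : 0 ≤ ∑ b ∈ t.mt q ∩ t.sp q, (1 : ℝ) / b :=
        Finset.sum_nonneg fun i _ => by positivity
      linarith
    have h9 : ∑ b ∈ t.sp q, (1 : ℝ) / b ≤ ∑ b ∈ t.sp q ∪ t.uq q, (1 : ℝ) / b :=
      Finset.sum_le_sum_of_subset_of_nonneg (Finset.subset_union_left)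
        fun i _ _ => by positivity
    linarith

/-- the `up` primes of a pruned item are tame -/
theorem uq_tame (B C : ℝ) (hB : C + 4 ≤ B) : ∃ p₁ : ℕ, ∀ p0 ≥ p₁,
    ∀ (t : IT) (q : ℕ), Pr t p0 C B q → ∀ z : ℝ, (p0 : ℝ) ≤ z →
      ∑ l ∈ (t.uq q).filter (fun l : ℕ => z < (l : ℝ)), (1 : ℝ) / l ≤ z ^ (-(1 / 2 : ℝ)) := by
  obtain ⟨p2, h2⟩ := Pr_tails B C 0 1 (9/10) (by norm_num) le_rfl (by norm_num) (by linarith)
  refine ⟨p2 + 512, fun p0 hp0 t q hq z hz => ?_⟩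
  have hp512 : (512 : ℝ) ≤ p0 := by exact_mod_cast (by omega : 512 ≤ p0)
  have hz512 : (512 : ℝ) ≤ z := hp512.trans hz
  have hz0 : 0 < z := by linarith
  set P := ⌊z⌋₊ with hP
  have hPp0 : p0 ≤ P := Nat.le_floor hz
  have hP1 : z < P + 1 := Nat.lt_floor_add_one z
  have hP2 : (P : ℝ) ≤ z := Nat.floor_le hz0.le
  have h1 := (h2 p0 (by omega) t q hq P hPp0).2.1
  have hP0 : (0 : ℝ) < P := by linarith
  have e : (t.uq q).filter (fun l : ℕ => z < (l : ℝ)) = (t.uq q).filter (fun l => P < l) := by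
    apply Finset.filter_congr
    intro l _
    rw [hP, Nat.floor_lt hz0.le]
  rw [e]
  have h3 : ∑ l ∈ (t.uq q).filter (fun l => P < l), (1 : ℝ) / l ≤
      z ^ (-(1/10) : ℝ) * ∑ s ∈ (t.uq q).filter (fun b => P < b), (s : ℝ) ^ (-(9/10) : ℝ) := by
    rw [Finset.mul_sum]
    refine Finset.sum_le_sum fun l hl => ?_
    have hlP := (Finset.mem_filter.1 hl).2
    have hlz : z < l := by
      have : P + 1 ≤ l := hlP
      have : ((P + 1 : ℕ) : ℝ) ≤ l := by exact_mod_cast this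
      push_cast at this; linarith
    have hl0 : (0 : ℝ) < l := by linarith
    have e1 : (1 : ℝ) / l = (l : ℝ) ^ (-(1/10) : ℝ) * (l : ℝ) ^ (-(9/10) : ℝ) := by
      rw [← Real.rpow_add hl0]
      norm_num
      rw [Real.rpow_neg_one]
    rw [e1]
    refine mul_le_mul_of_nonneg_right ?_ (by positivity)
    exact Real.rpow_le_rpow_of_nonpos hz0 hlz.le (by norm_num)
  refine h3.trans ?_
  have h4 : (P : ℝ) ^ (-(9/10/2) : ℝ) ≤ (2 : ℝ) ^ ((9/20) : ℝ) * z ^ (-(9/20) : ℝ) := by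
    have h5 : z / 2 ≤ P := by linarith
    have h6 : (P : ℝ) ^ (-(9/10/2) : ℝ) ≤ (z / 2) ^ (-(9/10/2) : ℝ) :=
      Real.rpow_le_rpow_of_nonpos (by positivity) h5 (by norm_num)
    refine h6.trans (le_of_eq ?_)
    rw [Real.div_rpow hz0.le (by norm_num), Real.rpow_neg (by norm_num : (0:ℝ) ≤ 2), div_inv_eq_mul,
      mul_comm]
    norm_num
  have h7 : (2 : ℝ) ^ ((9/20) : ℝ) ≤ z ^ ((1/20) : ℝ) := by
    have h8 : (512 : ℝ) ^ ((1/20) : ℝ) ≤ z ^ ((1/20) : ℝ) :=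
      Real.rpow_le_rpow (by norm_num) hz512 (by norm_num)
    refine le_trans (le_of_eq ?_) h8
    have : (512 : ℝ) = 2 ^ (9 : ℝ) := by norm_num
    rw [this, ← Real.rpow_mul (by norm_num)]
    norm_num
  calc z ^ (-(1/10) : ℝ) * ∑ s ∈ (t.uq q).filter (fun b => P < b), (s : ℝ) ^ (-(9/10) : ℝ)
      ≤ z ^ (-(1/10) : ℝ) * (P : ℝ) ^ (-(9/10/2) : ℝ) :=
        mul_le_mul_of_nonneg_left h1 (by positivity)
    _ ≤ z ^ (-(1/10) : ℝ) * ((2 : ℝ) ^ ((9/20) : ℝ) * z ^ (-(9/20) : ℝ)) :=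
        mul_le_mul_of_nonneg_left h4 (by positivity)
    _ ≤ z ^ (-(1/10) : ℝ) * (z ^ ((1/20) : ℝ) * z ^ (-(9/20) : ℝ)) := by
        refine mul_le_mul_of_nonneg_left ?_ (by positivity)
        exact mul_le_mul_of_nonneg_right h7 (by positivity)
    _ = z ^ (-(1/2) : ℝ) := by
        rw [← Real.rpow_add hz0, ← Real.rpow_add hz0]
        norm_num

/-! ### leaf facts -/

section
variable {P : Bld532.Par} {W : ℕ → ℝ} {t : IT} {n : ℕ} {u : NS} {Sl : Finset ℕ} {G : ℕ}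

/-- tameness of the moduli of a leaf; `X` is at least every prime below the level -/
theorem leaf_tame (h : LeafF P W t n u Sl G) {q : ℕ} (hq : q ∈ Sl) {z : ℝ}
    (hz : ∀ l : ℕ, l.Prime → l < u.n → (l : ℝ) ≤ z)
    (hU : ∑ l ∈ (t.uq q).filter (fun l : ℕ => z < (l : ℝ)), (1 : ℝ) / l ≤ z ^ (-(1 / 2 : ℝ))) :
    Tame z 1 (q / (u.A * G)) := by
  refine ⟨one_dvd _, le_trans ?_ hU⟩
  refine Finset.sum_le_sum_of_subset_of_nonneg ?_ fun i _ _ => by positivity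
  intro l hl
  rw [Nat.div_one] at hl
  obtain ⟨h1, h2⟩ := Finset.mem_filter.1 hl
  have hlp := Nat.prime_of_mem_primeFactors h1
  have hln : u.n ≤ l := by
    by_contra hc
    have := hz l hlp (not_le.1 hc)
    linarith
  have h3 := Nat.dvd_of_mem_primeFactors h1
  rw [← Nat.div_div_eq_div_mul] at h3
  exact Finset.mem_filter.2 ⟨h.Gu q hq l hlp h3 hln, h2⟩

/-- density of the modulus `q / u.A` of a pruned item; `x` is at least every prime below the level -/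
theorem leaf_dens (h : LeafF P W t n u Sl G) {q : ℕ} (hq : q ∈ Sl) {x : ℝ} (hx : 2 ≤ x)
    (hX : ∀ l : ℕ, l.Prime → l < u.n → (l : ℝ) ≤ x)
    (hr : ∀ l : ℕ, l.Prime → l ∣ q / u.A → u.n ≤ l → l ∈ rt t q)
    (hs : ∑ b ∈ rt t q, (1 : ℝ) / b ≤ 1 / 2) :
    1 ≤ 2 * (Crest.Agent.R4.Ovl560.CM * Real.log x) * (((q / u.A).totient : ℝ) / ((q / u.A : ℕ) : ℝ)) := by
  classical
  have hq0 : 0 < q := h.pos q hq
  have hAq := h.bk.dvd q hq
  have hw : 0 < q / u.A := Nat.div_pos (Nat.le_of_dvd hq0 hAq) (Nat.pos_of_dvd_of_pos hAq hq0)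
  rw [phi_prod hw]
  set Q := (q / u.A).primeFactors with hQ
  have hsplit : ∏ l ∈ Q, (1 - 1 / (l : ℝ)) =
      (∏ l ∈ Q.filter (· < u.n), (1 - 1 / (l : ℝ))) *
        ∏ l ∈ Q.filter (fun l => ¬ l < u.n), (1 - 1 / (l : ℝ)) :=
    (Finset.prod_filter_mul_prod_filter_not _ _ _).symm
  have hp : ∀ l ∈ Q, l.Prime := fun l hl => Nat.prime_of_mem_primeFactors hl
  have h1 := Crest.Agent.R4.Ovl560.dens_inv_le hx (P := Q.filter (· < u.n))
    (fun l hl => hp l (Finset.mem_filter.1 hl).1)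
    (fun l hl => hX l (hp l (Finset.mem_filter.1 hl).1) (Finset.mem_filter.1 hl).2)
  have hd0 : 0 < ∏ l ∈ Q.filter (· < u.n), (1 - 1 / (l : ℝ)) :=
    Finset.prod_pos fun l hl => Crest.Agent.R4.Ovl560.one_sub_pos (hp l (Finset.mem_filter.1 hl).1)
  have h1' : (∏ l ∈ Q.filter (· < u.n), (1 - 1 / (l : ℝ)))⁻¹ ≤ Crest.Agent.R4.Ovl560.CM * Real.log x := h1
  have h2 : (1 : ℝ) ≤ Crest.Agent.R4.Ovl560.CM * Real.log x * ∏ l ∈ Q.filter (· < u.n), (1 - 1 / (l : ℝ)) := by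
    rw [inv_le_iff_one_le_mul₀ hd0] at h1'
    exact h1'
  have h3 : (1 : ℝ) / 2 ≤ ∏ l ∈ Q.filter (fun l => ¬ l < u.n), (1 - 1 / (l : ℝ)) := by
    have h4 := Crest.Agent.R4.Om532.prod_one_sub_ge (Q.filter (fun l => ¬ l < u.n)) (fun l : ℕ => 1 / (l : ℝ))
      (fun l _ => by positivity) (fun l hl => by
        have hlp := hp l (Finset.mem_filter.1 hl).1
        have : (1 : ℝ) < l := by exact_mod_cast hlp.one_lt
        rw [div_le_one (by linarith)]; exact this.le)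
    have h5 : ∑ b ∈ Q.filter (fun l => ¬ l < u.n), (1 : ℝ) / b ≤ 1 / 2 := by
      refine le_trans (Finset.sum_le_sum_of_subset_of_nonneg (fun b hb => ?_)
        fun i _ _ => by positivity) hs
      obtain ⟨h6, h7⟩ := Finset.mem_filter.1 hb
      exact hr b (hp b h6) (Nat.dvd_of_mem_primeFactors h6) (not_lt.1 h7)
    linarith
  rw [hsplit]
  have h6 : 0 ≤ Crest.Agent.R4.Ovl560.CM * Real.log x * ∏ l ∈ Q.filter (· < u.n), (1 - 1 / (l : ℝ)) := by linarith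
  calc (1 : ℝ) ≤ (Crest.Agent.R4.Ovl560.CM * Real.log x * ∏ l ∈ Q.filter (· < u.n), (1 - 1 / (l : ℝ))) *
        (2 * ∏ l ∈ Q.filter (fun l => ¬ l < u.n), (1 - 1 / (l : ℝ))) := by nlinarith
    _ = _ := by ring

end

/-- raw mass of the leaf -/
theorem nu_eq {c : Cf} {n : ℕ} (hc : c.Ok n) {ψ : ℕ → ℝ} (hr : ∀ q, c.r q = ψ q / 2)
    (hψ : ∀ q, 0 ≤ ψ q) {Sl : Finset ℕ} (hS : Sl ⊆ c.S) :
    ∑ j ∈ Finset.univ.filter (fun j => c.D.it j ∈ Sl), wtF c.D j = Ws (w ψ) Sl := by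
  classical
  have h0 : ∑ j ∈ Finset.univ.filter (fun j => c.D.it j ∈ Sl), wtF c.D j =
      ∑ q ∈ Sl, ∑ j ∈ Finset.univ.filter (fun j => c.D.it j = q), wtF c.D j := by
    rw [← Finset.sum_fiberwise_of_maps_to (s := Finset.univ.filter (fun j => c.D.it j ∈ Sl))
      (t := Sl) (g := c.D.it) (fun j hj => (Finset.mem_filter.1 hj).2)]
    refine Finset.sum_congr rfl fun q hq => Finset.sum_congr ?_ fun _ _ => rfl
    ext j
    simp only [Finset.mem_filter, Finset.mem_univ, true_and]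
    exact ⟨fun h => h.2, fun h => ⟨by rw [h]; exact hq, h⟩⟩
  rw [h0]
  unfold Ws
  refine Finset.sum_congr rfl fun q hq => ?_
  have h4 : ∑ j ∈ Finset.univ.filter (fun j => c.D.it j = q), wtF c.D j =
      (∑ j ∈ Finset.univ.filter (fun j : c.Lam => j.1.1 = q), (c.D.be j - c.D.al j)) *
        ((Nat.totient q : ℝ) / q) := by
    rw [Finset.sum_mul]
    refine Finset.sum_congr rfl fun j hj => ?_
    have e : c.D.it j = q := (Finset.mem_filter.1 hj).2
    unfold wtF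
    rw [e]
  rw [h4]
  by_cases hrq : 0 < c.r q
  · rw [hc.len (hS hq) hrq, hr q]
    unfold w
    ring
  · have h5 : ψ q = 0 := by
      have := hr q; have := hψ q; linarith
    have h6 : Finset.univ.filter (fun j : c.Lam => j.1.1 = q) = ∅ := by
      apply Finset.filter_eq_empty_iff.2
      intro j _ e
      exact hrq (e ▸ Cf.r_pos j)
    rw [h6, Finset.sum_empty, zero_mul]
    unfold w
    rw [h5]; simp

/-! ### the hypotheses on the data -/

/-- concrete data with the tree of the parameters `par B C1 c2 p0`, pruned set, leaf weights `omL` -/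
structure CfL (B C1 c2 : ℝ) (p0 : ℕ) (c : Cf) (n : ℕ) (ψ : ℕ → ℝ) (wp : W363.WP) : Prop where
  ok : c.Ok n
  pn : ∀ q ∈ c.S, ∀ l : ℕ, l.Prime → l ∣ q → l < n
  t : c.t = bld (par B C1 c2 p0) (w ψ) n 1 1 c.S
  r : ∀ q, c.r q = ψ q / 2
  ψ0 : ∀ q, 0 ≤ ψ q
  n3 : 3 ≤ n
  mass : Ws (w ψ) c.S ≤ 1
  pr : ∀ q ∈ c.S', Pr c.t p0 (C1 + c2) B q
  lv : c.lv = LfDat734.lv c.t n
  om : ∀ q z a, c.om q z a ≤ omL wp c.wpL c.γ c.r c.t c.lv c.S' q a
  om0 : ∀ q ∈ c.S, ∀ z a, q ∉ c.S' → c.om q z a = 0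

/-- the world parameters of the leaves: thinness `thr`, cell width `etaL` -/
structure WPL (C3 C6 : ℝ) (a p0 : ℕ) (P : W363.WP) : Prop where
  lo : ∀ m : ℕ, Real.log ((m + p0 : ℕ) : ℝ) ^ (-C6) ≤ P.thr m
  hi : ∀ m, P.thr m ≤ 1/10
  eta : ∀ m, P.thr m ^ a ≤ etaL P m
  eta1 : ∀ m, etaL P m ≤ 1
  etalo : ∀ m : ℕ, Real.log ((m + p0 : ℕ) : ℝ) ^ (-C3) ≤ etaL P m

section
variable {B C1 c2 : ℝ} {p0 : ℕ} {c : Cf} {n : ℕ} {ψ : ℕ → ℝ} {wp : W363.WP}
  {u : NS} {Sl : Finset ℕ} {G : ℕ}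

lemma CfL.sub (h : CfL B C1 c2 p0 c n ψ wp) (hF : LeafF (par B C1 c2 p0) (w ψ) c.t n u Sl G) :
    Sl ⊆ c.S := fun q hq => by
  rw [← h.ok.items]; exact hF.it q hq

lemma CfL.w0 (h : CfL B C1 c2 p0 c n ψ wp) : ∀ q, 0 ≤ w ψ q := fun q => by
  have := h.ψ0 q
  unfold w; positivity

lemma CfL.all (h : CfL B C1 c2 p0 c n ψ wp) (hG : (par B C1 c2 p0).Good) :
    Bld532.All (NodeOk (par B C1 c2 p0) (w ψ)) ⟨n, 1, 1, 1⟩ c.t := by
  rw [h.t]
  exact Bld532.bld_All_root _ _ h.w0 hG n c.S h.ok.pos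

lemma CfL.col (h : CfL B C1 c2 p0 c n ψ wp) (hG : (par B C1 c2 p0).Good) (q : ℕ) :
    ∀ b, (b ∈ c.t.mt q ∨ b ∈ c.t.sp q ∨ b ∈ c.t.uq q) → p0 < b := fun b hb =>
  (Bld532.cols_of_All _ _ c.t _ (h.all hG) q b hb).2.1

/-- the mass of the leaf -/
lemma CfL.nu (h : CfL B C1 c2 p0 c n ψ wp) (hF : LeafF (par B C1 c2 p0) (w ψ) c.t n u Sl G) :
    u.c * ∑ j ∈ Finset.univ.filter (fun j => c.D.it j ∈ Sl), wtF c.D j =
      u.c * Ws (w ψ) Sl := by
  rw [nu_eq h.ok h.r h.ψ0 (h.sub hF)]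

/-- **comparison of the masses** -/
lemma CfL.lmass (h : CfL B C1 c2 p0 c n ψ wp) (hG : (par B C1 c2 p0).Good)
    (hF : LeafF (par B C1 c2 p0) (w ψ) c.t n u Sl G) {q : ℕ} (hq : q ∈ Sl)
    (hs : ∑ b ∈ c.t.mt q ∪ c.t.sp q, (1 : ℝ) / b ≤ 1 / 2) :
    (u.B : ℝ) * (((q / u.A).totient : ℝ) / ((q / u.A : ℕ) : ℝ)) ≤
      2 * (u.c * ((q.totient : ℝ) / q)) := by
  have hP : PhiU820.PlOk ∅ c.t := by rw [h.t]; exact PhiU820.bld_PlOk _ _ _ _ _ _ _
  exact PhiU820.leaf_mass c.t h.ok.tOk (Bld532.Fit_of_NodeOk (h.all hG)) hP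
    (hF.it q hq) hs (hF.lstA q hq)

/-- **radius of a pruned item of a leaf** -/
lemma CfL.rad (h : CfL B C1 c2 p0 c n ψ wp) (hG : (par B C1 c2 p0).Good)
    (hF : LeafF (par B C1 c2 p0) (w ψ) c.t n u Sl G)
    {q : ℕ} (hq : q ∈ Sl) (hs : ∑ b ∈ rt c.t q, (1 : ℝ) / b ≤ 1 / 2)
    (hs2 : ∑ b ∈ c.t.mt q ∪ c.t.sp q, (1 : ℝ) / b ≤ 1 / 2) {x : ℝ} (hx : 2 ≤ x)
    (hX : ∀ l : ℕ, l.Prime → l < u.n → (l : ℝ) ≤ x) :
    (u.B : ℝ) * c.r q ≤ 2 * Crest.Agent.R4.Ovl560.CM * Real.log x * (u.c * Ws (w ψ) Sl) := by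
  have hd := leaf_dens hF hq hx hX (fun l hl h1 h2 => ?_) hs
  swap
  · by_cases h3 : l ∣ G
    · exact hF.Gr q hq l (Nat.mem_primeFactors.2 ⟨hl, h3, hF.G0.ne'⟩)
    · have h4 : l ∣ G * (q / u.A / G) := by
        rw [Nat.mul_div_cancel' (hF.Gd q hq)]; exact h1
      have h5 := ((Nat.Prime.dvd_mul hl).1 h4).resolve_left h3
      exact hF.Gu q hq l hl h5 h2
  have hlm := h.lmass hG hF hq hs2
  set v := q / u.A with hv
  have hψq := h.ψ0 q
  have hr := h.r q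
  have hw1 : w ψ q ≤ Ws (w ψ) Sl := by
    unfold Ws
    refine Finset.single_le_sum (f := fun q => w ψ q) (fun i _ => h.w0 i) hq
  have hc0 : 0 ≤ u.c := le_trans zero_le_one hF.bk.one_le_c
  have h1 : u.c * w ψ q ≤ u.c * Ws (w ψ) Sl := mul_le_mul_of_nonneg_left hw1 hc0
  have h2 : (u.B : ℝ) * ψ q * ((v.totient : ℝ) / (v : ℝ)) ≤ 2 * (u.c * w ψ q) := by
    calc (u.B : ℝ) * ψ q * ((v.totient : ℝ) / (v : ℝ))
        = ψ q * ((u.B : ℝ) * ((v.totient : ℝ) / (v : ℝ))) := by ring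
      _ ≤ ψ q * (2 * (u.c * ((q.totient : ℝ) / q))) := mul_le_mul_of_nonneg_left hlm hψq
      _ = 2 * (u.c * w ψ q) := by unfold w; ring
  have hB0 : (0 : ℝ) ≤ u.B := by positivity
  have hL : 0 ≤ Crest.Agent.R4.Ovl560.CM * Real.log x :=
    mul_nonneg Crest.Agent.R4.Ovl560.CM_pos.le (Real.log_nonneg (by linarith))
  calc (u.B : ℝ) * c.r q = (u.B * ψ q / 2) * 1 := by rw [hr]; ring
    _ ≤ (u.B * ψ q / 2) * (2 * (Crest.Agent.R4.Ovl560.CM * Real.log x) *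
          ((v.totient : ℝ) / (v : ℝ))) :=
        mul_le_mul_of_nonneg_left hd (by positivity)
    _ = Crest.Agent.R4.Ovl560.CM * Real.log x * ((u.B : ℝ) * ψ q * ((v.totient : ℝ) / (v : ℝ))) := by
        ring
    _ ≤ Crest.Agent.R4.Ovl560.CM * Real.log x * (2 * (u.c * Ws (w ψ) Sl)) :=
        mul_le_mul_of_nonneg_left (by linarith) hL
    _ = _ := by ring

end

/-! ### numbers -/

set_option maxHeartbeats 1600000 in
/-- **ALL LEAVES** (module J1): total energies with the constant `K (log p0)^c2`, `K` independent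
of `p0` (the power of `log p0` is only needed for the bottom leaves). -/
theorem leafE_all (a : ℕ) : ∃ c0 : ℝ, 0 < c0 ∧ ∀ (B C1 c2 C3 C6 : ℝ), 0 < c2 → 0 ≤ C3 → 0 ≤ C6 →
    1 / c0 ≤ C1 → C6 + 2 ≤ C1 → C1 + c2 + 4 ≤ B → ∃ K : ℝ, 0 ≤ K ∧ ∃ p₁ : ℕ, 3 ≤ p₁ ∧ ∀ p0 ≥ p₁,
    ∀ (c : Cf) (n : ℕ) (ψ : ℕ → ℝ) (wp : W363.WP), CfL B C1 c2 p0 c n ψ wp →
      WPL C3 C6 a p0 c.wpL →
      LeafAll (LeafE c.D (wtF c.D) (K * Real.log p0 ^ c2)) 1 1 1 c.t := by
  obtain ⟨c0, hc0, H⟩ := leafE_leaf a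
  refine ⟨c0, hc0, fun B C1 c2 C3 C6 hc2 hC3 hC6 hC1 hC16 hB => ?_⟩
  have hC1p : 0 < C1 := by linarith
  set ε : ℝ := min (1/4) (1 / (2 * (1 + C1 / c2))) with hε
  have hden : 0 < 2 * (1 + C1 / c2) := by positivity
  have hε0 : 0 < ε := lt_min (by norm_num) (by positivity)
  have hε4 : ε ≤ 1/4 := min_le_left _ _
  have hεE : 2 * ε * (1 + C1 / c2) ≤ 1 := by
    have h1 : ε ≤ 1 / (2 * (1 + C1 / c2)) := min_le_right _ _
    rw [le_div_iff₀ hden] at h1
    linarith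
  set ε' : ℝ := c2 / (C3 + 1) with hε'
  have hε'0 : 0 < ε' := by positivity
  have hε'C : C3 * ε' ≤ c2 := by
    rw [hε', mul_div_assoc', div_le_iff₀ (by positivity)]
    nlinarith
  obtain ⟨C, hC, H⟩ := H ε ε' hε0 hε4 hε'0
  have hc1 : 0 < 1 / C1 := by positivity
  have hc1' : 1 / C1 ≤ c0 := by
    rw [div_le_iff₀ hC1p]
    rw [div_le_iff₀ hc0] at hC1
    linarith
  obtain ⟨T0, hT0, H⟩ := H (1 / C1) hc1 hc1'
  obtain ⟨pa, hpa⟩ := rt_half B (C1 + c2) (by linarith)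
  obtain ⟨pb, hpb⟩ := uq_tame B (C1 + c2) (by linarith)
  obtain ⟨pg, hpg⟩ := Bld532.par_Good B C1 c2 (by linarith) hC1p.le hc2.le
  set CM : ℝ := 2 * Crest.Agent.R4.Ovl560.CM with hCMd
  have hCM : 0 < CM := by have := Crest.Agent.R4.Ovl560.CM_pos; linarith
  obtain ⟨b₀, -, hb₀⟩ := Crest.Agent.R4.OmSt532.exists_sqrt (B + c2 + 1 + C6)
    (K := 4 * CM * 2 ^ C6) (by positivity)
  set M1 : ℝ := T0 + 2 ^ C6 * (CM + 1) + 1 with hM1
  have hT0p : 0 < T0 := lt_of_lt_of_le (by norm_num) hT0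
  have h26 : (1 : ℝ) ≤ 2 ^ C6 := Real.one_le_rpow (by norm_num) hC6
  set K2 : ℝ := 1 + (T0 + 1 + 2 ^ C6) + 2 ^ c2 + 2 ^ c2 with hK2
  have hK2p : 0 < K2 := by positivity
  refine ⟨2 * (16 * (C * K2)), by positivity, pa + pb + pg + b₀ + ⌈Real.exp M1⌉₊ + 3, by omega,
    fun p0 hp0 => ?_⟩
  have hp3 : 3 ≤ p0 := by omega
  -- logarithms above `p0`
  have hlog : ∀ k : ℕ, p0 ≤ k → M1 ≤ Real.log k := by
    intro k hk
    have h4 : Real.exp M1 ≤ k := by
      have h5 : Real.exp M1 ≤ ⌈Real.exp M1⌉₊ := Nat.le_ceil _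
      have h6 : ((⌈Real.exp M1⌉₊ : ℕ) : ℝ) ≤ k := by
        have : ⌈Real.exp M1⌉₊ ≤ k := by omega
        exact_mod_cast this
      linarith
    have hp : (0 : ℝ) < k := lt_of_lt_of_le (Real.exp_pos _) h4
    rwa [Real.le_log_iff_exp_le hp]
  have hlogT : ∀ k : ℕ, p0 ≤ k → T0 ≤ Real.log k := fun k hk => by
    have := hlog k hk
    have : 0 ≤ 2 ^ C6 * (CM + 1) := by positivity
    linarith
  have hlog2 : ∀ k : ℕ, p0 ≤ k → 2 ^ C6 * (CM + 1) ≤ Real.log k := fun k hk => by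
    have := hlog k hk
    linarith
  have hlog1 : ∀ k : ℕ, p0 ≤ k → 1 ≤ Real.log k := fun k hk => by
    have := hlogT k hk
    have : (1 : ℝ) ≤ 2 ^ 50 := by norm_num
    linarith
  set Tb : ℝ := T0 + Real.log p0 ^ C1 + Real.log ((2 * p0 + p0 : ℕ) : ℝ) ^ C6 with hTb
  have hl3 : 1 ≤ Real.log ((2 * p0 + p0 : ℕ) : ℝ) := hlog1 _ (by omega)
  have hTb0 : 0 < Tb := by
    have : 0 ≤ Real.log p0 ^ C1 := Real.rpow_nonneg (by linarith [hlog1 p0 le_rfl]) _
    have : 0 ≤ Real.log ((2 * p0 + p0 : ℕ) : ℝ) ^ C6 := Real.rpow_nonneg (by linarith) _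
    linarith
  set K1 : ℝ := K2 * Real.log p0 ^ c2 with hK1e
  have hL1 : 1 ≤ Real.log (p0 : ℝ) := hlog1 p0 le_rfl
  have hL0 : 0 < Real.log (p0 : ℝ) := by linarith
  have hl3' : Real.log ((2 * p0 + p0 : ℕ) : ℝ) ≤ 2 * Real.log p0 :=
    log_add_le (k := p0) (m := 2 * p0) hp3 le_rfl le_rfl
  have hK1 : 1 + Tb ^ (2 * ε) + Real.log ((2 * p0 + p0 : ℕ) : ℝ) ^ (C3 * ε') + 2 ^ c2 ≤ K1 := by
    have hLc : 1 ≤ Real.log (p0 : ℝ) ^ c2 := Real.one_le_rpow hL1 hc2.le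
    have h2c : (0 : ℝ) ≤ 2 ^ c2 := by positivity
    have e1 : Tb ≤ (T0 + 1 + 2 ^ C6) * Real.log p0 ^ C1 := by
      have g1 : 1 ≤ Real.log (p0 : ℝ) ^ C1 := Real.one_le_rpow hL1 hC1p.le
      have g2 : Real.log ((2 * p0 + p0 : ℕ) : ℝ) ^ C6 ≤ 2 ^ C6 * Real.log p0 ^ C1 := by
        calc Real.log ((2 * p0 + p0 : ℕ) : ℝ) ^ C6 ≤ (2 * Real.log p0) ^ C6 :=
              Real.rpow_le_rpow (by linarith) hl3' hC6
          _ = 2 ^ C6 * Real.log p0 ^ C6 := Real.mul_rpow (by norm_num) hL0.le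
          _ ≤ 2 ^ C6 * Real.log p0 ^ C1 := mul_le_mul_of_nonneg_left
              (Real.rpow_le_rpow_of_exponent_le hL1 (by linarith)) (by positivity)
      have g3 : T0 ≤ T0 * Real.log (p0 : ℝ) ^ C1 := le_mul_of_one_le_right (by linarith) g1
      have : (T0 + 1 + 2 ^ C6) * Real.log (p0 : ℝ) ^ C1 = T0 * Real.log (p0 : ℝ) ^ C1 +
        Real.log (p0 : ℝ) ^ C1 + 2 ^ C6 * Real.log p0 ^ C1 := by ring
      rw [this]
      linarith
    have e2 : Tb ^ (2 * ε) ≤ (T0 + 1 + 2 ^ C6) * Real.log p0 ^ c2 := by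
      have hbase : (1 : ℝ) ≤ T0 + 1 + 2 ^ C6 := by linarith
      calc Tb ^ (2 * ε) ≤ ((T0 + 1 + 2 ^ C6) * Real.log p0 ^ C1) ^ (2 * ε) :=
            Real.rpow_le_rpow hTb0.le e1 (by linarith)
        _ = (T0 + 1 + 2 ^ C6) ^ (2 * ε) * Real.log p0 ^ (C1 * (2 * ε)) := by
            rw [Real.mul_rpow (by linarith) (by positivity), ← Real.rpow_mul hL0.le]
        _ ≤ (T0 + 1 + 2 ^ C6) ^ (1 : ℝ) * Real.log p0 ^ c2 := by
            refine mul_le_mul (Real.rpow_le_rpow_of_exponent_le hbase (by linarith))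
              (Real.rpow_le_rpow_of_exponent_le hL1 ?_) (by positivity) (by positivity)
            have g1 : C1 / c2 * (2 * ε) ≤ 1 := by
              have : 2 * ε * (1 + C1 / c2) = 2 * ε + C1 / c2 * (2 * ε) := by ring
              linarith
            calc C1 * (2 * ε) = C1 / c2 * (2 * ε) * c2 := by field_simp
              _ ≤ 1 * c2 := mul_le_mul_of_nonneg_right g1 hc2.le
              _ = c2 := one_mul _
        _ = _ := by rw [Real.rpow_one]
    have e3 : Real.log ((2 * p0 + p0 : ℕ) : ℝ) ^ (C3 * ε') ≤ 2 ^ c2 * Real.log p0 ^ c2 := by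
      calc Real.log ((2 * p0 + p0 : ℕ) : ℝ) ^ (C3 * ε') ≤
            Real.log ((2 * p0 + p0 : ℕ) : ℝ) ^ c2 :=
            Real.rpow_le_rpow_of_exponent_le hl3 hε'C
        _ ≤ (2 * Real.log p0) ^ c2 := Real.rpow_le_rpow (by linarith) hl3' hc2.le
        _ = 2 ^ c2 * Real.log p0 ^ c2 := Real.mul_rpow (by norm_num) hL0.le
    have e4 : (2 : ℝ) ^ c2 ≤ 2 ^ c2 * Real.log p0 ^ c2 := le_mul_of_one_le_right h2c hLc
    have e5 : K1 = Real.log (p0 : ℝ) ^ c2 + (T0 + 1 + 2 ^ C6) * Real.log (p0 : ℝ) ^ c2 +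
        2 ^ c2 * Real.log p0 ^ c2 + 2 ^ c2 * Real.log p0 ^ c2 := by
      rw [hK1e, hK2]; ring
    rw [e5]
    linarith
  have hK1a : 0 ≤ Tb ^ (2 * ε) := by positivity
  have hK1b : 0 ≤ Real.log ((2 * p0 + p0 : ℕ) : ℝ) ^ (C3 * ε') := Real.rpow_nonneg (by linarith) _
  have hK1c : (0 : ℝ) ≤ 2 ^ c2 := by positivity
  have hK11 : 1 ≤ K1 := by linarith
  intro c n ψ wp h hP
  have eK : 2 * (16 * (C * K2)) * Real.log (p0 : ℝ) ^ c2 = 2 * (16 * (C * K1)) := by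
    rw [hK1e]; ring
  rw [eK]
  have hG := hpg p0 (by omega)
  have hw0 : ∀ q, 0 ≤ w ψ q := h.w0
  have hroot : (1 : ℝ) * Ws (w ψ) c.t.items ≤ 4 * Real.log n ^ (B + c2) := by
    have h1 : (1 : ℝ) ≤ Real.log n ^ (B + c2) :=
      Real.one_le_rpow (Bld532.one_le_log_nat h.n3) (by linarith)
    have := h.mass
    rw [h.ok.items]
    linarith
  have hmass := Bld532.par_mass B C1 c2 p0 (by linarith) (by linarith) (by omega) (w ψ) hw0 c.t
    ⟨n, 1, 1, 1⟩ (h.all hG) (by norm_num) hroot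
  rw [h.t] at hmass ⊢
  refine bld_leafF' (par B C1 c2 p0) (w ψ) hw0 hG n c.S h.ok.pos h.pn hmass
    fun u Sl G hF0 hmu => ?_
  have hF : LeafF (par B C1 c2 p0) (w ψ) c.t n u Sl G := by rw [h.t]; exact hF0
  have hcpos : 0 < u.c := hmu.1
  have hmu2 : u.c * Ws (w ψ) Sl ≤ 4 * Real.log u.n ^ (B + c2) := hmu.2
  have bk := hF.bk
  set μ : ℝ := u.c * Ws (w ψ) Sl with hμ
  have hμ0 : 0 ≤ μ := mul_nonneg hcpos.le (Finset.sum_nonneg fun q _ => hw0 q)
  set ν : ℝ := 2 * μ with hν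
  have hν0 : 0 ≤ ν := by linarith
  have hgt : ∀ q, ∀ b, (b ∈ c.t.mt q ∨ b ∈ c.t.sp q ∨ b ∈ c.t.uq q) → p0 < b := h.col hG
  have hrt2 : ∀ q ∈ Sl, q ∈ c.S' → ∑ b ∈ rt c.t q, (1 : ℝ) / b ≤ 1 / 2 ∧
      ∑ b ∈ c.t.mt q ∪ c.t.sp q, (1 : ℝ) / b ≤ 1 / 2 := fun q _ hq' =>
    hpa p0 (by omega) c.t q (h.pr q hq') (hgt q)
  have hrt : ∀ q ∈ Sl, q ∈ c.S' → ∑ b ∈ rt c.t q, (1 : ℝ) / b ≤ 1 / 2 := fun q hq hq' =>
    (hrt2 q hq hq').1
  have hlmA : ∀ q ∈ Sl, q ∈ c.S' → (u.B : ℝ) * (((q / u.A).totient : ℝ) / ((q / u.A : ℕ) : ℝ)) ≤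
      2 * (u.c * ((q.totient : ℝ) / q)) := fun q hq hq' => h.lmass hG hF hq (hrt2 q hq hq').2
  have hνe : ν = 2 * (u.c *
      ∑ j ∈ Finset.univ.filter (fun j => c.D.it j ∈ Sl), wtF c.D j) := by
    rw [h.nu hF]
  have htame : ∀ X : ℝ, (p0 : ℝ) ≤ X → (∀ l : ℕ, l.Prime → l < u.n → (l : ℝ) ≤ X) →
      ∀ q ∈ Sl, q ∈ c.S' → ∀ z : ℝ, X ≤ z → Tame z 1 (q / (u.A * G)) := by
    intro X hX1 hX2 q hq hq' z hz
    exact leaf_tame hF hq (fun l h1 h2 => (hX2 l h1 h2).trans hz)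
      (hpb p0 (by omega) c.t q (h.pr q hq') z (hX1.trans hz))
  have hfat : ∀ q ∈ Sl, q ∈ c.S' → (u.B : ℝ) * c.r q ≤ c.wpL.thr (u.n - 1) ∨
      ∀ s L', W363.lst u.B.primeFactors (u.n - 1) = s :: L' →
        (L'.prod : ℝ) * c.r q ≤ c.wpL.thr s := by
    intro q hq hq'
    right
    intro s L' hL
    have hsm : s ∈ W363.lst u.B.primeFactors (u.n - 1) := by rw [hL]; exact List.mem_cons_self
    obtain ⟨hsp, hsB⟩ := LeafF.lst_mem hsm
    have hsn : u.n ≤ s := bk.geB s hsp hsB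
    have hsp0 : p0 < s := by
      refine h.col hG q s (Or.inl ?_)
      rw [hF.mt q hq]
      exact Nat.mem_primeFactors.2 ⟨hsp, hsB, bk.sfB.ne_zero⟩
    have hprod : s * L'.prod = u.B := by
      have := hF.lst_prod
      rw [hL, List.prod_cons] at this
      exact this
    have hs0 : (0 : ℝ) < s := by exact_mod_cast hsp.pos
    have hs2 : (2 : ℝ) ≤ s := by exact_mod_cast hsp.two_le
    have hls : 1 ≤ Real.log s := hlog1 s hsp0.le
    have h1 := h.rad hG hF hq (hrt q hq hq') (hrt2 q hq hq').2 hs2 (fun l _ hl => by exact_mod_cast (hl.le.trans hsn))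
    have h2 : μ ≤ 4 * Real.log s ^ (B + c2) := by
      refine hmu2.trans ?_
      have h3 : Real.log u.n ≤ Real.log s := by
        rcases Nat.eq_zero_or_pos u.n with h0 | h0
        · rw [h0, Nat.cast_zero, Real.log_zero]; linarith
        · exact Real.log_le_log (by exact_mod_cast h0) (by exact_mod_cast hsn)
      have h4 : 0 ≤ Real.log (u.n : ℝ) := Real.log_natCast_nonneg _
      have := Real.rpow_le_rpow h4 h3 (z := B + c2) (by linarith)
      linarith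
    have h5 := hb₀ s (by omega)
    have hsq : Real.sqrt s ≤ s := by
      rw [Real.sqrt_le_left (by linarith)]
      nlinarith
    have h6 : (2 * Real.log s) ^ (-C6) ≤ c.wpL.thr s :=
      (rpow_neg_log_ge hC6 (by omega) (by omega) hsp0.le hp3).trans (hP.lo s)
    refine le_trans ?_ h6
    have h7 : (s : ℝ) * ((L'.prod : ℝ) * c.r q) = u.B * c.r q := by
      rw [← hprod]; push_cast; ring
    have h8 : (s : ℝ) * ((L'.prod : ℝ) * c.r q) ≤
        4 * CM * Real.log s ^ (B + c2 + 1) := by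
      rw [h7]
      refine h1.trans ?_
      calc CM * Real.log s * μ ≤ CM * Real.log s * (4 * Real.log s ^ (B + c2)) :=
            mul_le_mul_of_nonneg_left h2 (by positivity)
        _ = 4 * CM * (Real.log s ^ (B + c2) * Real.log s) := by ring
        _ = 4 * CM * Real.log s ^ (B + c2 + 1) := by
            rw [Real.rpow_add (by linarith) (B + c2) 1, Real.rpow_one]
    have h9 : 4 * CM * Real.log s ^ (B + c2 + 1) ≤ s * (2 * Real.log s) ^ (-C6) := by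
      have hl0 : 0 < Real.log (s : ℝ) := by linarith
      have e1 : (2 * Real.log (s : ℝ)) ^ (-C6) = (2 ^ C6 * Real.log s ^ C6)⁻¹ := by
        rw [Real.rpow_neg (by positivity), Real.mul_rpow (by norm_num) hl0.le]
      have hpos : 0 < (2 : ℝ) ^ C6 * Real.log s ^ C6 := by positivity
      rw [e1, ← div_eq_mul_inv, le_div_iff₀ hpos]
      calc 4 * CM * Real.log s ^ (B + c2 + 1) * (2 ^ C6 * Real.log s ^ C6)
          = 4 * CM * 2 ^ C6 * (Real.log s ^ (B + c2 + 1) * Real.log s ^ C6) := by ring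
        _ = 4 * CM * 2 ^ C6 * Real.log s ^ (B + c2 + 1 + C6) := by
            rw [← Real.rpow_add hl0]
        _ ≤ Real.sqrt s := h5
        _ ≤ s := hsq
    exact le_of_mul_le_mul_left (h8.trans h9) hs0
  have hKν : K1 ≤ K1 * (1 + ν) := le_mul_of_one_le_right (by linarith) (by linarith)
  have hKν2 : ν ≤ K1 * (1 + ν) := by
    have : 1 * (1 + ν) ≤ K1 * (1 + ν) := mul_le_mul_of_nonneg_right hK11 (by linarith)
    linarith
  clear_value K1 Tb M1
  rcases hF.node.2 with hbot | ⟨k, hk, hkn, hkp, hall, hmk⟩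
  · -- bottom
    have hbot' : ∀ r : ℕ, r.Prime → r < u.n → r ≤ p0 := hbot
    have hun : u.n ≤ 2 * p0 := level_le (by omega) hbot'
    have hlp0 := hlog1 p0 le_rfl
    have hm : u.n - 1 + p0 ≤ 2 * p0 + p0 := by omega
    have hlm : Real.log ((u.n - 1 + p0 : ℕ) : ℝ) ≤ Real.log ((2 * p0 + p0 : ℕ) : ℝ) :=
      Real.log_le_log (by exact_mod_cast (by omega : 0 < u.n - 1 + p0)) (by exact_mod_cast hm)
    have hlm0 : 0 < Real.log ((u.n - 1 + p0 : ℕ) : ℝ) :=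
      Real.log_pos (by exact_mod_cast (by omega : 1 < u.n - 1 + p0))
    refine H c n (par B C1 c2 p0) (w ψ) u Sl G wp Tb p0 K1 ν h.ok hF h.lv h.om hrt hlmA h.om0
      (htame p0 le_rfl (fun l h1 h2 => by exact_mod_cast hbot' l h1 h2)) ?_ ?_ hK11 hνe ?_ ?_
      (hP.hi _) (hP.eta _) (hP.eta1 _) hfat (Or.inr ?_)
    · have : 0 ≤ Real.log p0 ^ C1 := Real.rpow_nonneg (by linarith) _
      have : 0 ≤ Real.log ((2 * p0 + p0 : ℕ) : ℝ) ^ C6 := Real.rpow_nonneg (by linarith) _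
      linarith
    · have h1 : Real.log p0 ^ C1 ≤ Tb := by
        have : 0 ≤ Real.log ((2 * p0 + p0 : ℕ) : ℝ) ^ C6 := Real.rpow_nonneg (by linarith) _
        linarith
      have h2 : Real.log p0 ≤ Tb ^ (1 / C1) := by
        have h3 := Real.rpow_le_rpow (Real.rpow_nonneg (by linarith) _) h1 hc1.le
        rw [← Real.rpow_mul (by linarith), mul_one_div_cancel hC1p.ne', Real.rpow_one] at h3
        exact h3
      have hp0R : (0 : ℝ) < p0 := by exact_mod_cast (by omega : 0 < p0)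
      rw [← Real.log_le_iff_le_exp hp0R]
      exact h2
    · rw [Real.mul_rpow hTb0.le hν0]
      have h1 : ν ^ (2 * ε) ≤ 1 + ν := by
        rcases le_total ν 1 with h2 | h2
        · have := Real.rpow_le_one hν0 h2 (z := 2 * ε) (by linarith)
          linarith
        · have : ν ^ (2 * ε) ≤ ν ^ (1 : ℝ) :=
            Real.rpow_le_rpow_of_exponent_le h2 (by linarith)
          rw [Real.rpow_one] at this
          linarith
      calc Tb ^ (2 * ε) * ν ^ (2 * ε) ≤ Tb ^ (2 * ε) * (1 + ν) :=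
            mul_le_mul_of_nonneg_left h1 hK1a
        _ ≤ K1 * (1 + ν) := mul_le_mul_of_nonneg_right (by linarith) (by linarith)
    · refine le_trans ?_ (hP.lo (u.n - 1))
      have h1 : Real.log ((2 * p0 + p0 : ℕ) : ℝ) ^ (-C6) ≤
          Real.log ((u.n - 1 + p0 : ℕ) : ℝ) ^ (-C6) :=
        Real.rpow_le_rpow_of_nonpos hlm0 hlm (by linarith)
      refine le_trans ?_ h1
      have h2 : 0 < Real.log ((2 * p0 + p0 : ℕ) : ℝ) ^ C6 :=
        Real.rpow_pos_of_pos (by linarith) _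
      rw [Real.rpow_neg (by linarith), ← one_div]
      refine one_div_le_one_div_of_le h2 ?_
      have : 0 ≤ Real.log p0 ^ C1 := Real.rpow_nonneg (by linarith) _
      linarith
    · have h1 : Real.log ((2 * p0 + p0 : ℕ) : ℝ) ^ (-C3) ≤ etaL c.wpL (u.n - 1) :=
        (Real.rpow_le_rpow_of_nonpos hlm0 hlm (by linarith)).trans (hP.etalo _)
      have h2 : 0 < Real.log ((2 * p0 + p0 : ℕ) : ℝ) ^ (-C3) :=
        Real.rpow_pos_of_pos (by linarith) _
      have h3 := Real.rpow_le_rpow_of_nonpos h2 h1 (z := -ε') (by linarith)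
      rw [← Real.rpow_mul (by linarith)] at h3
      have e : -C3 * -ε' = C3 * ε' := by ring
      rw [e] at h3
      refine h3.trans (le_trans ?_ hKν)
      linarith
  · -- a column `k`
    have hkp' : p0 < k := hkp
    have hk3 : 3 ≤ k := by omega
    have hun : u.n ≤ 2 * k := level_le (by omega) hall
    have hlk := hlog1 k hkp'.le
    have hlk0 : 0 < Real.log (k : ℝ) := by linarith
    have hkR : (0 : ℝ) < k := by exact_mod_cast hk.pos
    have hthrk : (2 * Real.log k) ^ (-C6) ≤ c.wpL.thr (u.n - 1) :=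
      (rpow_neg_log_ge hC6 hk3 (by omega) hkp'.le hp3).trans (hP.lo _)
    have hnum1 : CM * Real.log k * Real.log k ^ (-C1) ≤ (2 * Real.log k) ^ (-C6) ∧
        Real.log k ^ (-C1) ≤ (2 * Real.log k) ^ (-C6) := by
      have e1 : (2 * Real.log (k : ℝ)) ^ (-C6) = (2 ^ C6)⁻¹ * Real.log k ^ (-C6) := by
        rw [Real.mul_rpow (by norm_num) hlk0.le, Real.rpow_neg (by norm_num)]
      have h26p : (0 : ℝ) < 2 ^ C6 := by positivity
      have e2 : Real.log (k : ℝ) ^ (-C1) ≤ Real.log k ^ (-C6) * (Real.log k)⁻¹ * (Real.log k)⁻¹ := by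
        have e3 : Real.log (k : ℝ) ^ (-C6) * (Real.log k)⁻¹ * (Real.log k)⁻¹ =
            Real.log k ^ (-C6 - 1 - 1) := by
          rw [Real.rpow_sub hlk0, Real.rpow_sub hlk0, Real.rpow_one]
          field_simp
        rw [e3]
        exact Real.rpow_le_rpow_of_exponent_le hlk (by linarith)
      have hK := hlog2 k hkp'.le
      have hinv : (Real.log (k : ℝ))⁻¹ ≤ (2 ^ C6)⁻¹ * (CM + 1)⁻¹ := by
        rw [← mul_inv]
        exact inv_anti₀ (by positivity) hK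
      have hp6 : 0 < Real.log (k : ℝ) ^ (-C6) := by positivity
      constructor
      · calc CM * Real.log k * Real.log k ^ (-C1)
            ≤ CM * Real.log k *
              (Real.log k ^ (-C6) * (Real.log k)⁻¹ * (Real.log k)⁻¹) :=
              mul_le_mul_of_nonneg_left e2 (by positivity)
          _ = CM * Real.log k ^ (-C6) * (Real.log k)⁻¹ := by
              field_simp
          _ ≤ CM * Real.log k ^ (-C6) * ((2 ^ C6)⁻¹ * (CM + 1)⁻¹) :=
              mul_le_mul_of_nonneg_left hinv (by positivity)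
          _ = (CM * (CM + 1)⁻¹) * ((2 ^ C6)⁻¹ * Real.log k ^ (-C6)) := by ring
          _ ≤ 1 * ((2 ^ C6)⁻¹ * Real.log k ^ (-C6)) := by
              refine mul_le_mul_of_nonneg_right ?_ (by positivity)
              rw [← div_eq_mul_inv, div_le_one (by positivity)]
              linarith
          _ = _ := by rw [e1, one_mul]
      · calc Real.log k ^ (-C1) ≤ Real.log k ^ (-C6) * (Real.log k)⁻¹ * (Real.log k)⁻¹ := e2
          _ ≤ Real.log k ^ (-C6) * ((2 ^ C6)⁻¹ * (CM + 1)⁻¹) * 1 := by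
              refine mul_le_mul (mul_le_mul_of_nonneg_left hinv hp6.le)
                (inv_le_one_of_one_le₀ hlk) (by positivity) (by positivity)
          _ ≤ Real.log k ^ (-C6) * ((2 ^ C6)⁻¹ * 1) * 1 := by
              refine mul_le_mul_of_nonneg_right (mul_le_mul_of_nonneg_left
                (mul_le_mul_of_nonneg_left ?_ (by positivity)) hp6.le) (by norm_num)
              exact inv_le_one_of_one_le₀ (by linarith)
          _ = _ := by rw [e1]; ring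
    set T : ℝ := Real.log k ^ C1 with hT
    have hTp : 0 < T := by positivity
    have hT1 : Real.log (k : ℝ) ≤ T := by
      have := Real.rpow_le_rpow_of_exponent_le hlk (show (1 : ℝ) ≤ C1 by linarith)
      rwa [Real.rpow_one] at this
    have hTT : T0 ≤ T := (hlogT k hkp'.le).trans hT1
    have hX : (k : ℝ) ≤ Real.exp (T ^ (1 / C1)) := by
      rw [hT, ← Real.rpow_mul hlk0.le, mul_one_div_cancel hC1p.ne', Real.rpow_one,
        Real.exp_log hkR]
    have hinvT : 1 / T = Real.log k ^ (-C1) := by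
      rw [hT, Real.rpow_neg hlk0.le, one_div]
    have hthrT : 1 / T ≤ c.wpL.thr (u.n - 1) := by
      rw [hinvT]; exact hnum1.2.trans hthrk
    have hXp : ∀ l : ℕ, l.Prime → l < u.n → (l : ℝ) ≤ k := fun l h1 h2 => by
      exact_mod_cast hall l h1 h2
    rcases hmk with hlight | hheavy
    · -- light
      have hl' : μ < Real.log k ^ (-C1) := hlight
      refine H c n (par B C1 c2 p0) (w ψ) u Sl G wp T k K1 ν h.ok hF h.lv h.om hrt hlmA h.om0
        (htame k (by exact_mod_cast hkp'.le) hXp) hTT hX hK11 hνe ?_ hthrT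
        (hP.hi _) (hP.eta _) (hP.eta1 _) hfat (Or.inl ?_)
      · have h1 : T * μ ≤ 1 := by
          calc T * μ ≤ T * Real.log k ^ (-C1) := mul_le_mul_of_nonneg_left hl'.le hTp.le
            _ = 1 := by
              rw [hT, ← Real.rpow_add hlk0]; simp
        have h2 : (T * ν) ^ (2 * ε) ≤ 2 := by
          calc (T * ν) ^ (2 * ε) ≤ (2 : ℝ) ^ (2 * ε) :=
                Real.rpow_le_rpow (by positivity) (by rw [hν]; linarith) (by linarith)
            _ ≤ (2 : ℝ) ^ (1 : ℝ) := Real.rpow_le_rpow_of_exponent_le (by norm_num) (by linarith)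
            _ = 2 := Real.rpow_one _
        have h3 : (2 : ℝ) ≤ K1 := by
          have h4 : (1 : ℝ) ≤ 2 ^ c2 := Real.one_le_rpow (by norm_num) hc2.le
          linarith
        linarith
      · intro q hq hq'
        have h1 := h.rad hG hF hq (hrt q hq hq') (hrt2 q hq hq').2 (x := k)
          (by exact_mod_cast hk.two_le) hXp
        refine h1.trans (le_trans ?_ hthrk)
        refine le_trans ?_ hnum1.1
        exact mul_le_mul_of_nonneg_left hl'.le (by positivity)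
    · -- heavy
      have hh' : Real.log k ^ c2 < ν := lt_of_lt_of_le hheavy (by
        show μ ≤ ν
        linarith)
      have hν1 : 1 ≤ ν := (Real.one_le_rpow hlk hc2.le).trans hh'.le
      refine H c n (par B C1 c2 p0) (w ψ) u Sl G wp T k K1 ν h.ok hF h.lv h.om hrt hlmA h.om0
        (htame k (by exact_mod_cast hkp'.le) hXp) hTT hX hK11 hνe ?_ hthrT
        (hP.hi _) (hP.eta _) (hP.eta1 _) hfat (Or.inr ?_)
      · have h1 : T ≤ ν ^ (C1 / c2) := by
          have h2 := Real.rpow_le_rpow (by positivity) hh'.le (z := C1 / c2) (by positivity)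
          rw [← Real.rpow_mul hlk0.le, mul_div_cancel₀ _ hc2.ne'] at h2
          exact h2
        have h3 : T * ν ≤ ν ^ (1 + C1 / c2) := by
          rw [Real.rpow_add (by linarith), Real.rpow_one]
          nlinarith
        have h4 : (T * ν) ^ (2 * ε) ≤ ν := by
          calc (T * ν) ^ (2 * ε) ≤ (ν ^ (1 + C1 / c2)) ^ (2 * ε) :=
                Real.rpow_le_rpow (by positivity) h3 (by linarith)
            _ = ν ^ ((1 + C1 / c2) * (2 * ε)) := by rw [← Real.rpow_mul hν0]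
            _ ≤ ν ^ (1 : ℝ) := Real.rpow_le_rpow_of_exponent_le hν1 (by linarith)
            _ = ν := Real.rpow_one _
        exact h4.trans hKν2
      · have hlm0 : 0 < Real.log ((u.n - 1 + p0 : ℕ) : ℝ) :=
          Real.log_pos (by exact_mod_cast (by omega : 1 < u.n - 1 + p0))
        have h1 : (2 * Real.log k) ^ (-C3) ≤ etaL c.wpL (u.n - 1) :=
          (rpow_neg_log_ge hC3 hk3 (by omega) hkp'.le hp3).trans (hP.etalo _)
        have h2 : 0 < (2 * Real.log (k : ℝ)) ^ (-C3) := by positivity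
        have h3 := Real.rpow_le_rpow_of_nonpos h2 h1 (z := -ε') (by linarith)
        rw [← Real.rpow_mul (by positivity)] at h3
        have e : -C3 * -ε' = C3 * ε' := by ring
        rw [e] at h3
        have h4 : (2 * Real.log (k : ℝ)) ^ (C3 * ε') ≤ (2 * Real.log k) ^ c2 :=
          Real.rpow_le_rpow_of_exponent_le (by linarith) hε'C
        have h5 : (2 * Real.log (k : ℝ)) ^ c2 = 2 ^ c2 * Real.log k ^ c2 :=
          Real.mul_rpow (by norm_num) hlk0.le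
        have h6 : (2 : ℝ) ^ c2 * Real.log k ^ c2 ≤ 2 ^ c2 * ν :=
          mul_le_mul_of_nonneg_left hh'.le hK1c
        have h7 : (2 : ℝ) ^ c2 * ν ≤ K1 * (1 + ν) := by
          have h8 : (2 : ℝ) ^ c2 ≤ K1 := by linarith
          exact mul_le_mul h8 (by linarith) hν0 (by linarith)
        linarith

end Crest.Agent.R4P.LeafA734
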