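import Crest.Agent.R4P.FrameL758
import Crest.Agent.R4.LeafUX944

/-!
R4 (S0004), POWERS (helper820): **bridge for the leaf modules** (`R4/LeafU368`, `R4/LeafL363`,
`R4/LeafUX944`).  The leaf theorems with abstract masses do not mention item trees: they are used
through `toR4` (same fields, `lf` definitionally equal).  The versions with raw masses get the free
factor `c` of the leaf and lose all coprimality conditions: only
`b * φ(w)/w ≤ 2 * (c * φ(q)/q)` (`PhiU820.leaf_mass`) is needed.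
-/

set_option autoImplicit false
set_option linter.unusedVariables false
open Finset MeasureTheory
open scoped ENNReal

namespace Crest.Agent.R4P.LeafB820

open Crest.Agent.R4.Ovl560 Crest.Agent.R4.AnnLeaf368
open Crest.Agent.R4.Piece464
open Crest.Agent.R4.Tour104 (PB I)
open Crest.Agent.R4.HVW560 Crest.Agent.R4.ClsS Crest.Agent.R4.ClsB
open Crest.Agent.R4.LF363 Crest.Agent.R4.LF4
open Crest.Agent.R4.LF11 Crest.Agent.R4.LFA Crest.Agent.R4.LF12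
open Crest.Agent.R4P.Frame758 Crest.Agent.R4P.Item758

variable {Λ κ₀ : Type}

/-- the same data as R4 data -/
def toR4 (D : Par0 Λ κ₀) : Crest.Agent.R4.Item758.Par0 Λ κ₀ where
  γ := D.γ
  it := D.it
  al := D.al
  be := D.be
  om := D.om
  rho := D.rho
  rhoL := D.rhoL

lemma lf_toR4 (D : Par0 Λ κ₀) (b pr : ℕ) (j : Λ) :
    Crest.Agent.R4.Frame758.lf (toR4 D) b pr j = lf D b pr j := rfl

/-- **unlabelled items, abstract masses** (944's `leafI_UX`) -/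
theorem leafI_UX : ∃ c0 C : ℝ, 0 < c0 ∧ 1 ≤ C ∧ ∀ c1 : ℝ, 0 < c1 → c1 ≤ c0 →
    ∃ T0 : ℝ, 2^50 ≤ T0 ∧
    ∀ (Λ κ₀ ω : Type) [Fintype Λ] [DecidableEq Λ] [Fintype κ₀] [DecidableEq κ₀] [DecidableEq ω]
      (D : Par0 Λ κ₀) (rr : Λ → ω) (T η X : ℝ) (b pr u₀ G : ℕ) (ψ : ℕ → ℝ) (lab : ℕ → Option ℚ)
      (w : ℕ → ℕ) (J : Finset Λ) (m : Λ → ℝ),
    T0 ≤ T → X ≤ Real.exp (T^c1) → 0 < η → (∀ j ∈ J, 0 ≤ m j) →
    η * (∑ j ∈ J, m j) * T ≤ 1 → 0 < b → 0 < pr → 0 < u₀ → 0 < G →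
    (∀ j ∈ J, 0 < w (D.it j) ∧ D.it j = pr * (u₀ * w (D.it j))) →
    (∀ z : ℝ, X ≤ z → ∀ j ∈ J, Tame z G (w (D.it j))) →
    (∀ j ∈ J, 0 < ψ (D.it j)) →
    (∀ j ∈ J, ∀ ρ, lab (D.it j) = some ρ ↔ Lab (b * D.γ) (η * (b * ψ (D.it j))) ρ) →
    (∀ j ∈ J, -ψ (D.it j) ≤ D.al j ∧ D.be j ≤ ψ (D.it j)) →
    (∀ j ∈ J, ∀ j' ∈ J, D.it j = D.it j' → ∀ s : ℝ, D.al j ≤ s → s < D.be j → D.al j' ≤ s →
      s < D.be j' → j = j') →
    (∀ j ∈ J, Wt (D.it j / pr) (D.om j)) →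
    (∀ j ∈ J, ∀ a, D.om j a ≤
      nw (w (D.it j)).primeFactors (uw (b * D.γ) (η * (b * ψ (D.it j))) (lab (D.it j))) a) →
    (∀ j ∈ J, ∀ j' ∈ J, rr j = rr j' → ∀ z z' : ℝ, D.al j ≤ z → z < D.be j →
      D.al j' ≤ z' → z' < D.be j' →
      |z / D.it j - z' / D.it j'| ≤ η * min (ψ (D.it j) / D.it j) (ψ (D.it j') / D.it j')) →
    (∀ j ∈ J, b * ψ (D.it j) * ((Nat.totient (w (D.it j)) : ℝ) / w (D.it j)) ≤
      ∑ j' ∈ J.filter (fun j' => D.it j' = D.it j), m j') →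
    ∑ j ∈ J, ∑ j' ∈ J.filter (fun j' => rr j = rr j'),
      I (fun x => lf D b pr j x * lf D b pr j' x) ≤ C * ∑ j ∈ J, m j := by
  obtain ⟨c0, C, hc0, hC, hH⟩ := Crest.Agent.R4.LeafUX944.leafI_UX
  refine ⟨c0, C, hc0, hC, fun c1 h1 h2 => ?_⟩
  obtain ⟨T0, hT0, hT⟩ := hH c1 h1 h2
  refine ⟨T0, hT0, ?_⟩
  intro Λ κ₀ ω _ _ _ _ _ D rr T η X b pr u₀ G ψ lab w J m
  exact hT Λ κ₀ ω (toR4 D) rr T η X b pr u₀ G ψ lab w J m

/-- the same data, weights divided by `K` -/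
noncomputable def scl (D : Par0 Λ κ₀) (K : ℝ) : Par0 Λ κ₀ :=
  { D with om := fun j a => D.om j a / K }

lemma lf_scl (D : Par0 Λ κ₀) {K : ℝ} (hK : K ≠ 0) (b pr : ℕ) (j : Λ) (x : ℝ) :
    lf D b pr j x = K * lf (scl D K) b pr j x :=
  Crest.Agent.R4.LeafUX944.lf_scl (toR4 D) hK b pr j x

lemma sum_lf_scl [DecidableEq Λ] (D : Par0 Λ κ₀) {K : ℝ} (hK : K ≠ 0) (b pr : ℕ) {ω : Type*}
    [DecidableEq ω] (rr : Λ → ω) (J : Finset Λ) :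
    ∑ j ∈ J, ∑ j' ∈ J.filter (fun j' => rr j = rr j'),
      I (fun x => lf D b pr j x * lf D b pr j' x) =
    K ^ 2 * ∑ j ∈ J, ∑ j' ∈ J.filter (fun j' => rr j = rr j'),
      I (fun x => lf (scl D K) b pr j x * lf (scl D K) b pr j' x) :=
  Crest.Agent.R4.LeafUX944.sum_lf_scl (toR4 D) hK b pr rr J

lemma Wt.scl {w : ℕ} {κ : ℤ → ℝ} (h : Wt w κ) {K : ℝ} (hK : 0 < K) : Wt w fun a => κ a / K :=
  ⟨fun a => div_nonneg (h.nonneg a) hK.le, fun a => by simp only [h.per a]⟩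

/-- mass of one item in terms of the raw masses of its pieces, general factor -/
lemma mass_item' [Fintype Λ] [DecidableEq Λ] (D : Par0 Λ κ₀) {b w : ℕ} {c ψ : ℝ} {W : Λ → ℝ}
    {J : Finset Λ} {j : Λ} (hj : j ∈ J) (hψ : 0 < ψ)
    (hW : ∀ j ∈ J, W j = (D.be j - D.al j) * ((Nat.totient (D.it j) : ℝ) / D.it j))
    (hcl : ∀ j', D.it j' = D.it j → j' ∈ J)
    (hfull : ψ ≤ ∑ j' ∈ Finset.univ.filter (fun j' => D.it j' = D.it j), (D.be j' - D.al j'))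
    (hm : (b : ℝ) * ((Nat.totient w : ℝ) / w) ≤
      2 * (c * ((Nat.totient (D.it j) : ℝ) / D.it j))) :
    b * ψ * ((Nat.totient w : ℝ) / w) ≤
      ∑ j' ∈ J.filter (fun j' => D.it j' = D.it j), 2 * c * W j' := by
  have e3 : J.filter (fun j' => D.it j' = D.it j) =
      Finset.univ.filter (fun j' => D.it j' = D.it j) := by
    ext j'
    simp only [Finset.mem_filter, Finset.mem_univ, true_and]
    exact ⟨fun h => h.2, fun h => ⟨hcl j' h, h⟩⟩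
  have e4 : ∑ j' ∈ J.filter (fun j' => D.it j' = D.it j), 2 * c * W j' =
      (∑ j' ∈ Finset.univ.filter (fun j' => D.it j' = D.it j), (D.be j' - D.al j')) *
        (2 * (c * ((Nat.totient (D.it j) : ℝ) / D.it j))) := by
    rw [e3, Finset.sum_mul]
    refine Finset.sum_congr rfl fun j' hj' => ?_
    have h3 := (Finset.mem_filter.1 hj').2
    rw [hW j' (hcl j' h3), h3]
    ring
  rw [e4]
  have h0 : (0 : ℝ) ≤ b * ((Nat.totient w : ℝ) / w) := by positivity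
  calc b * ψ * ((Nat.totient w : ℝ) / w) = ψ * (b * ((Nat.totient w : ℝ) / w)) := by ring
    _ ≤ _ := mul_le_mul hfull hm h0 (hψ.le.trans hfull)

/-- **LeafI for the unlabelled items, powers form**: raw masses `W j = (be j - al j) φ(q)/q`, factor
`c` of the leaf, weights `om ≤ K nw (uw ..)`, NO coprimality. -/
theorem leafI_UX' : ∃ c0 C : ℝ, 0 < c0 ∧ 1 ≤ C ∧ ∀ c1 : ℝ, 0 < c1 → c1 ≤ c0 →
    ∃ T0 : ℝ, 2^50 ≤ T0 ∧
    ∀ (Λ κ₀ ω : Type) [Fintype Λ] [DecidableEq Λ] [Fintype κ₀] [DecidableEq κ₀] [DecidableEq ω]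
      (D : Par0 Λ κ₀) (rr : Λ → ω) (W : Λ → ℝ) (K T η X c : ℝ) (b pr u₀ G : ℕ) (ψ : ℕ → ℝ)
      (lab : ℕ → Option ℚ) (w : ℕ → ℕ) (J : Finset Λ),
    0 < K → T0 ≤ T → X ≤ Real.exp (T^c1) → 0 < η → 0 ≤ c → 0 < b → 0 < pr → 0 < u₀ → 0 < G →
    (∀ j ∈ J, W j = (D.be j - D.al j) * ((Nat.totient (D.it j) : ℝ) / D.it j)) →
    (∀ j ∈ J, D.al j ≤ D.be j) →
    (∀ j ∈ J, ∀ j', D.it j' = D.it j → j' ∈ J) →
    (∀ j ∈ J, ψ (D.it j) ≤
      ∑ j' ∈ Finset.univ.filter (fun j' => D.it j' = D.it j), (D.be j' - D.al j')) →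
    η * (2 * c * ∑ j ∈ J, W j) * T ≤ 1 →
    (∀ j ∈ J, 0 < w (D.it j) ∧ D.it j = pr * (u₀ * w (D.it j))) →
    (∀ j ∈ J, (b : ℝ) * ((Nat.totient (w (D.it j)) : ℝ) / w (D.it j)) ≤
      2 * (c * ((Nat.totient (D.it j) : ℝ) / D.it j))) →
    (∀ z : ℝ, X ≤ z → ∀ j ∈ J, Tame z G (w (D.it j))) →
    (∀ j ∈ J, 0 < ψ (D.it j)) →
    (∀ j ∈ J, ∀ ρ, lab (D.it j) = some ρ ↔ Lab (b * D.γ) (η * (b * ψ (D.it j))) ρ) →
    (∀ j ∈ J, -ψ (D.it j) ≤ D.al j ∧ D.be j ≤ ψ (D.it j)) →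
    (∀ j ∈ J, ∀ j' ∈ J, D.it j = D.it j' → ∀ s : ℝ, D.al j ≤ s → s < D.be j → D.al j' ≤ s →
      s < D.be j' → j = j') →
    (∀ j ∈ J, Wt (D.it j / pr) (D.om j)) →
    (∀ j ∈ J, ∀ a, D.om j a ≤ K *
      nw (w (D.it j)).primeFactors (uw (b * D.γ) (η * (b * ψ (D.it j))) (lab (D.it j))) a) →
    (∀ j ∈ J, ∀ j' ∈ J, rr j = rr j' → ∀ z z' : ℝ, D.al j ≤ z → z < D.be j →
      D.al j' ≤ z' → z' < D.be j' →
      |z / D.it j - z' / D.it j'| ≤ η * min (ψ (D.it j) / D.it j) (ψ (D.it j') / D.it j')) →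
    ∑ j ∈ J, ∑ j' ∈ J.filter (fun j' => rr j = rr j'),
      I (fun x => lf D b pr j x * lf D b pr j' x) ≤
      K ^ 2 * (2 * C * (c * ∑ j ∈ J, W j)) := by
  obtain ⟨c0, C, hc0, hC, hH⟩ := leafI_UX
  refine ⟨c0, C, hc0, hC, fun c1 h1 h2 => ?_⟩
  obtain ⟨T0, hT0, hT⟩ := hH c1 h1 h2
  refine ⟨T0, hT0, ?_⟩
  intro Λ κ₀ ω _ _ _ _ _ D rr W K T η X c b pr u₀ G ψ lab w J hK hT1 hX hη hc hb hpr hu₀ hG hW hab
    hcl hfull hηM hit hmass htame hψ hlab hwin hdis hWt hom hclose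
  have hWn : ∀ j ∈ J, 0 ≤ W j := fun j hj => by
    rw [hW j hj]
    have := hab j hj
    exact mul_nonneg (by linarith) (by positivity)
  have e : ∑ j ∈ J, 2 * c * W j = 2 * c * ∑ j ∈ J, W j := by
    rw [Finset.mul_sum]
  rw [sum_lf_scl D hK.ne' b pr rr J]
  refine mul_le_mul_of_nonneg_left ?_ (by positivity)
  have key := hT Λ κ₀ ω (scl D K) rr T η X b pr u₀ G ψ lab w J
    (fun j => 2 * c * W j) hT1 hX hη
    (fun j hj => mul_nonneg (by positivity) (hWn j hj)) (by rw [e]; exact hηM) hb hpr hu₀ hG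
    hit htame hψ hlab hwin hdis
    (fun j hj => Wt.scl (hWt j hj) hK)
    (fun j hj a => by
      show D.om j a / K ≤ _
      rw [div_le_iff₀ hK, mul_comm]
      exact hom j hj a)
    hclose (fun j hj => mass_item' D hj (hψ j hj) hW (hcl j hj) (hfull j hj) (hmass j hj))
  refine key.trans (le_of_eq ?_)
  rw [e]; ring

/-- **labelled items, powers form**, weights `om ≤ K nw (uw ..)` -/
theorem leafI_LX' {C K : ℝ} (hC : 0 ≤ C) (hK : 0 < K) {Λ κ₀ : Type} [Fintype Λ] [DecidableEq Λ]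
    [Fintype κ₀] [DecidableEq κ₀] (D : Par0 Λ κ₀) {ω : Type*} [DecidableEq ω] (rr : Λ → ω)
    (W : Λ → ℝ) {c : ℝ} (b pr : ℕ) (ψ φ : ℕ → ℝ) (lab : ℕ → Option ℚ)
    (u w : ℕ → ℕ) (J : Finset Λ) (hc : 0 ≤ c) (hb : 0 < b) (hpr : 0 < pr)
    (hW : ∀ j ∈ J, W j = (D.be j - D.al j) * ((Nat.totient (D.it j) : ℝ) / D.it j))
    (hcl : ∀ j ∈ J, ∀ j', D.it j' = D.it j → j' ∈ J)
    (hfull : ∀ j ∈ J, ψ (D.it j) ≤
      ∑ j' ∈ Finset.univ.filter (fun j' => D.it j' = D.it j), (D.be j' - D.al j'))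
    (hit : ∀ j ∈ J, 0 < u (D.it j) ∧ 0 < w (D.it j) ∧ D.it j = pr * (u (D.it j) * w (D.it j)))
    (hmass : ∀ j ∈ J, (b : ℝ) * ((Nat.totient (w (D.it j)) : ℝ) / w (D.it j)) ≤
      2 * (c * ((Nat.totient (D.it j) : ℝ) / D.it j)))
    (hψ : ∀ j ∈ J, 0 < ψ (D.it j))
    (hlab : ∀ j ∈ J, lab (D.it j) ≠ none)
    (hwin : ∀ j ∈ J, -ψ (D.it j) ≤ D.al j ∧ D.be j ≤ ψ (D.it j))
    (hdis : ∀ j ∈ J, ∀ j' ∈ J, D.it j = D.it j' → ∀ s : ℝ, D.al j ≤ s → s < D.be j →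
      D.al j' ≤ s → s < D.be j' → j = j')
    (hWt : ∀ j ∈ J, Wt (D.it j / pr) (D.om j))
    (hom : ∀ j ∈ J, ∀ a, D.om j a ≤ K *
      nw (w (D.it j)).primeFactors (uw (b * D.γ) (φ (D.it j)) (lab (D.it j))) a)
    (hu : ∀ j ∈ J, ∀ j' ∈ J, rr j = rr j' → u (D.it j) = u (D.it j'))
    (hex : ∀ j ∈ J, ∀ j' ∈ J, rr j = rr j' → ∀ (m n : ℤ) (x : ℝ),
      (b * D.al j ≤ ((D.it j / pr : ℕ) : ℝ) * x - b * D.γ - m ∧
        ((D.it j / pr : ℕ) : ℝ) * x - b * D.γ - m < b * D.be j) →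
      (b * D.al j' ≤ ((D.it j' / pr : ℕ) : ℝ) * x - b * D.γ - n ∧
        ((D.it j' / pr : ℕ) : ℝ) * x - b * D.γ - n < b * D.be j') →
      ∀ σ τ : ℚ, lab (D.it j) = some σ → lab (D.it j') = some τ →
      ((m : ℝ) + σ) / ((D.it j / pr : ℕ) : ℝ) = (n + τ) / ((D.it j' / pr : ℕ) : ℝ))
    (hEx : ∀ u0 ∈ J.image (fun j => u (D.it j)),
      Crest.Agent.R4.LeafL363.ExB (toR4 D) b pr ψ φ lab u w J C u0) :
    ∑ j ∈ J, ∑ j' ∈ J.filter (fun j' => rr j = rr j'),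
      I (fun x => lf D b pr j x * lf D b pr j' x) ≤
      K ^ 2 * (2 * C * (c * ∑ j ∈ J, W j)) := by
  rw [sum_lf_scl D hK.ne' b pr rr J]
  refine mul_le_mul_of_nonneg_left ?_ (by positivity)
  have e : ∑ j ∈ J, 2 * c * W j = 2 * c * ∑ j ∈ J, W j := by
    rw [Finset.mul_sum]
  have key := Crest.Agent.R4.LeafL363.leafI_L hC (toR4 (scl D K)) rr b pr ψ φ lab u w J
    (fun j => 2 * c * W j) hb hpr hit hψ hlab hwin hdis
    (fun j hj => Wt.scl (hWt j hj) hK)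
    (fun j hj a => by
      show D.om j a / K ≤ _
      rw [div_le_iff₀ hK, mul_comm]
      exact hom j hj a) hu hex
    (fun j hj => mass_item' D hj (hψ j hj) hW (hcl j hj) (hfull j hj) (hmass j hj)) hEx
  refine key.trans (le_of_eq ?_)
  rw [e]; ring

end Crest.Agent.R4P.LeafB820
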