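import Crest.Agent.R4P.World2_363

/-!
(Port of `R4/WPex189` to the item tree with powers, `R4P/Cnt588`; helper746.)
R4 (S0004), helper189: **existence of the world parameters** `W363.WP`.

For any thinness `thr` and depth `dep`, any tree, radii, levels `≤ n` and any constant `K` there is a
`P : WP` with these `thr`, `dep` which is FINE for the finite set `S`: the logarithmic cells cover all
arcs and their central cell is negligible, the exact grid separates all snapped centres (also on the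
circles `A B` with `B ≤ K`) and covers all offsets.
-/

set_option autoImplicit false

namespace Crest.Agent.R4P.WPex189

open Crest.Agent.R4P.W363 Crest.Agent.R4P.Cnt588

/-- **fineness** of the world parameters `P` for the items `S` (radii `r`) at the levels `≤ n` -/
structure Fine (P : WP) (γ : ℝ) (r : ℕ → ℝ) (t : IT) (S : Finset ℕ) (n K : ℕ) : Prop where
  ρ0 : 0 < P.ρ₀
  n0 : 0 < P.n₀
  /-- the cells cover the arcs -/
  cover : ∀ q ∈ S, r q / q < P.ρ₀ * Real.exp P.n₀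
  /-- the central cell is negligible -/
  tiny : ∀ p ≤ n, ∀ q ∈ S, 0 < q → 0 < r q →
    6 * P.ρ₀ ≤ (Real.exp (1 / 2 ^ P.dep p) - 1) * (r q / q)
  δ0 : 0 < P.δ₀
  /-- the grid separates the snapped centres -/
  grid : ∀ p ≤ n, ∀ p' ≤ n, ∀ q ∈ S, ∀ q' ∈ S, ∀ σ τ : ℚ, P.st γ r t p q = some σ →
    P.st γ r t p' q' = some τ → P.δ₀ * (K * ((σ.den * q) * (τ.den * q'))) ≤ 1
  /-- the grid covers the offsets -/
  off : ∀ p ≤ n, ∀ q ∈ S, 0 < q → ∀ σ : ℚ, P.st γ r t p q = some σ → ∀ z : ℝ, |z| ≤ r q →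
    |W363.off γ σ q z| < P.n₁ * P.δ₀

/-! ### elementary bounds over finite sets -/

lemma exists_pos_lb {ι : Type*} (s : Finset ι) (f : ι → ℝ) (hf : ∀ i ∈ s, 0 < f i) :
    ∃ ε : ℝ, 0 < ε ∧ ∀ i ∈ s, ε ≤ f i := by
  classical
  induction s using Finset.induction_on with
  | empty => exact ⟨1, one_pos, by simp⟩
  | insert a s ha ih =>
    obtain ⟨ε, hε, h⟩ := ih fun i hi => hf i (Finset.mem_insert_of_mem hi)
    refine ⟨min ε (f a), lt_min hε (hf a (Finset.mem_insert_self _ _)), ?_⟩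
    intro i hi
    rcases Finset.mem_insert.1 hi with rfl | hi
    · exact min_le_right _ _
    · exact (min_le_left _ _).trans (h i hi)

lemma exists_ub {ι : Type*} (s : Finset ι) (f : ι → ℝ) :
    ∃ M : ℝ, 0 < M ∧ ∀ i ∈ s, f i ≤ M := by
  classical
  induction s using Finset.induction_on with
  | empty => exact ⟨1, one_pos, by simp⟩
  | insert a s ha ih =>
    obtain ⟨M, hM, h⟩ := ih
    refine ⟨max M (f a), lt_max_of_lt_left hM, ?_⟩
    intro i hi
    rcases Finset.mem_insert.1 hi with rfl | hi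
    · exact le_max_right _ _
    · exact (h i hi).trans (le_max_left _ _)

lemma st_congr {P P' : WP} (h : P.thr = P'.thr) (γ : ℝ) (r : ℕ → ℝ) (t : IT) (p q : ℕ) :
    P.st γ r t p q = P'.st γ r t p q := by
  unfold WP.st
  rw [h]

/-- **existence of fine world parameters** -/
theorem exists_fine (thr : ℕ → ℝ) (dep : ℕ → ℕ) (γ : ℝ) (r : ℕ → ℝ) (t : IT) (S : Finset ℕ)
    (n K : ℕ) : ∃ P : WP, P.thr = thr ∧ P.dep = dep ∧ Fine P γ r t S n K := by
  classical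
  set P₁ : WP := ⟨thr, dep, 1, 1, 1, 1⟩ with hP₁
  -- the scale `ρ₀`
  have hexp : ∀ k : ℕ, 0 < Real.exp (1 / 2 ^ k) - 1 := by
    intro k
    have h1 : (0 : ℝ) < 1 / 2 ^ k := by positivity
    have := Real.add_one_lt_exp h1.ne'
    linarith
  obtain ⟨ε, hε, h1⟩ := exists_pos_lb
    ((Finset.range (n + 1)) ×ˢ (S.filter fun q => 0 < q ∧ 0 < r q))
    (fun x => (Real.exp (1 / 2 ^ dep x.1) - 1) * (r x.2 / x.2) / 6) (by
      rintro ⟨p, q⟩ h
      obtain ⟨-, h3⟩ := Finset.mem_product.1 h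
      obtain ⟨-, h4, h5⟩ := Finset.mem_filter.1 h3
      have h6 := hexp (dep p)
      have h7 : (0 : ℝ) < q := by exact_mod_cast h4
      have h5' : 0 < r q := h5
      show 0 < (Real.exp (1 / 2 ^ dep p) - 1) * (r q / q) / 6
      positivity)
  -- the range `n₀`
  obtain ⟨M₀, hM₀, h2⟩ := exists_ub S (fun q => r q / q)
  obtain ⟨k₀, hk₀⟩ := exists_nat_gt (M₀ / ε)
  -- the grid
  set d : ℕ → ℕ → ℝ := fun p q => ((P₁.st γ r t p q).elim 1 fun σ => (σ.den : ℝ)) with hd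
  obtain ⟨M₁, hM₁, h3⟩ := exists_ub
    (((Finset.range (n + 1)) ×ˢ S) ×ˢ ((Finset.range (n + 1)) ×ˢ S))
    (fun x => (K : ℝ) * ((d x.1.1 x.1.2 * x.1.2) * (d x.2.1 x.2.2 * x.2.2)))
  set e : ℕ → ℕ → ℝ := fun p q => ((P₁.st γ r t p q).elim 0 fun σ => (r q + |γ - σ|) / q) with he
  obtain ⟨M₂, hM₂, h4⟩ := exists_ub ((Finset.range (n + 1)) ×ˢ S) (fun x => e x.1 x.2)
  obtain ⟨k₁, hk₁⟩ := exists_nat_gt (M₂ * M₁)
  refine ⟨⟨thr, dep, ε, k₀ + 1, 1 / M₁, k₁⟩, rfl, rfl, ?_⟩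
  have hst : ∀ p q, WP.st ⟨thr, dep, ε, k₀ + 1, 1 / M₁, k₁⟩ γ r t p q = P₁.st γ r t p q :=
    fun p q => st_congr rfl γ r t p q
  refine
    { ρ0 := hε
      n0 := Nat.succ_pos _
      cover := ?_
      tiny := ?_
      δ0 := by show 0 < 1 / M₁; positivity
      grid := ?_
      off := ?_ }
  · intro q hq
    refine lt_of_le_of_lt (h2 q hq) ?_
    show M₀ < ε * Real.exp ((k₀ + 1 : ℕ) : ℝ)
    have h5 : ((k₀ + 1 : ℕ) : ℝ) + 1 ≤ Real.exp ((k₀ + 1 : ℕ) : ℝ) := Real.add_one_le_exp _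
    have h6 : M₀ < k₀ * ε := by rwa [div_lt_iff₀ hε] at hk₀
    push_cast at h5 ⊢
    nlinarith
  · intro p hp q hq hq0 hr
    have h5 := h1 (p, q) (Finset.mem_product.2 ⟨Finset.mem_range.2 (Nat.lt_succ_of_le hp),
      Finset.mem_filter.2 ⟨hq, hq0, hr⟩⟩)
    show 6 * ε ≤ (Real.exp (1 / 2 ^ dep p) - 1) * (r q / q)
    have h6 : ε ≤ (Real.exp (1 / 2 ^ dep p) - 1) * (r q / q) / 6 := h5
    linarith
  · intro p hp p' hp' q hq q' hq' σ τ hσ hτ
    rw [hst] at hσ hτ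
    have h5 := h3 ((p, q), (p', q')) (Finset.mem_product.2
      ⟨Finset.mem_product.2 ⟨Finset.mem_range.2 (Nat.lt_succ_of_le hp), hq⟩,
       Finset.mem_product.2 ⟨Finset.mem_range.2 (Nat.lt_succ_of_le hp'), hq'⟩⟩)
    have h6 : d p q = σ.den := by rw [hd]; simp only [hσ, Option.elim_some]
    have h7 : d p' q' = τ.den := by rw [hd]; simp only [hτ, Option.elim_some]
    have h8 : (K : ℝ) * ((d p q * q) * (d p' q' * q')) ≤ M₁ := h5
    rw [h6, h7] at h8
    show 1 / M₁ * ((K : ℝ) * ((σ.den * q) * (τ.den * q'))) ≤ 1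
    rw [one_div, inv_mul_le_iff₀ hM₁, mul_one]
    exact h8
  · intro p hp q hq hq0 σ hσ z hz
    rw [hst] at hσ
    have h5 := h4 (p, q) (Finset.mem_product.2 ⟨Finset.mem_range.2 (Nat.lt_succ_of_le hp), hq⟩)
    have h6 : e p q = (r q + |γ - σ|) / q := by rw [he]; simp only [hσ, Option.elim_some]
    have h7 : e p q ≤ M₂ := h5
    rw [h6] at h7
    have h8 : |W363.off γ σ q z| ≤ (r q + |γ - σ|) / q := by
      unfold W363.off
      rw [abs_div, Nat.abs_cast]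
      exact div_le_div_of_nonneg_right ((abs_add_le _ _).trans (by linarith)) (Nat.cast_nonneg _)
    show |W363.off γ σ q z| < (k₁ : ℝ) * (1 / M₁)
    refine lt_of_le_of_lt (h8.trans h7) ?_
    rw [mul_one_div, lt_div_iff₀ hM₁]
    exact hk₁

/-! ### consequences in circle coordinates -/

/-- the denominator of `B σ` is at most the one of `σ` -/
lemma den_mul_le (B : ℕ) (σ : ℚ) : ((B : ℚ) * σ).den ≤ σ.den := by
  have h : ((B : ℚ) * σ).den ∣ (B : ℚ).den * σ.den := Rat.mul_den_dvd _ _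
  have h1 : ((B : ℚ)).den = 1 := Rat.den_natCast _
  rw [h1, one_mul] at h
  exact Nat.le_of_dvd σ.den_pos h

/-- the separation on the circle `A B` (`q = A w`, `q' = A' w'`, `B ≤ K`): denominators of the root
labels -/
theorem Fine.circle {P : WP} {γ : ℝ} {r : ℕ → ℝ} {t : IT} {S : Finset ℕ} {n K : ℕ}
    (h : Fine P γ r t S n K) {p p' q q' : ℕ} (hp : p ≤ n) (hp' : p' ≤ n) (hq : q ∈ S)
    (hq' : q' ∈ S) (hq0 : 0 < q') {σ τ : ℚ} (hσ : P.st γ r t p q = some σ)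
    (hτ : P.st γ r t p' q' = some τ) {A A' B w w' : ℕ} (e : q = A * w) (e' : q' = A' * w')
    (hB : B ≤ K) :
    P.δ₀ * (((A * B : ℕ) : ℝ) * ((σ.den * w) * (τ.den * w'))) ≤ 1 := by
  refine le_trans ?_ (h.grid p hp p' hp' q hq q' hq' σ τ hσ hτ)
  refine mul_le_mul_of_nonneg_left ?_ h.δ0.le
  have hw' : w' ≤ q' := Nat.le_of_dvd hq0 ⟨A', by rw [e', mul_comm]⟩
  have key : (A * B) * ((σ.den * w) * (τ.den * w')) ≤ K * ((σ.den * q) * (τ.den * q')) := by
    calc (A * B) * ((σ.den * w) * (τ.den * w')) = B * ((σ.den * (A * w)) * (τ.den * w')) := by ring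
      _ = B * ((σ.den * q) * (τ.den * w')) := by rw [e]
      _ ≤ K * ((σ.den * q) * (τ.den * q')) := by
          refine Nat.mul_le_mul hB (Nat.mul_le_mul_left _ (Nat.mul_le_mul_left _ hw'))
  exact_mod_cast key

/-- the same with the denominators of the labels on the circles -/
theorem Fine.circle' {P : WP} {γ : ℝ} {r : ℕ → ℝ} {t : IT} {S : Finset ℕ} {n K : ℕ}
    (h : Fine P γ r t S n K) {p p' q q' : ℕ} (hp : p ≤ n) (hp' : p' ≤ n) (hq : q ∈ S)
    (hq' : q' ∈ S) (hq0 : 0 < q') {σ τ : ℚ} (hσ : P.st γ r t p q = some σ)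
    (hτ : P.st γ r t p' q' = some τ) {A A' B B' w w' : ℕ} (e : q = A * w) (e' : q' = A' * w')
    (hB : B ≤ K) :
    P.δ₀ * (((A * B : ℕ) : ℝ) * ((((B : ℚ) * σ).den * w) * ((((B' : ℚ) * τ).den) * w'))) ≤ 1 := by
  refine le_trans ?_ (h.circle hp hp' hq hq' hq0 hσ hτ e e' hB)
  refine mul_le_mul_of_nonneg_left ?_ h.δ0.le
  have key : (A * B) * (((((B : ℚ) * σ)).den * w) * ((((B' : ℚ) * τ)).den * w')) ≤
      (A * B) * ((σ.den * w) * (τ.den * w')) :=
    Nat.mul_le_mul_left _ (Nat.mul_le_mul (Nat.mul_le_mul_right _ (den_mul_le B σ))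
      (Nat.mul_le_mul_right _ (den_mul_le B' τ)))
  exact_mod_cast key

/-- **exact centres from equal labelled worlds** (root coordinates) -/
theorem Fine.exact {P : WP} {γ : ℝ} {r : ℕ → ℝ} {t : IT} {S : Finset ℕ} {n K : ℕ}
    (h : Fine P γ r t S n K) (hK : 0 < K) {p q q' : ℕ} (hp : p ≤ n) (hq : q ∈ S)
    (hq' : q' ∈ S) (hq0 : 0 < q) (hq0' : 0 < q') {σ τ : ℚ} (hσ : P.st γ r t p q = some σ)
    (hτ : P.st γ r t p q' = some τ) {x z z' : ℝ} {a a' : ℤ} (hz : z = q * x - γ - a)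
    (hz' : z' = q' * x - γ - a') (h1 : |z| ≤ r q) (h2 : |z'| ≤ r q')
    (hix : P.ix γ p q (some σ) z = P.ix γ p q' (some τ) z') :
    ((a : ℝ) + σ) / q = (a' + τ) / q' := by
  refine P.exact_of_same hq0 hq0' h.δ0 ?_ hz hz' (h.off p hp q hq hq0 σ hσ z h1)
    (h.off p hp q' hq' hq0' τ hτ z' h2) hix
  refine le_trans ?_ (h.grid p hp p hp q hq q' hq' σ τ hσ hτ)
  refine mul_le_mul_of_nonneg_left ?_ h.δ0.le
  have key : (σ.den * q) * (τ.den * q') ≤ K * ((σ.den * q) * (τ.den * q')) :=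
    Nat.le_mul_of_pos_left _ hK
  have key' : ((σ.den : ℝ) * q * (τ.den * q')) ≤ K * ((σ.den * q) * (τ.den * q')) := by
    exact_mod_cast key
  exact key'

/-- **close centres from equal unlabelled worlds** -/
theorem Fine.close {P : WP} {γ : ℝ} {r : ℕ → ℝ} {t : IT} {S : Finset ℕ} {n K : ℕ}
    (h : Fine P γ r t S n K) {p q q' : ℕ} (hp : p ≤ n) (hq : q ∈ S)
    (hq' : q' ∈ S) (hq0 : 0 < q) (hq0' : 0 < q') {z z' : ℝ} (h1 : |z| ≤ r q)
    (h2 : |z'| ≤ r q') (hr : 0 < r q) (hr' : 0 < r q')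
    (hix : P.ix γ p q none z = P.ix γ p q' none z') :
    |W363.off γ γ q z - W363.off γ γ q' z'| ≤
      (Real.exp (1 / 2 ^ (P.dep p)) - 1) * min (r q / q) (r q' / q') := by
  refine (P.close_of_same h.ρ0 h.n0 hq0 hq0' h1 h2 (h.cover q hq) (h.cover q' hq') hix).trans ?_
  refine max_le le_rfl ?_
  rw [mul_min_of_nonneg _ _ (by
    have := Real.add_one_le_exp (1 / 2 ^ (P.dep p) : ℝ)
    have h5 : (0 : ℝ) ≤ 1 / 2 ^ (P.dep p) := by positivity
    linarith)]
  exact le_min (h.tiny p hp q hq hq0 hr) (h.tiny p hp q' hq' hq0' hr')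

end Crest.Agent.R4P.WPex189
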