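import Crest.Agent.R4P.Walk560
import Crest.Agent.R4.WalkS560

/-!
R4 (S0004), POWERS, module L (WALK), part 3: supermartingales of the walk (port of `R4/WalkS560` to
the walk with pulls and one-sided add steps, helper504; new: `SF`, `sup_gen`).
-/

set_option autoImplicit false
set_option linter.unusedSectionVars false
set_option linter.unusedVariables false
open MeasureTheory Filter Set

namespace Crest.Agent.R4P.Walk560

open Crest.Agent.R4.Tour104 Crest.Agent.R4.Tour758 Crest.Agent.R4.Avg758 Crest.Agent.R4.Clos758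
open Crest.Agent.R4.ClosL758 Crest.Agent.R4.ClosG758 Crest.Agent.R4.ClosR758

export Crest.Agent.R4.Walk560 (holder2 holder2' jensen2)

section st
variable {Λ κ : Type*} [Fintype Λ] [DecidableEq Λ] [DecidableEq κ] [Fintype κ] [WRel κ]
  {wr : ℕ → Λ → κ} {Ad : TrG Λ κ → Finset Λ → Prop}
  {μ : TrG Λ κ → Finset Λ → ℝ} {ν : TrG Λ κ → ℝ} {n : ℕ}

/-- additive node functions (masses of populations) -/
structure NF (wr : ℕ → Λ → κ) (Ad : TrG Λ κ → Finset Λ → Prop)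
    (μ : TrG Λ κ → Finset Λ → ℝ) (ν : TrG Λ κ → ℝ) (f : DT Λ κ → Finset Λ → ℝ) : Prop where
  nn : ∀ {n : ℕ} {t : DT Λ κ} {A : Finset Λ}, Side wr Ad μ ν n t A → 0 ≤ f t A
  br : ∀ {n p : ℕ} {w : ℝ} {r : Λ → κ} {t₁ t₀ : DT Λ κ} {v : Λ → ℝ → ℝ} {B G : κ → ℝ → ℝ}
    {A : Finset Λ}, Side wr Ad μ ν n (.br p w r t₁ t₀ v B G) A →
    (1 - w) * f t₁ A + w * f t₀ A ≤ f (.br p w r t₁ t₀ v B G) A
  add : ∀ {n b : ℕ} {r : Λ → κ} {t₁ t₀ : DT Λ κ} {A : Finset Λ},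
    Side wr Ad μ ν n (.add b r t₁ t₀) A → f t₁ A + f t₀ A ≤ f (.add b r t₁ t₀) A
  up : ∀ {n p : ℕ} {t : DT Λ κ} {Sp : Finset Λ} {u : DT Λ κ} {A : Finset Λ},
    Side wr Ad μ ν n t A → vw p t = .up Sp u → t.top ≤ p → 0 < p →
    f u A ≤ f t A ∧ f u (A ∩ Sp) + f u (A \ Sp) ≤ f t A

/-- full masses of nodes -/
structure HF (wr : ℕ → Λ → κ) (Ad : TrG Λ κ → Finset Λ → Prop)
    (μ : TrG Λ κ → Finset Λ → ℝ) (ν : TrG Λ κ → ℝ) (h : DT Λ κ → ℝ) : Prop where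
  nn : ∀ {n : ℕ} {t : DT Λ κ} {A : Finset Λ}, Side wr Ad μ ν n t A → 0 ≤ h t
  br : ∀ {n p : ℕ} {w : ℝ} {r : Λ → κ} {t₁ t₀ : DT Λ κ} {v : Λ → ℝ → ℝ} {B G : κ → ℝ → ℝ}
    {A : Finset Λ}, Side wr Ad μ ν n (.br p w r t₁ t₀ v B G) A →
    (1 - w) * h t₁ + w * h t₀ ≤ h (.br p w r t₁ t₀ v B G)
  add : ∀ {n b : ℕ} {r : Λ → κ} {t₁ t₀ : DT Λ κ} {A : Finset Λ},
    Side wr Ad μ ν n (.add b r t₁ t₀) A → h t₁ ≤ h (.add b r t₁ t₀) ∧ h t₀ ≤ h (.add b r t₁ t₀)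
  up : ∀ {n p : ℕ} {t : DT Λ κ} {Sp : Finset Λ} {u : DT Λ κ} {A : Finset Λ},
    Side wr Ad μ ν n t A → vw p t = .up Sp u → t.top ≤ p → 0 < p → h u ≤ h t

lemma mu_empty {t : TrG Λ κ} (h : MassOk Ad μ ν t) (hE : Ad t ∅) : μ t ∅ = 0 := by
  have h1 := h.base.nn _ hE
  have h2 := h.base.un ∅ ∅ (Finset.disjoint_empty_left _) hE hE
  rw [Finset.union_empty] at h2
  linarith

/-- the raw mass of the population -/
theorem NF_mu : NF wr Ad μ ν (fun t A => μ t.g A) where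
  nn h := h.wf.self.mass.base.nn _ h.ad
  br h := h.wf.1.mass.2.1 _ h.ad
  add h := h.wf.1.mass.2.1 _ h.ad
  up := by
    intro n p t Sp u A h hv hp hp0
    have e := vw_up_g hv
    have hs := h.vwup hv hp hp0
    refine ⟨by rw [e], ?_⟩
    have hm : MassOk Ad μ ν u.g := by rw [e]; exact h.wf.self.mass
    have := hm.base.un (A ∩ Sp) (A \ Sp) (by
      rw [Finset.disjoint_left]
      intro x hx hx'
      exact (Finset.mem_sdiff.1 hx').2 (Finset.mem_inter.1 hx).2) hs.2.1.ad hs.2.2.ad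
    have hu : A ∩ Sp ∪ A \ Sp = A := by
      rw [Finset.union_comm]; exact Finset.sdiff_union_inter _ _
    rw [hu] at this
    show μ u.g (A ∩ Sp) + μ u.g (A \ Sp) ≤ μ t.g A
    rw [← e]; exact this

/-- the full raw mass -/
theorem HF_nu : HF wr Ad μ ν (fun t => ν t.g) where
  nn h := h.wf.self.mass.base.nu
  br h := h.wf.1.mass.2.2
  add := by
    intro n b r t₁ t₀ A h
    have h1 := h.wf.2.1.self.mass.base.nu
    have h0 := h.wf.2.2.self.mass.base.nu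
    have := h.wf.1.mass.2.2
    exact ⟨by
      show ν t₁.g ≤ ν (TrG.add r t₁.g t₀.g)
      linarith, by
      show ν t₀.g ≤ ν (TrG.add r t₁.g t₀.g)
      linarith⟩
  up := by
    intro n p t Sp u A h hv hp hp0
    show ν u.g ≤ ν t.g
    rw [vw_up_g hv]

theorem HF_const {c : ℝ} (hc : 0 ≤ c) : HF wr Ad μ ν (fun _ => c) where
  nn _ := hc
  br _ := le_of_eq (by ring)
  add _ := ⟨le_rfl, le_rfl⟩
  up _ _ _ _ := le_rfl

theorem NF.smul {f : DT Λ κ → Finset Λ → ℝ} (hf : NF wr Ad μ ν f) {c : ℝ} (hc : 0 ≤ c) :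
    NF wr Ad μ ν (fun t A => c * f t A) where
  nn h := mul_nonneg hc (hf.nn h)
  br h := by
    have := mul_le_mul_of_nonneg_left (hf.br h) hc
    linarith
  add h := by
    have := mul_le_mul_of_nonneg_left (hf.add h) hc
    linarith
  up h hv hp hp0 := by
    have h1 := mul_le_mul_of_nonneg_left (hf.up h hv hp hp0).1 hc
    have h2 := mul_le_mul_of_nonneg_left (hf.up h hv hp hp0).2 hc
    exact ⟨h1, by linarith⟩

/-- one factor of a product supermartingale -/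
structure SF (wr : ℕ → Λ → κ) (Ad : TrG Λ κ → Finset Λ → Prop)
    (μ : TrG Λ κ → Finset Λ → ℝ) (ν : TrG Λ κ → ℝ) (f : DT Λ κ → Finset Λ → ℝ) : Prop where
  nn : ∀ {n : ℕ} {t : DT Λ κ} {A : Finset Λ}, Side wr Ad μ ν n t A → 0 ≤ f t A
  br : ∀ {n p : ℕ} {w : ℝ} {r : Λ → κ} {t₁ t₀ : DT Λ κ} {v : Λ → ℝ → ℝ} {B G : κ → ℝ → ℝ}
    {A : Finset Λ}, Side wr Ad μ ν n (.br p w r t₁ t₀ v B G) A →
    (1 - w) * f t₁ A + w * f t₀ A ≤ f (.br p w r t₁ t₀ v B G) A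
  add : ∀ {n b : ℕ} {r : Λ → κ} {t₁ t₀ : DT Λ κ} {A : Finset Λ},
    Side wr Ad μ ν n (.add b r t₁ t₀) A →
    f t₁ A ≤ f (.add b r t₁ t₀) A ∧ f t₀ A ≤ f (.add b r t₁ t₀) A
  up : ∀ {n p : ℕ} {t : DT Λ κ} {Sp : Finset Λ} {u : DT Λ κ} {A : Finset Λ},
    Side wr Ad μ ν n t A → vw p t = .up Sp u → t.top ≤ p → 0 < p → f u A ≤ f t A

/-- the add child which goes on -/
lemma SF.add_c {f : DT Λ κ → Finset Λ → ℝ} (hf : SF wr Ad μ ν f) (stp : Stp Λ κ) (s : St Λ κ)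
    {b : ℕ} {r : Λ → κ} {t₁ t₀ : DT Λ κ} {A : Finset Λ}
    (h : Side wr Ad μ ν n (.add b r t₁ t₀) A) :
    0 ≤ f (stp.c s t₁ t₀) A ∧ f (stp.c s t₁ t₀) A ≤ f (.add b r t₁ t₀) A := by
  obtain ⟨a1, a0⟩ := h.add
  rcases stp.c_or s t₁ t₀ with ⟨e, -⟩ | ⟨e, -⟩ <;> rw [e]
  · exact ⟨hf.nn a1, (hf.add h).1⟩
  · exact ⟨hf.nn a0, (hf.add h).2⟩

theorem NF.sf {f : DT Λ κ → Finset Λ → ℝ} (hf : NF wr Ad μ ν f) : SF wr Ad μ ν f where
  nn h := hf.nn h
  br h := hf.br h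
  add h := by
    obtain ⟨a1, a0⟩ := h.add
    have := hf.add h
    exact ⟨by linarith [hf.nn a0], by linarith [hf.nn a1]⟩
  up h hv hp hp0 := (hf.up h hv hp hp0).1

theorem HF.sf {h' : DT Λ κ → ℝ} (hh : HF wr Ad μ ν h') : SF wr Ad μ ν (fun t _ => h' t) where
  nn h := hh.nn h
  br h := hh.br h
  add h := hh.add h
  up h hv hp hp0 := hh.up h hv hp hp0

theorem SF.rpow {f : DT Λ κ → Finset Λ → ℝ} (hf : SF wr Ad μ ν f) {α : ℝ} (hα : 0 ≤ α)
    (hα1 : α ≤ 1) : SF wr Ad μ ν (fun t A => f t A ^ α) where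
  nn h := Real.rpow_nonneg (hf.nn h) _
  br h := by
    obtain ⟨a1, a0, hb, -, -⟩ := h.br
    exact jensen2 hb.w0 hb.w1 (hf.nn a1) (hf.nn a0) hα hα1 (hf.br h)
  add h := by
    obtain ⟨a1, a0⟩ := h.add
    exact ⟨Real.rpow_le_rpow (hf.nn a1) (hf.add h).1 hα,
      Real.rpow_le_rpow (hf.nn a0) (hf.add h).2 hα⟩
  up h hv hp hp0 := Real.rpow_le_rpow (hf.nn (h.vwup hv hp hp0).1) (hf.up h hv hp hp0) hα

/-- the joint steps of a product -/
structure JF (wr : ℕ → Λ → κ) (Ad : TrG Λ κ → Finset Λ → Prop)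
    (μ : TrG Λ κ → Finset Λ → ℝ) (ν : TrG Λ κ → ℝ) (f f' : DT Λ κ → Finset Λ → ℝ) : Prop where
  aa : ∀ {n n' b b' : ℕ} {r r' : Λ → κ} {t₁ t₀ t₁' t₀' : DT Λ κ} {A A' : Finset Λ},
    Side wr Ad μ ν n (.add b r t₁ t₀) A → Side wr Ad μ ν n' (.add b' r' t₁' t₀') A' →
    f t₁ A * f' t₁' A' + f t₀ A * f' t₀' A' ≤
      f (.add b r t₁ t₀) A * f' (.add b' r' t₁' t₀') A'
  au : ∀ {n n' b p : ℕ} {r : Λ → κ} {t₁ t₀ t' : DT Λ κ} {Sp : Finset Λ} {u : DT Λ κ}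
    {A A' : Finset Λ}, Side wr Ad μ ν n (.add b r t₁ t₀) A → Side wr Ad μ ν n' t' A' →
    vw p t' = .up Sp u → t'.top ≤ p → 0 < p →
    f t₁ A * f' u (A' ∩ Sp) + f t₀ A * f' u (A' \ Sp) ≤ f (.add b r t₁ t₀) A * f' t' A'
  ua : ∀ {n n' b p : ℕ} {r : Λ → κ} {t₁' t₀' t : DT Λ κ} {Sp : Finset Λ} {u : DT Λ κ}
    {A A' : Finset Λ}, Side wr Ad μ ν n t A → Side wr Ad μ ν n' (.add b r t₁' t₀') A' →
    vw p t = .up Sp u → t.top ≤ p → 0 < p →
    f u (A ∩ Sp) * f' t₁' A' + f u (A \ Sp) * f' t₀' A' ≤ f t A * f' (.add b r t₁' t₀') A'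

set_option maxHeartbeats 1000000 in
/-- **a product of two factors is a supermartingale of the walk** -/
theorem sup_gen {stp : Stp Λ κ} {f f' : DT Λ κ → Finset Λ → ℝ} (hf : SF wr Ad μ ν f)
    (hf' : SF wr Ad μ ν f') (hj : JF wr Ad μ ν f f') (s : St Λ κ) (h : Inv wr Ad μ ν n s) :
    ((nxt stp s).map fun q => q.1 * (f q.2.t q.2.A * f' q.2.t' q.2.A')).sum ≤
      f s.t s.A * f' s.t' s.A' := by
  rw [nxt_sum stp s (fun q => f q.t q.A * f' q.t' q.A')]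
  have hL := h.L
  have hR := h.R
  have nL := hf.nn hL
  have nR := hf'.nn hR
  have n0 : 0 ≤ f s.t s.A * f' s.t' s.A' := mul_nonneg nL nR
  by_cases h1 : s.t.isLeaf ∨ s.t'.isLeaf
  · simpa [nxt0, h1] using n0
  by_cases h2 : stp s
  · simpa [nxt0, h1, h2] using n0
  have h1' := h1
  rw [not_or] at h1'
  obtain ⟨hpp, hpn⟩ := p_prime h h1'.1 h1'.2
  have hpL : s.t.top ≤ s.p := le_max_left _ _
  have hpR : s.t'.top ≤ s.p := le_max_right _ _
  by_cases hPL : s.isPL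
  · obtain ⟨w, r, t₁, t₀, v, B₁, G, -, et, h3⟩ := St.isPL_cases hPL
    rw [et] at hL
    have j := hf.br hL
    rw [← et] at j
    have := mul_le_mul_of_nonneg_right j nR
    rcases h3 with ⟨-, e⟩ | ⟨-, -, e⟩ <;>
    · simp only [nxt0, h1, h2, hPL, if_false, if_true, e, St.fL, St.pL, List.map_cons,
        List.map_nil, List.sum_cons, List.sum_nil, add_zero]
      refine le_trans (le_of_eq ?_) this
      ring
  by_cases hPR : s.isPR
  · obtain ⟨w, r, t₁, t₀, v, B₁, G, -, et, h3⟩ := St.isPR_cases hPR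
    rw [et] at hR
    have j := hf'.br hR
    rw [← et] at j
    have := mul_le_mul_of_nonneg_left j nL
    rcases h3 with ⟨-, e⟩ | ⟨-, -, e⟩ <;>
    · simp only [nxt0, h1, h2, hPL, hPR, if_false, if_true, e, St.fR, St.pR, List.map_cons,
        List.map_nil, List.sum_cons, List.sum_nil, add_zero]
      refine le_trans (le_of_eq ?_) this
      ring
  rcases hv : vw s.p s.t with ⟨w, r, t₁, t₀, v, B₁, G⟩ | ⟨r, t₁, t₀⟩ | ⟨Sp, u⟩ <;>
  rcases hv' : vw s.p s.t' with ⟨w', r', t₁', t₀', v', B', G'⟩ | ⟨r', t₁', t₀'⟩ | ⟨Sp', u'⟩ <;>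
  simp only [nxt0, h1, h2, hPL, hPR, hv, hv', if_false]
  · -- br, br
    simp only [List.map_cons, List.map_nil, List.sum_cons, List.sum_nil, add_zero]
    have et := vw_br hv
    have et' := vw_br hv'
    rw [et] at hL
    rw [et'] at hR
    obtain ⟨a1, a0, hb, -, -⟩ := hL.br
    obtain ⟨b1, b0, hb', -, -⟩ := hR.br
    have j := hf.br hL
    have j' := hf'.br hR
    rw [← et] at j
    rw [← et'] at j'
    have q1 : 0 ≤ 1 - w' := by linarith [hb'.w1]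
    have r1' := hf'.nn b1
    have r0' := hf'.nn b0
    have := mul_le_mul j j' (by
      have := hb'.w0
      positivity) nL
    refine le_trans (le_of_eq ?_) this
    ring
  · -- br, add
    simp only [List.map_cons, List.map_nil, List.sum_cons, List.sum_nil, add_zero, one_mul]
    have et' := vw_add hv'
    rw [et'] at hR
    have k := (hf'.add_c stp s hR).2
    rw [← et'] at k
    exact mul_le_mul_of_nonneg_left k nL
  · -- br, up
    simp only [List.map_cons, List.map_nil, List.sum_cons, List.sum_nil, add_zero]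
    have et := vw_br hv
    rw [et] at hL
    obtain ⟨b, -, -⟩ := hR.vwup hv' hpR hpp.pos
    have j := hf.br hL
    rw [← et] at j
    have := mul_le_mul j (hf'.up hR hv' hpR hpp.pos) (hf'.nn b) nL
    refine le_trans (le_of_eq ?_) this
    ring
  · -- add, br
    simp only [List.map_cons, List.map_nil, List.sum_cons, List.sum_nil, add_zero, one_mul]
    have et := vw_add hv
    rw [et] at hL
    have k := (hf.add_c stp s hL).2
    rw [← et] at k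
    exact mul_le_mul_of_nonneg_right k nR
  · -- add, add
    have et := vw_add hv
    have et' := vw_add hv'
    rw [et] at hL
    rw [et'] at hR
    split_ifs with c1 c2 <;>
    simp only [List.map_cons, List.map_nil, List.sum_cons, List.sum_nil, add_zero, one_mul]
    · have k := hj.aa hL hR
      rw [← et, ← et'] at k
      exact k
    · have k := (hf.add_c stp s hL).2
      rw [← et] at k
      exact mul_le_mul_of_nonneg_right k nR
    · have k := (hf'.add_c stp s hR).2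
      rw [← et'] at k
      exact mul_le_mul_of_nonneg_left k nL
  · -- add, up
    have et := vw_add hv
    rw [et] at hL
    split_ifs with c1 <;>
    simp only [List.map_cons, List.map_nil, List.sum_cons, List.sum_nil, add_zero, one_mul]
    · have k := hj.au hL hR hv' hpR hpp.pos
      rw [← et] at k
      exact k
    · have k := (hf.add_c stp s hL).2
      rw [← et] at k
      exact mul_le_mul_of_nonneg_right k nR
  · -- up, br
    simp only [List.map_cons, List.map_nil, List.sum_cons, List.sum_nil, add_zero]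
    have et' := vw_br hv'
    rw [et'] at hR
    obtain ⟨b1, b0, hb, -, -⟩ := hR.br
    obtain ⟨a, -, -⟩ := hL.vwup hv hpL hpp.pos
    have j' := hf'.br hR
    rw [← et'] at j'
    have q1 : 0 ≤ 1 - w' := by linarith [hb.w1]
    have r1' := hf'.nn b1
    have r0' := hf'.nn b0
    have := mul_le_mul (hf.up hL hv hpL hpp.pos) j' (by
      have := hb.w0
      positivity) nL
    refine le_trans (le_of_eq ?_) this
    ring
  · -- up, add
    have et' := vw_add hv'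
    rw [et'] at hR
    split_ifs with c1 <;>
    simp only [List.map_cons, List.map_nil, List.sum_cons, List.sum_nil, add_zero, one_mul]
    · have k := hj.ua hL hR hv hpL hpp.pos
      rw [← et'] at k
      exact k
    · have k := (hf'.add_c stp s hR).2
      rw [← et'] at k
      exact mul_le_mul_of_nonneg_left k nL
  · -- up, up
    simp only [List.map_cons, List.map_nil, List.sum_cons, List.sum_nil, add_zero, one_mul]
    obtain ⟨b, -, -⟩ := hR.vwup hv' hpR hpp.pos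
    exact mul_le_mul (hf.up hL hv hpL hpp.pos) (hf'.up hR hv' hpR hpp.pos) (hf'.nn b) nL

theorem JF_rpow {f f' : DT Λ κ → Finset Λ → ℝ} (hf : NF wr Ad μ ν f) (hf' : NF wr Ad μ ν f')
    {α β : ℝ} (hα : 0 ≤ α) (hβ : 0 ≤ β) (hαβ : 1 ≤ α + β) :
    JF wr Ad μ ν (fun t A => f t A ^ α) (fun t A => f' t A ^ β) where
  aa h h' := by
    obtain ⟨a1, a0⟩ := h.add
    obtain ⟨b1, b0⟩ := h'.add
    exact holder2' (hf.nn a1) (hf.nn a0) (hf'.nn b1) (hf'.nn b0) (hf.add h) (hf'.add h') hα hβ hαβ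
  au h h' hv hp hp0 := by
    obtain ⟨a1, a0⟩ := h.add
    obtain ⟨-, b1, b0⟩ := h'.vwup hv hp hp0
    exact holder2' (hf.nn a1) (hf.nn a0) (hf'.nn b1) (hf'.nn b0) (hf.add h)
      (hf'.up h' hv hp hp0).2 hα hβ hαβ
  ua h h' hv hp hp0 := by
    obtain ⟨b1, b0⟩ := h'.add
    obtain ⟨-, a1, a0⟩ := h.vwup hv hp hp0
    exact holder2' (hf.nn a1) (hf.nn a0) (hf'.nn b1) (hf'.nn b0) (hf.up h hv hp hp0).2
      (hf'.add h') hα hβ hαβ

theorem JF_HF {f : DT Λ κ → Finset Λ → ℝ} {h' : DT Λ κ → ℝ}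
    (hf : NF wr Ad μ ν f) (hh : HF wr Ad μ ν h') : JF wr Ad μ ν f (fun t _ => h' t) where
  aa h g := by
    obtain ⟨a1, a0⟩ := h.add
    have c := hf.add h
    have c' := hh.add g
    have x1 := mul_le_mul_of_nonneg_left c'.1 (hf.nn a1)
    have x0 := mul_le_mul_of_nonneg_left c'.2 (hf.nn a0)
    have x2 := mul_le_mul_of_nonneg_right c (hh.nn g)
    linarith
  au h g hv hp hp0 := by
    obtain ⟨a1, a0⟩ := h.add
    have c := hf.add h
    have c' := hh.up g hv hp hp0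
    have x1 := mul_le_mul_of_nonneg_left c' (hf.nn a1)
    have x0 := mul_le_mul_of_nonneg_left c' (hf.nn a0)
    have x2 := mul_le_mul_of_nonneg_right c (hh.nn g)
    linarith
  ua h g hv hp hp0 := by
    obtain ⟨-, a1, a0⟩ := h.vwup hv hp hp0
    have c' := hh.add g
    have c := (hf.up h hv hp hp0).2
    have x1 := mul_le_mul_of_nonneg_left c'.1 (hf.nn a1)
    have x0 := mul_le_mul_of_nonneg_left c'.2 (hf.nn a0)
    have x2 := mul_le_mul_of_nonneg_right c (hh.nn g)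
    linarith

theorem JF_HF' {f' : DT Λ κ → Finset Λ → ℝ} {h' : DT Λ κ → ℝ}
    (hf : NF wr Ad μ ν f') (hh : HF wr Ad μ ν h') : JF wr Ad μ ν (fun t _ => h' t) f' where
  aa g h := by
    obtain ⟨a1, a0⟩ := h.add
    have c := hf.add h
    have c' := hh.add g
    have x1 := mul_le_mul_of_nonneg_right c'.1 (hf.nn a1)
    have x0 := mul_le_mul_of_nonneg_right c'.2 (hf.nn a0)
    have x2 := mul_le_mul_of_nonneg_left c (hh.nn g)
    linarith
  au g h hv hp hp0 := by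
    obtain ⟨-, b1, b0⟩ := h.vwup hv hp hp0
    have c' := hh.add g
    have c := (hf.up h hv hp hp0).2
    have x1 := mul_le_mul_of_nonneg_right c'.1 (hf.nn b1)
    have x0 := mul_le_mul_of_nonneg_right c'.2 (hf.nn b0)
    have x2 := mul_le_mul_of_nonneg_left c (hh.nn g)
    linarith
  ua g h hv hp hp0 := by
    obtain ⟨b1, b0⟩ := h.add
    have c := hf.add h
    have c' := hh.up g hv hp hp0
    have x1 := mul_le_mul_of_nonneg_right c' (hf.nn b1)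
    have x0 := mul_le_mul_of_nonneg_right c' (hf.nn b0)
    have x2 := mul_le_mul_of_nonneg_left c (hh.nn g)
    linarith

/-- **`f^α f'^β` is a supermartingale** -/
theorem sup_rpow {stp : Stp Λ κ} {f f' : DT Λ κ → Finset Λ → ℝ} (hf : NF wr Ad μ ν f)
    (hf' : NF wr Ad μ ν f') {α β : ℝ} (hα : 0 ≤ α) (hα1 : α ≤ 1) (hβ : 0 ≤ β) (hβ1 : β ≤ 1)
    (hαβ : 1 ≤ α + β) (s : St Λ κ) (h : Inv wr Ad μ ν n s) :
    ((nxt stp s).map fun q => q.1 * (f q.2.t q.2.A ^ α * f' q.2.t' q.2.A' ^ β)).sum ≤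
      f s.t s.A ^ α * f' s.t' s.A' ^ β :=
  sup_gen (hf.sf.rpow hα hα1) (hf'.sf.rpow hβ hβ1) (JF_rpow hf hf' hα hβ hαβ) s h

/-- **`f h'` is a supermartingale** (population mass times full mass of the other node) -/
theorem sup_mul_HF {stp : Stp Λ κ} {f : DT Λ κ → Finset Λ → ℝ} {h' : DT Λ κ → ℝ}
    (hf : NF wr Ad μ ν f) (hh : HF wr Ad μ ν h') (s : St Λ κ) (h : Inv wr Ad μ ν n s) :
    ((nxt stp s).map fun q => q.1 * (f q.2.t q.2.A * h' q.2.t')).sum ≤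
      f s.t s.A * h' s.t' :=
  sup_gen hf.sf hh.sf (JF_HF hf hh) s h

/-- mirror of `sup_mul_HF` -/
theorem sup_HF_mul {stp : Stp Λ κ} {f' : DT Λ κ → Finset Λ → ℝ} {h' : DT Λ κ → ℝ}
    (hf : NF wr Ad μ ν f') (hh : HF wr Ad μ ν h') (s : St Λ κ) (h : Inv wr Ad μ ν n s) :
    ((nxt stp s).map fun q => q.1 * (h' q.2.t * f' q.2.t' q.2.A')).sum ≤
      h' s.t * f' s.t' s.A' :=
  sup_gen hh.sf hf.sf (JF_HF' hf hh) s h


/-! ### specialised forms of the abstract lemmas -/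

lemma St.p_le {s : St Λ κ} (h : Inv wr Ad μ ν n s) : s.p ≤ n :=
  max_le h.L.col.top_le h.R.col.top_le

/-- the columns decrease (weakly: there are chains of columns at one prime) -/
lemma nxt_p_le {stp : Stp Λ κ} {s : St Λ κ} (h : Inv wr Ad μ ν n s) :
    ∀ q ∈ nxt stp s, q.2.p ≤ s.p := fun q hq => St.p_le (h.next q hq).1

lemma Side.tie {p : ℕ} {w : ℝ} {r : Λ → κ} {t₁ t₀ : DT Λ κ} {v : Λ → ℝ → ℝ} {B G : κ → ℝ → ℝ}
    {A : Finset Λ} (h : Side wr Ad μ ν n (.br p w r t₁ t₀ v B G) A) (hw : w ≠ 0) :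
    t₁.top < p ∧ t₀.top < p :=
  ⟨(h.col.2.2.2.2 hw).1.top_lt h.col.1.pos, (h.col.2.2.2.2 hw).2.top_lt h.col.1.pos⟩

lemma Side.vwup_lt {p : ℕ} {t : DT Λ κ} {Sp : Finset Λ} {u : DT Λ κ} {A : Finset Λ}
    (h : Side wr Ad μ ν n t A) (hv : vw p t = .up Sp u) (hp : t.top ≤ p) (hp0 : 0 < p) :
    u.top < p := (vw_up_col hv hp hp0 h.col).top_lt hp0

/-- strict decrease at a two-sided tie -/
lemma nxt_lt_tt {stp : Stp Λ κ} {s : St Λ κ} (h : Inv wr Ad μ ν n s) (hPL : ¬ s.isPL)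
    (hPR : ¬ s.isPR) {w : ℝ} {r : Λ → κ} {t₁ t₀ : DT Λ κ} {v : Λ → ℝ → ℝ} {B G : κ → ℝ → ℝ}
    (hv : vw s.p s.t = .br w r t₁ t₀ v B G) {w' : ℝ} {r' : Λ → κ} {t₁' t₀' : DT Λ κ}
    {v' : Λ → ℝ → ℝ} {B' G' : κ → ℝ → ℝ} (hv' : vw s.p s.t' = .br w' r' t₁' t₀' v' B' G')
    (hw : w ≠ 0) (hw' : w' ≠ 0) : ∀ q ∈ nxt stp s, q.2.p < s.p := by
  intro q hq
  have hq := (mem_nxt.1 hq).1
  unfold nxt0 at hq
  by_cases h1 : s.t.isLeaf ∨ s.t'.isLeaf
  · simp [h1] at hq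
  by_cases h2 : stp s
  · simp [h1, h2] at hq
  rw [if_neg h1, if_neg h2, if_neg hPL, if_neg hPR] at hq
  simp only [hv, hv', List.mem_cons, List.not_mem_nil, or_false] at hq
  have hL := h.L
  have hR := h.R
  rw [vw_br hv] at hL
  rw [vw_br hv'] at hR
  obtain ⟨a1, a0⟩ := hL.tie hw
  obtain ⟨b1, b0⟩ := hR.tie hw'
  rcases hq with rfl | rfl | rfl | rfl
  · exact max_lt a1 b1
  · exact max_lt a1 b0
  · exact max_lt a0 b1
  · exact max_lt a0 b0

/-- strict decrease at a one-sided tie (left) -/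
lemma nxt_lt_tu {stp : Stp Λ κ} {s : St Λ κ} (h : Inv wr Ad μ ν n s) (hPL : ¬ s.isPL)
    (hPR : ¬ s.isPR) {w : ℝ} {r : Λ → κ} {t₁ t₀ : DT Λ κ} {v : Λ → ℝ → ℝ} {B G : κ → ℝ → ℝ}
    (hv : vw s.p s.t = .br w r t₁ t₀ v B G) {Sp : Finset Λ} {u : DT Λ κ}
    (hv' : vw s.p s.t' = .up Sp u) (hw : w ≠ 0) : ∀ q ∈ nxt stp s, q.2.p < s.p := by
  intro q hq
  have hq := (mem_nxt.1 hq).1
  unfold nxt0 at hq
  by_cases h1 : s.t.isLeaf ∨ s.t'.isLeaf
  · simp [h1] at hq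
  by_cases h2 : stp s
  · simp [h1, h2] at hq
  rw [if_neg h1, if_neg h2, if_neg hPL, if_neg hPR] at hq
  simp only [hv, hv', List.mem_cons, List.not_mem_nil, or_false] at hq
  have hL := h.L
  have hpp := hL.wf.self
  rw [vw_br hv] at hL
  obtain ⟨a1, a0⟩ := hL.tie hw
  have b := h.R.vwup_lt hv' (le_max_right _ _) hL.col.1.pos
  rcases hq with rfl | rfl
  · exact max_lt a1 b
  · exact max_lt a0 b

/-- strict decrease at a one-sided tie (right) -/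
lemma nxt_lt_ut {stp : Stp Λ κ} {s : St Λ κ} (h : Inv wr Ad μ ν n s) (hPL : ¬ s.isPL)
    (hPR : ¬ s.isPR) {w : ℝ} {r : Λ → κ} {t₁ t₀ : DT Λ κ} {v : Λ → ℝ → ℝ} {B G : κ → ℝ → ℝ}
    (hv' : vw s.p s.t' = .br w r t₁ t₀ v B G) {Sp : Finset Λ} {u : DT Λ κ}
    (hv : vw s.p s.t = .up Sp u) (hw : w ≠ 0) : ∀ q ∈ nxt stp s, q.2.p < s.p := by
  intro q hq
  have hq := (mem_nxt.1 hq).1
  unfold nxt0 at hq
  by_cases h1 : s.t.isLeaf ∨ s.t'.isLeaf
  · simp [h1] at hq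
  by_cases h2 : stp s
  · simp [h1, h2] at hq
  rw [if_neg h1, if_neg h2, if_neg hPL, if_neg hPR] at hq
  simp only [hv, hv', List.mem_cons, List.not_mem_nil, or_false] at hq
  have hR := h.R
  rw [vw_br hv'] at hR
  obtain ⟨a1, a0⟩ := hR.tie hw
  have b := h.L.vwup_lt hv (le_max_left _ _) hR.col.1.pos
  rcases hq with rfl | rfl
  · exact max_lt b a1
  · exact max_lt b a0

lemma Qz_left {X : Type*} (R : Finset (X × X)) (f' : X → ℝ → ℝ) :
    Q R (fun _ _ => (0 : ℝ)) f' = 0 := by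
  unfold Q
  exact Finset.sum_eq_zero fun e _ => by simp [I]

lemma Qz_right {X : Type*} (R : Finset (X × X)) (f : X → ℝ → ℝ) :
    Q R f (fun _ _ => (0 : ℝ)) = 0 := by
  unfold Q
  exact Finset.sum_eq_zero fun e _ => by simp [I]

/-- near misses cost only at steps which decrease the column -/
lemma eNM_lt {stp : Stp Λ κ} {s : St Λ κ} (h : Inv wr Ad μ ν n s) :
    eNM stp s = 0 ∨ ∀ q ∈ nxt stp s, q.2.p < s.p := by
  unfold eNM
  split_ifs with k1 k2 k3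
  · exact Or.inl rfl
  · exact Or.inl rfl
  · exact Or.inl rfl
  · rw [not_or] at k3
    rcases hv : vw s.p s.t with ⟨w, r, t₁, t₀, v, B, G⟩ | ⟨r, t₁, t₀⟩ | ⟨Sp, u⟩ <;>
    rcases hv' : vw s.p s.t' with ⟨w', r', t₁', t₀', v', B', G'⟩ | ⟨r', t₁', t₀'⟩ | ⟨Sp', u'⟩ <;>
    try exact Or.inl rfl
    by_cases hw : w = 0
    · left
      have hpul : PulN s.t := h.L.wf.self.pul
      rw [vw_br hv] at hpul
      show Q (orel κ) (avg s.M (rk s.A r G)) _ = 0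
      rw [(hpul hw).2, avg_rk_zero, Qz_left]
    by_cases hw' : w' = 0
    · left
      have hpul : PulN s.t' := h.R.wf.self.pul
      rw [vw_br hv'] at hpul
      show Q (orel κ) _ (avg s.M' (rk s.A' r G')) = 0
      rw [(hpul hw').2, avg_rk_zero, Qz_right]
    exact Or.inr (nxt_lt_tt h k3.1 k3.2 hv hv' hw hw')

/-- one-sided columns cost only at steps which decrease the column -/
lemma eOS_lt {stp : Stp Λ κ} {s : St Λ κ} (h : Inv wr Ad μ ν n s) :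
    eOS stp s = 0 ∨ ∀ q ∈ nxt stp s, q.2.p < s.p := by
  unfold eOS
  split_ifs with k1 k2 k3
  · exact Or.inl rfl
  · exact Or.inl rfl
  · exact Or.inl rfl
  · rw [not_or] at k3
    rcases hv : vw s.p s.t with ⟨w, r, t₁, t₀, v, B, G⟩ | ⟨r, t₁, t₀⟩ | ⟨Sp, u⟩ <;>
    rcases hv' : vw s.p s.t' with ⟨w', r', t₁', t₀', v', B', G'⟩ | ⟨r', t₁', t₀'⟩ | ⟨Sp', u'⟩ <;>
    try exact Or.inl rfl
    · by_cases hw : w = 0
      · left
        have hpul : PulN s.t := h.L.wf.self.pul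
        rw [vw_br hv] at hpul
        show os (orel κ) s.p (avg s.M (rk s.A r G)) _ = 0
        rw [(hpul hw).2, avg_rk_zero, os_zero]
      · exact Or.inr (nxt_lt_tu h k3.1 k3.2 hv hv' hw)
    · by_cases hw : w' = 0
      · left
        have hpul : PulN s.t' := h.R.wf.self.pul
        rw [vw_br hv'] at hpul
        show os (orel κ) s.p (avg s.M' (rk s.A' r' G')) _ = 0
        rw [(hpul hw).2, avg_rk_zero, os_zero]
      · exact Or.inr (nxt_lt_ut h k3.1 k3.2 hv' hv hw)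

theorem WS_add (stp : Stp Λ κ) (f g : St Λ κ → ℝ) (s : St Λ κ) :
    WS stp (fun s => f s + g s) s = WS stp f s + WS stp g s :=
  W_add (fun s => nxt_rank stp s) f g s

theorem WS_smul (stp : Stp Λ κ) (c : ℝ) (f : St Λ κ → ℝ) (s : St Λ κ) :
    WS stp (fun s => c * f s) s = c * WS stp f s :=
  W_smul (fun s => nxt_rank stp s) c f s

/-- the invariant with existential level -/
def InvE (wr : ℕ → Λ → κ) (Ad : TrG Λ κ → Finset Λ → Prop)
    (μ : TrG Λ κ → Finset Λ → ℝ) (ν : TrG Λ κ → ℝ) (s : St Λ κ) : Prop :=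
  ∃ n, Inv wr Ad μ ν n s

lemma InvE.next {stp : Stp Λ κ} {s : St Λ κ} (h : InvE wr Ad μ ν s) :
    ∀ q ∈ nxt stp s, InvE wr Ad μ ν q.2 ∧ 0 ≤ q.1 := by
  obtain ⟨n, h⟩ := h
  exact fun q hq => ⟨⟨s.p, (h.next q hq).1⟩, (h.next q hq).2⟩

theorem WS_mono {stp : Stp Λ κ} {f g : St Λ κ → ℝ} (hfg : ∀ s, InvE wr Ad μ ν s → f s ≤ g s)
    {s : St Λ κ} (hs : InvE wr Ad μ ν s) : WS stp f s ≤ WS stp g s :=
  W_mono (Inv := InvE wr Ad μ ν) (fun s => nxt_rank stp s) (fun s hs => hs.next) hfg s hs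

theorem WS_nonneg {stp : Stp Λ κ} {f : St Λ κ → ℝ} (hf : ∀ s, InvE wr Ad μ ν s → 0 ≤ f s)
    {s : St Λ κ} (hs : InvE wr Ad μ ν s) : 0 ≤ WS stp f s :=
  W_nonneg (Inv := InvE wr Ad μ ν) (fun s => nxt_rank stp s) (fun s hs => hs.next) hf s hs

/-- supersolutions -/
theorem WS_le_super {stp : Stp Λ κ} {loc Φ : St Λ κ → ℝ}
    (hΦ : ∀ s, InvE wr Ad μ ν s → loc s + ((nxt stp s).map fun q => q.1 * Φ q.2).sum ≤ Φ s)
    {s : St Λ κ} (hs : InvE wr Ad μ ν s) : WS stp loc s ≤ Φ s :=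
  W_le_super (Inv := InvE wr Ad μ ν) (fun s => nxt_rank stp s) (fun s hs => hs.next) hΦ s hs

end st

section
variable {S : Type*} {next : S → List (ℝ × S)} {rank : S → ℕ}

/-- **level form with free steps**: the columns decrease weakly along the walk, and strictly at every
step which costs -/
theorem W_level_weak (h : ∀ s, ∀ p ∈ next s, rank p.2 < rank s) {Inv : S → Prop}
    (hI : ∀ s, Inv s → ∀ p ∈ next s, Inv p.2 ∧ 0 ≤ p.1) {loc Ψ : S → ℝ} {P : S → ℕ} {ε : ℕ → ℝ}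
    (hε : ∀ n, 0 ≤ ε n)
    (hΨ0 : ∀ s, Inv s → 0 ≤ Ψ s)
    (hΨ : ∀ s, Inv s → ((next s).map fun p => p.1 * Ψ p.2).sum ≤ Ψ s)
    (hP : ∀ s, Inv s → ∀ p ∈ next s, P p.2 ≤ P s)
    (hl : ∀ s, Inv s → loc s ≤ 0 ∨ (loc s ≤ ε (P s) * Ψ s ∧ ∀ p ∈ next s, P p.2 < P s)) :
    ∀ s, Inv s → W next rank loc s ≤ (∑ n ∈ Finset.range (P s + 1), ε n) * Ψ s := by
  refine W_le_super h hI fun s hs => ?_
  have key : ∀ m : ℕ, (∀ p ∈ next s, P p.2 + 1 ≤ m) →
      ((next s).map fun p => p.1 * ((∑ n ∈ Finset.range (P p.2 + 1), ε n) * Ψ p.2)).sum ≤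
      (∑ n ∈ Finset.range m, ε n) * Ψ s := by
    intro m hm
    have h1 : ((next s).map fun p => p.1 * ((∑ n ∈ Finset.range (P p.2 + 1), ε n) * Ψ p.2)).sum ≤
        ((next s).map fun p => p.1 * ((∑ n ∈ Finset.range m, ε n) * Ψ p.2)).sum := by
      refine sum_map_le (f := fun q => (∑ n ∈ Finset.range (P q + 1), ε n) * Ψ q)
        (g := fun q => (∑ n ∈ Finset.range m, ε n) * Ψ q)
        (fun p hp => (hI s hs p hp).2) fun p hp => ?_
      refine mul_le_mul_of_nonneg_right ?_ (hΨ0 _ (hI s hs p hp).1)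
      exact Finset.sum_le_sum_of_subset_of_nonneg
        (fun x hx => Finset.mem_range.2 ((Finset.mem_range.1 hx).trans_le (hm p hp)))
        fun _ _ _ => hε _
    have h2 : ((next s).map fun p => p.1 * ((∑ n ∈ Finset.range m, ε n) * Ψ p.2)).sum =
        (∑ n ∈ Finset.range m, ε n) * ((next s).map fun p => p.1 * Ψ p.2).sum :=
      sum_map_smul _ _ Ψ
    have h3 := mul_le_mul_of_nonneg_left (hΨ s hs)
      (Finset.sum_nonneg fun n _ => hε n : 0 ≤ ∑ n ∈ Finset.range m, ε n)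
    linarith
  rcases hl s hs with h4 | ⟨h4, h5⟩
  · have := key (P s + 1) fun p hp => Nat.succ_le_succ (hP s hs p hp)
    linarith
  · have := key (P s) fun p hp => Nat.succ_le_of_lt (h5 p hp)
    rw [Finset.sum_range_succ]
    have h6 : (∑ n ∈ Finset.range (P s), ε n + ε (P s)) * Ψ s =
      (∑ n ∈ Finset.range (P s), ε n) * Ψ s + ε (P s) * Ψ s := by ring
    rw [h6]
    linarith

end

section st
variable {Λ κ : Type*} [Fintype Λ] [DecidableEq Λ] [DecidableEq κ] [Fintype κ] [WRel κ]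
  {wr : ℕ → Λ → κ} {Ad : TrG Λ κ → Finset Λ → Prop}
  {μ : TrG Λ κ → Finset Λ → ℝ} {ν : TrG Λ κ → ℝ} {n : ℕ}

/-- **level lemma**: `loc` costs only at steps which decrease the column (`eNM_lt`, `eOS_lt`) -/
theorem WS_level {stp : Stp Λ κ} {loc Ψ : St Λ κ → ℝ} {ε : ℕ → ℝ} (hε : ∀ n, 0 ≤ ε n)
    (hΨ0 : ∀ s, InvE wr Ad μ ν s → 0 ≤ Ψ s)
    (hΨ : ∀ s, InvE wr Ad μ ν s → ((nxt stp s).map fun q => q.1 * Ψ q.2).sum ≤ Ψ s)
    (hz : ∀ s, InvE wr Ad μ ν s → loc s ≤ 0 ∨ ∀ q ∈ nxt stp s, q.2.p < s.p)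
    (hl : ∀ s, InvE wr Ad μ ν s → loc s ≤ ε s.p * Ψ s) {s : St Λ κ} (hs : InvE wr Ad μ ν s) :
    WS stp loc s ≤ (∑ k ∈ Finset.range (s.p + 1), ε k) * Ψ s :=
  W_level_weak (Inv := InvE wr Ad μ ν) (P := St.p) (fun s => nxt_rank stp s) (fun s hs => hs.next)
    hε hΨ0 hΨ (fun s ⟨n, hs⟩ => nxt_p_le hs)
    (fun s hs => (hz s hs).imp id fun h => ⟨hl s hs, h⟩) s hs

/-- **budget lemma** (the budget may depend on the state, e.g. on `O ∪ O'`) -/
theorem WS_hist {stp : Stp Λ κ} {loc Ψ a g : St Λ κ → ℝ} {c : ℝ}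
    (hΨ0 : ∀ s, InvE wr Ad μ ν s → 0 ≤ Ψ s)
    (hΨ : ∀ s, InvE wr Ad μ ν s → ((nxt stp s).map fun q => q.1 * Ψ q.2).sum ≤ Ψ s)
    (hl : ∀ s, InvE wr Ad μ ν s → loc s ≤ a s * Ψ s)
    (hg : ∀ s, InvE wr Ad μ ν s → ∀ q ∈ nxt stp s, g s + a s ≤ g q.2)
    (hc : ∀ s, InvE wr Ad μ ν s → g s + a s ≤ c) {s : St Λ κ} (hs : InvE wr Ad μ ν s) :
    WS stp loc s ≤ (c - g s) * Ψ s :=
  W_hist (Inv := InvE wr Ad μ ν) (fun s => nxt_rank stp s) (fun s hs => hs.next)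
    hΨ0 hΨ hl hg hc s hs

end st

end Crest.Agent.R4P.Walk560
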