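import Crest.Agent.R4P.AvgSym710
import Crest.Agent.R4P.WalkB560
import Crest.Agent.R4P.WalkS560
import Crest.Agent.R4P.Top546
import Crest.Agent.R4.ClsB_944

/-!
R4 (S0004), **powers pass**: item form of the states of the pair walk and tameness of both sides of
every state (port of helper579's `R4/WalkIT579` to the trees with powers; helper442).

* V3 chains: the SEP-present primes are pulled, so above its level a node only retains its `up`
  primes, each of them exactly once (`Rd`): the common divisor of R4 is `1`.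
* the two levels of a state may differ inside a chain (`u.n = p + 1` or the next prime, `u'.n = p`):
  the field `n_eq` of R4 is replaced by `lv`; at the state `IS.ge_p`, `IS.geM`, `IS.level`.
-/

set_option autoImplicit false
set_option linter.unusedSectionVars false
set_option linter.unusedVariables false

namespace Crest.Agent.R4P.WalkIT579

open Crest.Agent.R4.Tour104 Crest.Agent.R4.Tour758 Crest.Agent.R4.Avg758 Crest.Agent.R4.Clos758
open Crest.Agent.R4.ClosL758 Crest.Agent.R4.ClosG758 Crest.Agent.R4.ClosR758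
open Crest.Agent.R4P.Cnt588 Crest.Agent.R4P.Walk560 Crest.Agent.R4P.Item758
open Crest.Agent.R4P.Bld532 (NS All NodeOk Bk dv nd mem_dv mem_nd)
open Crest.Agent.R4 Crest.Agent.R4P

/-! ### node facts -/

/-- the primes `≥` level of `q / u.A` are retained `up` primes and divide exactly once -/
def Rd (U : ℕ → Finset ℕ) (u : NS) (q : ℕ) : Prop :=
  ∀ l : ℕ, l.Prime → u.n ≤ l → l ∣ q / u.A → l ∈ U q ∧ ¬ l ^ 2 ∣ q / u.A

/-- node facts: builder facts, radical above the level, `up` primes of the node are among `U` -/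
def NQ (P : Bld532.Par) (W : ℕ → ℝ) (U : ℕ → Finset ℕ) (u : NS) (τ : IT) : Prop :=
  Bld532.NodeOk P W u τ ∧ ∀ q ∈ τ.items, Rd U u q ∧ τ.uq q ⊆ U q

/-- the retained primes of a node -/
def NG (U : ℕ → Finset ℕ) (u : NS) (τ : IT) : Prop := ∀ q ∈ τ.items, Rd U u q

lemma NQ.ng {P : Bld532.Par} {W : ℕ → ℝ} {U : ℕ → Finset ℕ} {u : NS} {τ : IT}
    (h : NQ P W U u τ) : NG U u τ := fun q hq => (h.2 q hq).1

lemma NQ.pos {P : Bld532.Par} {W : ℕ → ℝ} {U : ℕ → Finset ℕ} {u : NS} {τ : IT}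
    (h : NQ P W U u τ) {q : ℕ} (hq : q ∈ τ.items) : 0 < q := (bk_of_nodeOk h.1).pos q hq

lemma dvd_of_div {l q A : ℕ} (hA : A ∣ q) (h : l ∣ q / A) : l ∣ q :=
  h.trans (Nat.div_dvd_of_dvd hA)

lemma div_mul {q A p : ℕ} : q / (A * p) = q / A / p := (Nat.div_div_eq_div_mul q A p).symm

/-- no prime of a modulus with primes `≥` level divides the rest of an item twice -/
lemma Rd.once {U : ℕ → Finset ℕ} {u : NS} {q : ℕ} (h : Rd U u q) {M : ℕ}
    (hM : ∀ l : ℕ, l.Prime → l ∣ M → u.n ≤ l) :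
    ∀ l : ℕ, l.Prime → l ∣ M → ¬ l ^ 2 ∣ q / u.A := by
  intro l hl hd h2
  exact (h l hl (hM l hl hd) ((dvd_pow_self l two_ne_zero).trans h2)).2 h2

section rd
variable {U : ℕ → Finset ℕ} {P : Bld532.Par} {W : ℕ → ℝ} {u : NS} {p q : ℕ} {c : ℝ} {B : ℕ}

/-- the rest after a division by the column `p`, level `n` -/
lemma Rd.div {n : ℕ} (h : Rd U u q) (hmax : ∀ r : ℕ, r.Prime → r < u.n → r ≤ p) (hd : p ∣ q / u.A)
    (hn : ∀ l : ℕ, l.Prime → n ≤ l → p ≤ l) (hp : n ≤ p → p ∣ q / (u.A * p) →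
      p ∈ U q ∧ ¬ p ^ 2 ∣ q / (u.A * p)) : Rd U ⟨n, c, u.A * p, B⟩ q := by
  intro l hl hle hlq
  change n ≤ l at hle
  change l ∣ q / (u.A * p) at hlq
  show l ∈ U q ∧ ¬ l ^ 2 ∣ q / (u.A * p)
  by_cases e : l = p
  · subst e; exact hp hle hlq
  · have hge : u.n ≤ l := by
      rcases lt_or_ge l u.n with h5 | h5
      · exact absurd (le_antisymm (hmax l hl h5) (hn l hl hle)) e
      · exact h5
    rw [div_mul] at hlq
    obtain ⟨a1, a2⟩ := h l hl hge (hlq.trans (Nat.div_dvd_of_dvd hd))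
    refine ⟨a1, fun h2 => a2 ?_⟩
    rw [div_mul] at h2
    exact h2.trans (Nat.div_dvd_of_dvd hd)

/-- lower level, same product -/
lemma Rd.low {n : ℕ} (h : Rd U u q) (hmax : ∀ r : ℕ, r.Prime → r < u.n → r ≤ p)
    (hn : ∀ l : ℕ, l.Prime → n ≤ l → p ≤ l) (hp : n ≤ p → p ∣ q / u.A →
      p ∈ U q ∧ ¬ p ^ 2 ∣ q / u.A) : Rd U ⟨n, c, u.A, B⟩ q := by
  intro l hl hle hlq
  change n ≤ l at hle
  change l ∣ q / u.A at hlq
  show l ∈ U q ∧ ¬ l ^ 2 ∣ q / u.A
  by_cases e : l = p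
  · subst e; exact hp hle hlq
  · have hge : u.n ≤ l := by
      rcases lt_or_ge l u.n with h5 | h5
      · exact absurd (le_antisymm (hmax l hl h5) (hn l hl hle)) e
      · exact h5
    exact h l hl hge hlq

end rd

/-- **all the node facts**: radical above the level, `up` primes of a subnode are `up` primes of the
tree -/
theorem All_uq {P : Bld532.Par} {W : ℕ → ℝ} {U : ℕ → Finset ℕ} (τ : IT) : ∀ u : NS,
    All (Bld532.NodeOk P W) u τ → (∀ q ∈ τ.items, Rd U u q) → (∀ q ∈ τ.items, τ.uq q ⊆ U q) →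
    All (NQ P W U) u τ := by
  induction τ with
  | leaf S => intro u h hs hU; exact ⟨h, fun q hq => ⟨hs q hq, hU q hq⟩⟩
  | br p Sp t₁ t₀ ih₁ ih₀ =>
    intro u h hs hU
    obtain ⟨hp, hn, -, hmax, -, hi1, hi0, hSp, h3, -⟩ := h.1
    have hd : Disjoint t₁.items t₀.items := by
      have := Bld532.disj_dv_nd u.A p (t₁.items ∪ t₀.items)
      rwa [← hi1, ← hi0] at this
    refine ⟨⟨h.1, fun q hq => ⟨hs q hq, hU q hq⟩⟩, ih₁ _ h.2.1 (fun q hq => ?_) (fun q hq => ?_),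
      ih₀ _ h.2.2 (fun q hq => ?_) (fun q hq => ?_)⟩
    · have hm : q ∈ (IT.br p Sp t₁ t₀).items := Finset.mem_union_left _ hq
      have h4 : p ∣ q / u.A := by
        have : q ∈ dv u.A p (t₁.items ∪ t₀.items) := hi1 ▸ hq
        exact (mem_dv.1 this).2
      refine (hs q hm).div hmax h4 (fun l _ h => h) fun _ hpq => ?_
      have e2 : p ^ 2 ∣ q / u.A := by
        rw [pow_two, ← Nat.mul_div_cancel' h4]
        rw [div_mul] at hpq
        exact Nat.mul_dvd_mul_left p hpq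
      constructor
      · have h5 : q ∈ Sp := by rw [hSp]; exact mem_dv.2 ⟨hm, e2⟩
        have h6 : q ∉ t₀.items := Finset.disjoint_left.1 hd hq
        apply hU q hm
        show p ∈ if q ∈ t₀.items then t₀.uq q else if q ∈ Sp then insert p (t₁.uq q) else t₁.uq q
        rw [if_neg h6, if_pos h5]
        exact Finset.mem_insert_self _ _
      · intro h5
        apply h3 q hm
        rw [← Nat.mul_div_cancel' h4, pow_succ, mul_comm]
        rw [div_mul] at h5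
        exact Nat.mul_dvd_mul_left p h5
    · have hm : q ∈ (IT.br p Sp t₁ t₀).items := Finset.mem_union_left _ hq
      have h1 := hU q hm
      have h6 : q ∉ t₀.items := Finset.disjoint_left.1 hd hq
      refine Finset.Subset.trans ?_ h1
      show t₁.uq q ⊆ if q ∈ t₀.items then t₀.uq q else
        if q ∈ Sp then insert p (t₁.uq q) else t₁.uq q
      rw [if_neg h6]
      split_ifs
      · exact Finset.subset_insert _ _
      · exact Finset.Subset.refl _
    · have hm : q ∈ (IT.br p Sp t₁ t₀).items := Finset.mem_union_right _ hq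
      have h4 : ¬ p ∣ q / u.A := by
        have : q ∈ nd u.A p (t₁.items ∪ t₀.items) := hi0 ▸ hq
        exact (mem_nd.1 this).2
      exact (hs q hm).low hmax (fun l _ h => h) fun _ hpq => absurd hpq h4
    · have h1 := hU q (Finset.mem_union_right _ hq)
      have e : (IT.br p Sp t₁ t₀).uq q = t₀.uq q := if_pos hq
      rwa [e] at h1
  | add p t₁ t₀ ih₁ ih₀ =>
    intro u h hs hU
    obtain ⟨hp, hn, -, hmax, -, ⟨j, t', -, -, hi1, hi0, -⟩, -⟩ := h.1
    have hd : Disjoint t₁.items t₀.items := by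
      have := Bld532.disj_dv_nd u.A (p ^ j) (t₁.items ∪ t₀.items)
      rwa [← hi1, ← hi0] at this
    have key : ∀ q ∈ (IT.add p t₁ t₀).items, Rd U ⟨p + 1, u.c, u.A, u.B⟩ q := fun q hq =>
      (hs q hq).low hmax (fun l _ h => (Nat.le_succ p).trans h)
        (fun h => absurd h (Nat.not_succ_le_self p))
    refine ⟨⟨h.1, fun q hq => ⟨hs q hq, hU q hq⟩⟩,
      ih₁ _ h.2.1 (fun q hq => key q (Finset.mem_union_left _ hq)) (fun q hq => ?_),
      ih₀ _ h.2.2 (fun q hq => key q (Finset.mem_union_right _ hq)) (fun q hq => ?_)⟩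
    · have h1 := hU q (Finset.mem_union_left _ hq)
      have h2 : q ∉ t₀.items := Finset.disjoint_left.1 hd hq
      have e : (IT.add p t₁ t₀).uq q = t₁.uq q := if_neg h2
      rwa [e] at h1
    · have h1 := hU q (Finset.mem_union_right _ hq)
      have e : (IT.add p t₁ t₀).uq q = t₀.uq q := if_pos hq
      rwa [e] at h1
  | up p Sp t ih =>
    intro u h hs hU
    obtain ⟨hp, hn, -, hmax, -, hSp, h3, -⟩ := h.1
    refine ⟨⟨h.1, fun q hq => ⟨hs q hq, hU q hq⟩⟩, ih _ h.2 (fun q hq => ?_) (fun q hq => ?_)⟩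
    · refine (hs q hq).low hmax (fun l _ h => h) fun _ hpq => ⟨?_, h3 q hq⟩
      have h5 : q ∈ Sp := by rw [hSp]; exact mem_dv.2 ⟨hq, hpq⟩
      apply hU q hq
      show p ∈ if q ∈ Sp then insert p (t.uq q) else t.uq q
      rw [if_pos h5]
      exact Finset.mem_insert_self _ _
    · have h1 := hU q hq
      refine Finset.Subset.trans ?_ h1
      show t.uq q ⊆ if q ∈ Sp then insert p (t.uq q) else t.uq q
      split_ifs
      · exact Finset.subset_insert _ _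
      · exact Finset.Subset.refl _
  | pl p t ih =>
    intro u h hs hU
    obtain ⟨hp, hn, -, hmax, -, hd, -⟩ := h.1
    refine ⟨⟨h.1, fun q hq => ⟨hs q hq, hU q hq⟩⟩, ih _ h.2 (fun q hq => ?_) (fun q hq => hU q hq)⟩
    exact (hs q hq).div hmax (hd q hq) (fun l _ h => (Nat.le_succ p).trans h)
      (fun h => absurd h (Nat.not_succ_le_self p))
  | far p t₁ t₀ ih₁ ih₀ =>
    intro u h hs hU
    obtain ⟨hp, hn, -, hmax, -, ⟨K, hi1, hi0, -⟩, -⟩ := h.1
    have hd : Disjoint t₁.items t₀.items := by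
      have := Bld532.disj_far_near p u.A K (t₁.items ∪ t₀.items)
      have e1 : t₁.items = Bld532.farS p u.A K (t₁.items ∪ t₀.items) := by
        conv_lhs => rw [hi1]
        rfl
      rwa [← e1, ← hi0] at this
    have key : ∀ q ∈ (IT.far p t₁ t₀).items, Rd U ⟨p + 1, u.c, u.A, u.B⟩ q := fun q hq =>
      (hs q hq).low hmax (fun l _ h => (Nat.le_succ p).trans h)
        (fun h => absurd h (Nat.not_succ_le_self p))
    refine ⟨⟨h.1, fun q hq => ⟨hs q hq, hU q hq⟩⟩,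
      ih₁ _ h.2.1 (fun q hq => key q (Finset.mem_union_left _ hq)) (fun q hq => ?_),
      ih₀ _ h.2.2 (fun q hq => key q (Finset.mem_union_right _ hq)) (fun q hq => ?_)⟩
    · have h1 := hU q (Finset.mem_union_left _ hq)
      have h2 : q ∉ t₀.items := Finset.disjoint_left.1 hd hq
      have e : (IT.far p t₁ t₀).uq q = t₁.uq q := if_neg h2
      rwa [e] at h1
    · have h1 := hU q (Finset.mem_union_right _ hq)
      have e : (IT.far p t₁ t₀).uq q = t₀.uq q := if_pos hq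
      rwa [e] at h1

/-- the tree of `All NodeOk` with the level above all the primes satisfies all node facts -/
theorem All_NQ {P : Bld532.Par} {W : ℕ → ℝ} {n : ℕ} {c : ℝ} {B : ℕ} {t : IT}
    (h : All (Bld532.NodeOk P W) ⟨n, c, 1, B⟩ t)
    (hn : ∀ q ∈ t.items, ∀ l : ℕ, l.Prime → l ∣ q → l < n) : All (NQ P W t.uq) ⟨n, c, 1, B⟩ t := by
  refine All_uq _ _ h (fun q hq l hl hle hd => ?_) (fun q _ => Finset.Subset.refl _)
  have h1 : l ∣ q := by
    have : l ∣ q / 1 := hd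
    rwa [Nat.div_one] at this
  exact absurd (hn q hq l hl h1) (not_lt.2 hle)

/-- the built tree satisfies all node facts -/
theorem bld_all (P : Bld532.Par) (W : ℕ → ℝ) (hW : ∀ q, 0 ≤ W q) (hP : P.Good) (n : ℕ)
    (S : Finset ℕ) (hS : ∀ q ∈ S, 0 < q) (hn : ∀ q ∈ S, ∀ l : ℕ, l.Prime → l ∣ q → l < n) :
    All (fun u τ => NQ P W (Bld532.bld P W n 1 1 S).uq u τ ∧
      NG (Bld532.bld P W n 1 1 S).uq u τ) ⟨n, 1, 1, 1⟩ (Bld532.bld P W n 1 1 S) := by
  have hit : (Bld532.bld P W n 1 1 S).items = S :=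
    Bld532.bld_items P W hW hP n 1 1 1 S (Bk.root S hS n)
  exact (All_NQ (Bld532.bld_All_root P W hW hP n S hS) (by rw [hit]; exact hn)).mono
    fun _ _ h => ⟨h, h.ng⟩

/-! ### states -/

section side
variable {Λ κ : Type*} [Fintype Λ] [DecidableEq Λ] [Fintype κ] [DecidableEq κ] [WRel κ]

variable {D : Par Λ κ} {U : ℕ → Finset ℕ} {P : Bld532.Par} {W : ℕ → ℝ} {u u' : NS} {p : ℕ}

lemma toDT_top (D : Par Λ κ) (sp : ℕ → Finset Λ) (b pr : ℕ) (τ : IT) :
    (D.toDT sp b pr τ).top = tp τ := by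
  cases τ <;> rfl

lemma toDT_leaf (D : Par Λ κ) (sp : ℕ → Finset Λ) (b pr : ℕ) (τ : IT) :
    (D.toDT sp b pr τ).isLeaf ↔ isL τ := by
  cases τ <;> exact Iff.rfl

/-- levels `n`, `n'` and moduli of a state at the threshold `m` -/
structure Lv (n n' M M' m : ℕ) : Prop where
  le : ∀ l : ℕ, l.Prime → l < n → l ≤ m
  le' : ∀ l : ℕ, l.Prime → l < n' → l ≤ m
  lt : ∀ l : ℕ, l.Prime → l < m → l < n
  lt' : ∀ l : ℕ, l.Prime → l < m → l < n'
  M : ∀ l : ℕ, l.Prime → l ∣ M → m ≤ l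
  M' : ∀ l : ℕ, l.Prime → l ∣ M' → m ≤ l

lemma Lv.step {n n' M M' n₁ n₁' M₁ M₁' : ℕ} (h : Lv n n' M M' p) (hp : p.Prime)
    (hn : n₁ = n ∨ n₁ = p ∨ n₁ = p + 1) (hn' : n₁' = n' ∨ n₁' = p ∨ n₁' = p + 1)
    (hM : M₁ ∣ p * M) (hM' : M₁' ∣ p * M') : Lv n₁ n₁' M₁ M₁' p where
  le := by
    intro l hl hln
    rcases hn with rfl | rfl | rfl
    · exact h.le l hl hln
    · exact hln.le
    · exact Nat.lt_succ_iff.1 hln
  le' := by
    intro l hl hln
    rcases hn' with rfl | rfl | rfl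
    · exact h.le' l hl hln
    · exact hln.le
    · exact Nat.lt_succ_iff.1 hln
  lt := by
    intro l hl hln
    rcases hn with rfl | rfl | rfl
    · exact h.lt l hl hln
    · exact hln
    · exact hln.trans (Nat.lt_succ_self _)
  lt' := by
    intro l hl hln
    rcases hn' with rfl | rfl | rfl
    · exact h.lt' l hl hln
    · exact hln
    · exact hln.trans (Nat.lt_succ_self _)
  M := by
    intro l hl hd
    rcases (Nat.Prime.dvd_mul hl).1 (hd.trans hM) with h1 | h1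
    · exact ((Nat.prime_dvd_prime_iff_eq hl hp).1 h1).ge
    · exact h.M l hl h1
  M' := by
    intro l hl hd
    rcases (Nat.Prime.dvd_mul hl).1 (hd.trans hM') with h1 | h1
    · exact ((Nat.prime_dvd_prime_iff_eq hl hp).1 h1).ge
    · exact h.M' l hl h1

/-- **item form of a state** -/
structure IS (D : Par Λ κ) (sp : ℕ → Finset Λ) (P : Bld532.Par) (W : ℕ → ℝ) (U : ℕ → Finset ℕ)
    (s : St Λ κ) (u u' : NS) (τ τ' : IT) : Prop where
  tL : s.t = D.toDT sp u.B u.A τ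
  tR : s.t' = D.toDT sp u'.B u'.A τ'
  qL : All (NQ P W U) u τ
  qR : All (NQ P W U) u' τ'
  circ : u.A * u.B * s.M = u'.A * u'.B * s.M'
  lv : ∃ m, Lv u.n u'.n s.M s.M' m

/-- the self states -/
theorem IS_self' {sp : ℕ → Finset Λ} {τ : IT} (h : All (NQ P W U) u τ)
    (A A' : Finset Λ) (O O' : Finset ℕ) (R : Finset (Λ × Λ)) :
    IS D sp P W U ⟨1, 1, O, O', R, D.toDT sp u.B u.A τ, A, D.toDT sp u.B u.A τ, A'⟩ u u τ τ where
  tL := rfl
  tR := rfl
  qL := h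
  qR := h
  circ := rfl
  lv := ⟨u.n, fun l _ h => h.le, fun l _ h => h.le, fun l _ h => h, fun l _ h => h,
    fun l hl h1 => absurd (Nat.dvd_one.1 h1) hl.one_lt.ne',
    fun l hl h1 => absurd (Nat.dvd_one.1 h1) hl.one_lt.ne'⟩

section facts
variable {sp : ℕ → Finset Λ} {s : St Λ κ} {τ τ' : IT}

lemma IS.nl (h : IS D sp P W U s u u' τ τ') (hl : ¬ s.t.isLeaf) : ¬ isL τ := fun h2 =>
  hl (by rw [h.tL]; exact (toDT_leaf D sp _ _ τ).2 h2)

lemma IS.nl' (h : IS D sp P W U s u u' τ τ') (hl : ¬ s.t'.isLeaf) : ¬ isL τ' := fun h2 =>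
  hl (by rw [h.tR]; exact (toDT_leaf D sp _ _ τ').2 h2)

lemma IS.top (h : IS D sp P W U s u u' τ τ') : s.t.top = tp τ := by
  rw [h.tL]; exact toDT_top D sp _ _ τ

lemma IS.top' (h : IS D sp P W U s u u' τ τ') : s.t'.top = tp τ' := by
  rw [h.tR]; exact toDT_top D sp _ _ τ'

/-- the column of a non-leaf state is a prime, and the threshold of the levels -/
theorem IS.lvp (h : IS D sp P W U s u u' τ τ') (hl : ¬ s.t.isLeaf) (hl' : ¬ s.t'.isLeaf) :
    s.p.Prime ∧ Lv u.n u'.n s.M s.M' s.p := by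
  obtain ⟨m, hm⟩ := h.lv
  obtain ⟨a1, a2, a3⟩ := top_of_nodeOk h.qL.self.1 (h.nl hl)
  obtain ⟨b1, b2, b3⟩ := top_of_nodeOk h.qR.self.1 (h.nl' hl')
  have e1 := h.top
  have e2 := h.top'
  have p1 : tp τ ≤ s.p := by rw [← e1]; exact le_max_left _ _
  have p2 : tp τ' ≤ s.p := by rw [← e2]; exact le_max_right _ _
  have hor : s.p = tp τ ∨ s.p = tp τ' := by
    unfold St.p
    rw [e1, e2]
    rcases le_total (tp τ) (tp τ') with h | h
    · exact Or.inr (max_eq_right h)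
    · exact Or.inl (max_eq_left h)
  have hpp : s.p.Prime := by
    rcases hor with e | e <;> rw [e]
    · exact a1
    · exact b1
  have hpm : s.p ≤ m := by
    rcases hor with e | e <;> rw [e]
    · exact hm.le _ a1 a2
    · exact hm.le' _ b1 b2
  exact ⟨hpp, fun l hl hln => (a3 l hl hln).trans p1, fun l hl hln => (b3 l hl hln).trans p2,
    fun l hl hlp => hm.lt l hl (hlp.trans_le hpm), fun l hl hlp => hm.lt' l hl (hlp.trans_le hpm),
    fun l hl hd => hpm.trans (hm.M l hl hd), fun l hl hd => hpm.trans (hm.M' l hl hd)⟩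

/-- the primes of the moduli are at least the column of the state -/
lemma IS.ge_p (h : IS D sp P W U s u u' τ τ') (hl : ¬ s.t.isLeaf) (hl' : ¬ s.t'.isLeaf)
    {l : ℕ} (hlp : l.Prime) (hd : l ∣ s.M ∨ l ∣ s.M') : s.p ≤ l := by
  rcases hd with hd | hd
  · exact (h.lvp hl hl').2.M l hlp hd
  · exact (h.lvp hl hl').2.M' l hlp hd

/-- above the column of the state every prime is above both levels -/
lemma IS.gt_level (h : IS D sp P W U s u u' τ τ') (hl : ¬ s.t.isLeaf) (hl' : ¬ s.t'.isLeaf)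
    {l : ℕ} (hlp : l.Prime) (hp : s.p < l) : u.n ≤ l ∧ u'.n ≤ l := by
  have h2 := (h.lvp hl hl').2
  constructor
  · by_contra hc
    push Not at hc
    exact absurd (h2.le l hlp hc) (not_le.2 hp)
  · by_contra hc
    push Not at hc
    exact absurd (h2.le' l hlp hc) (not_le.2 hp)

/-- **the primes of the left modulus are above both levels** if the column does not divide it -/
lemma IS.geM (h : IS D sp P W U s u u' τ τ') (hl : ¬ s.t.isLeaf) (hl' : ¬ s.t'.isLeaf)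
    (hp : ¬ s.p ∣ s.M) : ∀ l : ℕ, l.Prime → l ∣ s.M → u.n ≤ l ∧ u'.n ≤ l := by
  intro l hlp hd
  exact h.gt_level hl hl' hlp (lt_of_le_of_ne (h.ge_p hl hl' hlp (Or.inl hd))
    fun e => hp (e ▸ hd))

/-- the same for the right modulus -/
lemma IS.geM' (h : IS D sp P W U s u u' τ τ') (hl : ¬ s.t.isLeaf) (hl' : ¬ s.t'.isLeaf)
    (hp : ¬ s.p ∣ s.M') : ∀ l : ℕ, l.Prime → l ∣ s.M' → u.n ≤ l ∧ u'.n ≤ l := by
  intro l hlp hd
  exact h.gt_level hl hl' hlp (lt_of_le_of_ne (h.ge_p hl hl' hlp (Or.inr hd))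
    fun e => hp (e ▸ hd))

/-- above the column of the state every prime is above both levels -/
lemma IS.level (h : IS D sp P W U s u u' τ τ') (hl : ¬ s.t.isLeaf) (hl' : ¬ s.t'.isLeaf)
    {y : ℝ} (hy : (s.p : ℝ) ≤ y) : ∀ l : ℕ, l.Prime → y < l → u.n ≤ l ∧ u'.n ≤ l := by
  intro l hlp hyl
  exact h.gt_level hl hl' hlp (by exact_mod_cast hy.trans_lt hyl)

/-- no prime of the left modulus divides the rest of a left item twice (800's `Once`) -/
lemma IS.once (h : IS D sp P W U s u u' τ τ') (hl : ¬ s.t.isLeaf) (hl' : ¬ s.t'.isLeaf)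
    (hp : ¬ s.p ∣ s.M) {q : ℕ} (hq : q ∈ τ.items) :
    ∀ l : ℕ, l.Prime → l ∣ s.M → ¬ l ^ 2 ∣ q / u.A :=
  (h.qL.self.2 q hq).1.once fun l h1 h2 => (h.geM hl hl' hp l h1 h2).1

/-- no prime of the right modulus divides the rest of a right item twice -/
lemma IS.once' (h : IS D sp P W U s u u' τ τ') (hl : ¬ s.t.isLeaf) (hl' : ¬ s.t'.isLeaf)
    (hp : ¬ s.p ∣ s.M') {q : ℕ} (hq : q ∈ τ'.items) :
    ∀ l : ℕ, l.Prime → l ∣ s.M' → ¬ l ^ 2 ∣ q / u'.A :=
  (h.qR.self.2 q hq).1.once fun l h1 h2 => (h.geM' hl hl' hp l h1 h2).2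

end facts

/-! ### tameness -/

/-- one side: the primes above `y` of the averaged rest of an item are `up` primes -/
lemma NQ.tame {τ : IT} (hq : NQ P W U u τ) {q M : ℕ} (hqS : q ∈ τ.items) {y : ℝ}
    (hy : ∀ l : ℕ, l.Prime → y < l → u.n ≤ l)
    (hU : ∑ l ∈ (U q).filter (fun l : ℕ => y < (l : ℝ)), (1 : ℝ) / l ≤ y ^ (-(1 / 2 : ℝ))) :
    ClsB.Tame y 1 (q / u.A / M.gcd (q / u.A)) := by
  classical
  refine ⟨one_dvd _, le_trans ?_ hU⟩
  apply Finset.sum_le_sum_of_subset_of_nonneg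
  · intro l hl
    rw [Finset.mem_filter, Nat.mem_primeFactors, Nat.div_one] at hl
    obtain ⟨⟨hlp, hld, hl0⟩, hyl⟩ := hl
    rw [Finset.mem_filter]
    have hlw : l ∣ q / u.A := hld.trans (Nat.div_dvd_of_dvd (Nat.gcd_dvd_right _ _))
    exact ⟨((hq.2 q hqS).1 l hlp (hy l hlp hyl) hlw).1, hyl⟩
  · intro _ _ _; positivity

/-- **common-`G` tameness of a state** (on the averaged circle; with powers `G = 1`) -/
theorem IS.tame {sp : ℕ → Finset Λ} {s : St Λ κ} {τ τ' : IT}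
    (h : IS D sp P W U s u u' τ τ') :
    ∃ G : ℕ, 0 < G ∧
      (∀ j ∈ s.A, D.it j ∈ τ.items → ∀ y : ℝ, (∀ l : ℕ, l.Prime → y < l → u.n ≤ l) →
        ∑ l ∈ (U (D.it j)).filter (fun l : ℕ => y < (l : ℝ)), (1 : ℝ) / l ≤ y ^ (-(1 / 2 : ℝ)) →
        ClsB.Tame y G (D.it j / u.A / s.M.gcd (D.it j / u.A))) ∧
      (∀ j ∈ s.A', D.it j ∈ τ'.items → ∀ y : ℝ, (∀ l : ℕ, l.Prime → y < l → u'.n ≤ l) →
        ∑ l ∈ (U (D.it j)).filter (fun l : ℕ => y < (l : ℝ)), (1 : ℝ) / l ≤ y ^ (-(1 / 2 : ℝ)) →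
        ClsB.Tame y G (D.it j / u'.A / s.M'.gcd (D.it j / u'.A))) :=
  ⟨1, one_pos, fun _ _ hjS _ hy hU => h.qL.self.tame hjS hy hU,
    fun _ _ hjS _ hy hU => h.qR.self.tame hjS hy hU⟩

/-! ### the walk preserves the item form -/

/-- one side of a child: the level is the old one, `p` or `p + 1`; the product of the circle is
multiplied by `k` -/
def Mv (D : Par Λ κ) (sp : ℕ → Finset Λ) (P : Bld532.Par) (W : ℕ → ℝ) (U : ℕ → Finset ℕ)
    (p : ℕ) (u : NS) (k : ℕ) (d : DT Λ κ) : Prop :=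
  ∃ (v : NS) (σ : IT), d = D.toDT sp v.B v.A σ ∧ All (NQ P W U) v σ ∧
    (v.n = u.n ∨ v.n = p ∨ v.n = p + 1) ∧ v.A * v.B = u.A * u.B * k

section mv
variable {sp : ℕ → Finset Λ} {τ : IT} {d d₁ d₀ : DT Λ κ} {w : ℝ} {r : Λ → κ} {v : Λ → ℝ → ℝ}
  {B G : κ → ℝ → ℝ} {Sp : Finset Λ}

lemma Mv.self (hq : All (NQ P W U) u τ) : Mv D sp P W U p u 1 (D.toDT sp u.B u.A τ) :=
  ⟨u, τ, rfl, hq, Or.inl rfl, (mul_one _).symm⟩

/-- children of a tie or of a pull -/
lemma Mv.br (hd : D.toDT sp u.B u.A τ = .br p w r d₁ d₀ v B G) (hq : All (NQ P W U) u τ) :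
    Mv D sp P W U p u p d₁ ∧ (w ≠ 0 → Mv D sp P W U p u p d₀) := by
  rcases AvgItem710.toDT_br hd with ⟨S, t₁, t₀, rfl, -, rfl, rfl, -, -⟩ | ⟨t₁, rfl, -, rfl, -, hw, -⟩
  · exact ⟨⟨_, t₁, rfl, hq.2.1, Or.inr (Or.inl rfl),
        by show u.A * p * u.B = u.A * u.B * p; ring⟩,
      fun _ => ⟨_, t₀, rfl, hq.2.2, Or.inr (Or.inl rfl),
        by show u.A * (u.B * p) = u.A * u.B * p; ring⟩⟩
  · exact ⟨⟨⟨p + 1, u.c, u.A * p, u.B⟩, t₁, rfl, hq.2, Or.inr (Or.inr rfl),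
        by show u.A * p * u.B = u.A * u.B * p; ring⟩,
      fun h => absurd hw h⟩

/-- children of an add node (SEP or FAR) -/
lemma Mv.add (hd : D.toDT sp u.B u.A τ = .add p r d₁ d₀) (hq : All (NQ P W U) u τ) :
    Mv D sp P W U p u 1 d₁ ∧ Mv D sp P W U p u 1 d₀ := by
  obtain ⟨t₁, t₀, ht, -, rfl, rfl⟩ := AvgItem710.toDT_add hd
  rcases ht with rfl | rfl
  · exact ⟨⟨⟨p + 1, u.c, u.A, u.B⟩, t₁, rfl, hq.2.1, Or.inr (Or.inr rfl), (mul_one _).symm⟩,
      ⟨⟨p + 1, u.c, u.A, u.B⟩, t₀, rfl, hq.2.2, Or.inr (Or.inr rfl), (mul_one _).symm⟩⟩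
  · exact ⟨⟨⟨p + 1, u.c, u.A, u.B⟩, t₁, rfl, hq.2.1, Or.inr (Or.inr rfl), (mul_one _).symm⟩,
      ⟨⟨p + 1, u.c, u.A, u.B⟩, t₀, rfl, hq.2.2, Or.inr (Or.inr rfl), (mul_one _).symm⟩⟩

/-- the `up` view -/
lemma Mv.up (hd : vw p (D.toDT sp u.B u.A τ) = .up Sp d) (hq : All (NQ P W U) u τ) :
    Mv D sp P W U p u 1 d := by
  rcases vw_up hd with h | ⟨-, rfl, -⟩
  · obtain ⟨S, t₁, rfl, -, rfl⟩ := AvgItem710.toDT_up h
    exact ⟨⟨p, u.c, u.A, u.B⟩, t₁, rfl, hq.2, Or.inr (Or.inl rfl), (mul_one _).symm⟩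
  · exact Mv.self hq

/-- the chosen child of an add node -/
lemma Mv.c {stp : Stp Λ κ} {s : St Λ κ} {k : ℕ} (h : Mv D sp P W U p u k d₁ ∧ Mv D sp P W U p u k d₀) :
    Mv D sp P W U p u k (stp.c s d₁ d₀) := by
  rcases stp.c_or s d₁ d₀ with ⟨e, -⟩ | ⟨e, -⟩ <;> rw [e]
  · exact h.1
  · exact h.2

end mv

/-- the two sides of a child -/
lemma IS.of_Mv {sp : ℕ → Finset Λ} {s : St Λ κ} {k k' M M' : ℕ} (hp : p.Prime)
    (hlv : Lv u.n u'.n M M' p) (hL : Mv D sp P W U p u k s.t) (hR : Mv D sp P W U p u' k' s.t')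
    (hM : s.M ∣ p * M) (hM' : s.M' ∣ p * M')
    (e : u.A * u.B * k * s.M = u'.A * u'.B * k' * s.M') :
    ∃ (v v' : NS) (σ σ' : IT), IS D sp P W U s v v' σ σ' ∧ Lv v.n v'.n s.M s.M' p := by
  obtain ⟨v, σ, h1, h2, h3, h4⟩ := hL
  obtain ⟨v', σ', h1', h2', h3', h4'⟩ := hR
  have hl := hlv.step hp h3 h3' hM hM'
  exact ⟨v, v', σ, σ', ⟨h1, h1', h2, h2', by rw [h4, h4']; exact e, p, hl⟩, hl⟩

set_option maxHeartbeats 1000000 in
/-- **item form is preserved by the walk** -/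
theorem IS.next {stp : Stp Λ κ} {sp : ℕ → Finset Λ}
    {s : St Λ κ} {τ τ' : IT} (h : IS D sp P W U s u u' τ τ') :
    ∀ q ∈ nxt stp s, ∃ (v v' : NS) (σ σ' : IT), IS D sp P W U q.2 v v' σ σ' ∧
      Lv v.n v'.n q.2.M q.2.M' s.p := by
  intro q hq'
  obtain ⟨hq, hq0⟩ := mem_nxt.1 hq'
  unfold nxt0 at hq
  by_cases h1 : s.t.isLeaf ∨ s.t'.isLeaf
  · simp [h1] at hq
  by_cases h2 : stp s
  · simp [h1, h2] at hq
  rw [if_neg h1, if_neg h2] at hq
  rw [not_or] at h1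
  obtain ⟨hp, lv⟩ := h.lvp h1.1 h1.2
  have hsL : Mv D sp P W U s.p u 1 s.t := by rw [h.tL]; exact Mv.self h.qL
  have hsR : Mv D sp P W U s.p u' 1 s.t' := by rw [h.tR]; exact Mv.self h.qR
  have hMM : s.M ∣ s.p * s.M := Dvd.intro_left _ rfl
  have hMM' : s.M' ∣ s.p * s.M' := Dvd.intro_left _ rfl
  by_cases hPL : s.isPL
  · rw [if_pos hPL] at hq
    obtain ⟨w, r, t₁, t₀, v, B, G, hv, et, hc⟩ := St.isPL_cases hPL
    obtain ⟨m1, m0⟩ := Mv.br (h.tL.symm.trans et) h.qL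
    rcases hc with ⟨hd, hs⟩ | ⟨hd, hw, hs⟩
    · rw [hs] at hq
      have e : s.p * (s.M / s.p) = s.M := Nat.mul_div_cancel' hd
      have hM1 : s.M / s.p ∣ s.p * s.M := (Nat.div_dvd_of_dvd hd).trans hMM
      have ec : u.A * u.B * s.p * (s.M / s.p) = u'.A * u'.B * 1 * s.M' := by
        rw [mul_assoc, e, mul_one]; exact h.circ
      simp only [List.mem_cons, List.not_mem_nil, or_false] at hq
      rcases hq with rfl | rfl
      · exact IS.of_Mv (s := s.fL r t₁) hp lv m1 hsR hM1 hMM' ec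
      · exact IS.of_Mv (s := s.fL r t₀) hp lv (m0 hq0) hsR hM1 hMM' ec
    · rw [hs] at hq
      simp only [List.mem_cons, List.not_mem_nil, or_false] at hq
      rcases hq with rfl | rfl
      · refine IS.of_Mv (s := s.pL r t₁) hp lv m1 hsR hMM dvd_rfl ?_
        show u.A * u.B * s.p * s.M = u'.A * u'.B * 1 * (s.p * s.M')
        calc u.A * u.B * s.p * s.M = (u.A * u.B * s.M) * s.p := by ring
          _ = (u'.A * u'.B * s.M') * s.p := by rw [h.circ]
          _ = _ := by ring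
      · exact absurd hw hq0
  rw [if_neg hPL] at hq
  by_cases hPR : s.isPR
  · rw [if_pos hPR] at hq
    obtain ⟨w, r, t₁, t₀, v, B, G, hv, et, hc⟩ := St.isPR_cases hPR
    obtain ⟨m1, m0⟩ := Mv.br (h.tR.symm.trans et) h.qR
    rcases hc with ⟨hd, hs⟩ | ⟨hd, hw, hs⟩
    · rw [hs] at hq
      have e : s.p * (s.M' / s.p) = s.M' := Nat.mul_div_cancel' hd
      have hM1 : s.M' / s.p ∣ s.p * s.M' := (Nat.div_dvd_of_dvd hd).trans hMM'
      have ec : u.A * u.B * 1 * s.M = u'.A * u'.B * s.p * (s.M' / s.p) := by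
        rw [mul_assoc (u'.A * u'.B), e, mul_one]; exact h.circ
      simp only [List.mem_cons, List.not_mem_nil, or_false] at hq
      rcases hq with rfl | rfl
      · exact IS.of_Mv (s := s.fR r t₁) hp lv hsL m1 hMM hM1 ec
      · exact IS.of_Mv (s := s.fR r t₀) hp lv hsL (m0 hq0) hMM hM1 ec
    · rw [hs] at hq
      simp only [List.mem_cons, List.not_mem_nil, or_false] at hq
      rcases hq with rfl | rfl
      · refine IS.of_Mv (s := s.pR r t₁) hp lv hsL m1 dvd_rfl hMM' ?_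
        show u.A * u.B * 1 * (s.p * s.M) = u'.A * u'.B * s.p * s.M'
        calc u.A * u.B * 1 * (s.p * s.M) = (u.A * u.B * s.M) * s.p := by ring
          _ = (u'.A * u'.B * s.M') * s.p := by rw [h.circ]
          _ = _ := by ring
      · exact absurd hw hq0
  rw [if_neg hPR] at hq
  have c11 : u.A * u.B * 1 * s.M = u'.A * u'.B * 1 * s.M' := by
    rw [mul_one, mul_one]; exact h.circ
  have cpp : u.A * u.B * s.p * s.M = u'.A * u'.B * s.p * s.M' := by
    calc u.A * u.B * s.p * s.M = (u.A * u.B * s.M) * s.p := by ring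
      _ = (u'.A * u'.B * s.M') * s.p := by rw [h.circ]
      _ = _ := by ring
  have cp1 : u.A * u.B * s.p * s.M = u'.A * u'.B * 1 * (s.p * s.M') := by
    rw [cpp]; ring
  have c1p : u.A * u.B * 1 * (s.p * s.M) = u'.A * u'.B * s.p * s.M' := by
    rw [← cpp]; ring
  rcases hv : vw s.p s.t with ⟨w, r, t₁, t₀, v, B, G⟩ | ⟨r, t₁, t₀⟩ | ⟨Sp, d⟩ <;>
  rcases hv' : vw s.p s.t' with ⟨w', r', t₁', t₀', v', B', G'⟩ | ⟨r', t₁', t₀'⟩ | ⟨Sp', d'⟩ <;>
  simp only [hv, hv'] at hq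
  · -- br br
    obtain ⟨m1, m0⟩ := Mv.br (h.tL.symm.trans (vw_br hv)) h.qL
    obtain ⟨m1', m0'⟩ := Mv.br (h.tR.symm.trans (vw_br hv')) h.qR
    simp only [List.mem_cons, List.not_mem_nil, or_false] at hq
    rcases hq with rfl | rfl | rfl | rfl
    · exact IS.of_Mv hp lv m1 m1' hMM hMM' cpp
    · exact IS.of_Mv hp lv m1
        (m0' (right_ne_zero_of_mul hq0)) hMM hMM' cpp
    · exact IS.of_Mv hp lv
        (m0 (left_ne_zero_of_mul hq0)) m1' hMM hMM' cpp
    · exact IS.of_Mv hp lv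
        (m0 (left_ne_zero_of_mul hq0)) (m0' (right_ne_zero_of_mul hq0)) hMM hMM' cpp
  · -- br add
    have m' := Mv.add (h.tR.symm.trans (vw_add hv')) h.qR
    simp only [List.mem_cons, List.not_mem_nil, or_false] at hq
    subst hq
    exact IS.of_Mv hp lv hsL (Mv.c m') hMM hMM' c11
  · -- br up
    obtain ⟨m1, m0⟩ := Mv.br (h.tL.symm.trans (vw_br hv)) h.qL
    have m' := Mv.up (h.tR ▸ hv') h.qR
    simp only [List.mem_cons, List.not_mem_nil, or_false] at hq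
    rcases hq with rfl | rfl
    · exact IS.of_Mv hp lv m1 m' hMM dvd_rfl cp1
    · exact IS.of_Mv hp lv (m0 hq0) m' hMM dvd_rfl cp1
  · -- add br
    have m := Mv.add (h.tL.symm.trans (vw_add hv)) h.qL
    simp only [List.mem_cons, List.not_mem_nil, or_false] at hq
    subst hq
    exact IS.of_Mv hp lv (Mv.c m) hsR hMM hMM' c11
  · -- add add
    have m := Mv.add (h.tL.symm.trans (vw_add hv)) h.qL
    have m' := Mv.add (h.tR.symm.trans (vw_add hv')) h.qR
    split_ifs at hq with hj hl <;>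
      simp only [List.mem_cons, List.not_mem_nil, or_false] at hq
    · rcases hq with rfl | rfl
      · exact IS.of_Mv hp lv m.1 m'.1 hMM hMM' c11
      · exact IS.of_Mv hp lv m.2 m'.2 hMM hMM' c11
    · subst hq
      exact IS.of_Mv hp lv (Mv.c m) hsR hMM hMM' c11
    · subst hq
      exact IS.of_Mv hp lv hsL (Mv.c m') hMM hMM' c11
  · -- add up
    have m := Mv.add (h.tL.symm.trans (vw_add hv)) h.qL
    have m' := Mv.up (h.tR ▸ hv') h.qR
    split_ifs at hq with hj <;>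
      simp only [List.mem_cons, List.not_mem_nil, or_false] at hq
    · rcases hq with rfl | rfl
      · exact IS.of_Mv hp lv m.1 m' hMM hMM'
          c11
      · exact IS.of_Mv hp lv m.2 m' hMM hMM'
          c11
    · subst hq
      exact IS.of_Mv hp lv (Mv.c m) hsR hMM hMM' c11
  · -- up br
    have m := Mv.up (h.tL ▸ hv) h.qL
    obtain ⟨m1', m0'⟩ := Mv.br (h.tR.symm.trans (vw_br hv')) h.qR
    simp only [List.mem_cons, List.not_mem_nil, or_false] at hq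
    rcases hq with rfl | rfl
    · exact IS.of_Mv hp lv m m1' dvd_rfl hMM' c1p
    · exact IS.of_Mv hp lv m (m0' hq0) dvd_rfl hMM' c1p
  · -- up add
    have m := Mv.up (h.tL ▸ hv) h.qL
    have m' := Mv.add (h.tR.symm.trans (vw_add hv')) h.qR
    split_ifs at hq with hj <;>
      simp only [List.mem_cons, List.not_mem_nil, or_false] at hq
    · rcases hq with rfl | rfl
      · exact IS.of_Mv hp lv m m'.1 hMM hMM'
          c11
      · exact IS.of_Mv hp lv m m'.2 hMM hMM'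
          c11
    · subst hq
      exact IS.of_Mv hp lv hsL (Mv.c m') hMM hMM' c11
  · -- up up
    have m := Mv.up (h.tL ▸ hv) h.qL
    have m' := Mv.up (h.tR ▸ hv') h.qR
    simp only [List.mem_cons, List.not_mem_nil, or_false] at hq
    subst hq
    exact IS.of_Mv hp lv m m' hMM hMM' c11

/-- the self states -/
theorem IS_self {sp : ℕ → Finset Λ} {τ : IT} (h : All (NQ P W U) u τ) (A : Finset Λ) :
    IS D sp P W U (selfSt (D.toDT sp u.B u.A τ) A) u u τ τ :=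
  IS_self' h A A ∅ ∅ _

/-! ### walk sums with the item form as invariant -/

section ws
variable {wr : ℕ → Λ → κ} {Ad : TrG Λ κ → Finset Λ → Prop}
  {μ : TrG Λ κ → Finset Λ → ℝ} {ν : TrG Λ κ → ℝ} {stp : Stp Λ κ} {sp : ℕ → Finset Λ}

/-- invariant: 560's invariant and the item form -/
def II (D : Par Λ κ) (P : Bld532.Par) (W : ℕ → ℝ) (U : ℕ → Finset ℕ) (wr : ℕ → Λ → κ)
    (Ad : TrG Λ κ → Finset Λ → Prop) (μ : TrG Λ κ → Finset Λ → ℝ) (ν : TrG Λ κ → ℝ)
    (sp : ℕ → Finset Λ) (s : St Λ κ) : Prop :=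
  InvE wr Ad μ ν s ∧ ∃ (u u' : NS) (τ τ' : IT), IS D sp P W U s u u' τ τ'

lemma II.next {s : St Λ κ} (h : II D P W U wr Ad μ ν sp s) :
    ∀ q ∈ nxt stp s, II D P W U wr Ad μ ν sp q.2 ∧ 0 ≤ q.1 := by
  obtain ⟨h1, u, u', τ, τ', h2⟩ := h
  intro q hq
  obtain ⟨v, v', σ, σ', h3, -⟩ := h2.next q hq
  exact ⟨⟨(h1.next q hq).1, v, v', σ, σ', h3⟩, (h1.next q hq).2⟩

theorem WS_monoI {f g : St Λ κ → ℝ}
    (hfg : ∀ s, II D P W U wr Ad μ ν sp s → f s ≤ g s) {s : St Λ κ}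
    (hs : II D P W U wr Ad μ ν sp s) : WS stp f s ≤ WS stp g s :=
  W_mono (Inv := II D P W U wr Ad μ ν sp) (fun s => nxt_rank stp s) (fun s hs => hs.next)
    hfg s hs

theorem WS_le_superI {loc Φ : St Λ κ → ℝ}
    (hΦ : ∀ s, II D P W U wr Ad μ ν sp s →
      loc s + ((nxt stp s).map fun q => q.1 * Φ q.2).sum ≤ Φ s)
    {s : St Λ κ} (hs : II D P W U wr Ad μ ν sp s) : WS stp loc s ≤ Φ s :=
  W_le_super (Inv := II D P W U wr Ad μ ν sp) (fun s => nxt_rank stp s)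
    (fun s hs => hs.next) hΦ s hs

/-- level form: `loc` costs only at steps which decrease the column (`eNM_lt`, `eOS_lt`) -/
theorem WS_levelI {loc Ψ : St Λ κ → ℝ} {ε : ℕ → ℝ}
    (hε : ∀ n, 0 ≤ ε n)
    (hΨ0 : ∀ s, II D P W U wr Ad μ ν sp s → 0 ≤ Ψ s)
    (hΨ : ∀ s, II D P W U wr Ad μ ν sp s → ((nxt stp s).map fun q => q.1 * Ψ q.2).sum ≤ Ψ s)
    (hz : ∀ s, II D P W U wr Ad μ ν sp s → loc s ≤ 0 ∨ ∀ q ∈ nxt stp s, q.2.p < s.p)
    (hl : ∀ s, II D P W U wr Ad μ ν sp s → loc s ≤ ε s.p * Ψ s) {s : St Λ κ}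
    (hs : II D P W U wr Ad μ ν sp s) :
    WS stp loc s ≤ (∑ k ∈ Finset.range (s.p + 1), ε k) * Ψ s :=
  W_level_weak (Inv := II D P W U wr Ad μ ν sp) (P := St.p) (fun s => nxt_rank stp s)
    (fun s hs => hs.next) hε hΨ0 hΨ (fun s ⟨⟨n, hs⟩, _⟩ => nxt_p_le hs)
    (fun s hs => (hz s hs).imp id fun h => ⟨hl s hs, h⟩) s hs

theorem WS_budgetI {loc Ψ a g : St Λ κ → ℝ}
    (hΨ0 : ∀ s, II D P W U wr Ad μ ν sp s → 0 ≤ Ψ s)
    (hΨ : ∀ s, II D P W U wr Ad μ ν sp s → ((nxt stp s).map fun q => q.1 * Ψ q.2).sum ≤ Ψ s)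
    (hl : ∀ s, II D P W U wr Ad μ ν sp s → loc s ≤ a s * Ψ s)
    (hg : ∀ s, II D P W U wr Ad μ ν sp s → ∀ q ∈ nxt stp s, a s + g q.2 ≤ g s)
    (hga : ∀ s, II D P W U wr Ad μ ν sp s → a s ≤ g s) {s : St Λ κ}
    (hs : II D P W U wr Ad μ ν sp s) : WS stp loc s ≤ g s * Ψ s :=
  W_budget (Inv := II D P W U wr Ad μ ν sp) (fun s => nxt_rank stp s)
    (fun s hs => hs.next) hΨ0 hΨ hl hg hga s hs

end ws

end side

end Crest.Agent.R4P.WalkIT579
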