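import Crest.Agent.R4P.LeafB820
import Crest.Agent.R4P.PlOk820
import Crest.Agent.R4P.LfDat734
import Crest.Agent.R4P.WPex189

/-!
R4 (S0004), POWERS: port of helper368's `R4/LeafJ368` (module J2) to the tree with powers (helper820):
**in-class energy of a leaf of the concrete data**, factor `u.c` of the leaf, NO coprimality and no
squarefree items.
-/

set_option autoImplicit false
set_option linter.unusedSectionVars false
set_option linter.unusedVariables false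
open Finset MeasureTheory

namespace Crest.Agent.R4P.LeafJ368

open Crest.Agent.R4
open Crest.Agent.R4.LF363 (uw Lab)
open Crest.Agent.R4.ClsB (Tame)
open Crest.Agent.R4P.Bld532 (NS NodeOk Bk)
open Crest.Agent.R4P.Data758 Crest.Agent.R4P.LfDat734 Crest.Agent.R4P.WPex189
open Crest.Agent.R4P.Frame758 (lf LeafI)
open Crest.Agent.R4.Item758 (IL)
open Crest.Agent.R4P.Item758 (pp Fit)
open Crest.Agent.R4.Tour104 (I)
open Crest.Agent.R4.LeafU368 (sum_split)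
open Crest.Agent.R4P.Cnt588
open Crest.Agent.R4P.PhiU820 (PlOk)
open Crest.Agent.R4P.LeafB820 (toR4)

/-- the level of the node of an item is at most the level of the tree -/
lemma lst_n_le : ∀ (t : IT) (n : ℕ) (s : NS), t.Ok n → s.n = n → ∀ q, (Bld532.lst t s q).n ≤ n := by
  intro t
  induction t with
  | leaf S => intro n s _ h q; simp only [Bld532.lst]; exact h.le
  | br p Sp t₁ t₀ ih₁ ih₀ =>
    intro n s hO h q
    obtain ⟨h1, h2, h3, h3', h4, h5⟩ := hO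
    simp only [Bld532.lst]
    split_ifs
    · exact (ih₀ p _ h5 rfl q).trans h2.le
    · exact (ih₁ p _ h4 rfl q).trans h2.le
  | add b t₁ t₀ ih₁ ih₀ =>
    intro n s hO h q
    obtain ⟨h1, h2, h3, h4, h5⟩ := hO
    simp only [Bld532.lst]
    split_ifs
    · exact (ih₀ (b + 1) _ h5 rfl q).trans h2
    · exact (ih₁ (b + 1) _ h4 rfl q).trans h2
  | up b Sp t ih =>
    intro n s hO h q
    obtain ⟨h1, h2, h3, h4⟩ := hO
    simp only [Bld532.lst]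
    exact (ih b _ h4 rfl q).trans h2.le
  | pl b t ih =>
    intro n s hO h q
    obtain ⟨h1, h2, h4⟩ := hO
    simp only [Bld532.lst]
    exact (ih (b + 1) _ h4 rfl q).trans h2
  | far b t₁ t₀ ih₁ ih₀ =>
    intro n s hO h q
    obtain ⟨h1, h2, h3, h4, h5⟩ := hO
    simp only [Bld532.lst]
    split_ifs
    · exact (ih₀ (b + 1) _ h5 rfl q).trans h2
    · exact (ih₁ (b + 1) _ h4 rfl q).trans h2

lemma lv_le {t : IT} {n : ℕ} (h : t.Ok n) (q : ℕ) : lv t n q ≤ n := by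
  unfold lv
  have := lst_n_le t n ⟨n, 1, 1, 1⟩ h rfl q
  omega

section
variable {c : Cf} {n : ℕ} {P : Bld532.Par} {W : ℕ → ℝ} {u : NS} {Sl : Finset ℕ} {G K : ℕ}
  {wp : W363.WP}

/-- same leaf class, both unlabelled: close centres -/
theorem close_U (hc : c.Ok n) (hfine : Fine c.wpL c.γ c.r c.t c.S n K) {j j' : c.Lam} {p : ℕ}
    (hp : p ≤ n) (hl : c.lv (c.D.it j) = p) (hl' : c.lv (c.D.it j') = p)
    (hst : stL c.wpL c.γ c.r c.t c.lv (c.D.it j) = none)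
    (hst' : stL c.wpL c.γ c.r c.t c.lv (c.D.it j') = none)
    (e : c.D.rhoL j = c.D.rhoL j') {z z' : ℝ} (h1 : c.D.al j ≤ z) (h2 : z < c.D.be j)
    (h1' : c.D.al j' ≤ z') (h2' : z' < c.D.be j') :
    |z / c.D.it j - z' / c.D.it j'| ≤
      etaL c.wpL p * min (c.r (c.D.it j) / c.D.it j) (c.r (c.D.it j') / c.D.it j') := by
  have hq := Cf.mem_S j
  have hq' := Cf.mem_S j'
  have hr := Cf.r_pos j
  have hr' := Cf.r_pos j'
  have hz : |z| ≤ c.r (c.D.it j) := by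
    rw [abs_le]
    exact ⟨(hc.bp_ge j _).trans h1, h2.le.trans (hc.bp_le j (Cf.k_lt j))⟩
  have hz' : |z'| ≤ c.r (c.D.it j') := by
    rw [abs_le]
    exact ⟨(hc.bp_ge j' _).trans h1', h2'.le.trans (hc.bp_le j' (Cf.k_lt j'))⟩
  have hl0 : c.lv j.1.1 = p := hl
  have hl0' : c.lv j'.1.1 = p := hl'
  have h3 := ((hc.rhoL_iff j j' (by rw [hl0]; exact hp) (by rw [hl0']; exact hp) h1 h2 h1' h2').1 e).1
  have s1 : c.wpL.st c.γ c.r c.t (c.lv j.1.1) j.1.1 = none := hst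
  have s2 : c.wpL.st c.γ c.r c.t (c.lv j'.1.1) j'.1.1 = none := hst'
  rw [s1, s2, hl0, hl0'] at h3
  have h4 := hfine.close hp hq hq' (hc.pos _ hq) (hc.pos _ hq') hz hz' hr hr' h3
  have e1 : W363.off c.γ c.γ j.1.1 z = z / c.D.it j := by
    unfold W363.off; rw [sub_self, add_zero]; rfl
  have e2 : W363.off c.γ c.γ j'.1.1 z' = z' / c.D.it j' := by
    unfold W363.off; rw [sub_self, add_zero]; rfl
  rw [e1, e2] at h4
  refine h4.trans ?_
  refine mul_le_mul_of_nonneg_right (exp_le_etaL c.wpL p) ?_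
  have a1 : 0 ≤ c.r j.1.1 / (j.1.1 : ℝ) := by positivity
  have a2 : 0 ≤ c.r j'.1.1 / (j'.1.1 : ℝ) := by positivity
  exact le_min a1 a2

/-- same leaf class, both labelled: the same snapped centre on the circle of the leaf -/
theorem exact_L (hc : c.Ok n) (hfine : Fine c.wpL c.γ c.r c.t c.S n K) {j j' : c.Lam} {p A B : ℕ}
    (hp : p ≤ n) (hl : c.lv (c.D.it j) = p) (hl' : c.lv (c.D.it j') = p) (hA : 0 < A) (hB : 0 < B)
    (hBK : B ≤ K) (hAj : A ∣ c.D.it j) (hAj' : A ∣ c.D.it j') {σ τ : ℚ}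
    (hst : stL c.wpL c.γ c.r c.t c.lv (c.D.it j) = some σ)
    (hst' : stL c.wpL c.γ c.r c.t c.lv (c.D.it j') = some τ)
    (e : c.D.rhoL j = c.D.rhoL j') {m k : ℤ} {x : ℝ}
    (h1 : B * c.D.al j ≤ ((c.D.it j / A : ℕ) : ℝ) * x - B * c.D.γ - m ∧
        ((c.D.it j / A : ℕ) : ℝ) * x - B * c.D.γ - m < B * c.D.be j)
    (h2 : B * c.D.al j' ≤ ((c.D.it j' / A : ℕ) : ℝ) * x - B * c.D.γ - k ∧
        ((c.D.it j' / A : ℕ) : ℝ) * x - B * c.D.γ - k < B * c.D.be j') :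
    ((m : ℝ) + (((B : ℚ) * σ : ℚ) : ℝ)) / ((c.D.it j / A : ℕ) : ℝ) =
      (k + (((B : ℚ) * τ : ℚ) : ℝ)) / ((c.D.it j' / A : ℕ) : ℝ) := by
  have hq := Cf.mem_S j
  have hq' := Cf.mem_S j'
  have hq0 : 0 < c.D.it j := hc.pos _ hq
  have hq0' : 0 < c.D.it j' := hc.pos _ hq'
  have hBR : (0 : ℝ) < B := by exact_mod_cast hB
  have hv : 0 < c.D.it j / A := Nat.div_pos (Nat.le_of_dvd hq0 hAj) hA
  have hv' : 0 < c.D.it j' / A := Nat.div_pos (Nat.le_of_dvd hq0' hAj') hA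
  have eq1 : c.D.it j = A * (c.D.it j / A) := (Nat.mul_div_cancel' hAj).symm
  have eq2 : c.D.it j' = A * (c.D.it j' / A) := (Nat.mul_div_cancel' hAj').symm
  set z := (((c.D.it j / A : ℕ) : ℝ) * x - B * c.D.γ - m) / B with hz
  set z' := (((c.D.it j' / A : ℕ) : ℝ) * x - B * c.D.γ - k) / B with hz'
  have z1 : c.D.al j ≤ z := by rw [hz, le_div_iff₀ hBR]; linarith [h1.1]
  have z2 : z < c.D.be j := by rw [hz, div_lt_iff₀ hBR]; linarith [h1.2]
  have z1' : c.D.al j' ≤ z' := by rw [hz', le_div_iff₀ hBR]; linarith [h2.1]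
  have z2' : z' < c.D.be j' := by rw [hz', div_lt_iff₀ hBR]; linarith [h2.2]
  have hzr : |z| ≤ c.r (c.D.it j) := by
    rw [abs_le]
    exact ⟨(hc.bp_ge j _).trans z1, z2.le.trans (hc.bp_le j (Cf.k_lt j))⟩
  have hzr' : |z'| ≤ c.r (c.D.it j') := by
    rw [abs_le]
    exact ⟨(hc.bp_ge j' _).trans z1', z2'.le.trans (hc.bp_le j' (Cf.k_lt j'))⟩
  have hl0 : c.lv j.1.1 = p := hl
  have hl0' : c.lv j'.1.1 = p := hl'
  have h3 := ((hc.rhoL_iff j j' (by rw [hl0]; exact hp) (by rw [hl0']; exact hp) z1 z2 z1' z2').1 e).1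
  have s1 : c.wpL.st c.γ c.r c.t (c.lv j.1.1) j.1.1 = some σ := hst
  have s2 : c.wpL.st c.γ c.r c.t (c.lv j'.1.1) j'.1.1 = some τ := hst'
  have t1 : c.wpL.st c.γ c.r c.t p j.1.1 = some σ := by rw [← hl0]; exact s1
  have t2 : c.wpL.st c.γ c.r c.t p j'.1.1 = some τ := by rw [← hl0']; exact s2
  rw [s1, s2, hl0, hl0'] at h3
  have o1 := hfine.off p hp _ hq (hc.pos _ hq) σ t1 z hzr
  have o2 := hfine.off p hp _ hq' (hc.pos _ hq') τ t2 z' hzr'
  have hδ := hfine.circle hp hp hq hq' (hc.pos _ hq') t1 t2 (A := A) (A' := A) (B := B) eq1 eq2 hBK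
  have f1 : j.1.1 = A * (c.D.it j / A) := eq1
  have f2 : j'.1.1 = A * (c.D.it j' / A) := eq2
  refine Crest.Agent.R4.LeafL363.exact_circle ⟨c.wpL.thr, c.wpL.dep, c.wpL.ρ₀, c.wpL.n₀, c.wpL.δ₀, c.wpL.n₁⟩ (γ := c.γ) (p := p) (p' := p) hA hB hv hv' hfine.δ0 hδ
    (x := x) (z := z) (z' := z') ?_ ?_ ?_ ?_ ?_
  · rw [hz, mul_div_cancel₀ _ hBR.ne']; rfl
  · rw [hz', mul_div_cancel₀ _ hBR.ne']; rfl
  · rw [← f1]; exact o1
  · rw [← f2]; exact o2
  · rw [← f1, ← f2]; exact h3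

end


section
variable {c : Cf} {n : ℕ} {P : Bld532.Par} {W : ℕ → ℝ} {u : NS} {Sl : Finset ℕ} {G K : ℕ}
  {wp : W363.WP}

/-- pruned items have the weight zero -/
lemma lf_zero (hc : c.Ok n)
    (hom : ∀ q z a, c.om q z a ≤ omL wp c.wpL c.γ c.r c.t c.lv c.S' q a) {j : c.Lam}
    (h : c.D.it j ∉ c.S') (b pr : ℕ) (x : ℝ) : lf c.D b pr j x = 0 := by
  unfold Crest.Agent.R4P.Frame758.lf Piece464.pc
  refine Finset.sum_eq_zero fun a _ => ?_
  show c.om j.1.1 _ a = 0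
  exact le_antisymm ((hom _ _ a).trans (omL_of_not_mem h a).le)
    ((hc.wt _ (Cf.mem_S j) _).nonneg a)

/-- the double sum over the classes only sees the items of the pruned set -/
lemma sum_restrict {Λ ω : Type*} [DecidableEq Λ] [DecidableEq ω] (J : Finset Λ) (p : Λ → Prop)
    [DecidablePred p] (rr : Λ → ω) (F : Λ → Λ → ℝ) (h1 : ∀ j j', ¬ p j → F j j' = 0)
    (h2 : ∀ j j', ¬ p j' → F j j' = 0) :
    ∑ j ∈ J, ∑ j' ∈ J.filter (fun j' => rr j = rr j'), F j j' =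
      ∑ j ∈ J.filter p, ∑ j' ∈ (J.filter p).filter (fun j' => rr j = rr j'), F j j' := by
  have e : ∀ j, ∑ j' ∈ J.filter (fun j' => rr j = rr j'), F j j' =
      ∑ j' ∈ (J.filter p).filter (fun j' => rr j = rr j'), F j j' := by
    intro j
    symm
    refine Finset.sum_subset ?_ ?_
    · intro j' hj'
      obtain ⟨a, b⟩ := Finset.mem_filter.1 hj'
      exact Finset.mem_filter.2 ⟨(Finset.mem_filter.1 a).1, b⟩
    · intro j' hj' hn
      obtain ⟨a, b⟩ := Finset.mem_filter.1 hj'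
      refine h2 j j' fun hp => hn ?_
      exact Finset.mem_filter.2 ⟨Finset.mem_filter.2 ⟨a, hp⟩, b⟩
  rw [Finset.sum_congr rfl fun j _ => e j]
  symm
  refine Finset.sum_subset (Finset.filter_subset _ _) ?_
  intro j hj hn
  refine Finset.sum_eq_zero fun j' _ => h1 j j' fun hp => hn (Finset.mem_filter.2 ⟨hj, hp⟩)

/-- same leaf class: same type -/
lemma isSome_of_class {j j' : c.Lam} (e : c.D.rhoL j = c.D.rhoL j') :
    (stL c.wpL c.γ c.r c.t c.lv (c.D.it j)).isSome =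
      (stL c.wpL c.γ c.r c.t c.lv (c.D.it j')).isSome := by
  have h := (Cf.D_rhoL c j j').1 e
  have h1 := congrArg Prod.fst h
  exact congrArg Prod.fst h1

end

/-- **IN-CLASS ENERGY OF A LEAF** with explicit numerical conditions (letters of
`LeafN734.leafE_leaf`); `C` is absolute. -/
theorem leafI_leaf : ∃ c0 C : ℝ, 0 < c0 ∧ 1 ≤ C ∧ ∀ c1 : ℝ, 0 < c1 → c1 ≤ c0 →
    ∃ T0 : ℝ, 2^50 ≤ T0 ∧
    ∀ (c : Cf) (n : ℕ) (P : Bld532.Par) (W : ℕ → ℝ) (u : NS) (Sl : Finset ℕ) (G K : ℕ)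
      (wp : W363.WP) (wt : c.Lam → ℝ) (T X : ℝ),
    c.Ok n → LeafF P W c.t n u Sl G → Fit 1 1 c.t → PlOk ∅ c.t → c.lv = lv c.t n →
    (∀ j, wt j = (c.D.be j - c.D.al j) * ((Nat.totient (c.D.it j) : ℝ) / c.D.it j)) →
    (∀ q z a, c.om q z a ≤ omL wp c.wpL c.γ c.r c.t c.lv c.S' q a) → Fine c.wpL c.γ c.r c.t c.S n K → u.B ≤ K →
    (∀ q ∈ Sl, q ∈ c.S' → ∑ b ∈ rt c.t q, (1 : ℝ) / b ≤ 1 / 2) →
    (∀ q ∈ Sl, q ∈ c.S' → ∑ b ∈ c.t.mt q ∪ c.t.sp q, (1 : ℝ) / b ≤ 1 / 2) →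
    (∀ q ∈ Sl, q ∈ c.S' → ∀ z : ℝ, X ≤ z → Tame z 1 (q / (u.A * G))) →
    T0 ≤ T → X ≤ Real.exp (T^c1) →
    etaL c.wpL (u.n - 1) * (4 * u.c *
      ∑ j ∈ Finset.univ.filter (fun j => c.D.it j ∈ Sl), wt j) * T ≤ 1 →
    (∀ q ∈ Sl, q ∈ c.S' → (u.B : ℝ) * c.r q ≤ c.wpL.thr (u.n - 1) ∨
      ∀ s L', W363.lst u.B.primeFactors (u.n - 1) = s :: L' →
        (L'.prod : ℝ) * c.r q ≤ c.wpL.thr s) →
    LeafI c.D wt C u.c u.B u.A Sl := by
  classical
  obtain ⟨c0, CU, hc0, hCU, HU⟩ := LeafB820.leafI_UX'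
  obtain ⟨CL, hCL, HL⟩ := Crest.Agent.R4.LeafL363.ExB_sta
  refine ⟨c0, 16 * (CU + CL), hc0, by linarith, fun c1 h1 h2 => ?_⟩
  obtain ⟨T0, hT0, HU⟩ := HU c1 h1 h2
  refine ⟨T0, hT0, ?_⟩
  intro c n P W u Sl G K wp wt T X hc hF hFit hPl hlv hWd hom hfine hBK hrt hms htame hT hX hηM hfat A hA hSat
  have bk := hF.bk
  have hB0 : 0 < u.B := Nat.pos_of_ne_zero bk.sfB.ne_zero
  have hA0 : 0 < u.A := bk.Apos
  have hG0 : 0 < G := hF.G0
  set L := W363.lst u.B.primeFactors (u.n - 1) with hL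
  have hLp : L.prod = u.B := hF.lst_prod
  have hL0 : ∀ s ∈ L, 0 < s := fun s hs => (LeafF.lst_mem (u := u) hs).1.pos
  have hη0 := etaL_pos c.wpL (u.n - 1)
  have hlvq : ∀ q ∈ Sl, c.lv q = u.n - 1 := fun q hq => by rw [hlv]; exact hF.lvl q hq
  have hlvn : ∀ q ∈ Sl, u.n - 1 ≤ n := fun q hq => by
    rw [← hF.lvl q hq]; exact lv_le hc.tOk q
  have hmp : ∀ q ∈ Sl, (Item758.mp c.t q : ℝ) = u.B := fun q hq => by rw [hF.B q hq]
  have hmpQ : ∀ q ∈ Sl, (Item758.mp c.t q : ℚ) = u.B := fun q hq => by rw [hF.B q hq]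
  have hW0 : ∀ j, 0 ≤ wt j := by
    intro j
    rw [hWd]
    have : c.D.al j ≤ c.D.be j := hc.bpm _ (Cf.mem_S j) (Cf.r_pos j) (Nat.le_succ _)
    exact mul_nonneg (by linarith) (by positivity)
  have hcf : 0 ≤ u.c := le_trans zero_le_one bk.one_le_c
  set F : c.Lam → c.Lam → ℝ := fun j j' => I (fun x => lf c.D u.B u.A j x * lf c.D u.B u.A j' x)
    with hFd
  set J := A.filter (fun j => c.D.it j ∈ Sl) with hJ
  -- step 1, 2
  have s1 : ∑ j ∈ J, ∑ j' ∈ A.filter (fun j' => c.D.it j' ∈ Sl ∧ c.D.rhoL j = c.D.rhoL j'), F j j' =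
      ∑ j ∈ J, ∑ j' ∈ J.filter (fun j' => c.D.rhoL j = c.D.rhoL j'), F j j' := by
    refine Finset.sum_congr rfl fun j _ => ?_
    rw [hJ, Finset.filter_filter]
  have hz : I (fun _ : ℝ => (0 : ℝ)) = 0 := by unfold Tour104.I; simp
  have s2 := sum_restrict J (fun j => c.D.it j ∈ c.S') c.D.rhoL F
    (fun j j' hj => by
      show I (fun x => lf c.D u.B u.A j x * lf c.D u.B u.A j' x) = 0
      rw [← hz]; congr 1; funext x
      rw [lf_zero hc hom hj, zero_mul])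
    (fun j j' hj => by
      show I (fun x => lf c.D u.B u.A j x * lf c.D u.B u.A j' x) = 0
      rw [← hz]; congr 1; funext x
      rw [lf_zero hc hom hj, mul_zero])
  set J' := J.filter (fun j => c.D.it j ∈ c.S') with hJ'
  have s3 := sum_split J' (fun j => (stL c.wpL c.γ c.r c.t c.lv (c.D.it j)).isSome = true)
    c.D.rhoL F (fun j _ j' _ e => by rw [isSome_of_class e])
  set J₁ := J'.filter (fun j => (stL c.wpL c.γ c.r c.t c.lv (c.D.it j)).isSome = true) with hJ₁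
  set J₂ := J'.filter (fun j => ¬ (stL c.wpL c.γ c.r c.t c.lv (c.D.it j)).isSome = true) with hJ₂
  have hmem : ∀ j ∈ J', j ∈ A ∧ c.D.it j ∈ Sl ∧ c.D.it j ∈ c.S' := fun j hj => by
    obtain ⟨a, b⟩ := Finset.mem_filter.1 hj
    obtain ⟨a1, a2⟩ := Finset.mem_filter.1 a
    exact ⟨a1, a2, b⟩
  have hmem' : ∀ j, j ∈ A → c.D.it j ∈ Sl → c.D.it j ∈ c.S' → j ∈ J' := fun j a b d =>
    Finset.mem_filter.2 ⟨Finset.mem_filter.2 ⟨a, b⟩, d⟩
  have hcl : ∀ j ∈ J', ∀ j', c.D.it j' = c.D.it j → j' ∈ J' := fun j hj j' e => by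
    obtain ⟨a1, a2, a3⟩ := hmem j hj
    refine hmem' j' ((hA j j' e.symm).1 a1) (by rw [e]; exact a2) (by rw [e]; exact a3)
  -- facts about items of `J'`
  have hfull : ∀ j ∈ J', c.r (c.D.it j) ≤
      ∑ j' ∈ Finset.univ.filter (fun j' => c.D.it j' = c.D.it j), (c.D.be j' - c.D.al j') := by
    intro j hj
    have h3 := hc.len (Cf.mem_S j) (Cf.r_pos j)
    have h4 : ∑ j' ∈ Finset.univ.filter (fun j' => c.D.it j' = c.D.it j),
        (c.D.be j' - c.D.al j') = 2 * c.r j.1.1 := h3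
    rw [h4]
    have := Cf.r_pos j
    show c.r j.1.1 ≤ _
    linarith
  have hit : ∀ j ∈ J', 0 < G ∧ 0 < c.D.it j / (u.A * G) ∧
      c.D.it j = u.A * (G * (c.D.it j / (u.A * G))) := by
    intro j hj
    obtain ⟨a1, a2, a3⟩ := hmem j hj
    have hq0 : 0 < c.D.it j := hc.pos _ (Cf.mem_S j)
    have hd : u.A * G ∣ c.D.it j := Nat.mul_dvd_of_dvd_div (bk.dvd _ a2) (hF.Gd _ a2)
    have e1 : u.A * G * (c.D.it j / (u.A * G)) = c.D.it j := Nat.mul_div_cancel' hd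
    refine ⟨hG0, Nat.div_pos (Nat.le_of_dvd hq0 hd) (Nat.mul_pos hA0 hG0), ?_⟩
    rw [← mul_assoc]; exact e1.symm
  have hmass : ∀ j ∈ J', (u.B : ℝ) * ((Nat.totient (c.D.it j / (u.A * G)) : ℝ) /
      ((c.D.it j / (u.A * G) : ℕ) : ℝ)) ≤
      2 * (2 * u.c * ((Nat.totient (c.D.it j) : ℝ) / c.D.it j)) := by
    intro j hj
    obtain ⟨a1, a2, a3⟩ := hmem j hj
    obtain ⟨-, b1, b2⟩ := hit j hj
    set w := c.D.it j / (u.A * G) with hw
    have e2 : c.D.it j / u.A = G * w := by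
      rw [hw, ← Nat.div_div_eq_div_mul]
      exact (Nat.mul_div_cancel' (hF.Gd _ a2)).symm
    have cop : Nat.Coprime G w := by
      rw [hw, ← Nat.div_div_eq_div_mul]; exact hF.Gc _ a2
    have h1 := PhiU820.leaf_mass c.t hc.tOk hFit hPl (hF.it _ a2) (hms _ a2 a3) (hF.lstA _ a2)
    rw [e2, Nat.totient_mul cop] at h1
    push_cast at h1
    have h2 := hF.G_le a2 (hrt _ a2 a3)
    have hGR : (0 : ℝ) < G := by exact_mod_cast hG0
    have hwR : (0 : ℝ) < w := by exact_mod_cast b1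
    have e3 : ((G.totient : ℝ) * (w.totient : ℝ)) / ((G : ℝ) * (w : ℝ)) =
        ((G.totient : ℝ) / G) * ((w.totient : ℝ) / w) := by
      field_simp
    rw [e3] at h1
    have h3 : (0 : ℝ) ≤ (u.B : ℝ) * ((w.totient : ℝ) / w) := by positivity
    have h4 : (u.B : ℝ) * ((w.totient : ℝ) / w) * (1 / 2) ≤
        (u.B : ℝ) * (((G.totient : ℝ) / G) * ((w.totient : ℝ) / w)) := by
      calc (u.B : ℝ) * ((w.totient : ℝ) / w) * (1 / 2)
          ≤ (u.B : ℝ) * ((w.totient : ℝ) / w) * ((G.totient : ℝ) / G) :=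
            mul_le_mul_of_nonneg_left h2 h3
        _ = _ := by ring
    linarith
  have hwin : ∀ j ∈ J', -c.r (c.D.it j) ≤ c.D.al j ∧ c.D.be j ≤ c.r (c.D.it j) := fun j _ =>
    ⟨hc.bp_ge j _, hc.bp_le j (Cf.k_lt j)⟩
  have hdis : ∀ j ∈ J', ∀ j' ∈ J', c.D.it j = c.D.it j' → ∀ s : ℝ, c.D.al j ≤ s →
      s < c.D.be j → c.D.al j' ≤ s → s < c.D.be j' → j = j' := by
    intro j _ j' _ e s g1 g2 g3 g4
    by_contra hne
    rcases hc.disj' j j' hne e with h | h <;> linarith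
  have hWt : ∀ j ∈ J', Piece464.Wt (c.D.it j / u.A) (c.D.om j) := fun j hj => by
    have h3 := hc.wt _ (Cf.mem_S j) (c.bp j.1.1 j.1.2)
    have h4 : pp c.t j.1.1 = u.A := hF.A _ (hmem j hj).2.1
    rw [h4] at h3
    exact h3
  have homj : ∀ j ∈ J', ∀ a, c.D.om j a ≤ 2 *
      Ovl560.nw (c.D.it j / (u.A * G)).primeFactors (uw (u.B * c.D.γ)
        (phL c.wpL c.γ c.r c.t c.lv (c.D.it j)) (labL c.wpL c.γ c.r c.t c.lv (c.D.it j))) a := by
    intro j hj a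
    obtain ⟨a1, a2, a3⟩ := hmem j hj
    have h3 := hF.omL_le wp c.wpL c.γ c.r c.lv c.S' a2 (hrt _ a2 a3) a
    rw [Nat.div_div_eq_div_mul] at h3
    exact (hom _ _ a).trans h3
  have hJ₁' : ∀ j ∈ J₁, j ∈ J' ∧ ∃ σ, stL c.wpL c.γ c.r c.t c.lv (c.D.it j) = some σ :=
    fun j hj => by
      obtain ⟨a, b⟩ := Finset.mem_filter.1 hj
      exact ⟨a, Option.isSome_iff_exists.1 b⟩
  have hJ₂' : ∀ j ∈ J₂, j ∈ J' ∧ stL c.wpL c.γ c.r c.t c.lv (c.D.it j) = none := fun j hj => by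
      obtain ⟨a, b⟩ := Finset.mem_filter.1 hj
      refine ⟨a, ?_⟩
      cases h : stL c.wpL c.γ c.r c.t c.lv (c.D.it j) with
      | none => rfl
      | some σ => rw [h] at b; simp at b
  have hc₁ : ∀ j ∈ J₁, ∀ j', c.D.it j' = c.D.it j → j' ∈ J₁ := fun j hj j' e => by
    obtain ⟨a, b⟩ := Finset.mem_filter.1 hj
    exact Finset.mem_filter.2 ⟨hcl j a j' e, by rw [e]; exact b⟩
  have hc₂ : ∀ j ∈ J₂, ∀ j', c.D.it j' = c.D.it j → j' ∈ J₂ := fun j hj j' e => by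
    obtain ⟨a, b⟩ := Finset.mem_filter.1 hj
    exact Finset.mem_filter.2 ⟨hcl j a j' e, by rw [e]; exact b⟩
  -- unlabelled part
  have hmono : ∀ J₀ : Finset c.Lam, J₀ ⊆ J → ∑ j ∈ J₀, wt j ≤
      ∑ j ∈ Finset.univ.filter (fun j => c.D.it j ∈ Sl), wt j := by
    intro J₀ h
    refine Finset.sum_le_sum_of_subset_of_nonneg ?_ fun j _ _ => hW0 j
    intro j hj
    exact Finset.mem_filter.2 ⟨Finset.mem_univ _, (Finset.mem_filter.1 (h hj)).2⟩
  have i₁ : J₁ ⊆ J := (Finset.filter_subset _ _).trans (Finset.filter_subset _ _)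
  have i₂ : J₂ ⊆ J := (Finset.filter_subset _ _).trans (Finset.filter_subset _ _)
  have hT00 : 0 ≤ T := le_trans (by positivity) (hT0.trans hT)
  have kU' : ∑ j ∈ J₂, ∑ j' ∈ J₂.filter (fun j' => c.D.rhoL j = c.D.rhoL j'), F j j' ≤
      (2 : ℝ) ^ 2 * (2 * CU * (2 * u.c * ∑ j ∈ J₂, wt j)) := by
    rcases J₂.eq_empty_or_nonempty with h0 | ⟨j₀, hj₀⟩
    · rw [h0]; simp
    refine HU c.Lam (WL c.Lam) (WL c.Lam) c.D c.D.rhoL wt 2 T
      (etaL c.wpL (u.n - 1)) X (2 * u.c) u.B u.A G 1 c.r (labL c.wpL c.γ c.r c.t c.lv)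
      (fun q => q / (u.A * G)) J₂ (by norm_num) hT hX hη0 (by positivity) hB0 hA0 hG0 one_pos
      (fun j _ => hWd j)
      (fun j _ => hc.bpm _ (Cf.mem_S j) (Cf.r_pos j) (Nat.le_succ _)) hc₂
      (fun j hj => hfull j (hJ₂' j hj).1) ?_
      (fun j hj => ⟨(hit j (hJ₂' j hj).1).2.1, (hit j (hJ₂' j hj).1).2.2⟩)
      (fun j hj => hmass j (hJ₂' j hj).1)
      (fun z hz j hj => htame _ (hmem j (hJ₂' j hj).1).2.1 (hmem j (hJ₂' j hj).1).2.2 z hz)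
      (fun j _ => Cf.r_pos j)
      (fun j hj ρ => by
        have m1 := (hmem j (hJ₂' j hj).1).2.1
        rw [labL_none (hJ₂' j hj).2, lcl_iff, hmp _ m1, hlvq _ m1]
        exact Iff.rfl)
      (fun j hj => hwin j (hJ₂' j hj).1)
      (fun j hj j' hj' => hdis j (hJ₂' j hj).1 j' (hJ₂' j' hj').1)
      (fun j hj => hWt j (hJ₂' j hj).1)
      (fun j hj a => by
        have m1 := (hmem j (hJ₂' j hj).1).2.1
        have h3 := homj j (hJ₂' j hj).1 a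
        rw [phL_none (hJ₂' j hj).2, hmp _ m1, hlvq _ m1] at h3
        exact h3)
      (fun j hj j' hj' e z z' g1 g2 g3 g4 => by
        have m1 := (hmem j (hJ₂' j hj).1).2.1
        have m2 := (hmem j' (hJ₂' j' hj').1).2.1
        exact close_U hc hfine (hlvn _ m1) (hlvq _ m1) (hlvq _ m2) (hJ₂' j hj).2 (hJ₂' j' hj').2 e
          g1 g2 g3 g4)
    refine le_trans ?_ hηM
    refine mul_le_mul_of_nonneg_right ?_ hT00
    refine mul_le_mul_of_nonneg_left ?_ hη0.le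
    have h5 := mul_le_mul_of_nonneg_left (hmono J₂ i₂) (show (0 : ℝ) ≤ 4 * u.c by positivity)
    calc 2 * (2 * u.c) * ∑ j ∈ J₂, wt j = 4 * u.c * ∑ j ∈ J₂, wt j := by ring
      _ ≤ _ := h5
  have kL := LeafB820.leafI_LX' (C := CL) (K := 2) hCL.le (by norm_num) c.D c.D.rhoL
    wt (c := 2 * u.c) u.B u.A c.r (fun q => (u.B : ℝ) * c.r q) (labL c.wpL c.γ c.r c.t c.lv)
    (fun _ => G) (fun q => q / (u.A * G)) J₁ (by positivity) hB0 hA0 (fun j _ => hWd j) hc₁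
    (fun j hj => hfull j (hJ₁' j hj).1) (fun j hj => hit j (hJ₁' j hj).1)
    (fun j hj => hmass j (hJ₁' j hj).1)
    (fun j _ => Cf.r_pos j)
    (fun j hj => by
      obtain ⟨σ, hσ⟩ := (hJ₁' j hj).2
      rw [labL_some hσ]; simp)
    (fun j hj => hwin j (hJ₁' j hj).1)
    (fun j hj j' hj' => hdis j (hJ₁' j hj).1 j' (hJ₁' j' hj').1)
    (fun j hj => hWt j (hJ₁' j hj).1)
    (fun j hj a => by
      obtain ⟨σ, hσ⟩ := (hJ₁' j hj).2
      have h3 := homj j (hJ₁' j hj).1 a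
      rw [phL_some hσ, hmp _ (hmem j (hJ₁' j hj).1).2.1] at h3
      exact h3)
    (fun j _ j' _ _ => rfl)
    (fun j hj j' hj' e m k x w1 w2 σ τ hσ hτ => by
      obtain ⟨σ', hσ'⟩ := (hJ₁' j hj).2
      obtain ⟨τ', hτ'⟩ := (hJ₁' j' hj').2
      have m1 := (hmem j (hJ₁' j hj).1).2.1
      have m2 := (hmem j' (hJ₁' j' hj').1).2.1
      rw [labL_some hσ', Option.some.injEq, hmpQ _ m1] at hσ
      rw [labL_some hτ', Option.some.injEq, hmpQ _ m2] at hτ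
      rw [← hσ, ← hτ]
      exact exact_L hc hfine (hlvn _ m1) (hlvq _ m1) (hlvq _ m2) hA0 hB0 hBK (bk.dvd _ m1)
        (bk.dvd _ m2) hσ' hτ' e w1 w2)
    (fun u0 hu0 => by
      have h3 := HL c.Lam (WL c.Lam) (toR4 c.D) u.A c.r (labL c.wpL c.γ c.r c.t c.lv) (fun _ => G)
        (fun q => q / (u.A * G)) J₁ c.wpL.thr L (u.n - 1) hL0
        (fun j hj => ⟨(hit j (hJ₁' j hj).1).1, (hit j (hJ₁' j hj).1).2.1,
          (hit j (hJ₁' j hj).1).2.2⟩)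
        (fun j _ => Cf.r_pos j)
        (fun j hj => by
          obtain ⟨m0, m1, m2⟩ := hmem j (hJ₁' j hj).1
          rw [hLp]
          exact hfat _ m1 m2)
        (fun j hj => by
          obtain ⟨σ, hσ⟩ := (hJ₁' j hj).2
          have m1 := (hmem j (hJ₁' j hj).1).2.1
          show labL c.wpL c.γ c.r c.t c.lv (c.D.it j) =
            Option.map (fun σ => (L.prod : ℚ) * σ)
              (W363.sta c.wpL.thr c.γ (c.r (c.D.it j)) L (u.n - 1))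
          rw [labL_some hσ, hmpQ _ m1, hLp]
          have h3 := hF.stL_eq c.wpL c.γ c.r m1
          rw [← hlv, hσ] at h3
          rw [← h3]; rfl) u0 hu0
      rw [hLp] at h3
      exact h3)
  · show ∑ j ∈ J, ∑ j' ∈ A.filter (fun j' => c.D.it j' ∈ Sl ∧ c.D.rhoL j = c.D.rhoL j'), F j j' ≤
      16 * (CU + CL) * (u.c * ∑ j ∈ J, wt j)
    rw [s1, s2, s3]
    have m₁ : u.c * ∑ j ∈ J₁, wt j ≤ u.c * ∑ j ∈ J, wt j :=
      mul_le_mul_of_nonneg_left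
        (Finset.sum_le_sum_of_subset_of_nonneg i₁ fun j _ _ => hW0 j) hcf
    have m₂ : u.c * ∑ j ∈ J₂, wt j ≤ u.c * ∑ j ∈ J, wt j :=
      mul_le_mul_of_nonneg_left
        (Finset.sum_le_sum_of_subset_of_nonneg i₂ fun j _ _ => hW0 j) hcf
    have t1 : (2 : ℝ) ^ 2 * (2 * CL * (2 * u.c * ∑ j ∈ J₁, wt j)) ≤
        16 * CL * (u.c * ∑ j ∈ J, wt j) := by
      calc (2 : ℝ) ^ 2 * (2 * CL * (2 * u.c * ∑ j ∈ J₁, wt j)) =
          16 * CL * (u.c * ∑ j ∈ J₁, wt j) := by ring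
        _ ≤ _ := mul_le_mul_of_nonneg_left m₁ (by positivity)
    have t2 : (2 : ℝ) ^ 2 * (2 * CU * (2 * u.c * ∑ j ∈ J₂, wt j)) ≤
        16 * CU * (u.c * ∑ j ∈ J, wt j) := by
      calc (2 : ℝ) ^ 2 * (2 * CU * (2 * u.c * ∑ j ∈ J₂, wt j)) =
          16 * CU * (u.c * ∑ j ∈ J₂, wt j) := by ring
        _ ≤ _ := mul_le_mul_of_nonneg_left m₂ (by positivity)
    calc _ ≤ (2 : ℝ) ^ 2 * (2 * CL * (2 * u.c * ∑ j ∈ J₁, wt j)) +
          (2 : ℝ) ^ 2 * (2 * CU * (2 * u.c * ∑ j ∈ J₂, wt j)) :=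
          add_le_add kL kU'
      _ ≤ 16 * CL * (u.c * ∑ j ∈ J, wt j) +
          16 * CU * (u.c * ∑ j ∈ J, wt j) := add_le_add t1 t2
      _ = 16 * (CU + CL) * (u.c * ∑ j ∈ J, wt j) := by ring

end Crest.Agent.R4P.LeafJ368
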