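import Crest.Agent.R4P.LeafA734
import Crest.Agent.R4P.LeafJ368

/-!
R4 (S0004), POWERS: port of helper368's `R4/LeafK368` (module J2, final assembly) to the tree with
powers (helper820): **in-class energy of ALL leaves** for the tree with the parameters
`par B C1 c2 p0`.
-/

set_option autoImplicit false
set_option linter.unusedSectionVars false
set_option linter.unusedVariables false
open Finset MeasureTheory

namespace Crest.Agent.R4P.LeafK368

open Crest.Agent.R4P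
open Crest.Agent.R4P.Cnt588 Crest.Agent.R4P.PrunePar33
open Crest.Agent.R4.ClsB (Tame)
open Crest.Agent.R4P.Bld532 (NS NodeOk Bk bld par)
open Crest.Agent.R4P.Data758 Crest.Agent.R4P.LfDat734
open Crest.Agent.R4P.LeafN734 (wtF)
open Crest.Agent.R4P.LeafA734 Crest.Agent.R4P.WPex189
open Crest.Agent.R4P.Frame758 (lf LeafI LeafAll)
open Crest.Agent.R4P.Item758 (pp mp)
open Crest.Agent.R4.Item758 (IL)
open Crest.Agent.R4.Soft104 (w)
open Crest.Agent.R4.LeafA734 (level_le log_add_le rpow_neg_log_ge)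
open Crest.Agent.R4P.LeafJ368

/-- the fat condition of a leaf (proof of 734, `LeafA734.leafE_all`) -/
theorem leaf_fat {B C1 c2 C6 : ℝ} {p0 : ℕ} {c : Cf} {n : ℕ} {ψ : ℕ → ℝ} {wp : W363.WP}
    {u : NS} {Sl : Finset ℕ} {G : ℕ} (hC6 : 0 ≤ C6) (hBc : 0 ≤ B + c2) (hp3 : 3 ≤ p0)
    (hlog1 : ∀ k : ℕ, p0 ≤ k → 1 ≤ Real.log k)
    (hb₀ : ∀ s : ℕ, p0 < s →
      8 * Crest.Agent.R4.Ovl560.CM * 2 ^ C6 * Real.log s ^ (B + c2 + 1 + C6) ≤ Real.sqrt s)
    (h : CfL B C1 c2 p0 c n ψ wp) (hG : (par B C1 c2 p0).Good) (hF : LeafF (par B C1 c2 p0) (w ψ) c.t n u Sl G)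
    (hmu : u.c * Ws (w ψ) Sl ≤ 4 * Real.log u.n ^ (B + c2))
    (hlo : ∀ m : ℕ, Real.log ((m + p0 : ℕ) : ℝ) ^ (-C6) ≤ c.wpL.thr m)
    (hrt : ∀ q ∈ Sl, q ∈ c.S' → ∑ b ∈ rt c.t q, (1 : ℝ) / b ≤ 1 / 2 ∧
      ∑ b ∈ c.t.mt q ∪ c.t.sp q, (1 : ℝ) / b ≤ 1 / 2) :
    ∀ q ∈ Sl, q ∈ c.S' → (u.B : ℝ) * c.r q ≤ c.wpL.thr (u.n - 1) ∨
      ∀ s L', W363.lst u.B.primeFactors (u.n - 1) = s :: L' →
        (L'.prod : ℝ) * c.r q ≤ c.wpL.thr s := by
  have bk := hF.bk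
  have hCM := Crest.Agent.R4.Ovl560.CM_pos
  intro q hq hq'
  right
  intro s L' hL
  have hsm : s ∈ W363.lst u.B.primeFactors (u.n - 1) := by rw [hL]; exact List.mem_cons_self
  obtain ⟨hsp, hsB⟩ := LeafF.lst_mem hsm
  have hsn : u.n ≤ s := bk.geB s hsp hsB
  have hsp0 : p0 < s := by
    refine h.col hG q s (Or.inl ?_)
    rw [hF.mt q hq]
    exact Nat.mem_primeFactors.2 ⟨hsp, hsB, bk.sfB.ne_zero⟩
  have hprod : s * L'.prod = u.B := by
    have := hF.lst_prod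
    rw [hL, List.prod_cons] at this
    exact this
  have hs0 : (0 : ℝ) < s := by exact_mod_cast hsp.pos
  have hs2 : (2 : ℝ) ≤ s := by exact_mod_cast hsp.two_le
  have hls : 1 ≤ Real.log s := hlog1 s hsp0.le
  have h1 := h.rad hG hF hq (hrt q hq hq').1 (hrt q hq hq').2 hs2 (fun l _ hl => by exact_mod_cast (hl.le.trans hsn))
  have h2 : u.c * Ws (w ψ) Sl ≤ 4 * Real.log s ^ (B + c2) := by
    refine hmu.trans ?_
    have h3 : Real.log u.n ≤ Real.log s := by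
      rcases Nat.eq_zero_or_pos u.n with h0 | h0
      · rw [h0, Nat.cast_zero, Real.log_zero]; linarith
      · exact Real.log_le_log (by exact_mod_cast h0) (by exact_mod_cast hsn)
    have h4 : 0 ≤ Real.log (u.n : ℝ) := Real.log_natCast_nonneg _
    have := Real.rpow_le_rpow h4 h3 (z := B + c2) hBc
    linarith
  have h5 := hb₀ s hsp0
  have hsq : Real.sqrt s ≤ s := by
    rw [Real.sqrt_le_left (by linarith)]
    nlinarith
  have h6 : (2 * Real.log s) ^ (-C6) ≤ c.wpL.thr s :=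
    (rpow_neg_log_ge hC6 (by omega) (by omega) hsp0.le hp3).trans (hlo s)
  refine le_trans ?_ h6
  have h7 : (s : ℝ) * ((L'.prod : ℝ) * c.r q) = u.B * c.r q := by
    rw [← hprod]; push_cast; ring
  have h8 : (s : ℝ) * ((L'.prod : ℝ) * c.r q) ≤
      8 * Crest.Agent.R4.Ovl560.CM * Real.log s ^ (B + c2 + 1) := by
    rw [h7]
    refine h1.trans ?_
    calc 2 * Crest.Agent.R4.Ovl560.CM * Real.log s * (u.c * Ws (w ψ) Sl)
          ≤ 2 * Crest.Agent.R4.Ovl560.CM * Real.log s * (4 * Real.log s ^ (B + c2)) :=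
          mul_le_mul_of_nonneg_left h2 (by positivity)
      _ = 8 * Crest.Agent.R4.Ovl560.CM * (Real.log s ^ (B + c2) * Real.log s) := by ring
      _ = 8 * Crest.Agent.R4.Ovl560.CM * Real.log s ^ (B + c2 + 1) := by
          rw [Real.rpow_add (by linarith) (B + c2) 1, Real.rpow_one]
  have h9 : 8 * Crest.Agent.R4.Ovl560.CM * Real.log s ^ (B + c2 + 1) ≤ s * (2 * Real.log s) ^ (-C6) := by
    have hl0 : 0 < Real.log (s : ℝ) := by linarith
    have e1 : (2 * Real.log (s : ℝ)) ^ (-C6) = (2 ^ C6 * Real.log s ^ C6)⁻¹ := by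
      rw [Real.rpow_neg (by positivity), Real.mul_rpow (by norm_num) hl0.le]
    have hpos : 0 < (2 : ℝ) ^ C6 * Real.log s ^ C6 := by positivity
    rw [e1, ← div_eq_mul_inv, le_div_iff₀ hpos]
    calc 8 * Crest.Agent.R4.Ovl560.CM * Real.log s ^ (B + c2 + 1) * (2 ^ C6 * Real.log s ^ C6)
        = 8 * Crest.Agent.R4.Ovl560.CM * 2 ^ C6 * (Real.log s ^ (B + c2 + 1) * Real.log s ^ C6) := by ring
      _ = 8 * Crest.Agent.R4.Ovl560.CM * 2 ^ C6 * Real.log s ^ (B + c2 + 1 + C6) := by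
          rw [← Real.rpow_add hl0]
      _ ≤ Real.sqrt s := h5
      _ ≤ s := hsq
  exact le_of_mul_le_mul_left (h8.trans h9) hs0

/-- **ALL LEAVES** (module J2): in-class energies with an ABSOLUTE constant. -/
theorem leafI_all : ∃ c0 C : ℝ, 0 < c0 ∧ 1 ≤ C ∧ ∀ (B C1 c2 C6 C7 : ℝ), 0 < c2 → 0 ≤ C6 →
    1 / c0 ≤ C1 → C1 + c2 + 4 ≤ B → B + c2 + C1 + 1 ≤ C7 → ∃ p₁ : ℕ, ∀ p0 ≥ p₁,
    ∀ (c : Cf) (n : ℕ) (ψ : ℕ → ℝ) (wp : W363.WP) (K : ℕ), CfL B C1 c2 p0 c n ψ wp →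
      (∀ m : ℕ, Real.log ((m + p0 : ℕ) : ℝ) ^ (-C6) ≤ c.wpL.thr m) →
      (∀ m : ℕ, etaL c.wpL m ≤ Real.log ((m + p0 : ℕ) : ℝ) ^ (-C7)) →
      Fine c.wpL c.γ c.r c.t c.S n K → (∀ q ∈ c.S, mp c.t q ≤ K) →
      LeafAll (LeafI c.D (wtF c.D) C) 1 1 1 c.t := by
  obtain ⟨c0, C, hc0, hC, H⟩ := leafI_leaf
  refine ⟨min c0 1, C, lt_min hc0 one_pos, hC, fun B C1 c2 C6 C7 hc2 hC6 hC1 hB hC7 => ?_⟩
  have hm : 0 < min c0 1 := lt_min hc0 one_pos
  have hC1p : 0 < C1 := lt_of_lt_of_le (by positivity) hC1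
  have hC11 : 1 ≤ C1 := by
    refine le_trans ?_ hC1
    rw [le_div_iff₀ hm]
    linarith [min_le_right c0 1]
  have hc1 : 0 < 1 / C1 := by positivity
  have hc1' : 1 / C1 ≤ c0 := by
    refine le_trans ?_ (min_le_left c0 1)
    rw [div_le_iff₀ hC1p]
    rw [div_le_iff₀ hm] at hC1
    linarith
  obtain ⟨T0, hT0, H⟩ := H (1 / C1) hc1 hc1'
  obtain ⟨pa, hpa⟩ := rt_half B (C1 + c2) (by linarith)
  obtain ⟨pb, hpb⟩ := uq_tame B (C1 + c2) (by linarith)
  obtain ⟨pg, hpg⟩ := Bld532.par_Good B C1 c2 (by linarith) hC1p.le hc2.le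
  have hCM := Crest.Agent.R4.Ovl560.CM_pos
  obtain ⟨b₀, -, hb₀⟩ := Crest.Agent.R4.OmSt532.exists_sqrt (B + c2 + 1 + C6)
    (K := 8 * Crest.Agent.R4.Ovl560.CM * 2 ^ C6) (by positivity)
  set M1 : ℝ := T0 + 16 * 2 ^ (B + c2) + 1 with hM1
  have hT0p : 0 < T0 := lt_of_lt_of_le (by norm_num) hT0
  have hBc : 0 ≤ B + c2 := by linarith
  have h2B : (1 : ℝ) ≤ 2 ^ (B + c2) := Real.one_le_rpow (by norm_num) hBc
  refine ⟨pa + pb + pg + b₀ + ⌈Real.exp M1⌉₊ + 3, fun p0 hp0 => ?_⟩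
  have hp3 : 3 ≤ p0 := by omega
  have hlog : ∀ k : ℕ, p0 ≤ k → M1 ≤ Real.log k := by
    intro k hk
    have h4 : Real.exp M1 ≤ k := by
      have h5 : Real.exp M1 ≤ ⌈Real.exp M1⌉₊ := Nat.le_ceil _
      have h6 : ((⌈Real.exp M1⌉₊ : ℕ) : ℝ) ≤ k := by
        have : ⌈Real.exp M1⌉₊ ≤ k := by omega
        exact_mod_cast this
      linarith
    have hp : (0 : ℝ) < k := lt_of_lt_of_le (Real.exp_pos _) h4
    rwa [Real.le_log_iff_exp_le hp]
  have hlogT : ∀ k : ℕ, p0 ≤ k → T0 ≤ Real.log k := fun k hk => by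
    have := hlog k hk
    linarith
  have hlog2 : ∀ k : ℕ, p0 ≤ k → 16 * 2 ^ (B + c2) ≤ Real.log k := fun k hk => by
    have := hlog k hk
    linarith
  have hlog1 : ∀ k : ℕ, p0 ≤ k → 1 ≤ Real.log k := fun k hk => by
    have := hlog2 k hk
    linarith
  intro c n ψ wp K h hlo hhi hfine hK
  have hG := hpg p0 (by omega)
  have hw0 : ∀ q, 0 ≤ w ψ q := h.w0
  have hroot : (1 : ℝ) * Ws (w ψ) c.t.items ≤ 4 * Real.log n ^ (B + c2) := by
    have h1 : (1 : ℝ) ≤ Real.log n ^ (B + c2) :=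
      Real.one_le_rpow (Bld532.one_le_log_nat h.n3) (by linarith)
    have := h.mass
    rw [h.ok.items]
    linarith
  have hmass := Bld532.par_mass B C1 c2 p0 (by linarith) (by linarith) (by omega) (w ψ) hw0 c.t
    ⟨n, 1, 1, 1⟩ (h.all hG) (by norm_num) hroot
  rw [h.t] at hmass ⊢
  refine bld_leafF' (par B C1 c2 p0) (w ψ) hw0 hG n c.S h.ok.pos h.pn hmass
    fun u Sl G hF0 hmu => ?_
  have hF : LeafF (par B C1 c2 p0) (w ψ) c.t n u Sl G := by rw [h.t]; exact hF0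
  have hcpos : 0 < u.c := hmu.1
  have hmu2 : u.c * Ws (w ψ) Sl ≤ 4 * Real.log u.n ^ (B + c2) := hmu.2
  have bk := hF.bk
  set ν : ℝ := u.c * Ws (w ψ) Sl with hν
  have hν0 : 0 ≤ ν := mul_nonneg hcpos.le (Finset.sum_nonneg fun q _ => hw0 q)
  have hrt2 : ∀ q ∈ Sl, q ∈ c.S' → ∑ b ∈ rt c.t q, (1 : ℝ) / b ≤ 1 / 2 ∧
      ∑ b ∈ c.t.mt q ∪ c.t.sp q, (1 : ℝ) / b ≤ 1 / 2 := fun q _ hq' =>
    hpa p0 (by omega) c.t q (h.pr q hq') (h.col hG q)
  have hrt : ∀ q ∈ Sl, q ∈ c.S' → ∑ b ∈ rt c.t q, (1 : ℝ) / b ≤ 1 / 2 := fun q hq hq' =>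
    (hrt2 q hq hq').1
  have hPl : PhiU820.PlOk ∅ c.t := by rw [h.t]; exact PhiU820.bld_PlOk _ _ _ _ _ _ _
  have hFit : Item758.Fit 1 1 c.t := Bld532.Fit_of_NodeOk (h.all hG)
  have hνe : 4 * u.c *
      ∑ j ∈ Finset.univ.filter (fun j => c.D.it j ∈ Sl), wtF c.D j = 4 * ν := by
    have := h.nu hF
    rw [hν, ← this]; ring
  have htame : ∀ X : ℝ, (p0 : ℝ) ≤ X → (∀ l : ℕ, l.Prime → l < u.n → (l : ℝ) ≤ X) →
      ∀ q ∈ Sl, q ∈ c.S' → ∀ z : ℝ, X ≤ z → Tame z 1 (q / (u.A * G)) := by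
    intro X hX1 hX2 q hq hq' z hz
    exact leaf_tame hF hq (fun l h1 h2 => (hX2 l h1 h2).trans hz)
      (hpb p0 (by omega) c.t q (h.pr q hq') z (hX1.trans hz))
  -- if the leaf is empty there is nothing to prove
  rcases Sl.eq_empty_or_nonempty with h0 | ⟨q₀, hq₀⟩
  · intro A hA hSat
    have e0 : A.filter (fun j => c.D.it j ∈ Sl) = ∅ := by
      rw [h0]
      apply Finset.filter_eq_empty_iff.2
      intro j _ hj
      exact absurd hj (Finset.notMem_empty _)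
    rw [h0] at e0 ⊢
    rw [e0]; simp
  have hBK : u.B ≤ K := by
    have h1 := hK q₀ (h.sub hF hq₀)
    rwa [hF.B q₀ hq₀] at h1
  have hfat := leaf_fat hC6 hBc hp3 hlog1 (fun s hs => hb₀ s (by omega)) h hG hF hmu2 hlo hrt2
  -- the numbers: a column `k ≥ p0` with `u.n ≤ 2 k`, `k ≤ u.n - 1 + p0`
  have key : ∀ k : ℕ, p0 ≤ k → u.n ≤ 2 * k → k ≤ u.n - 1 + p0 →
      (∀ l : ℕ, l.Prime → l < u.n → l ≤ k) →
      LeafI c.D (wtF c.D) C u.c u.B u.A Sl := by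
    intro k hk hun hkn hall
    have hlk := hlog1 k hk
    have hlk0 : 0 < Real.log (k : ℝ) := by linarith
    have hkR : (0 : ℝ) < k := by exact_mod_cast (by omega : 0 < k)
    set T : ℝ := Real.log k ^ C1 with hT
    have hTp : 0 < T := by positivity
    have hT1 : Real.log (k : ℝ) ≤ T := by
      have := Real.rpow_le_rpow_of_exponent_le hlk hC11
      rwa [Real.rpow_one] at this
    have hTT : T0 ≤ T := (hlogT k hk).trans hT1
    have hX : (k : ℝ) ≤ Real.exp (T ^ (1 / C1)) := by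
      rw [hT, ← Real.rpow_mul hlk0.le, mul_one_div_cancel hC1p.ne', Real.rpow_one,
        Real.exp_log hkR]
    have hXp : ∀ l : ℕ, l.Prime → l < u.n → (l : ℝ) ≤ k := fun l h1 h2 => by
      exact_mod_cast hall l h1 h2
    refine H c n (par B C1 c2 p0) (w ψ) u Sl G K wp (wtF c.D) T k h.ok hF hFit hPl h.lv
      (fun j => rfl) h.om hfine hBK hrt (fun q hq hq' => (hrt2 q hq hq').2)
      (htame k (by exact_mod_cast hk) hXp) hTT hX ?_ hfat
    rw [hνe]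
    have hη : etaL c.wpL (u.n - 1) ≤ Real.log k ^ (-C7) := by
      refine (hhi _).trans ?_
      refine Real.rpow_le_rpow_of_nonpos hlk0 ?_ (by linarith)
      exact Real.log_le_log hkR (by exact_mod_cast hkn)
    have hν2 : ν ≤ 4 * (2 * Real.log k) ^ (B + c2) := by
      refine hmu2.trans ?_
      have h3 : Real.log u.n ≤ 2 * Real.log k := by
        rcases Nat.eq_zero_or_pos u.n with h0 | h0
        · rw [h0, Nat.cast_zero, Real.log_zero]; linarith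
        · have e : 2 * Real.log (k : ℝ) = Real.log ((k : ℝ) ^ 2) := by
            rw [Real.log_pow]; norm_num
          rw [e]
          refine Real.log_le_log (by exact_mod_cast h0) ?_
          have : u.n ≤ k ^ 2 := by nlinarith
          exact_mod_cast this
      have h4 : 0 ≤ Real.log (u.n : ℝ) := Real.log_natCast_nonneg _
      have := Real.rpow_le_rpow h4 h3 (z := B + c2) hBc
      linarith
    have hη0 : 0 ≤ etaL c.wpL (u.n - 1) := (etaL_pos c.wpL _).le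
    have hk7 : 0 < Real.log (k : ℝ) ^ (-C7) := by positivity
    calc etaL c.wpL (u.n - 1) * (4 * ν) * T
        ≤ Real.log k ^ (-C7) * (4 * (4 * (2 * Real.log k) ^ (B + c2))) * T := by
          refine mul_le_mul_of_nonneg_right ?_ hTp.le
          refine mul_le_mul hη (by linarith) (by linarith) hk7.le
      _ = 16 * 2 ^ (B + c2) * (Real.log k ^ (-C7) * Real.log k ^ (B + c2) * Real.log k ^ C1) := by
          rw [Real.mul_rpow (by norm_num) hlk0.le, hT]; ring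
      _ = 16 * 2 ^ (B + c2) * Real.log k ^ (-C7 + (B + c2) + C1) := by
          rw [← Real.rpow_add hlk0, ← Real.rpow_add hlk0]
      _ ≤ 16 * 2 ^ (B + c2) * Real.log k ^ (-1 : ℝ) := by
          refine mul_le_mul_of_nonneg_left ?_ (by positivity)
          exact Real.rpow_le_rpow_of_exponent_le hlk (by linarith)
      _ = 16 * 2 ^ (B + c2) / Real.log k := by
          rw [Real.rpow_neg_one, div_eq_mul_inv]
      _ ≤ 1 := by
          rw [div_le_one hlk0]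
          have := hlog2 k hk
          linarith
  rcases hF.node.2 with hbot | ⟨k, hk, hkn, hkp, hall, -⟩
  · have hbot' : ∀ r : ℕ, r.Prime → r < u.n → r ≤ p0 := hbot
    exact key p0 le_rfl (level_le (by omega) hbot') (by omega) hbot'
  · have hkp' : p0 < k := hkp
    exact key k hkp'.le (level_le (by omega) hall) (by omega) hall

end Crest.Agent.R4P.LeafK368
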