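import Crest.Agent.R4P.LeafC734
import Crest.Agent.R4P.LeafK368

/-!
R4 (S0004), POWERS (port of `R4/LeafIC368` of helper368 by helper438): module J2 (in-class energy of the
leaves) for the **contexts** of `R4P/Skel189`.
-/

set_option autoImplicit false
open Finset MeasureTheory

namespace Crest.Agent.R4P.LeafIC368

open Crest.Agent.R4P
open Crest.Agent.R4P.Data758 Crest.Agent.R4P.LfDat734
open Crest.Agent.R4P.LeafC734 Crest.Agent.R4P.LeafK368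
open Crest.Agent.R4P.Skel189 (Ctx top)
open Crest.Agent.R4P.Frame758 (LeafI LeafAll wt)

/-- **field `leafI` for every context**, absolute constant `C₀` -/
theorem leafI_ctx : ∃ c0 C₀ : ℝ, 0 < c0 ∧ 1 ≤ C₀ ∧ ∀ (N : Skel189.Num) (C3 C6 C7 : ℝ) (a p₂ : ℕ),
    0 < N.c2 → 0 ≤ C6 → 1 / c0 ≤ N.C1 → N.B + N.c2 + N.C1 + 1 ≤ C7 →
    LNum C3 C6 C7 a p₂ N.thrL N.depL →
    ∃ p₁ : ℕ, ∀ p0 ≥ p₁, ∀ (γ : ℝ) (P₀ : ℕ), 2 ≤ P₀ → ∀ X : Ctx N γ p0 P₀,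
      LeafAll (LeafI X.c.D (wt X.c.D) C₀) 1 1 1 X.c.t := by
  obtain ⟨c0, C, hc0, hC, H⟩ := leafI_all
  refine ⟨c0, C, hc0, hC, fun N C3 C6 C7 a p₂ hc2 hC6 hC1 hC7 hL => ?_⟩
  obtain ⟨p₁, H⟩ := H N.B N.C1 N.c2 C6 C7 hc2 hC6 hC1 (by
    have := N.hB; have := N.hC1; linarith [N.hc2]) hC7
  refine ⟨p₁ + p₂, fun p0 hp0 γ P₀ hP X => ?_⟩
  refine H p0 (by omega) X.c (top X.S) X.ψ X.c.wp (Skel189.Kc X.S) (cfL X hP) (fun m => ?_)
    (fun m => hL.etaL_le (by omega) X.depL m) ?_ (fun q _ => X.mp_le)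
  · rw [X.thrL]; exact hL.lo p0 (by omega) m
  · rw [X.hS]
    have h := X.fineL
    rw [X.hS] at h
    exact h

end Crest.Agent.R4P.LeafIC368
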