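import Crest.Agent.R4P.NMG800
import Crest.Agent.R4P.GInst194
import Crest.Agent.R4P.Top546
import Crest.Agent.R4P.Phi542

/-!
R4 powers pass (S0004), helper800: **near misses of a state** (state half of helper710's `R4/NMW710`) on the
tree with powers.  The node facts are explicit (`NSd`), so that the file depends neither on the list of
transitions nor on the tree invariant of the walk.
-/

set_option autoImplicit false
set_option linter.unusedSectionVars false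
set_option linter.unusedVariables false
open Finset

namespace Crest.Agent.R4P.NMW710

open Crest.Agent.R4.HVW560 Crest.Agent.R4.Schur709 Crest.Agent.R4.StopHvw709
open Crest.Agent.R4.StopAsm709 Crest.Agent.R4P.AvgItem710 Crest.Agent.R4.DeepSt579
open Crest.Agent.R4P.Rad800 Crest.Agent.R4P.Item758
open Crest.Agent.R4.ClsS (eps1)

/-! ### a state -/

section state
open Crest.Agent.R4.Tour104 Crest.Agent.R4.Tour758 Crest.Agent.R4.Avg758 Crest.Agent.R4.Clos758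
open Crest.Agent.R4.ClosL758 Crest.Agent.R4.ClosG758 Crest.Agent.R4.ClosR758
open Crest.Agent.R4.Fam464 Crest.Agent.R4P.Cnt588 Crest.Agent.R4P.Walk560 Crest.Agent.R4.Piece464
open Crest.Agent.R4P.GInst194 Crest.Agent.R4P.WalkIT579
open Crest.Agent.R4P.Bld532 (NS All NodeOk Bk)

variable {Λ κ : Type*} [Fintype Λ] [DecidableEq Λ] [Fintype κ] [DecidableEq κ]

open Classical in
/-- the items of `A` in `t` which are alive -/
noncomputable def Qi (D : Par Λ κ) (Al : Finset ℕ) (t : IT) (A : Finset Λ) : Finset ℕ :=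
  (A.filter fun j => D.it j ∈ t.items ∧ D.it j ∈ Al).image D.it

variable {D : Par Λ κ} {ρ : ℕ → ℝ} {Al : Finset ℕ}

lemma mem_Qi {t : IT} {A : Finset Λ} {q : ℕ} : q ∈ Qi D Al t A ↔
    q ∈ t.items ∧ q ∈ Al ∧ ∃ j ∈ A, D.it j = q := by
  classical
  unfold Qi
  rw [Finset.mem_image]
  constructor
  · rintro ⟨j, hj, rfl⟩
    obtain ⟨h1, h2, h3⟩ := Finset.mem_filter.1 hj
    exact ⟨h2, h3, j, h1, rfl⟩
  · rintro ⟨h1, h2, j, hj, rfl⟩
    exact ⟨j, Finset.mem_filter.2 ⟨hj, h1, h2⟩, rfl⟩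

/-- dead items -/
lemma uA_dead (hAl : ∀ j, D.it j ∉ Al → ∀ a, D.om j a = 0) {M b pr c : ℕ} {t : IT}
    {A : Finset Λ} (hM : 0 < M) (hb : 0 < b) (hF : Fit b pr t) (hW : D.Wts pr t) (hc : c ∣ b)
    {j : Λ} (hj : D.it j ∉ Al) (y : ℝ) : D.uA M b pr t A c j y = 0 := by
  by_cases hi : j ∈ A ∧ D.it j ∈ t.items
  · unfold Par.uA avg
    rw [rv_of_mem hi.1]
    have e0 : (D.toFT b pr t).U c j = fun _ => 0 := by
      funext x
      refine le_antisymm ?_ ((FT.pb hb (D.toFT_Adm t b pr hb hF hW) hc j).nonneg x)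
      refine (D.U_le t b pr c hb hF hW hc j hi.2 x).trans (le_of_eq ?_)
      unfold Par.pcs pc
      exact Finset.sum_eq_zero fun a _ => hAl j hj _
    rw [e0, Ep_const hM]
  · exact uA_zero hM hi y

/-- a pair which counts is a pair of alive items of the populations -/
lemma PE_sub (hAl : ∀ j, D.it j ∉ Al → ∀ a, D.om j a = 0) {M M' b pr c b' pr' c' : ℕ} {t t' : IT}
    (hM : 0 < M) (hM' : 0 < M') (hb : 0 < b) (hb' : 0 < b') (hF : Fit b pr t) (hF' : Fit b' pr' t')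
    (hW : D.Wts pr t) (hW' : D.Wts pr' t') (hc : c ∣ b) (hc' : c' ∣ b') (R : Finset (Λ × Λ))
    (A A' : Finset Λ) :
    D.PE R (D.uA M b pr t A c) (D.uA M' b' pr' t' A' c') ⊆ Qi D Al t A ×ˢ Qi D Al t' A' := by
  intro e he
  obtain ⟨j, j', -, h1, h2, h3, h4, h5, h6, y, h7, h8⟩ := Par.PE_ex hM hM' he
  have a1 : D.it j ∈ Al := by
    by_contra h; exact h7 (uA_dead hAl hM hb hF hW hc h y)
  have a2 : D.it j' ∈ Al := by
    by_contra h; exact h8 (uA_dead hAl hM' hb' hF' hW' hc' h y)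
  exact Finset.mem_product.2 ⟨mem_Qi.2 ⟨h5, h3 ▸ a1, j, h1, h3⟩, mem_Qi.2 ⟨h6, h4 ▸ a2, j', h2, h4⟩⟩

/-- raised radius of the missing items below a tie -/
lemma rd_col {b p : ℕ} (hp : 0 < p) (ρ : ℕ → ℝ) (q : ℕ) : rd (b * p) p ρ q = b * ρ q := by
  unfold rd
  have : (p:ℝ) ≠ 0 := by exact_mod_cast hp.ne'
  push_cast
  field_simp

/-- the share of the missing items in terms of the raw mass of the builder -/
lemma share_le {P : Bld532.Par} {W : ℕ → ℝ} {u : NS} {p : ℕ} {Sp : Finset ℕ} {t₁ t₀ : IT}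
    (h : NodeOk P W u (.br p Sp t₁ t₀))
    (hms : ∀ q ∈ Al, q ∈ (IT.br p Sp t₁ t₀).items → (u.B : ℝ) * tq (q / u.A) ≤ 2 * (u.c * tq q))
    (hρ : ∀ q, 0 < ρ q)
    (hW0 : ∀ q, 0 ≤ W q) (hWρ : ∀ q ∈ Al, ρ q * tq q ≤ W q) (hsg0 : 0 ≤ P.sg p)
    (A : Finset Λ) :
    ∑ q ∈ Qi D Al t₀ A, rd (u.B * p) p ρ q * tq (q / u.A) ≤ 4 * (P.sg p * P.hi p) := by
  have hk := bk_of_nodeOk h
  have hc0 : 0 ≤ u.c := by
    obtain ⟨T, hT, hc⟩ := hk.ceq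
    rw [hc]
    refine mul_nonneg (Nat.cast_nonneg _) (Finset.prod_nonneg fun r hr => inv_nonneg.2 ?_)
    exact (Phi542.fac_bounds (hT r hr).1).1.le
  obtain ⟨hp, hpn, -, hmax, -, hi1, hi0, -, -, hlo, hhi, hsg, -⟩ := h
  have h1 : ∀ q ∈ Qi D Al t₀ A, rd (u.B * p) p ρ q * tq (q / u.A) ≤ 2 * (u.c * W q) := by
    intro q hq
    obtain ⟨hqt, hqA, -⟩ := mem_Qi.1 hq
    have hqi : q ∈ (IT.br p Sp t₁ t₀).items := Finset.mem_union_right _ hqt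
    rw [rd_col hp.pos]
    have h2 := hWρ _ hqA
    have h3 := mul_le_mul_of_nonneg_left (hms q hqA hqi) (hρ q).le
    calc (u.B : ℝ) * ρ q * tq (q / u.A) = ρ q * ((u.B : ℝ) * tq (q / u.A)) := by ring
      _ ≤ ρ q * (2 * (u.c * tq q)) := h3
      _ = 2 * (u.c * (ρ q * tq q)) := by ring
      _ ≤ 2 * (u.c * W q) := by
        have := mul_le_mul_of_nonneg_left h2 hc0
        linarith
  calc ∑ q ∈ Qi D Al t₀ A, rd (u.B * p) p ρ q * tq (q / u.A)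
      ≤ ∑ q ∈ Qi D Al t₀ A, 2 * (u.c * W q) := Finset.sum_le_sum h1
    _ ≤ ∑ q ∈ t₀.items, 2 * (u.c * W q) := Finset.sum_le_sum_of_subset_of_nonneg
        (fun q hq => (mem_Qi.1 hq).1) fun q _ _ =>
          mul_nonneg (by norm_num) (mul_nonneg hc0 (hW0 q))
    _ = 2 * (u.c * Ws W t₀.items) := by rw [← Finset.mul_sum, ← Finset.mul_sum]; rfl
    _ ≤ 2 * (u.c * (2 * P.sg p * Ws W (t₁.items ∪ t₀.items))) := by
        have := mul_le_mul_of_nonneg_left hsg hc0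
        linarith
    _ = 4 * (P.sg p * (u.c * Ws W (t₁.items ∪ t₀.items))) := by ring
    _ ≤ 4 * (P.sg p * P.hi p) := by
        have := mul_le_mul_of_nonneg_left hhi hsg0
        linarith

/-- **masses**: the raised radius of an alive item is at most its integral mass -/
lemma mass_ge {t : IT} (hab : ∀ j, D.al j ≤ D.be j) {b pr : ℕ} (hb : 0 < b)
    (hF : Fit b pr t) (hW : D.Wts pr t) {q : ℕ} (hq : q ∈ t.items) (hprf : 0 ≤ prf t q)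
    {c₀ : ℝ} (hc₀ : 0 < c₀)
    (hph : tq (q / pr) ≤ 2 * (prf t q * tq (q / (pr * pp t q))))
    (hmean : ∀ j, D.it j = q → c₀ * tq (q / (pr * pp t q)) ≤ mnw (q / (pr * pp t q)) (D.om j))
    (hfull : 2 * ρ q ≤ ∑ j ∈ Finset.univ.filter (fun j => D.it j = q), (D.be j - D.al j))
    {A : Finset Λ} (hil : IL D.it A) (hA : ∃ j ∈ A, D.it j = q) :
    (b : ℝ) * ρ q * tq (q / pr) ≤ 1 / c₀ *
      ∑ j ∈ A.filter (fun j => D.it j = q), I ((D.toFT b pr t).U 1 j) := by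
  classical
  obtain ⟨j₀, hj₀, hj₀q⟩ := hA
  have hfil : A.filter (fun j => D.it j = q) = Finset.univ.filter (fun j => D.it j = q) := by
    ext j
    simp only [Finset.mem_filter, Finset.mem_univ, true_and]
    exact ⟨fun h => h.2, fun h => ⟨(hil j j₀ (h.trans hj₀q.symm)).2 hj₀, h⟩⟩
  have hterm : ∀ j ∈ Finset.univ.filter (fun j => D.it j = q),
      (b : ℝ) * (D.be j - D.al j) * (c₀ / 2 * tq (q / pr)) ≤ I ((D.toFT b pr t).U 1 j) := by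
    intro j hj
    have hjq := (Finset.mem_filter.1 hj).2
    rw [D.I_U hab t b pr 1 hb hF hW (one_dvd _) j (hjq ▸ hq), hjq]
    have h1 : 0 ≤ (b : ℝ) * (D.be j - D.al j) := mul_nonneg (Nat.cast_nonneg _) (sub_nonneg.2 (hab j))
    have h2 := mul_le_mul_of_nonneg_left (hmean j hjq) (mul_nonneg h1 hprf)
    have h3 := mul_le_mul_of_nonneg_left hph (mul_nonneg h1 hc₀.le)
    push_cast
    calc (b : ℝ) * (D.be j - D.al j) * (c₀ / 2 * tq (q / pr))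
        = 1 / 2 * ((b : ℝ) * (D.be j - D.al j) * c₀ * tq (q / pr)) := by ring
      _ ≤ 1 / 2 * ((b : ℝ) * (D.be j - D.al j) * c₀ *
          (2 * (prf t q * tq (q / (pr * pp t q))))) := by linarith
      _ = (b : ℝ) * (D.be j - D.al j) * prf t q * (c₀ * tq (q / (pr * pp t q))) := by ring
      _ ≤ (b : ℝ) * (D.be j - D.al j) * prf t q * mnw (q / (pr * pp t q)) (D.om j) := h2
      _ = _ := by rw [div_one]
  rw [hfil]
  have h1 := Finset.sum_le_sum hterm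
  rw [← Finset.sum_mul, ← Finset.mul_sum] at h1
  have h2 : (b : ℝ) * (2 * ρ q) * (c₀ / 2 * tq (q / pr)) ≤
      (b : ℝ) * (∑ j ∈ Finset.univ.filter (fun j => D.it j = q), (D.be j - D.al j)) *
        (c₀ / 2 * tq (q / pr)) :=
    mul_le_mul_of_nonneg_right (mul_le_mul_of_nonneg_left hfull (Nat.cast_nonneg _))
      (mul_nonneg (by linarith) (tq_nonneg _))
  have h3 := h2.trans h1
  rw [one_div, inv_mul_eq_div, le_div_iff₀ hc₀]
  calc (b : ℝ) * ρ q * tq (q / pr) * c₀ = (b : ℝ) * (2 * ρ q) * (c₀ / 2 * tq (q / pr)) := by ring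
    _ ≤ _ := h3

/-- sum over the items of a population below a tie -/
lemma mass_sum [WRel κ] {sp : ℕ → Finset Λ} {d : DT Λ κ} (hab : ∀ j, D.al j ≤ D.be j) {b pr p : ℕ}
    {Sp : Finset ℕ} {t₁ t₀ : IT} {A : Finset Λ} (h : SideI D sp b pr (.br p Sp t₁ t₀) A d)
    {c₀ : ℝ} (hc₀ : 0 < c₀)
    (hph : ∀ q ∈ Al, q ∈ (IT.br p Sp t₁ t₀).items → tq (q / pr) ≤
      2 * (prf (IT.br p Sp t₁ t₀) q * tq (q / (pr * pp (IT.br p Sp t₁ t₀) q))))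
    (hmean : ∀ j, D.it j ∈ Al → D.it j ∈ (IT.br p Sp t₁ t₀).items →
      c₀ * tq (D.it j / (pr * pp (IT.br p Sp t₁ t₀) (D.it j))) ≤
        mnw (D.it j / (pr * pp (IT.br p Sp t₁ t₀) (D.it j))) (D.om j))
    (hfull : ∀ q ∈ Al, 2 * ρ q ≤
      ∑ j ∈ Finset.univ.filter (fun j => D.it j = q), (D.be j - D.al j))
    (hil : IL D.it A) (hnn : ∀ j, 0 ≤ mI d j) :
    ∑ q ∈ Qi D Al t₀ A, rd (b * p) p ρ q * tq (q / pr) ≤
      1 / c₀ * ∑ j ∈ A.filter (fun j => D.it j ∈ t₀.items), mI d j := by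
  classical
  obtain ⟨n, hO⟩ := h.ok
  have hp0 : 0 < p := h.hF.1.pos
  have h1 : ∀ q ∈ Qi D Al t₀ A, rd (b * p) p ρ q * tq (q / pr) ≤
      1 / c₀ * ∑ j ∈ A.filter (fun j => D.it j = q), mI d j := by
    intro q hq
    obtain ⟨h2, h3, h4⟩ := mem_Qi.1 hq
    have h5 : q ∈ (IT.br p Sp t₁ t₀).items := Finset.mem_union_right _ h2
    rw [rd_col hp0]
    refine (mass_ge hab h.hb h.hF h.hW h5 (BldF542.prf_pos _ n hO q).1.le hc₀ (hph q h3 h5)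
      (fun j hj => ?_) (hfull q h3) hil h4).trans (le_of_eq ?_)
    · have := hmean j (hj ▸ h3) (hj ▸ h5)
      rw [hj] at this
      exact this
    · congr 1
      exact Finset.sum_congr rfl fun j _ => (SideI_mI h j).symm
  refine (Finset.sum_le_sum h1).trans ?_
  rw [← Finset.mul_sum]
  refine mul_le_mul_of_nonneg_left ?_ (by positivity)
  have h2 := Finset.sum_fiberwise_of_maps_to (s := A.filter fun j => D.it j ∈ Qi D Al t₀ A)
    (t := Qi D Al t₀ A) (g := D.it) (fun j hj => (Finset.mem_filter.1 hj).2) (fun j => mI d j)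
  have h3 : ∑ q ∈ Qi D Al t₀ A, ∑ j ∈ A.filter (fun j => D.it j = q), mI d j =
      ∑ j ∈ A.filter (fun j => D.it j ∈ Qi D Al t₀ A), mI d j := by
    rw [← h2]
    refine Finset.sum_congr rfl fun q hq => Finset.sum_congr ?_ fun _ _ => rfl
    ext j
    simp only [Finset.mem_filter]
    exact ⟨fun k => ⟨⟨k.1, k.2 ▸ hq⟩, k.2⟩, fun k => ⟨k.1.1, k.2⟩⟩
  rw [h3]
  refine Finset.sum_le_sum_of_subset_of_nonneg (fun j hj => ?_) fun j _ _ => hnn j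
  obtain ⟨k1, k2⟩ := Finset.mem_filter.1 hj
  exact Finset.mem_filter.2 ⟨k1, (mem_Qi.1 k2).1⟩

/-- item conditions for the near misses at a column -/
structure NI (D : Par Λ κ) (ρ : ℕ → ℝ) (Al : Finset ℕ) (P : Bld532.Par) (W : ℕ → ℝ)
    (C1 c₀ : ℝ) (p : ℕ) : Prop where
  rad : D.Rad ρ
  ab : ∀ j, D.al j ≤ D.be j
  dead : ∀ j, D.it j ∉ Al → ∀ a, D.om j a = 0
  c0 : 0 < c₀
  W0 : ∀ q, 0 ≤ W q
  Wρ : ∀ q ∈ Al, ρ q * tq q ≤ W q
  full : ∀ q ∈ Al, 2 * ρ q ≤ ∑ j ∈ Finset.univ.filter (fun j => D.it j = q), (D.be j - D.al j)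
  sg0 : 0 ≤ P.sg p
  sg : 4 * (P.sg p * P.hi p) ≤ (Real.log p)^C1 / p

/-- conditions for one side of a state: tree `t` at the node `u`, average `M`, common factor `G` -/
structure NSd (D : Par Λ κ) (Al : Finset ℕ) (P : Bld532.Par) (W : ℕ → ℝ) (CL c₀ : ℝ) (p G M : ℕ)
    (u : NS) (t : IT) (A : Finset Λ) : Prop where
  node : NodeOk P W u t
  il : IL D.it A
  lg : ∀ q ∈ Al, q ∈ t.items → 1 ≤ CL * Real.log p * tq (q / u.A)
  mean : ∀ j, D.it j ∈ Al → D.it j ∈ t.items →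
    c₀ * tq (D.it j / (u.A * pp t (D.it j))) ≤ mnw (D.it j / (u.A * pp t (D.it j))) (D.om j)
  ph : ∀ q ∈ Al, q ∈ t.items → tq (q / u.A) ≤ 2 * (prf t q * tq (q / (u.A * pp t q)))
  ms : ∀ q ∈ Al, q ∈ t.items → (u.B : ℝ) * tq (q / u.A) ≤ 2 * (u.c * tq q)
  once : ∀ q ∈ Al, q ∈ t.items → Once M (q / u.A)
  geM : ∀ l : ℕ, l.Prime → l ∣ M → p ≤ l
  tame : ∀ z : ℝ, (p:ℝ) ≤ z → ∀ j ∈ A, D.it j ∈ Al → D.it j ∈ t.items →
    Crest.Agent.R4.ClsB.Tame z G (D.it j / u.A / M.gcd (D.it j / u.A))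

variable [WRel κ] {sp : ℕ → Finset Λ} {s : St Λ κ} {P : Bld532.Par} {W : ℕ → ℝ}
  {CL C1 c₀ : ℝ} {p₁ : ℕ}

open Classical in
/-- **NEAR MISSES OF A STATE**: generic part + `[E]` pairs + `[F]` pairs -/
theorem nm_state (hcc : CC CL C1 (1 / c₀) p₁) {p n G : ℕ} (hni : NI D ρ Al P W C1 c₀ p)
    {u u' : NS} {Sp Sp' : Finset ℕ} {t₁ t₀ t₁' t₀' : IT}
    (h : StI D sp s u.B u.A (.br p Sp t₁ t₀) u'.B u'.A (.br p Sp' t₁' t₀')) (hG : 0 < G)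
    (hL : NSd D Al P W CL c₀ p G s.M u (.br p Sp t₁ t₀) s.A)
    (hR : NSd D Al P W CL c₀ p G s.M' u' (.br p Sp' t₁' t₀') s.A')
    (hCL : 0 ≤ CL)
    (hp : p₁ ≤ p) (hn : n = ⌊1/4 * Real.log p / Real.log 2⌋₊)
    {stp : Stp Λ κ}
    (hst : ¬ stp s → ∑ l ∈ s.M.primeFactors, 1/(l:ℝ) ≤ 1 ∧ ∑ l ∈ s.M'.primeFactors, 1/(l:ℝ) ≤ 1) :
    eNM stp s ≤ (p:ℝ)^(-(1/2500):ℝ) *
        ((∑ j ∈ s.A.filter (fun j => D.it j ∈ t₀.items), mI s.t j) +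
          ∑ j ∈ s.A'.filter (fun j => D.it j ∈ t₀'.items), mI s.t' j) +
      ∑ e ∈ (Qi D Al t₀ s.A ×ˢ Qi D Al t₀' s.A').filter (fun e =>
        0 < D.iF (Ro (D.rho p)) (D.uA s.M (u.B * p) u.A t₀ s.A p)
          (D.uA s.M' (u'.B * p) u'.A t₀' s.A' p) e ∧
        (Dq ρ s.M (u.B * p) u.A p s.M' (u'.B * p) u'.A p e ≤ 1/2^n ∧
        (ESI D.γ ρ s.M (u.B * p) u.A p s.M' (u'.B * p) u'.A p e ∨
          FSI D.γ ρ n s.M (u.B * p) u.A p s.M' (u'.B * p) u'.A p e))),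
        D.iF (Ro (D.rho p)) (D.uA s.M (u.B * p) u.A t₀ s.A p)
          (D.uA s.M' (u'.B * p) u'.A t₀' s.A' p) e := by
  classical
  have hpp : p.Prime := h.L.hF.1
  have hp0 : 0 < p := hpp.pos
  have bB : 0 < u.B := h.L.hb
  have bB' : 0 < u'.B := h.R.hb
  have hL0 := h.L.br₀
  have hR0 := h.R.br₀
  set F : ℕ × ℕ → ℝ := D.iF (Ro (D.rho p)) (D.uA s.M (u.B * p) u.A t₀ s.A p)
    (D.uA s.M' (u'.B * p) u'.A t₀' s.A' p) with hFdef
  have hF0 : ∀ e, 0 ≤ F e := fun e => D.iF_nonneg _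
    (fun j y => (PB_uA h.M0 hL0.hb hL0.hF hL0.hW (Dvd.intro_left u.B rfl) j).nonneg y)
    (fun j y => (PB_uA h.M0' hR0.hb hR0.hF hR0.hW (Dvd.intro_left u'.B rfl) j).nonneg y) e
  have mnn : ∀ (d : DT Λ κ), d.g.Ok → ∀ j, 0 ≤ mI d j := fun d hd j => by
    unfold mI
    exact I_nonneg fun x => (hd.pb j).nonneg x
  have okL : s.t.g.Ok := by rw [h.L.eq, D.toDT_g]; exact D.toG_Ok h.L.hb h.L.hF h.L.hW
  have okR : s.t'.g.Ok := by rw [h.R.eq, D.toDT_g]; exact D.toG_Ok h.R.hb h.R.hF h.R.hW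
  have nΦ : 0 ≤ ∑ j ∈ s.A.filter (fun j => D.it j ∈ t₀.items), mI s.t j :=
    Finset.sum_nonneg fun j _ => mnn _ okL j
  have nΦ' : 0 ≤ ∑ j ∈ s.A'.filter (fun j => D.it j ∈ t₀'.items), mI s.t' j :=
    Finset.sum_nonneg fun j _ => mnn _ okR j
  have hrest : 0 ≤ ∑ e ∈ (Qi D Al t₀ s.A ×ˢ Qi D Al t₀' s.A').filter (fun e => 0 < F e ∧
        (Dq ρ s.M (u.B * p) u.A p s.M' (u'.B * p) u'.A p e ≤ 1/2^n ∧
        (ESI D.γ ρ s.M (u.B * p) u.A p s.M' (u'.B * p) u'.A p e ∨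
          FSI D.γ ρ n s.M (u.B * p) u.A p s.M' (u'.B * p) u'.A p e))), F e :=
    Finset.sum_nonneg fun e _ => hF0 e
  by_cases hstp : stp s
  · have e0 : eNM stp s = 0 := by
      unfold eNM
      split_ifs <;> rfl
    rw [e0]
    have : 0 ≤ (p:ℝ)^(-(1/2500):ℝ) := by positivity
    have := mul_nonneg this (add_nonneg nΦ nΦ')
    linarith
  obtain ⟨hs, hs'⟩ := hst hstp
  refine (eNM_le_iF h stp).trans ?_
  refine (Finset.sum_le_sum_of_subset_of_nonneg (PE_sub hni.dead h.M0 h.M0' hL0.hb hR0.hb hL0.hF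
    hR0.hF hL0.hW hR0.hW (Dvd.intro_left u.B rfl) (Dvd.intro_left u'.B rfl) _ _ _)
    fun e _ _ => hF0 e).trans ?_
  -- the pieces of the estimate
  have itL : ∀ q ∈ Qi D Al t₀ s.A, q ∈ (IT.br p Sp t₁ t₀).items := fun q hq =>
    Finset.mem_union_right _ (mem_Qi.1 hq).1
  have itR : ∀ q ∈ Qi D Al t₀' s.A', q ∈ (IT.br p Sp' t₁' t₀').items := fun q hq =>
    Finset.mem_union_right _ (mem_Qi.1 hq).1
  have w0L : ∀ q ∈ Qi D Al t₀ s.A, 0 < q / u.A := fun q hq => by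
    have hq0 := (hL0.hF.item q (mem_Qi.1 hq).1)
    exact Nat.div_pos (Nat.le_of_dvd hq0.1 hq0.2.1) (Nat.pos_of_dvd_of_pos hq0.2.1 hq0.1)
  have w0R : ∀ q ∈ Qi D Al t₀' s.A', 0 < q / u'.A := fun q hq => by
    have hq0 := (hR0.hF.item q (mem_Qi.1 hq).1)
    exact Nat.div_pos (Nat.le_of_dvd hq0.1 hq0.2.1) (Nat.pos_of_dvd_of_pos hq0.2.1 hq0.1)
  have logp : 0 ≤ CL * Real.log p := mul_nonneg hCL (Real.log_natCast_nonneg p)
  refine nm_smallG hcc (F := F) (G := G) (c := p) (c' := p) hp hn hG hni.rad.pos hL0.hb hp0 hR0.hb hp0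
    h.M0 h.M0' hL.geM hR.geM hs hs'
    (fun q hq => ⟨(hL0.hF.item q (mem_Qi.1 hq).1).1, (hL0.hF.item q (mem_Qi.1 hq).1).2.1⟩)
    (fun q hq => ⟨(hR0.hF.item q (mem_Qi.1 hq).1).1, (hR0.hF.item q (mem_Qi.1 hq).1).2.1⟩)
    (fun q hq => hL.once q (mem_Qi.1 hq).2.1 (itL q hq))
    (fun q hq => hR.once q (mem_Qi.1 hq).2.1 (itR q hq))
    ?_ ?_ ?_ ?_ ?_ ?_ ?_ ?_ ?_ nΦ nΦ'
  · intro z hz q hq
    obtain ⟨h1, h2, j, hj, rfl⟩ := mem_Qi.1 hq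
    exact hL.tame z hz j hj h2 (itL _ hq)
  · intro z hz q hq
    obtain ⟨h1, h2, j, hj, rfl⟩ := mem_Qi.1 hq
    exact hR.tame z hz j hj h2 (itR _ hq)
  · intro q hq
    refine (hL.lg q (mem_Qi.1 hq).2.1 (itL q hq)).trans ?_
    exact mul_le_mul_of_nonneg_left (tq_mono (Nat.div_dvd_of_dvd (Nat.gcd_dvd_right _ _)) (w0L q hq)) logp
  · intro q hq
    refine (hR.lg q (mem_Qi.1 hq).2.1 (itR q hq)).trans ?_
    exact mul_le_mul_of_nonneg_left (tq_mono (Nat.div_dvd_of_dvd (Nat.gcd_dvd_right _ _)) (w0R q hq)) logp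
  · intro e he
    obtain ⟨h1, h2⟩ := Finset.mem_product.1 he
    exact iF_le hni.rad h.M0 h.M0' hL0.hb hR0.hb hL0.hF hR0.hF hL0.hW hR0.hW
      (Dvd.intro_left u.B rfl) (Dvd.intro_left u'.B rfl) _ _ _ e (mem_Qi.1 h1).1 (mem_Qi.1 h2).1
  · exact (share_le hL.node hL.ms hni.rad.pos hni.W0 hni.Wρ hni.sg0 s.A).trans hni.sg
  · exact (share_le hR.node hR.ms hni.rad.pos hni.W0 hni.Wρ hni.sg0 s.A').trans hni.sg
  · exact mass_sum hni.ab h.L hni.c0 hL.ph hL.mean hni.full hL.il (mnn _ okL)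
  · exact mass_sum hni.ab h.R hni.c0 hR.ph hR.mean hni.full hR.il (mnn _ okR)

/-- `[E]` for item pairs is 194's `EP` -/
lemma ESI_EP {γ : ℝ} {ρ : ℕ → ℝ} {M b pr c M' b' pr' c' : ℕ} {e : ℕ × ℕ} (h1 : pr ∣ e.1)
    (h2 : pr' ∣ e.2) (h : ESI γ ρ M b pr c M' b' pr' c' e) :
    EP (fun t => t^(1/20:ℝ)) γ ρ M b pr c M' b' pr' c' e := by
  obtain ⟨t, m, m', h3, h4⟩ := h
  refine ⟨t, m, m', ?_, ?_⟩
  · rw [rg_eq h1, rg_eq h2]; exact h3
  · rw [rg_eq h1, rg_eq h2]; exact h4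

open Classical in
/-- the matching of the `[E]` pairs with raising factors one -/
noncomputable def KE (D : Par Λ κ) (ρ : ℕ → ℝ) (Al : Finset ℕ) (n p : ℕ) (s : St Λ κ) (u u' : NS)
    (t₀ t₀' : IT) : Finset (ℕ × ℕ) :=
  (Qi D Al t₀ s.A ×ˢ Qi D Al t₀' s.A').filter (fun e =>
    0 < D.iF (Ro (D.rho p)) (D.uA s.M (u.B * p) u.A t₀ s.A p)
      (D.uA s.M' (u'.B * p) u'.A t₀' s.A' p) e ∧
    (Dq ρ s.M (u.B * p) u.A p s.M' (u'.B * p) u'.A p e ≤ 1/2^n ∧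
      ESI D.γ ρ s.M (u.B * p) u.A p s.M' (u'.B * p) u'.A p e) ∧
    (rf (e.1 / u.A) s.M = 1 ∧ rf (e.2 / u'.A) s.M' = 1))

open Classical in
/-- **(H1) OF MODULE G FOR THE NEAR MISSES OF A STATE**: matching of `[E]` pairs, generic part,
`[F]` pairs -/
theorem nm_H1 (hcc : CC CL C1 (1 / c₀) p₁) {p n G : ℕ} (hni : NI D ρ Al P W C1 c₀ p)
    {u u' : NS} {Sp Sp' : Finset ℕ} {t₁ t₀ t₁' t₀' : IT}
    (h : StI D sp s u.B u.A (.br p Sp t₁ t₀) u'.B u'.A (.br p Sp' t₁' t₀')) (hG : 0 < G)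
    (hL : NSd D Al P W CL c₀ p G s.M u (.br p Sp t₁ t₀) s.A)
    (hR : NSd D Al P W CL c₀ p G s.M' u' (.br p Sp' t₁' t₀') s.A')
    (hCL : 0 ≤ CL)
    (hp : p₁ ≤ p) (hn : n = ⌊1/4 * Real.log p / Real.log 2⌋₊)
    {stp : Stp Λ κ}
    (hst : ¬ stp s → ∑ l ∈ s.M.primeFactors, 1/(l:ℝ) ≤ 1 ∧ ∑ l ∈ s.M'.primeFactors, 1/(l:ℝ) ≤ 1)
    {N₁ N₁' : ℕ} (hN : 0 < N₁) (hN' : 0 < N₁') (hNM : s.M ∣ N₁) (hNM' : s.M' ∣ N₁') :
    eNM stp s ≤ (∑ e ∈ KE D ρ Al n p s u u' t₀ t₀', min (mq D s.t s.A e.1) (mq D s.t' s.A' e.2)) +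
      ((p:ℝ)^(-(1/2500):ℝ) + xs N₁') * (∑ j ∈ s.A.filter (fun j => D.it j ∈ t₀.items), mI s.t j) +
      ((p:ℝ)^(-(1/2500):ℝ) + xs N₁) * (∑ j ∈ s.A'.filter (fun j => D.it j ∈ t₀'.items), mI s.t' j) +
      ∑ e ∈ (Qi D Al t₀ s.A ×ˢ Qi D Al t₀' s.A').filter (fun e =>
        0 < D.iF (Ro (D.rho p)) (D.uA s.M (u.B * p) u.A t₀ s.A p)
          (D.uA s.M' (u'.B * p) u'.A t₀' s.A' p) e ∧
        (Dq ρ s.M (u.B * p) u.A p s.M' (u'.B * p) u'.A p e ≤ 1/2^n ∧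
          FSI D.γ ρ n s.M (u.B * p) u.A p s.M' (u'.B * p) u'.A p e)),
        D.iF (Ro (D.rho p)) (D.uA s.M (u.B * p) u.A t₀ s.A p)
          (D.uA s.M' (u'.B * p) u'.A t₀' s.A' p) e := by
  classical
  have hL0 := h.L.br₀
  have hR0 := h.R.br₀
  have key := nm_state hcc hni h hG hL hR hCL hp hn (stp := stp) hst
  set F : ℕ × ℕ → ℝ := D.iF (Ro (D.rho p)) (D.uA s.M (u.B * p) u.A t₀ s.A p)
    (D.uA s.M' (u'.B * p) u'.A t₀' s.A' p) with hFdef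
  set S := Qi D Al t₀ s.A ×ˢ Qi D Al t₀' s.A' with hS
  have hF0 : ∀ e, 0 ≤ F e := fun e => D.iF_nonneg _
    (fun j y => (PB_uA h.M0 hL0.hb hL0.hF hL0.hW (Dvd.intro_left u.B rfl) j).nonneg y)
    (fun j y => (PB_uA h.M0' hR0.hb hR0.hF hR0.hW (Dvd.intro_left u'.B rfl) j).nonneg y) e
  -- split the rest
  have hsplit : ∑ e ∈ S.filter (fun e => 0 < F e ∧
        (Dq ρ s.M (u.B * p) u.A p s.M' (u'.B * p) u'.A p e ≤ 1/2^n ∧
        (ESI D.γ ρ s.M (u.B * p) u.A p s.M' (u'.B * p) u'.A p e ∨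
          FSI D.γ ρ n s.M (u.B * p) u.A p s.M' (u'.B * p) u'.A p e))), F e ≤
      ∑ e ∈ S.filter (fun e => 0 < F e ∧
        (Dq ρ s.M (u.B * p) u.A p s.M' (u'.B * p) u'.A p e ≤ 1/2^n ∧
          ESI D.γ ρ s.M (u.B * p) u.A p s.M' (u'.B * p) u'.A p e)), F e +
      ∑ e ∈ S.filter (fun e => 0 < F e ∧
        (Dq ρ s.M (u.B * p) u.A p s.M' (u'.B * p) u'.A p e ≤ 1/2^n ∧
          FSI D.γ ρ n s.M (u.B * p) u.A p s.M' (u'.B * p) u'.A p e)), F e := by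
    rw [← Finset.sum_union_inter]
    have h1 : 0 ≤ ∑ e ∈ S.filter (fun e => 0 < F e ∧
        (Dq ρ s.M (u.B * p) u.A p s.M' (u'.B * p) u'.A p e ≤ 1/2^n ∧
          ESI D.γ ρ s.M (u.B * p) u.A p s.M' (u'.B * p) u'.A p e)) ∩ S.filter (fun e => 0 < F e ∧
        (Dq ρ s.M (u.B * p) u.A p s.M' (u'.B * p) u'.A p e ≤ 1/2^n ∧
          FSI D.γ ρ n s.M (u.B * p) u.A p s.M' (u'.B * p) u'.A p e)), F e :=
      Finset.sum_nonneg fun e _ => hF0 e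
    refine le_trans (Finset.sum_le_sum_of_subset_of_nonneg (fun e he => ?_) fun e _ _ => hF0 e)
      (le_add_of_nonneg_right h1)
    obtain ⟨k1, k2, k3, k4⟩ := Finset.mem_filter.1 he
    rcases k4 with k4 | k4
    · exact Finset.mem_union_left _ (Finset.mem_filter.2 ⟨k1, k2, k3, k4⟩)
    · exact Finset.mem_union_right _ (Finset.mem_filter.2 ⟨k1, k2, k3, k4⟩)
  have hE := NM_E_le hni.rad hni.ab h (N := fun t => t^(1/20:ℝ))
    (P := S.filter (fun e => 0 < F e ∧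
        (Dq ρ s.M (u.B * p) u.A p s.M' (u'.B * p) u'.A p e ≤ 1/2^n ∧
          ESI D.γ ρ s.M (u.B * p) u.A p s.M' (u'.B * p) u'.A p e))) hN hN' (by
      intro e he
      obtain ⟨k1, k2, k3, k4⟩ := Finset.mem_filter.1 he
      obtain ⟨k5, k6⟩ := Finset.mem_product.1 k1
      have k7 := (mem_Qi.1 k5).1
      have k8 := (mem_Qi.1 k6).1
      refine ⟨k7, k8, ESI_EP (hL0.hF.item _ k7).2.1 (hR0.hF.item _ k8).2.1 k4, ?_, ?_⟩
      · exact (Nat.div_dvd_of_dvd (Nat.gcd_dvd_left _ _)).trans hNM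
      · exact (Nat.div_dvd_of_dvd (Nat.gcd_dvd_left _ _)).trans hNM')
  have hK : (S.filter (fun e => 0 < F e ∧
        (Dq ρ s.M (u.B * p) u.A p s.M' (u'.B * p) u'.A p e ≤ 1/2^n ∧
          ESI D.γ ρ s.M (u.B * p) u.A p s.M' (u'.B * p) u'.A p e))).filter
      (fun e => rf (e.1 / u.A) s.M = 1 ∧ rf (e.2 / u'.A) s.M' = 1) = KE D ρ Al n p s u u' t₀ t₀' := by
    unfold KE
    rw [Finset.filter_filter]
    refine Finset.filter_congr fun e _ => ?_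
    constructor
    · rintro ⟨⟨a, b⟩, c⟩; exact ⟨a, b, c⟩
    · rintro ⟨a, b, c⟩; exact ⟨⟨a, b⟩, c⟩
  rw [hK] at hE
  refine key.trans ?_
  linarith

/-- the matching property -/
theorem KE_match {p n : ℕ} {u u' : NS} {Sp Sp' : Finset ℕ} {t₁ t₀ t₁' t₀' : IT}
    (h : StI D sp s u.B u.A (.br p Sp t₁ t₀) u'.B u'.A (.br p Sp' t₁' t₀')) :
    (∀ q r₁ r₂, (q, r₁) ∈ KE D ρ Al n p s u u' t₀ t₀' → (q, r₂) ∈ KE D ρ Al n p s u u' t₀ t₀' →
      r₁ = r₂) ∧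
    ∀ q₁ q₂ r, (q₁, r) ∈ KE D ρ Al n p s u u' t₀ t₀' → (q₂, r) ∈ KE D ρ Al n p s u u' t₀ t₀' →
      q₁ = q₂ := by
  classical
  have hL0 := h.L.br₀
  have hR0 := h.R.br₀
  refine K_match (D := D) (ρ := ρ) (t := t₀) (t' := t₀') (c := p) (c' := p) h.M0 h.M0' hL0.hF hR0.hF
    (N := fun t => t^(1/20:ℝ)) (fun e he => ?_)
  unfold KE at he
  obtain ⟨k1, k2, ⟨k3, k4⟩, k5, k6⟩ := Finset.mem_filter.1 he
  obtain ⟨k7, k8⟩ := Finset.mem_product.1 k1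
  have k9 := (mem_Qi.1 k7).1
  have k10 := (mem_Qi.1 k8).1
  exact ⟨k9, k10, ESI_EP (hL0.hF.item _ k9).2.1 (hR0.hF.item _ k10).2.1 k4, k5, k6⟩

end state

end Crest.Agent.R4P.NMW710
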