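import Crest.Agent.R4.NMW927
import Crest.Agent.R4P.NMS800
import Crest.Agent.R4P.MS800

/-!
R4 powers pass (S0004), helper800: port of helper927's `R4/NMW927` (near misses of a state with the numbers of
`GFinC927`) to the tree with powers. The averaging moduli contain no common factor, so `nm_state2` follows
from `NMS800.nm_state` and `MS` (`M.primeFactors = O'`).
-/

set_option autoImplicit false
set_option linter.unusedSectionVars false
set_option linter.unusedVariables false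

namespace Crest.Agent.R4P.NMW927

export Crest.Agent.R4.NMW927 (CC2 exists_CC2 CC2.mono tq_le_one)

open Crest.Agent.R4.Tour104 Crest.Agent.R4.Tour758 Crest.Agent.R4.Avg758 Crest.Agent.R4.Clos758
open Crest.Agent.R4.ClosL758 Crest.Agent.R4.ClosG758 Crest.Agent.R4.ClosR758
open Crest.Agent.R4.Fam464 Crest.Agent.R4P.Cnt588 Crest.Agent.R4P.Walk560 Crest.Agent.R4.Piece464
open Crest.Agent.R4P.Item758 Crest.Agent.R4P.AvgItem710
open Crest.Agent.R4P.Bld532 (NS All NodeOk Bk)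
open Crest.Agent.R4P.GInst194 Crest.Agent.R4P.WalkIT579 Crest.Agent.R4P.GSt927
open Crest.Agent.R4P.NMW710 Crest.Agent.R4.DeepSt579
open Crest.Agent.R4.NMW927 (CC2)
open Crest.Agent.R4P

variable {Λ κ : Type*} [Fintype Λ] [DecidableEq Λ] [Fintype κ] [DecidableEq κ] [WRel κ]
  {D : Par Λ κ} {ρ : ℕ → ℝ} {Al : Finset ℕ} {sp : ℕ → Finset Λ} {s : St Λ κ} {P : Bld532.Par}
  {W : ℕ → ℝ} {CL C1 c₀ : ℝ} {p₁ : ℕ}

/-- a larger exponent -/
lemma NI_mono {C1' : ℝ} {p : ℕ} (h : NI D ρ Al P W C1 c₀ p) (h1 : C1 ≤ C1') (hp : 3 ≤ p) :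
    NI D ρ Al P W C1' c₀ p where
  rad := h.rad
  ab := h.ab
  dead := h.dead
  c0 := h.c0
  W0 := h.W0
  Wρ := h.Wρ
  full := h.full
  sg0 := h.sg0
  sg := h.sg.trans (by
    have hl : 1 ≤ Real.log p := by
      have h3 : (Real.exp 1) ≤ p := (Real.exp_one_lt_d9.le.trans (by norm_num)).trans
        (by exact_mod_cast hp : (3:ℝ) ≤ p)
      have := Real.log_le_log (Real.exp_pos 1) h3
      rwa [Real.log_exp] at this
    exact div_le_div_of_nonneg_right (Real.rpow_le_rpow_of_exponent_le hl h1) (Nat.cast_nonneg p))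

open Classical in
/-- **near misses of a state**, sums over the one-sided columns -/
theorem nm_state2 (hcc : CC2 CL C1 (1 / c₀) p₁) {p n G : ℕ} (hni : NI D ρ Al P W C1 c₀ p)
    {u u' : NS} {Sp Sp' : Finset ℕ} {t₁ t₀ t₁' t₀' : IT}
    (h : StI D sp s u.B u.A (.br p Sp t₁ t₀) u'.B u'.A (.br p Sp' t₁' t₀')) (hG : 0 < G)
    (hL : NSd D Al P W CL c₀ p G s.M u (.br p Sp t₁ t₀) s.A)
    (hR : NSd D Al P W CL c₀ p G s.M' u' (.br p Sp' t₁' t₀') s.A')
    (hCL : 0 ≤ CL)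
    (hp : p₁ ≤ p) (hn : n = ⌊1/4 * Real.log p / Real.log 2⌋₊)
    {stp : Stp Λ κ} {N N' : ℕ} (mL : MS N s.M s.O') (mR : MS N' s.M' s.O)
    (hst : ¬ stp s → ∑ l ∈ s.O, 1/(l:ℝ) ≤ 1 ∧ ∑ l ∈ s.O', 1/(l:ℝ) ≤ 1) :
    eNM stp s ≤ (p:ℝ)^(-(1/3000):ℝ) *
        ((∑ j ∈ s.A.filter (fun j => D.it j ∈ t₀.items), mI s.t j) +
          ∑ j ∈ s.A'.filter (fun j => D.it j ∈ t₀'.items), mI s.t' j) +
      ∑ e ∈ (Qi D Al t₀ s.A ×ˢ Qi D Al t₀' s.A').filter (fun e =>
        0 < D.iF (Ro (D.rho p)) (D.uA s.M (u.B * p) u.A t₀ s.A p)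
          (D.uA s.M' (u'.B * p) u'.A t₀' s.A' p) e ∧
        (Dq ρ s.M (u.B * p) u.A p s.M' (u'.B * p) u'.A p e ≤ 1/2^n ∧
        (ESI D.γ ρ s.M (u.B * p) u.A p s.M' (u'.B * p) u'.A p e ∨
          FSI D.γ ρ n s.M (u.B * p) u.A p s.M' (u'.B * p) u'.A p e))),
        D.iF (Ro (D.rho p)) (D.uA s.M (u.B * p) u.A t₀ s.A p)
          (D.uA s.M' (u'.B * p) u'.A t₀' s.A' p) e := by
  classical
  have h16 : 16 ≤ p := hcc.cc.big.trans hp
  have hni' : NI D ρ Al P W (C1 + 2) c₀ p := NI_mono hni (by linarith) (by omega)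
  have key := nm_state hcc.cc hni' h hG hL hR hCL hp hn (stp := stp)
    (fun hs => by rw [mL.eq, mR.eq]; exact ⟨(hst hs).2, (hst hs).1⟩)
  refine key.trans (add_le_add (mul_le_mul_of_nonneg_right ?_ ?_) le_rfl)
  · exact Real.rpow_le_rpow_of_exponent_le (by exact_mod_cast (by omega : 1 ≤ p)) (by norm_num)
  · have mnn : ∀ (d : DT Λ κ), d.g.Ok → ∀ j, 0 ≤ mI d j := fun d hd j => by
      unfold mI
      exact I_nonneg fun x => (hd.pb j).nonneg x
    have okL : s.t.g.Ok := by rw [h.L.eq, D.toDT_g]; exact D.toG_Ok h.L.hb h.L.hF h.L.hW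
    have okR : s.t'.g.Ok := by rw [h.R.eq, D.toDT_g]; exact D.toG_Ok h.R.hb h.R.hF h.R.hW
    exact add_nonneg (Finset.sum_nonneg fun j _ => mnn _ okL j)
      (Finset.sum_nonneg fun j _ => mnn _ okR j)

end Crest.Agent.R4P.NMW927
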