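import Crest.Agent.R4P.PhiU820
import Crest.Agent.R4.DeepSt579

/-!
R4 powers pass (S0004), helper800: **the masses at every node of the tree** (`tq n = φ(n)/n`):

* `All_MsN` : at every node `(u, τ)` of `t'`, `u.c = u.B * ∏_{T} (1-1/r)⁻¹` with `T` = present ties above, and
  every prime of `u.A` is in `T`, in `mt t' q ∪ sp t' q`, or divides `q / u.A`;
* `MsN.ms` : `u.B * tq (q / u.A) ≤ 2 * (u.c * tq q)` if `∑_{mt ∪ sp} 1/p ≤ 1/2` (820's `leaf_mass` is the
  case of a leaf);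
* `ph_node` : `tq (q / u.A) ≤ 2 * (prf τ q * tq (q / (u.A * pp τ q)))` if `∑_{uq} 1/p ≤ 1/2`.
-/

set_option autoImplicit false

namespace Crest.Agent.R4P.NMass800

open Crest.Agent.R4P.Cnt588 Crest.Agent.R4P.Item758 Crest.Agent.R4P.Bld532
open Crest.Agent.R4P.BldF542 Crest.Agent.R4P.Phi542 Crest.Agent.R4P.PhiU820
open Crest.Agent.R4.DeepSt579 (tq)

/-- masses at the node `(u, τ)` of the tree `t'` -/
structure MsN (t' : IT) (u : NS) (τ : IT) : Prop where
  T : ∃ T : Finset ℕ, (∀ r ∈ T, r.Prime ∧ r ∣ u.A) ∧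
    u.c = u.B * ∏ r ∈ T, (1 - 1 / (r : ℝ))⁻¹ ∧
    ∀ q ∈ τ.items, ∀ l : ℕ, l.Prime → l ∣ u.A →
      l ∈ T ∨ l ∈ t'.mt q ∪ t'.sp q ∨ l ∣ q / u.A
  uq : ∀ q ∈ τ.items, τ.uq q ⊆ t'.uq q
  mt : ∀ q ∈ τ.items, τ.mt q ⊆ t'.mt q
  sp : ∀ q ∈ τ.items, τ.sp q ⊆ t'.sp q

/-- the invariant of the induction -/
structure Iv (t' : IT) (u : NS) (τ : IT) (T Z : Finset ℕ) : Prop where
  tp : ∀ r ∈ T, r.Prime ∧ r ∣ u.A ∧ u.n ≤ r
  ce : u.c = u.B * ∏ r ∈ T, (1 - 1 / (r : ℝ))⁻¹
  pr : ∀ q ∈ τ.items, ∀ l : ℕ, l.Prime → l ∣ u.A →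
      l ∈ T ∨ l ∈ t'.mt q ∪ t'.sp q ∨ l ∣ q / u.A
  z : ∀ q ∈ τ.items, ∀ l ∈ Z, l ∈ T ∨ l ∈ t'.mt q ∪ t'.sp q
  uq : ∀ q ∈ τ.items, τ.uq q ⊆ t'.uq q
  mt : ∀ q ∈ τ.items, τ.mt q ⊆ t'.mt q
  sp : ∀ q ∈ τ.items, τ.sp q ⊆ t'.sp q

lemma Iv.toMsN {t' τ : IT} {u : NS} {T Z : Finset ℕ} (h : Iv t' u τ T Z) : MsN t' u τ :=
  ⟨⟨T, fun r hr => ⟨(h.tp r hr).1, (h.tp r hr).2.1⟩, h.ce, h.pr⟩, h.uq, h.mt, h.sp⟩

lemma dvd_step {q A p l : ℕ} (hq : 0 < q) (h : A * p ∣ q) (hl : l.Prime) (hp : p.Prime)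
    (hne : l ≠ p) (hd : l ∣ q / A) : l ∣ q / (A * p) := by
  rw [div_step hq h] at hd
  rcases (Nat.Prime.dvd_mul hl).1 hd with h1 | h1
  · exact absurd ((Nat.prime_dvd_prime_iff_eq hl hp).1 h1) hne
  · exact h1

theorem All_MsN_aux (t' : IT) : ∀ (τ : IT) (u : NS) (T Z : Finset ℕ), τ.Ok u.n →
    Fit u.B u.A τ → PlOk Z τ → Iv t' u τ T Z → All (MsN t') u τ := by
  intro τ
  induction τ with
  | leaf S => intro u T Z _ _ _ h; exact h.toMsN
  | br p Sp t₁ t₀ ih1 ih0 =>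
    intro u T Z hO hF hP h
    obtain ⟨o1, o2, o3, o3', o4, o5⟩ := hO
    obtain ⟨f1, f2, f3, f4, f5⟩ := hF
    obtain ⟨P1, P0⟩ := hP
    have hp0 : (p : ℝ) ≠ 0 := by exact_mod_cast o1.ne_zero
    have hnot : ∀ q ∈ t₁.items, q ∉ t₀.items := fun q h1 h0 =>
      Finset.disjoint_left.1 o3 h1 h0
    have hpT : p ∉ T := fun hh => by
      have := (h.tp p hh).2.2
      omega
    have m1 : ∀ q ∈ t₁.items, (IT.br p Sp t₁ t₀).mt q = t₁.mt q := fun q hq => if_neg (hnot q hq)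
    have m0 : ∀ q ∈ t₀.items, (IT.br p Sp t₁ t₀).mt q = insert p (t₀.mt q) := fun q hq => if_pos hq
    have s1 : ∀ q ∈ t₁.items, (IT.br p Sp t₁ t₀).sp q = t₁.sp q := fun q hq => if_neg (hnot q hq)
    have s0 : ∀ q ∈ t₀.items, (IT.br p Sp t₁ t₀).sp q = t₀.sp q := fun q hq => if_pos hq
    have v0 : ∀ q ∈ t₀.items, (IT.br p Sp t₁ t₀).uq q = t₀.uq q := fun q hq => if_pos hq
    have v1 : ∀ q ∈ t₁.items, t₁.uq q ⊆ (IT.br p Sp t₁ t₀).uq q := fun q hq => by
      simp only [IT.uq, if_neg (hnot q hq)]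
      split_ifs
      · exact Finset.subset_insert _ _
      · exact subset_rfl
    refine ⟨h.toMsN, ih1 _ (insert p T) (insert p Z) o4 f4 P1 ?_,
      ih0 _ T (insert p Z) o5 f5 P0 ?_⟩
    · refine ⟨fun r hr => ?_, ?_, fun q hq l hl hd => ?_, fun q hq l hl => ?_,
        fun q hq => (v1 q hq).trans (h.uq q (Finset.mem_union_left _ hq)),
        fun q hq => ?_, fun q hq => ?_⟩
      · rcases Finset.mem_insert.1 hr with rfl | hr
        · exact ⟨o1, Dvd.intro_left _ rfl, le_rfl⟩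
        · obtain ⟨a1, a2, a3⟩ := h.tp r hr
          exact ⟨a1, a2.mul_right p, (Nat.le_of_lt o2).trans a3⟩
      · show u.c / (1 - 1 / (p : ℝ)) = u.B * ∏ r ∈ insert p T, (1 - 1 / (r : ℝ))⁻¹
        rw [Finset.prod_insert hpT, h.ce, div_eq_mul_inv]
        ring
      · have hd' : l ∣ u.A * p := hd
        by_cases hlp : l = p
        · exact Or.inl (hlp ▸ Finset.mem_insert_self _ _)
        have hA : l ∣ u.A := ((Nat.Prime.dvd_mul hl).1 hd').resolve_right
          fun h1 => hlp ((Nat.prime_dvd_prime_iff_eq hl o1).1 h1)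
        obtain ⟨a1, a2, -⟩ := f4.item q hq
        rcases h.pr q (Finset.mem_union_left _ hq) l hl hA with h1 | h1 | h1
        · exact Or.inl (Finset.mem_insert_of_mem h1)
        · exact Or.inr (Or.inl h1)
        · exact Or.inr (Or.inr (dvd_step a1 a2 hl o1 hlp h1))
      · rcases Finset.mem_insert.1 hl with rfl | hl
        · exact Or.inl (Finset.mem_insert_self _ _)
        · rcases h.z q (Finset.mem_union_left _ hq) l hl with h1 | h1
          · exact Or.inl (Finset.mem_insert_of_mem h1)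
          · exact Or.inr h1
      · have := h.mt q (Finset.mem_union_left _ hq)
        rwa [m1 q hq] at this
      · have := h.sp q (Finset.mem_union_left _ hq)
        rwa [s1 q hq] at this
    · refine ⟨fun r hr => ?_, ?_, fun q hq l hl hd => h.pr q (Finset.mem_union_right _ hq) l hl hd,
        fun q hq l hl => ?_, fun q hq => ?_, fun q hq => ?_, fun q hq => ?_⟩
      · obtain ⟨a1, a2, a3⟩ := h.tp r hr
        exact ⟨a1, a2, (Nat.le_of_lt o2).trans a3⟩
      · show u.c * p = ((u.B * p : ℕ) : ℝ) * ∏ r ∈ T, (1 - 1 / (r : ℝ))⁻¹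
        rw [h.ce]
        push_cast
        ring
      · have h2 := h.mt q (Finset.mem_union_right _ hq)
        rw [m0 q hq] at h2
        rcases Finset.mem_insert.1 hl with rfl | hl
        · exact Or.inr (Finset.mem_union_left _ (h2 (Finset.mem_insert_self _ _)))
        · exact h.z q (Finset.mem_union_right _ hq) l hl
      · have := h.uq q (Finset.mem_union_right _ hq)
        rwa [v0 q hq] at this
      · have := h.mt q (Finset.mem_union_right _ hq)
        rw [m0 q hq] at this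
        exact (Finset.subset_insert _ _).trans this
      · have := h.sp q (Finset.mem_union_right _ hq)
        rwa [s0 q hq] at this
  | add b t₁ t₀ ih1 ih0 =>
    intro u T Z hO hF hP h
    obtain ⟨o1, o2, o3, o4, o5⟩ := hO
    obtain ⟨f3, f4, f5⟩ := hF
    obtain ⟨P1, P0⟩ := hP
    have hnot : ∀ q ∈ t₁.items, q ∉ t₀.items := fun q h1 h0 =>
      Finset.disjoint_left.1 o3 h1 h0
    have m1 : ∀ q ∈ t₁.items, (IT.add b t₁ t₀).mt q = t₁.mt q := fun q hq => if_neg (hnot q hq)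
    have m0 : ∀ q ∈ t₀.items, (IT.add b t₁ t₀).mt q = t₀.mt q := fun q hq => if_pos hq
    have s1 : ∀ q ∈ t₁.items, (IT.add b t₁ t₀).sp q = insert b (t₁.sp q) := fun q hq => by
      simp only [IT.sp, if_neg (hnot q hq)]
    have s0 : ∀ q ∈ t₀.items, (IT.add b t₁ t₀).sp q = insert b (t₀.sp q) := fun q hq => by
      simp only [IT.sp, if_pos hq]
    have v0 : ∀ q ∈ t₀.items, (IT.add b t₁ t₀).uq q = t₀.uq q := fun q hq => if_pos hq
    have v1 : ∀ q ∈ t₁.items, (IT.add b t₁ t₀).uq q = t₁.uq q := fun q hq => if_neg (hnot q hq)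
    refine ⟨h.toMsN, ih1 _ T (insert b Z) o4 f4 P1 ?_, ih0 _ T (insert b Z) o5 f5 P0 ?_⟩
    · refine ⟨fun r hr => ?_, h.ce, fun q hq l hl hd => h.pr q (Finset.mem_union_left _ hq) l hl hd,
        fun q hq l hl => ?_, fun q hq => ?_, fun q hq => ?_, fun q hq => ?_⟩
      · obtain ⟨a1, a2, a3⟩ := h.tp r hr
        exact ⟨a1, a2, (Nat.succ_le_of_lt o2).trans a3⟩
      · have h2 := h.sp q (Finset.mem_union_left _ hq)
        rw [s1 q hq] at h2
        rcases Finset.mem_insert.1 hl with rfl | hl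
        · exact Or.inr (Finset.mem_union_right _ (h2 (Finset.mem_insert_self _ _)))
        · exact h.z q (Finset.mem_union_left _ hq) l hl
      · have := h.uq q (Finset.mem_union_left _ hq)
        rwa [v1 q hq] at this
      · have := h.mt q (Finset.mem_union_left _ hq)
        rwa [m1 q hq] at this
      · have := h.sp q (Finset.mem_union_left _ hq)
        rw [s1 q hq] at this
        exact (Finset.subset_insert _ _).trans this
    · refine ⟨fun r hr => ?_, h.ce, fun q hq l hl hd => h.pr q (Finset.mem_union_right _ hq) l hl hd,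
        fun q hq l hl => ?_, fun q hq => ?_, fun q hq => ?_, fun q hq => ?_⟩
      · obtain ⟨a1, a2, a3⟩ := h.tp r hr
        exact ⟨a1, a2, (Nat.succ_le_of_lt o2).trans a3⟩
      · have h2 := h.sp q (Finset.mem_union_right _ hq)
        rw [s0 q hq] at h2
        rcases Finset.mem_insert.1 hl with rfl | hl
        · exact Or.inr (Finset.mem_union_right _ (h2 (Finset.mem_insert_self _ _)))
        · exact h.z q (Finset.mem_union_right _ hq) l hl
      · have := h.uq q (Finset.mem_union_right _ hq)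
        rwa [v0 q hq] at this
      · have := h.mt q (Finset.mem_union_right _ hq)
        rwa [m0 q hq] at this
      · have := h.sp q (Finset.mem_union_right _ hq)
        rw [s0 q hq] at this
        exact (Finset.subset_insert _ _).trans this
  | up b Sp t ih =>
    intro u T Z hO hF hP h
    have v1 : ∀ q, t.uq q ⊆ (IT.up b Sp t).uq q := fun q => by
      simp only [IT.uq]
      split_ifs
      · exact Finset.subset_insert _ _
      · exact subset_rfl
    refine ⟨h.toMsN, ih _ T Z hO.2.2.2 hF hP ⟨fun r hr => ?_, h.ce, h.pr, h.z,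
      fun q hq => (v1 q).trans (h.uq q hq), h.mt, h.sp⟩⟩
    obtain ⟨a1, a2, a3⟩ := h.tp r hr
    exact ⟨a1, a2, (Nat.le_of_lt hO.2.1).trans a3⟩
  | pl p t ih =>
    intro u T Z hO hF hP h
    obtain ⟨o1, o2, o4⟩ := hO
    obtain ⟨f1, f2, f4⟩ := hF
    obtain ⟨P1, P2⟩ := hP
    refine ⟨h.toMsN, ih _ T Z o4 f4 P2 ⟨fun r hr => ?_, h.ce, fun q hq l hl hd => ?_, h.z,
      h.uq, h.mt, h.sp⟩⟩
    · obtain ⟨a1, a2, a3⟩ := h.tp r hr
      exact ⟨a1, a2.mul_right p, (Nat.succ_le_of_lt o2).trans a3⟩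
    · have hd' : l ∣ u.A * p := hd
      by_cases hlp : l = p
      · subst hlp
        rcases P1 with h1 | h1
        · rcases h.z q hq l h1 with h2 | h2
          · exact Or.inl h2
          · exact Or.inr (Or.inl h2)
        · rcases nxt_mem t h1 q with h2 | h2
          · right; right
            obtain ⟨a1, a2, -⟩ := pp_dvd t _ _ f4 q hq
            have h3 := tp_dvd t q l h2
            obtain ⟨k, hk⟩ := a2
            have hk' : q = (u.A * l) * (pp t q * k) := by rw [← mul_assoc]; exact hk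
            have hA : 0 < u.A * l := by
              rcases Nat.eq_zero_or_pos (u.A * l) with h5 | h5
              · rw [h5, zero_mul] at hk'; omega
              · exact h5
            have e2 : q / (u.A * l) = pp t q * k := Nat.div_eq_of_eq_mul_right hA hk'
            show l ∣ q / (u.A * l)
            rw [e2]
            exact h3.mul_right k
          · exact Or.inr (Or.inl (Finset.mem_union_left _ (h.mt q hq h2)))
      · have hA : l ∣ u.A := ((Nat.Prime.dvd_mul hl).1 hd').resolve_right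
          fun h1 => hlp ((Nat.prime_dvd_prime_iff_eq hl o1).1 h1)
        obtain ⟨a1, a2, -⟩ := f4.item q hq
        rcases h.pr q hq l hl hA with h1 | h1 | h1
        · exact Or.inl h1
        · exact Or.inr (Or.inl h1)
        · exact Or.inr (Or.inr (dvd_step a1 a2 hl o1 hlp h1))
  | far b t₁ t₀ ih1 ih0 =>
    intro u T Z hO hF hP h
    obtain ⟨o1, o2, o3, o4, o5⟩ := hO
    obtain ⟨f3, f4, f5⟩ := hF
    obtain ⟨P1, P0⟩ := hP
    have hnot : ∀ q ∈ t₁.items, q ∉ t₀.items := fun q h1 h0 =>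
      Finset.disjoint_left.1 o3 h1 h0
    have m1 : ∀ q ∈ t₁.items, (IT.far b t₁ t₀).mt q = t₁.mt q := fun q hq => if_neg (hnot q hq)
    have m0 : ∀ q ∈ t₀.items, (IT.far b t₁ t₀).mt q = t₀.mt q := fun q hq => if_pos hq
    have s1 : ∀ q ∈ t₁.items, (IT.far b t₁ t₀).sp q = t₁.sp q := fun q hq => if_neg (hnot q hq)
    have s0 : ∀ q ∈ t₀.items, (IT.far b t₁ t₀).sp q = t₀.sp q := fun q hq => if_pos hq
    have v0 : ∀ q ∈ t₀.items, (IT.far b t₁ t₀).uq q = t₀.uq q := fun q hq => if_pos hq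
    have v1 : ∀ q ∈ t₁.items, (IT.far b t₁ t₀).uq q = t₁.uq q := fun q hq => if_neg (hnot q hq)
    refine ⟨h.toMsN, ih1 _ T Z o4 f4 P1 ?_, ih0 _ T Z o5 f5 P0 ?_⟩
    · refine ⟨fun r hr => ?_, h.ce, fun q hq l hl hd => h.pr q (Finset.mem_union_left _ hq) l hl hd,
        fun q hq l hl => h.z q (Finset.mem_union_left _ hq) l hl,
        fun q hq => ?_, fun q hq => ?_, fun q hq => ?_⟩
      · obtain ⟨a1, a2, a3⟩ := h.tp r hr
        exact ⟨a1, a2, (Nat.succ_le_of_lt o2).trans a3⟩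
      · have := h.uq q (Finset.mem_union_left _ hq)
        rwa [v1 q hq] at this
      · have := h.mt q (Finset.mem_union_left _ hq)
        rwa [m1 q hq] at this
      · have := h.sp q (Finset.mem_union_left _ hq)
        rwa [s1 q hq] at this
    · refine ⟨fun r hr => ?_, h.ce, fun q hq l hl hd => h.pr q (Finset.mem_union_right _ hq) l hl hd,
        fun q hq l hl => h.z q (Finset.mem_union_right _ hq) l hl,
        fun q hq => ?_, fun q hq => ?_, fun q hq => ?_⟩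
      · obtain ⟨a1, a2, a3⟩ := h.tp r hr
        exact ⟨a1, a2, (Nat.succ_le_of_lt o2).trans a3⟩
      · have := h.uq q (Finset.mem_union_right _ hq)
        rwa [v0 q hq] at this
      · have := h.mt q (Finset.mem_union_right _ hq)
        rwa [m0 q hq] at this
      · have := h.sp q (Finset.mem_union_right _ hq)
        rwa [s0 q hq] at this

/-- **the masses at every node** -/
theorem All_MsN {t : IT} {n : ℕ} (hO : t.Ok n) (hF : Fit 1 1 t) (hP : PlOk ∅ t) :
    All (MsN t) ⟨n, 1, 1, 1⟩ t :=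
  All_MsN_aux t t ⟨n, 1, 1, 1⟩ ∅ ∅ hO hF hP
    ⟨fun r hr => absurd hr (Finset.notMem_empty r), by simp,
      fun q _ l hl hd => absurd (Nat.dvd_one.1 hd) hl.one_lt.ne',
      fun q _ l hl => absurd hl (Finset.notMem_empty l), fun q _ => subset_rfl, fun q _ => subset_rfl,
      fun q _ => subset_rfl⟩

/-- **`B φ(w)/w ≤ 2 c φ(q)/q` at a node** -/
theorem MsN.ms {t' τ : IT} {u : NS} (h : MsN t' u τ) {n : ℕ} (hO : t'.Ok n)
    (hF : Fit u.B u.A τ) {q : ℕ} (hq : q ∈ τ.items)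
    (hs : ∑ p ∈ t'.mt q ∪ t'.sp q, 1 / (p : ℝ) ≤ 1 / 2) :
    (u.B : ℝ) * tq (q / u.A) ≤ 2 * (u.c * tq q) := by
  classical
  obtain ⟨T, hT, hc, hA⟩ := h.T
  obtain ⟨q0, hd, -⟩ := hF.item q hq
  have hw0 : 0 < q / u.A := Nat.div_pos (Nat.le_of_dvd q0 hd) (Nat.pos_of_dvd_of_pos hd q0)
  set w := q / u.A with hw
  have e : u.A * w = q := Nat.mul_div_cancel' hd
  have hTp : ∀ p ∈ T, p.Prime := fun p hp => (hT p hp).1
  have hVp : ∀ p ∈ t'.mt q ∪ t'.sp q, p.Prime := fun p hp => by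
    rcases Finset.mem_union.1 hp with h | h
    · exact (mt_lt t' n hO q p h).1
    · exact sp_prime t' n hO q p h
  have hWp : ∀ p ∈ w.primeFactors, p.Prime := fun p hp => Nat.prime_of_mem_primeFactors hp
  have hTW : ∀ p ∈ T ∪ w.primeFactors, p.Prime := fun p hp => by
    rcases Finset.mem_union.1 hp with h | h
    · exact hTp p h
    · exact hWp p h
  have hsub : q.primeFactors ⊆ (t'.mt q ∪ t'.sp q) ∪ (T ∪ w.primeFactors) := by
    intro p hp
    have hpp := Nat.prime_of_mem_primeFactors hp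
    have hpd := Nat.dvd_of_mem_primeFactors hp
    rw [← e] at hpd
    have hw' : p ∣ w → p ∈ w.primeFactors := fun h => Nat.mem_primeFactors.2 ⟨hpp, h, hw0.ne'⟩
    rcases (Nat.Prime.dvd_mul hpp).1 hpd with h | h
    · rcases hA q hq p hpp h with h1 | h1 | h1
      · exact Finset.mem_union_right _ (Finset.mem_union_left _ h1)
      · exact Finset.mem_union_left _ h1
      · exact Finset.mem_union_right _ (Finset.mem_union_right _ (hw' h1))
    · exact Finset.mem_union_right _ (Finset.mem_union_right _ (hw' h))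
  have h1 := prod_mono_sub hsub fun p hp => by
    rcases Finset.mem_union.1 hp with h | h
    · exact hVp p h
    · exact hTW p h
  have h2 := prod_union_ge hVp hTW
  have h3 := prod_union_ge hTp hWp
  have h4 := one_sub_sum_le hVp
  have h5 : (1 : ℝ) / 2 ≤ ∏ p ∈ t'.mt q ∪ t'.sp q, (1 - 1 / (p : ℝ)) := by linarith
  have hX : 0 ≤ (∏ p ∈ T, (1 - 1 / (p : ℝ))) * ∏ p ∈ w.primeFactors, (1 - 1 / (p : ℝ)) :=
    mul_nonneg (Finset.prod_nonneg fun p hp => (fac_bounds (hTp p hp)).1.le)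
      (Finset.prod_nonneg fun p hp => (fac_bounds (hWp p hp)).1.le)
  have eq1 : tq q = ∏ p ∈ q.primeFactors, (1 - 1 / (p : ℝ)) := phi_prod q0
  have ew1 : tq w = ∏ p ∈ w.primeFactors, (1 - 1 / (p : ℝ)) := phi_prod hw0
  rw [eq1, ew1]
  have key : (∏ p ∈ T, (1 - 1 / (p : ℝ))) * ∏ p ∈ w.primeFactors, (1 - 1 / (p : ℝ)) ≤
      2 * ∏ p ∈ q.primeFactors, (1 - 1 / (p : ℝ)) := by
    have h6 := mul_le_mul_of_nonneg_left h3 (show (0:ℝ) ≤ 1/2 by norm_num)
    have h7 : (1:ℝ)/2 * ∏ p ∈ T ∪ w.primeFactors, (1 - 1 / (p : ℝ)) ≤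
        (∏ p ∈ t'.mt q ∪ t'.sp q, (1 - 1 / (p : ℝ))) *
          ∏ p ∈ T ∪ w.primeFactors, (1 - 1 / (p : ℝ)) :=
      mul_le_mul_of_nonneg_right h5
        (Finset.prod_nonneg fun p hp => (fac_bounds (hTW p hp)).1.le)
    linarith
  have hprod : (∏ r ∈ T, (1 - 1 / (r : ℝ))⁻¹) * ∏ p ∈ T, (1 - 1 / (p : ℝ)) = 1 := by
    rw [← Finset.prod_mul_distrib]
    exact Finset.prod_eq_one fun p hp => inv_mul_cancel₀ (fac_bounds (hTp p hp)).1.ne'
  have hcc : (u.B : ℝ) = u.c * ∏ p ∈ T, (1 - 1 / (p : ℝ)) := by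
    rw [hc, mul_assoc, hprod, mul_one]
  have hc0 : 0 ≤ u.c := by
    rw [hc]
    exact mul_nonneg (Nat.cast_nonneg _)
      (Finset.prod_nonneg fun p hp => inv_nonneg.2 (fac_bounds (hTp p hp)).1.le)
  rw [hcc, mul_assoc]
  calc u.c * ((∏ p ∈ T, (1 - 1 / (p : ℝ))) * ∏ p ∈ w.primeFactors, (1 - 1 / (p : ℝ)))
      ≤ u.c * (2 * ∏ p ∈ q.primeFactors, (1 - 1 / (p : ℝ))) := mul_le_mul_of_nonneg_left key hc0
    _ = _ := by ring

/-- **`φ(w)/w ≤ 2 prf φ(w')/w'` at a node**, `w = q / A`, `w' = q / (A pp)` -/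
theorem ph_node {τ : IT} {u : NS} {n : ℕ} (hO : τ.Ok n) (hF : Fit u.B u.A τ)
    (hN : All UqN u τ) {q : ℕ} (hq : q ∈ τ.items) {U : Finset ℕ} (hU : τ.uq q ⊆ U)
    (hUp : ∀ p ∈ U, p.Prime) (hs : ∑ p ∈ U, 1 / (p : ℝ) ≤ 1 / 2) :
    tq (q / u.A) ≤ 2 * (prf τ q * tq (q / (u.A * pp τ q))) := by
  obtain ⟨q0, hd, -⟩ := pp_dvd τ _ _ hF q hq
  have hA0 : 0 < u.A * pp τ q := Nat.pos_of_dvd_of_pos hd q0
  have hw0 : 0 < q / (u.A * pp τ q) := Nat.div_pos (Nat.le_of_dvd q0 hd) hA0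
  have hv0 : 0 < q / u.A := Nat.div_pos
    (Nat.le_of_dvd q0 ((Dvd.intro _ rfl).trans hd)) (Nat.pos_of_mul_pos_right hA0)
  set w := q / (u.A * pp τ q) with hw
  have ev : q / u.A = pp τ q * w := by
    refine Nat.div_eq_of_eq_mul_right (Nat.pos_of_mul_pos_right hA0) ?_
    rw [← mul_assoc]
    exact (Nat.mul_div_cancel' hd).symm
  have eq1 : tq (q / u.A) = ∏ p ∈ (q / u.A).primeFactors, (1 - 1 / (p : ℝ)) := phi_prod hv0
  have ew1 : tq w = ∏ p ∈ w.primeFactors, (1 - 1 / (p : ℝ)) := phi_prod hw0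
  rw [eq1, ew1, prf_eq_prod τ n hO q]
  set T := tp τ q with hT
  have hTp : ∀ p ∈ T, p.Prime := fun p hp => (tp_lt τ n hO q p hp).1
  have hWp : ∀ p ∈ w.primeFactors, p.Prime := fun p hp => Nat.prime_of_mem_primeFactors hp
  have hsub : T ∪ w.primeFactors ⊆ (q / u.A).primeFactors := by
    intro p hp
    rcases Finset.mem_union.1 hp with h | h
    · refine Nat.mem_primeFactors.2 ⟨hTp p h, ?_, hv0.ne'⟩
      rw [ev]
      exact (tp_dvd τ q p h).mul_right w
    · refine Nat.mem_primeFactors.2 ⟨hWp p h, ?_, hv0.ne'⟩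
      rw [ev]
      exact (Nat.dvd_of_mem_primeFactors h).mul_left _
  have h1 := prod_mono_sub hsub fun p hp => Nat.prime_of_mem_primeFactors hp
  have hint : T ∩ w.primeFactors ⊆ U := by
    intro p hp
    obtain ⟨h1, h2⟩ := Finset.mem_inter.1 hp
    exact hU (tp_uq τ u hN hF q hq p h1 (Nat.dvd_of_mem_primeFactors h2))
  have h2 := prod_mono_sub hint hUp
  have h3 : (∏ p ∈ T ∪ w.primeFactors, (1 - 1 / (p : ℝ))) *
      ∏ p ∈ T ∩ w.primeFactors, (1 - 1 / (p : ℝ)) =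
      (∏ p ∈ T, (1 - 1 / (p : ℝ))) * ∏ p ∈ w.primeFactors, (1 - 1 / (p : ℝ)) :=
    Finset.prod_union_inter
  have h4 : 0 ≤ ∏ p ∈ T ∪ w.primeFactors, (1 - 1 / (p : ℝ)) :=
    Finset.prod_nonneg fun p hp => by
      rcases Finset.mem_union.1 hp with h | h
      · exact (fac_bounds (hTp p h)).1.le
      · exact (fac_bounds (hWp p h)).1.le
  have h5 := one_sub_sum_le hUp
  have h6 : (1:ℝ)/2 ≤ ∏ p ∈ U, (1 - 1 / (p : ℝ)) := by linarith
  have h7 : (∏ p ∈ U, (1 - 1 / (p : ℝ))) * ∏ p ∈ T ∪ w.primeFactors, (1 - 1 / (p : ℝ)) ≤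
      (∏ p ∈ T, (1 - 1 / (p : ℝ))) * ∏ p ∈ w.primeFactors, (1 - 1 / (p : ℝ)) := by
    rw [← h3, mul_comm]
    exact mul_le_mul_of_nonneg_left h2 h4
  have h8 := mul_le_mul_of_nonneg_right h6 h4
  linarith

end Crest.Agent.R4P.NMass800
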