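import Crest.Agent.R4.OSCol710
import Crest.Agent.R4P.NMG800

/-!
R4 powers pass (S0004), helper710: **the tree-free half of `R4/OSCol710`** (one-sided columns) for averages
`M`, `M'` which are not squarefree (`Once M w`), after helper800's `R4P/NMG800`.

* `os_itemsG`, `os_smallG`.
-/

set_option autoImplicit false
set_option linter.unusedSectionVars false
set_option linter.unusedVariables false
open Finset

namespace Crest.Agent.R4P.OSCol710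

open Crest.Agent.R4.HVW560 Crest.Agent.R4.Schur709 Crest.Agent.R4.StopHvw709
open Crest.Agent.R4.StopAsm709 Crest.Agent.R4.AvgItem710 Crest.Agent.R4.DeepSt579
open Crest.Agent.R4P.Rad800 Crest.Agent.R4P.NMW710
open Crest.Agent.R4.ClsS (eps1)
open Crest.Agent.R4.OSCol710 (OSCls hw hw_nonneg hw_le_one)

export Crest.Agent.R4.OSCol710 (CO exists_CO CO.mono xs_one sum_inv_div cross_sum os_match pbd_raised)

open Classical in
/-- **item pairs of a one-sided column** (left side misses `p`) -/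
theorem os_itemsG {CL : ℝ} {p₀ : ℕ}
    (hcol : OSCls CL p₀) {γ : ℝ} {ρ : ℕ → ℝ} {F : ℕ × ℕ → ℝ}
    {n p G M b pr c M' b' pr' c' : ℕ} {V W : Finset ℕ}
    (hp : p₀ ≤ p) (hn : n = ⌊1/4 * Real.log p / Real.log 2⌋₊) (hn1 : 1 ≤ n) (hG : 0 < G)
    (hρ : ∀ q, 0 < ρ q) (hb : 0 < b) (hc : 0 < c) (hb' : 0 < b') (hc' : 0 < c')
    (hM : 0 < M) (hM' : 0 < M')
    (hMp : ∀ l : ℕ, l.Prime → l ∣ M → p ≤ l) (hMp' : ∀ l : ℕ, l.Prime → l ∣ M' → p ≤ l)
    (hs : ∑ l ∈ M.primeFactors, 1/(l:ℝ) ≤ 1) (hs' : ∑ l ∈ M'.primeFactors, 1/(l:ℝ) ≤ 1)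
    (hV : ∀ q ∈ V, 0 < q ∧ pr ∣ q) (hW : ∀ q ∈ W, 0 < q ∧ pr' ∣ q)
    (oV : ∀ q ∈ V, Once M (q / pr)) (oW : ∀ q ∈ W, Once M' (q / pr'))
    (tV : ∀ z : ℝ, (p:ℝ) ≤ z → ∀ q ∈ V, Crest.Agent.R4.ClsB.Tame z G (q / pr / M.gcd (q / pr)))
    (tW : ∀ z : ℝ, (p:ℝ) ≤ z → ∀ q ∈ W, Crest.Agent.R4.ClsB.Tame z G (q / pr' / M'.gcd (q / pr')))
    (lV : ∀ q ∈ V, 1 ≤ CL * Real.log p * tq (q / pr / M.gcd (q / pr)))
    (lW : ∀ q ∈ W, 1 ≤ CL * Real.log p * tq (q / pr' / M'.gcd (q / pr')))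
    (hF : ∀ e ∈ V ×ˢ W, F e ≤ pbd ((b : ℝ) / c * γ) (rd b c ρ e.1) (e.1 / pr) M
      ((b' : ℝ) / c' * γ) (rd b' c' ρ e.2) (e.2 / pr') M') :
    ∑ e ∈ V ×ˢ W, F e ≤
      (Real.log p)^3 * ((8 * ∑ q ∈ V, rd b c ρ q * tq (q / pr)) *
        (8 * ∑ q ∈ W, rd b' c' ρ q * tq (q / pr'))) +
      (p:ℝ)^(3/4000:ℝ) * ((8 * ∑ q ∈ V, rd b c ρ q * tq (q / pr)) *
        (8 * ∑ q ∈ W, hw M'.primeFactors (q / pr') * (rd b' c' ρ q * tq (q / pr'))))^(1/2+eps1) +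
      ∑ e ∈ (V ×ˢ W).filter (fun e => 0 < F e ∧ (Dq ρ M b pr c M' b' pr' c' e ≤ 1/2^n ∧
        (ESI γ ρ M b pr c M' b' pr' c' e ∨ FSI γ ρ n M b pr c M' b' pr' c' e))), F e := by
  classical
  have hb0 : (0:ℝ) < b := by exact_mod_cast hb
  have hc0' : (0:ℝ) < c := by exact_mod_cast hc
  have hbb0 : (0:ℝ) < b' := by exact_mod_cast hb'
  have hcc0 : (0:ℝ) < c' := by exact_mod_cast hc'
  have hR : ∀ q, 0 < rd b c ρ q := fun q => mul_pos (div_pos hb0 hc0') (hρ q)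
  have hR' : ∀ q, 0 < rd b' c' ρ q := fun q => mul_pos (div_pos hbb0 hcc0) (hρ q)
  have hMp0 : 0 < M := hM
  have hMp0' : 0 < M' := hM'
  have xM : (0:ℝ) < ex M := by exact_mod_cast ex_pos hM
  have xM' : (0:ℝ) < ex M' := by exact_mod_cast ex_pos hM'
  have xM1 : (1:ℝ) ≤ ex M := by exact_mod_cast ex_pos hM
  have xM1' : (1:ℝ) ≤ ex M' := by exact_mod_cast ex_pos hM'
  have hVw : ∀ q ∈ V, 0 < q / pr := fun q hq =>
    Nat.div_pos (Nat.le_of_dvd (hV q hq).1 (hV q hq).2) (Nat.pos_of_dvd_of_pos (hV q hq).2 (hV q hq).1)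
  have hWw : ∀ q ∈ W, 0 < q / pr' := fun q hq =>
    Nat.div_pos (Nat.le_of_dvd (hW q hq).1 (hW q hq).2) (Nat.pos_of_dvd_of_pos (hW q hq).2 (hW q hq).1)
  have hVm : ∀ q ∈ V, pr * (q / pr) = q := fun q hq => Nat.mul_div_cancel' (hV q hq).2
  have hWm : ∀ q ∈ W, pr' * (q / pr') = q := fun q hq => Nat.mul_div_cancel' (hW q hq).2
  set V0 := V.image (fun q => q / pr) with hV0
  set W0 := W.image (fun q => q / pr') with hW0
  set O' := M.primeFactors with hO'd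
  set O := M'.primeFactors with hOd
  have hO : ∀ l ∈ O, l.Prime ∧ p ≤ l := fun l hl =>
    ⟨Nat.prime_of_mem_primeFactors hl, hMp' l (Nat.prime_of_mem_primeFactors hl)
      (Nat.dvd_of_mem_primeFactors hl)⟩
  have hO' : ∀ l ∈ O', l.Prime ∧ p ≤ l := fun l hl =>
    ⟨Nat.prime_of_mem_primeFactors hl, hMp l (Nat.prime_of_mem_primeFactors hl)
      (Nat.dvd_of_mem_primeFactors hl)⟩
  set R0 : ℕ → ℝ := fun w => rd b c ρ (pr * w) with hRd
  set R0' : ℕ → ℝ := fun w => rd b' c' ρ (pr' * w) with hRd'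
  have hRe0 : ∀ q ∈ V, R0 (q / pr) = rd b c ρ q := fun q hq => by rw [hRd]; simp only; rw [hVm q hq]
  have hRe0' : ∀ q ∈ W, R0' (q / pr') = rd b' c' ρ q := fun q hq => by rw [hRd']; simp only; rw [hWm q hq]
  set R : ℕ → ℝ := fun w => (ex M : ℝ) * R0 w with hRx
  set R' : ℕ → ℝ := fun w => (ex M' : ℝ) * R0' w with hRx'
  have hRe : ∀ q ∈ V, R (q / pr) = ex M * rd b c ρ q := fun q hq => by
    rw [hRx]; simp only; rw [hRe0 q hq]
  have hRe' : ∀ q ∈ W, R' (q / pr') = ex M' * rd b' c' ρ q := fun q hq => by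
    rw [hRx']; simp only; rw [hRe0' q hq]
  set F0 : ℕ × ℕ → ℝ := fun f => ((ex M : ℝ) * ex M') * F (pr * f.1, pr' * f.2) with hF0
  have hF0e : ∀ e ∈ V ×ˢ W, F0 (e.1 / pr, e.2 / pr') = ((ex M : ℝ) * ex M') * F e := fun e he => by
    obtain ⟨h1, h2⟩ := Finset.mem_product.1 he
    rw [hF0]; simp only; rw [hVm _ h1, hWm _ h2]
  have hDc : ∀ e ∈ V ×ˢ W, Dc O O' R R' (e.1 / pr, e.2 / pr') = Dq ρ M b pr c M' b' pr' c' e :=
    fun e he => by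
    obtain ⟨k1, k2⟩ := Finset.mem_product.1 he
    have h1 := Dc_rad hM hM' R0 R0' (e := (e.1 / pr, e.2 / pr')) (hVw _ k1) (hWw _ k2)
      (oV _ k1) (oW _ k2)
    rw [hRe0 _ k1, hRe0' _ k2] at h1
    exact h1
  have hinjV : Set.InjOn (fun q => q / pr) (V : Set ℕ) := by
    intro e he f hf hef
    simp only at hef
    rw [← hVm _ (Finset.mem_coe.1 he), ← hVm _ (Finset.mem_coe.1 hf), hef]
  have hinjW : Set.InjOn (fun q => q / pr') (W : Set ℕ) := by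
    intro e he f hf hef
    simp only at hef
    rw [← hWm _ (Finset.mem_coe.1 he), ← hWm _ (Finset.mem_coe.1 hf), hef]
  have hinj : Set.InjOn (fun e : ℕ × ℕ => (e.1 / pr, e.2 / pr')) ((V ×ˢ W : Finset (ℕ × ℕ)) : Set (ℕ × ℕ)) := by
    intro e he f hf hef
    obtain ⟨h1, h2⟩ := Finset.mem_product.1 (Finset.mem_coe.1 he)
    obtain ⟨h3, h4⟩ := Finset.mem_product.1 (Finset.mem_coe.1 hf)
    simp only [Prod.mk.injEq] at hef
    exact Prod.ext (hinjV h1 h3 hef.1) (hinjW h2 h4 hef.2)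
  have himg : V0 ×ˢ W0 = (V ×ˢ W).image (fun e : ℕ × ℕ => (e.1 / pr, e.2 / pr')) := by
    ext f
    simp only [Finset.mem_product, Finset.mem_image, hV0, hW0]
    constructor
    · rintro ⟨⟨a, ha, ha'⟩, ⟨d, hd, hd'⟩⟩
      exact ⟨(a, d), ⟨ha, hd⟩, Prod.ext ha' hd'⟩
    · rintro ⟨e, ⟨h1, h2⟩, rfl⟩
      exact ⟨⟨_, h1, rfl⟩, ⟨_, h2, rfl⟩⟩
  have hsum : ∀ Q : ℕ × ℕ → Prop, ∀ Q0 : ℕ × ℕ → Prop,
      (∀ e ∈ V ×ˢ W, Q0 (e.1 / pr, e.2 / pr') → Q e) →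
      (∀ e ∈ V ×ˢ W, Q e → Q0 (e.1 / pr, e.2 / pr')) →
      ∑ f ∈ (V0 ×ˢ W0).filter Q0, F0 f = ((ex M : ℝ) * ex M') * ∑ e ∈ (V ×ˢ W).filter Q, F e := by
    intro Q Q0 h1 h2
    rw [himg, Finset.filter_image, Finset.sum_image
      (hinj.mono (by intro x hx; exact (Finset.mem_filter.1 (Finset.mem_coe.1 hx)).1))]
    have e1 : (V ×ˢ W).filter (fun a => Q0 (a.1 / pr, a.2 / pr')) = (V ×ˢ W).filter Q := by
      ext e
      simp only [Finset.mem_filter]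
      exact ⟨fun h => ⟨h.1, h1 e h.1 h.2⟩, fun h => ⟨h.1, h2 e h.1 h.2⟩⟩
    rw [e1, Finset.mul_sum]
    exact Finset.sum_congr rfl fun e he => hF0e e (Finset.mem_filter.1 he).1
  have hsumT : ∑ f ∈ V0 ×ˢ W0, F0 f = ((ex M : ℝ) * ex M') * ∑ e ∈ V ×ˢ W, F e := by
    have := hsum (fun _ => True) (fun _ => True) (fun _ _ _ => trivial) (fun _ _ _ => trivial)
    simpa using this
  have mem0 : ∀ f ∈ V0 ×ˢ W0, ∃ e ∈ V ×ˢ W, f = (e.1 / pr, e.2 / pr') := fun f hf => by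
    rw [himg] at hf
    obtain ⟨e, he, rfl⟩ := Finset.mem_image.1 hf
    exact ⟨e, he, rfl⟩
  have hpb : ∀ e ∈ V ×ˢ W, F e ≤ 4 * (rd b c ρ e.1 * rd b' c' ρ e.2) +
      2 * (rd b c ρ e.1 * rd b' c' ρ e.2 / Dq ρ M b pr c M' b' pr' c' e) := fun e he => by
    exact (hF e he).trans (pbd_le_all (hR _).le (hR' _).le)
  have muV : ∀ q ∈ V, mu O' R (q / pr) = ex M * rd b c ρ q * tq (q / pr / M.gcd (q / pr)) := fun q hq => by
    unfold mu tq
    rw [hRe q hq, (oV q hq).uu hM (hVw q hq)]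
  have muW : ∀ q ∈ W, mu O R' (q / pr') = ex M' * rd b' c' ρ q * tq (q / pr' / M'.gcd (q / pr')) :=
    fun q hq => by
    unfold mu tq
    rw [hRe' q hq, (oW q hq).uu hM' (hWw q hq)]
  set gL : Finset ℕ → ℝ := fun S => ((ex M * ∏ l ∈ S, l : ℕ) : ℝ) * ((b : ℝ) / c * γ) with hgL
  set gR : Finset ℕ → ℝ := fun S => ((ex M' * ∏ l ∈ S, l : ℕ) : ℝ) * ((b' : ℝ) / c' * γ) with hgR
  have RcV : ∀ q ∈ V, Rc O' R (q / pr) = (rf (q / pr) M : ℕ) * rd b c ρ q := fun q hq => by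
    have := (oV q hq).Rc hM (hVw q hq) R0
    rw [hRe0 q hq] at this
    exact this
  have RcW : ∀ q ∈ W, Rc O R' (q / pr') = (rf (q / pr') M' : ℕ) * rd b' c' ρ q := fun q hq => by
    have := (oW q hq).Rc hM' (hWw q hq) R0'
    rw [hRe0' q hq] at this
    exact this
  have hES : ∀ e ∈ V ×ˢ W, EG O O' R R' gL gR (e.1 / pr, e.2 / pr') ↔
      ESI γ ρ M b pr c M' b' pr' c' e := fun e he => by
    obtain ⟨k1, k2⟩ := Finset.mem_product.1 he
    have hw1 := hVw _ k1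
    have hw2 := hWw _ k2
    show ES (((ex M * ∏ l ∈ miss O' (e.1 / pr), l : ℕ) : ℝ) * ((b : ℝ) / c * γ))
        (((ex M' * ∏ l ∈ miss O (e.2 / pr'), l : ℕ) : ℝ) * ((b' : ℝ) / c' * γ))
        (cof (uu O' (e.1 / pr)) (uu O (e.2 / pr'))) (cof (uu O (e.2 / pr')) (uu O' (e.1 / pr)))
        (Rc O' R (e.1 / pr)) (Rc O R' (e.2 / pr')) ↔ _
    rw [(oV _ k1).miss hM hw1, (oW _ k2).miss hM' hw2, (oV _ k1).uu hM hw1, (oW _ k2).uu hM' hw2,
      RcV _ k1, RcW _ k2]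
    exact Iff.rfl
  have hFS : ∀ e ∈ V ×ˢ W, FG O O' R R' gL gR n (e.1 / pr, e.2 / pr') ↔
      FSI γ ρ n M b pr c M' b' pr' c' e := fun e he => by
    obtain ⟨k1, k2⟩ := Finset.mem_product.1 he
    have hw1 := hVw _ k1
    have hw2 := hWw _ k2
    show FS n (((ex M * ∏ l ∈ miss O' (e.1 / pr), l : ℕ) : ℝ) * ((b : ℝ) / c * γ))
        (((ex M' * ∏ l ∈ miss O (e.2 / pr'), l : ℕ) : ℝ) * ((b' : ℝ) / c' * γ))
        (cof (uu O' (e.1 / pr)) (uu O (e.2 / pr'))) (cof (uu O (e.2 / pr')) (uu O' (e.1 / pr)))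
        (Rc O' R (e.1 / pr)) (Rc O R' (e.2 / pr')) ↔ _
    rw [(oV _ k1).miss hM hw1, (oW _ k2).miss hM' hw2, (oV _ k1).uu hM hw1, (oW _ k2).uu hM' hw2,
      RcV _ k1, RcW _ k2]
    exact Iff.rfl
  have key := hcol n p G O O' V0 W0 R R' gL gR F0 hp hn hG hO hO' hs' hs
    (by
      intro w hw
      obtain ⟨q, hq, rfl⟩ := Finset.mem_image.1 hw
      exact ⟨hVw q hq, by rw [hRe q hq]; exact mul_pos xM (hR q)⟩)
    (by
      intro w hw
      obtain ⟨q, hq, rfl⟩ := Finset.mem_image.1 hw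
      exact ⟨hWw q hq, by rw [hRe' q hq]; exact mul_pos xM' (hR' q)⟩)
    (by
      intro w hw
      obtain ⟨q, hq, rfl⟩ := Finset.mem_image.1 hw
      rw [hRe q hq, muV q hq]
      have := mul_le_mul_of_nonneg_left (lV q hq) (mul_pos xM (hR q)).le
      calc ex M * rd b c ρ q = ex M * rd b c ρ q * 1 := (mul_one _).symm
        _ ≤ _ := this
        _ = _ := by ring)
    (by
      intro w hw
      obtain ⟨q, hq, rfl⟩ := Finset.mem_image.1 hw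
      rw [hRe' q hq, muW q hq]
      have := mul_le_mul_of_nonneg_left (lW q hq) (mul_pos xM' (hR' q)).le
      calc ex M' * rd b' c' ρ q = ex M' * rd b' c' ρ q * 1 := (mul_one _).symm
        _ ≤ _ := this
        _ = _ := by ring)
    (by
      intro z hz w hw
      obtain ⟨q, hq, rfl⟩ := Finset.mem_image.1 hw
      rw [(oV q hq).uu hM (hVw q hq)]
      exact tV z hz q hq)
    (by
      intro z hz w hw
      obtain ⟨q, hq, rfl⟩ := Finset.mem_image.1 hw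
      rw [(oW q hq).uu hM' (hWw q hq)]
      exact tW z hz q hq)
    (by
      intro f hf h1
      obtain ⟨e, he, rfl⟩ := mem0 f hf
      obtain ⟨k1, k2⟩ := Finset.mem_product.1 he
      rw [hDc e he] at h1
      rw [hF0e e he, hRe _ k1, hRe' _ k2]
      have h2 := hpb e he
      have h3 : 0 ≤ rd b c ρ e.1 * rd b' c' ρ e.2 := mul_nonneg (hR _).le (hR' _).le
      have h4 : rd b c ρ e.1 * rd b' c' ρ e.2 / Dq ρ M b pr c M' b' pr' c' e ≤
          rd b c ρ e.1 * rd b' c' ρ e.2 := div_le_self h3 h1.le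
      have h5 : F e ≤ 6 * (rd b c ρ e.1 * rd b' c' ρ e.2) := by linarith
      calc (ex M : ℝ) * ex M' * F e ≤ (ex M : ℝ) * ex M' * (6 * (rd b c ρ e.1 * rd b' c' ρ e.2)) :=
            mul_le_mul_of_nonneg_left h5 (mul_pos xM xM').le
        _ = _ := by ring)
    (by
      intro f hf h1
      obtain ⟨e, he, rfl⟩ := mem0 f hf
      obtain ⟨k1, k2⟩ := Finset.mem_product.1 he
      have hd0 : 0 < Dc O O' R R' (e.1 / pr, e.2 / pr') := by
        refine Dc_pos (N := p) hO hO' ?_ (hWw _ k2)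
        rw [hRe _ k1]; exact mul_pos xM (hR _)
      rw [hDc e he] at h1 hd0 ⊢
      rw [hF0e e he, hRe _ k1, hRe' _ k2]
      have h2 := hpb e he
      have h3 : 0 ≤ rd b c ρ e.1 * rd b' c' ρ e.2 := mul_nonneg (hR _).le (hR' _).le
      have h4 : rd b c ρ e.1 * rd b' c' ρ e.2 ≤
          rd b c ρ e.1 * rd b' c' ρ e.2 / Dq ρ M b pr c M' b' pr' c' e := by
        rw [le_div_iff₀ hd0]; nlinarith
      have h5 : F e ≤ 6 * (rd b c ρ e.1 * rd b' c' ρ e.2 / Dq ρ M b pr c M' b' pr' c' e) := by linarith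
      calc (ex M : ℝ) * ex M' * F e ≤ (ex M : ℝ) * ex M' *
            (6 * (rd b c ρ e.1 * rd b' c' ρ e.2 / Dq ρ M b pr c M' b' pr' c' e)) :=
            mul_le_mul_of_nonneg_left h5 (mul_pos xM xM').le
        _ = _ := by ring)
    (by
      intro f hf h1 h3
      obtain ⟨e, he, rfl⟩ := mem0 f hf
      obtain ⟨k1, k2⟩ := Finset.mem_product.1 he
      rw [hDc e he] at h1
      rw [hF0e e he] at h3
      have h3 : 0 < F e := (mul_pos_iff_of_pos_left (mul_pos xM xM')).1 h3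
      have hw1 := hVw _ k1
      have hw2 := hWw _ k2
      have hhalf : Dq ρ M b pr c M' b' pr' c' e ≤ 1/2 := by
        refine h1.trans ?_
        apply one_div_le_one_div_of_le (by norm_num)
        calc (2:ℝ) = 2^1 := (pow_one _).symm
          _ ≤ 2^n := pow_le_pow_right₀ (by norm_num) hn1
      have hRa : Ra ((b : ℝ) / c * γ) (rd b c ρ e.1) (e.1 / pr) M ((b' : ℝ) / c' * γ)
          (rd b' c' ρ e.2) (e.2 / pr') M' := by
        by_contra hneg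
        have h4 := hF e he
        unfold pbd at h4
        unfold Dq at hhalf
        rw [if_pos hhalf, if_neg hneg] at h4
        linarith
      have hu : 0 < e.1 / pr / M.gcd (e.1 / pr) := div_pos' hw1 hMp0
      obtain ⟨m, m', hmm⟩ := rel_two (Crest.Agent.R4.AvgItem710.cof_coprime hu) hRa
      refine ⟨m, m', ?_⟩
      show |(m + (((ex M * ∏ l ∈ miss O' (e.1 / pr), l : ℕ) : ℝ) * ((b : ℝ) / c * γ))) *
          (cof (uu O (e.2 / pr')) (uu O' (e.1 / pr)) : ℕ) -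
          (m' + (((ex M' * ∏ l ∈ miss O (e.2 / pr'), l : ℕ) : ℝ) * ((b' : ℝ) / c' * γ))) *
          (cof (uu O' (e.1 / pr)) (uu O (e.2 / pr')) : ℕ)| ≤ 2 * Dc O O' R R' (e.1 / pr, e.2 / pr')
      rw [hDc e he, (oV _ k1).miss hM hw1, (oW _ k2).miss hM' hw2, (oV _ k1).uu hM hw1,
        (oW _ k2).uu hM' hw2]
      exact hmm)
  have hleft : ∑ f ∈ (V0 ×ˢ W0).filter (fun f => 0 < F0 f ∧ (Dc O O' R R' f ≤ 1/2^n ∧
      (EG O O' R R' gL gR f ∨ FG O O' R R' gL gR n f))), F0 f =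
      ((ex M : ℝ) * ex M') * ∑ e ∈ (V ×ˢ W).filter (fun e => 0 < F e ∧ (Dq ρ M b pr c M' b' pr' c' e ≤ 1/2^n ∧
        (ESI γ ρ M b pr c M' b' pr' c' e ∨ FSI γ ρ n M b pr c M' b' pr' c' e))), F e := by
    have hh := hsum (fun e => 0 < F e ∧ (Dq ρ M b pr c M' b' pr' c' e ≤ 1/2^n ∧
        (ESI γ ρ M b pr c M' b' pr' c' e ∨ FSI γ ρ n M b pr c M' b' pr' c' e)))
      (fun f => 0 < F0 f ∧ (Dc O O' R R' f ≤ 1/2^n ∧
        (EG O O' R R' gL gR f ∨ FG O O' R R' gL gR n f))) (fun e he h => by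
        obtain ⟨h0, h1, h2⟩ := h
        rw [hDc e he] at h1
        rw [hF0e e he] at h0
        rw [hES e he, hFS e he] at h2
        exact ⟨(mul_pos_iff_of_pos_left (mul_pos xM xM')).1 h0, h1, h2⟩) (fun e he h => by
        obtain ⟨h0, h1, h2⟩ := h
        refine ⟨?_, ?_, ?_⟩
        · rw [hF0e e he]; exact mul_pos (mul_pos xM xM') h0
        · rw [hDc e he]; exact h1
        · rw [hES e he, hFS e he]; exact h2)
    convert hh
  rw [hsumT, hleft] at key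
  have key2 := key
  have he8 : Real.exp 2 ≤ 8 := by
    have h := Real.exp_one_lt_d9
    have : Real.exp 2 = Real.exp 1 * Real.exp 1 := by rw [← Real.exp_add]; norm_num
    rw [this]
    have h0 := Real.exp_pos 1
    nlinarith
  have hexp : ∀ x : ℝ, x ≤ 1 → Real.exp (2 * x) ≤ 8 := fun x hx =>
    (Real.exp_le_exp.2 (by linarith)).trans he8
  have sV : ∑ w ∈ V0, mu O' R w ≤ ex M * (8 * ∑ q ∈ V, rd b c ρ q * tq (q / pr)) := by
    rw [hV0, Finset.sum_image hinjV, Finset.mul_sum, Finset.mul_sum]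
    refine Finset.sum_le_sum fun q hq => ?_
    rw [muV q hq]
    have h1 := tq_div_le hMp0 (hVw q hq)
    have h2 := hexp _ hs
    have h3 : tq (q / pr / M.gcd (q / pr)) ≤ tq (q / pr) * 8 :=
      h1.trans (mul_le_mul_of_nonneg_left h2 (tq_nonneg _))
    have h4 := mul_le_mul_of_nonneg_left h3 (mul_pos xM (hR q)).le
    calc _ ≤ ex M * rd b c ρ q * (tq (q / pr) * 8) := h4
      _ = _ := by ring
  have sW : ∑ w ∈ W0, mu O R' w ≤ ex M' * (8 * ∑ q ∈ W, rd b' c' ρ q * tq (q / pr')) := by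
    rw [hW0, Finset.sum_image hinjW, Finset.mul_sum, Finset.mul_sum]
    refine Finset.sum_le_sum fun q hq => ?_
    rw [muW q hq]
    have h1 := tq_div_le hMp0' (hWw q hq)
    have h2 := hexp _ hs'
    have h3 : tq (q / pr' / M'.gcd (q / pr')) ≤ tq (q / pr') * 8 :=
      h1.trans (mul_le_mul_of_nonneg_left h2 (tq_nonneg _))
    have h4 := mul_le_mul_of_nonneg_left h3 (mul_pos xM' (hR' q)).le
    calc _ ≤ ex M' * rd b' c' ρ q * (tq (q / pr') * 8) := h4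
      _ = _ := by ring
  have nV : 0 ≤ ∑ w ∈ V0, mu O' R w := Finset.sum_nonneg fun w hw => by
    obtain ⟨q, hq, rfl⟩ := Finset.mem_image.1 hw
    rw [muV q hq]; exact mul_nonneg (mul_pos xM (hR q)).le (tq_nonneg _)
  have nW : 0 ≤ ∑ w ∈ W0, mu O R' w := Finset.sum_nonneg fun w hw => by
    obtain ⟨q, hq, rfl⟩ := Finset.mem_image.1 hw
    rw [muW q hq]; exact mul_nonneg (mul_pos xM' (hR' q)).le (tq_nonneg _)
  have sH : ∑ w ∈ W0, hw O w * mu O R' w ≤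
      ex M' * (8 * ∑ q ∈ W, hw M'.primeFactors (q / pr') * (rd b' c' ρ q * tq (q / pr'))) := by
    rw [hW0, Finset.sum_image hinjW, Finset.mul_sum, Finset.mul_sum]
    refine Finset.sum_le_sum fun q hq => ?_
    rw [muW q hq]
    have h1 := tq_div_le hMp0' (hWw q hq)
    have h2 := hexp _ hs'
    have h3 : tq (q / pr' / M'.gcd (q / pr')) ≤ tq (q / pr') * 8 :=
      h1.trans (mul_le_mul_of_nonneg_left h2 (tq_nonneg _))
    have h4 := mul_le_mul_of_nonneg_left h3 (mul_pos xM' (hR' q)).le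
    have h5 := mul_le_mul_of_nonneg_left h4 (hw_nonneg O (q / pr'))
    calc _ ≤ hw O (q / pr') * (ex M' * rd b' c' ρ q * (tq (q / pr') * 8)) := h5
      _ = _ := by ring
  have nH : 0 ≤ ∑ w ∈ W0, hw O w * mu O R' w := Finset.sum_nonneg fun w hw' => by
    obtain ⟨q, hq, rfl⟩ := Finset.mem_image.1 hw'
    rw [muW q hq]
    exact mul_nonneg (hw_nonneg _ _) (mul_nonneg (mul_pos xM' (hR' q)).le (tq_nonneg _))
  set X := 8 * ∑ q ∈ V, rd b c ρ q * tq (q / pr) with hX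
  set Y := 8 * ∑ q ∈ W, rd b' c' ρ q * tq (q / pr') with hY
  set Z := 8 * ∑ q ∈ W, hw M'.primeFactors (q / pr') * (rd b' c' ρ q * tq (q / pr')) with hZ
  have nX : 0 ≤ X := mul_nonneg (by norm_num) (Finset.sum_nonneg fun q _ =>
    mul_nonneg (hR q).le (tq_nonneg _))
  have nY : 0 ≤ Y := mul_nonneg (by norm_num) (Finset.sum_nonneg fun q _ =>
    mul_nonneg (hR' q).le (tq_nonneg _))
  have nZ : 0 ≤ Z := mul_nonneg (by norm_num) (Finset.sum_nonneg fun q _ =>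
    mul_nonneg (hw_nonneg _ _) (mul_nonneg (hR' q).le (tq_nonneg _)))
  have hprod : (∑ w ∈ V0, mu O' R w) * (∑ w ∈ W0, mu O R' w) ≤ ((ex M : ℝ) * ex M') * (X * Y) := by
    calc _ ≤ (ex M * X) * (ex M' * Y) := mul_le_mul sV sW nW (nV.trans sV)
      _ = _ := by ring
  have hprod2 : (∑ w ∈ V0, mu O' R w) * (∑ w ∈ W0, hw O w * mu O R' w) ≤
      ((ex M : ℝ) * ex M') * (X * Z) := by
    calc _ ≤ (ex M * X) * (ex M' * Z) := mul_le_mul sV sH nH (nV.trans sV)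
      _ = _ := by ring
  have hlog : 0 ≤ (Real.log p)^3 := pow_nonneg (Real.log_natCast_nonneg p) 3
  have he1 : eps1 = 1/1000 := rfl
  have xx1 : (1:ℝ) ≤ (ex M : ℝ) * ex M' := by nlinarith
  have xx0 : (0:ℝ) < (ex M : ℝ) * ex M' := mul_pos xM xM'
  have hpow : ((∑ w ∈ V0, mu O' R w) * (∑ w ∈ W0, hw O w * mu O R' w))^(1/2+eps1) ≤
      ((ex M : ℝ) * ex M') * (X * Z)^(1/2+eps1) := by
    calc _ ≤ (((ex M : ℝ) * ex M') * (X * Z))^(1/2+eps1) :=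
          Real.rpow_le_rpow (mul_nonneg nV nH) hprod2 (by rw [he1]; norm_num)
      _ = ((ex M : ℝ) * ex M')^(1/2+eps1) * (X * Z)^(1/2+eps1) :=
          Real.mul_rpow xx0.le (mul_nonneg nX nZ)
      _ ≤ _ := by
          refine mul_le_mul_of_nonneg_right ?_ (Real.rpow_nonneg (mul_nonneg nX nZ) _)
          calc ((ex M : ℝ) * ex M')^(1/2+eps1) ≤ ((ex M : ℝ) * ex M')^(1:ℝ) :=
                Real.rpow_le_rpow_of_exponent_le xx1 (by rw [he1]; norm_num)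
            _ = _ := Real.rpow_one _
  refine le_of_mul_le_mul_left ?_ xx0
  refine key2.trans ?_
  refine (add_le_add (add_le_add (mul_le_mul_of_nonneg_left hprod hlog)
    (mul_le_mul_of_nonneg_left hpow (by positivity))) le_rfl).trans (le_of_eq ?_)
  ring

open Classical in
/-- **one-sided column with numbers** -/
theorem os_smallG {CL C1 Cm : ℝ} {p₁ : ℕ} (hcc : CO CL C1 Cm p₁) {γ : ℝ} {ρ : ℕ → ℝ}
    {F : ℕ × ℕ → ℝ} {n p G M b pr c M' b' pr' c' : ℕ} {V W : Finset ℕ} {Φ Φ' Ψ' : ℝ}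
    (hp : p₁ ≤ p) (hn : n = ⌊1/4 * Real.log p / Real.log 2⌋₊) (hG : 0 < G)
    (hρ : ∀ q, 0 < ρ q) (hb : 0 < b) (hc : 0 < c) (hb' : 0 < b') (hc' : 0 < c')
    (hM : 0 < M) (hM' : 0 < M')
    (hMp : ∀ l : ℕ, l.Prime → l ∣ M → p ≤ l) (hMp' : ∀ l : ℕ, l.Prime → l ∣ M' → p ≤ l)
    (hs : ∑ l ∈ M.primeFactors, 1/(l:ℝ) ≤ 1) (hs' : ∑ l ∈ M'.primeFactors, 1/(l:ℝ) ≤ 1)
    (hV : ∀ q ∈ V, 0 < q ∧ pr ∣ q) (hW : ∀ q ∈ W, 0 < q ∧ pr' ∣ q)
    (oV : ∀ q ∈ V, Once M (q / pr)) (oW : ∀ q ∈ W, Once M' (q / pr'))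
    (tV : ∀ z : ℝ, (p:ℝ) ≤ z → ∀ q ∈ V, Crest.Agent.R4.ClsB.Tame z G (q / pr / M.gcd (q / pr)))
    (tW : ∀ z : ℝ, (p:ℝ) ≤ z → ∀ q ∈ W, Crest.Agent.R4.ClsB.Tame z G (q / pr' / M'.gcd (q / pr')))
    (lV : ∀ q ∈ V, 1 ≤ CL * Real.log p * tq (q / pr / M.gcd (q / pr)))
    (lW : ∀ q ∈ W, 1 ≤ CL * Real.log p * tq (q / pr' / M'.gcd (q / pr')))
    (hF : ∀ e ∈ V ×ˢ W, F e ≤ pbd ((b : ℝ) / c * γ) (rd b c ρ e.1) (e.1 / pr) M
      ((b' : ℝ) / c' * γ) (rd b' c' ρ e.2) (e.2 / pr') M')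
    (xV : ∑ q ∈ V, rd b c ρ q * tq (q / pr) ≤ (Real.log p)^C1 / p)
    (xW : ∑ q ∈ W, rd b' c' ρ q * tq (q / pr') ≤ (Real.log p)^C1)
    (mV : ∑ q ∈ V, rd b c ρ q * tq (q / pr) ≤ Cm * Φ)
    (mW : ∑ q ∈ W, rd b' c' ρ q * tq (q / pr') ≤ Cm * Φ')
    (mH : ∑ q ∈ W, hw M'.primeFactors (q / pr') * (rd b' c' ρ q * tq (q / pr')) ≤ Cm * Ψ')
    (hΦ : 0 ≤ Φ) (hΦ' : 0 ≤ Φ') (hΨ' : 0 ≤ Ψ') :
    ∑ e ∈ V ×ˢ W, F e ≤ ((p:ℝ)^(-(11/12):ℝ) * Φ' + (p:ℝ)^(-(1/5000):ℝ) * (Φ + Ψ')) +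
      ∑ e ∈ (V ×ˢ W).filter (fun e => 0 < F e ∧ (Dq ρ M b pr c M' b' pr' c' e ≤ 1/2^n ∧
        (ESI γ ρ M b pr c M' b' pr' c' e ∨ FSI γ ρ n M b pr c M' b' pr' c' e))), F e := by
  have hp16 : 16 ≤ p := hcc.big.trans hp
  have hn1 : 1 ≤ n := by
    rw [hn]
    apply Nat.le_floor
    have hl2 : 0 < Real.log 2 := Real.log_pos (by norm_num)
    rw [Nat.cast_one, le_div_iff₀ hl2]
    have h16 : Real.log 16 ≤ Real.log p := Real.log_le_log (by norm_num) (by exact_mod_cast hp16)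
    have : Real.log 16 = 4 * Real.log 2 := by
      rw [show (16:ℝ) = 2^4 by norm_num, Real.log_pow]; norm_num
    linarith
  have key := os_itemsG hcc.col (γ := γ) (F := F) hp hn hn1 hG
    hρ hb hc hb' hc' hM hM' hMp hMp' hs hs' hV hW oV oW tV tW lV lW hF
  refine key.trans (add_le_add ?_ le_rfl)
  have tV0 : ∀ q, 0 ≤ rd b c ρ q * tq (q / pr) := fun q =>
    mul_nonneg (mul_nonneg (by positivity) (hρ q).le) (tq_nonneg _)
  have tW0 : ∀ q, 0 ≤ rd b' c' ρ q * tq (q / pr') := fun q =>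
    mul_nonneg (mul_nonneg (by positivity) (hρ q).le) (tq_nonneg _)
  have nV : 0 ≤ ∑ q ∈ V, rd b c ρ q * tq (q / pr) := Finset.sum_nonneg fun q _ => tV0 q
  have nW : 0 ≤ ∑ q ∈ W, rd b' c' ρ q * tq (q / pr') := Finset.sum_nonneg fun q _ => tW0 q
  have nH : 0 ≤ ∑ q ∈ W, hw M'.primeFactors (q / pr') * (rd b' c' ρ q * tq (q / pr')) :=
    Finset.sum_nonneg fun q _ => mul_nonneg (hw_nonneg _ _) (tW0 q)
  have hHX : ∑ q ∈ W, hw M'.primeFactors (q / pr') * (rd b' c' ρ q * tq (q / pr')) ≤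
      ∑ q ∈ W, rd b' c' ρ q * tq (q / pr') :=
    Finset.sum_le_sum fun q _ => mul_le_of_le_one_left (tW0 q) (hw_le_one _ _)
  exact hcc.num p hp _ _ _ Φ Φ' Ψ' nV nW nH xV xW hHX mV mW mH hΦ hΦ' hΨ'

end Crest.Agent.R4P.OSCol710
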