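import Crest.Agent.R4P.StepPer588
import Crest.Agent.R4P.StepCut588
import Crest.Agent.R4P.DataA758
import Crest.Agent.R4P.Bld532

/-!
R4 (S0004), powers pass: port of helper189's `R4/StepData189`, middle part (helper83): columns, the
node of the cut tree (also in helper463's stronger form `All_subt'`), `All_pp`, `All_mp`, `All_it`,
`All_Ok`, `All_All`, `uq_lt`, `UPn`, `All_UPn`.

* `UPn t' u τ` : the retained primes `≥ u.n` of the items of the node are
  `{l ∈ UP : l ∣ q / u.A}` for one set `UP` of columns (with powers the divisibility is relative to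
  the product `u.A` of the node).
-/

set_option autoImplicit false
set_option linter.unusedSectionVars false
set_option linter.unusedVariables false

namespace Crest.Agent.R4P.Step588

open Crest.Agent.R4P.Cnt588 Crest.Agent.R4P.Item758
open Crest.Agent.R4P.Data758 (rt rt_prime)
open Crest.Agent.R4P.Bld532 (NS All NodeOk Bk)

/-! ### columns -/

lemma cols_lt (t : IT) : ∀ {n : ℕ}, t.Ok n → ∀ p ∈ cols t, p.Prime ∧ p < n := by
  induction t with
  | leaf S => intro n _ p hp; simp [cols] at hp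
  | br p Sp t₁ t₀ ih₁ ih₀ =>
    intro n hO l hl
    obtain ⟨hp, hpn, -, -, h1, h0⟩ := hO
    simp only [cols, Finset.mem_insert, Finset.mem_union] at hl
    rcases hl with rfl | hl | hl
    · exact ⟨hp, hpn⟩
    · exact ⟨(ih₁ h1 l hl).1, (ih₁ h1 l hl).2.trans hpn⟩
    · exact ⟨(ih₀ h0 l hl).1, (ih₀ h0 l hl).2.trans hpn⟩
  | add p t₁ t₀ ih₁ ih₀ =>
    intro n hO l hl
    obtain ⟨hp, hpn, -, h1, h0⟩ := hO
    simp only [cols, Finset.mem_union] at hl
    rcases hl with hl | hl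
    · exact ⟨(ih₁ h1 l hl).1, lt_of_lt_of_le (ih₁ h1 l hl).2 hpn⟩
    · exact ⟨(ih₀ h0 l hl).1, lt_of_lt_of_le (ih₀ h0 l hl).2 hpn⟩
  | up p Sp t ih =>
    intro n hO l hl
    obtain ⟨hp, hpn, -, h1⟩ := hO
    exact ⟨(ih h1 l hl).1, (ih h1 l hl).2.trans hpn⟩
  | pl p t ih =>
    intro n hO l hl
    obtain ⟨hp, hpn, h1⟩ := hO
    exact ⟨(ih h1 l hl).1, lt_of_lt_of_le (ih h1 l hl).2 hpn⟩
  | far p t₁ t₀ ih₁ ih₀ =>
    intro n hO l hl
    obtain ⟨hp, hpn, -, h1, h0⟩ := hO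
    simp only [cols, Finset.mem_union] at hl
    rcases hl with hl | hl
    · exact ⟨(ih₁ h1 l hl).1, lt_of_lt_of_le (ih₁ h1 l hl).2 hpn⟩
    · exact ⟨(ih₀ h0 l hl).1, lt_of_lt_of_le (ih₀ h0 l hl).2 hpn⟩

/-! ### nodes of a subtree -/

/-- the node of the cut tree; its level is at least `y` -/
theorem All_subt {Q : NS → IT → Prop} (y q : ℕ) : ∀ (t : IT) (u : NS), y ≤ u.n → All Q u t →
    ∃ (m : ℕ) (c' : ℝ), y ≤ m ∧
      All Q ⟨m, c', u.A * ppc y t q, u.B * mpc y t q⟩ (subt y t q) := by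
  intro t
  induction t with
  | leaf S =>
    intro u hy h
    refine ⟨u.n, u.c, hy, ?_⟩
    have e1 : ppc y (.leaf S) q = 1 := rfl
    have e2 : mpc y (.leaf S) q = 1 := rfl
    rw [e1, e2, mul_one, mul_one]
    exact h
  | br p Sp t₁ t₀ ih₁ ih₀ =>
    intro u hy h
    by_cases hp : p < y
    · rw [subt_br_lt hp, ppc_br_lt hp, mpc_br_lt hp, mul_one, mul_one]
      exact ⟨u.n, u.c, hy, h⟩
    · by_cases hq : q ∈ t₀.items
      · rw [subt_br0 hp hq, ppc_br0 hp hq, mpc_br0 hp hq]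
        obtain ⟨m, c', h1, hm⟩ := ih₀ _ (not_lt.1 hp) h.2.2
        refine ⟨m, c', h1, ?_⟩
        have e : u.B * (p * mpc y t₀ q) = u.B * p * mpc y t₀ q := by ring
        rw [e]; exact hm
      · rw [subt_br1 hp hq, ppc_br1 hp hq, mpc_br1 hp hq]
        obtain ⟨m, c', h1, hm⟩ := ih₁ _ (not_lt.1 hp) h.2.1
        refine ⟨m, c', h1, ?_⟩
        have e : u.A * (p * ppc y t₁ q) = u.A * p * ppc y t₁ q := by ring
        rw [e]; exact hm
  | add p t₁ t₀ ih₁ ih₀ =>
    intro u hy h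
    by_cases hp : p < y
    · rw [subt_add_lt hp, ppc_add_lt hp, mpc_add_lt hp, mul_one, mul_one]
      exact ⟨u.n, u.c, hy, h⟩
    · have hyp : y ≤ p + 1 := (not_lt.1 hp).trans (Nat.le_succ p)
      by_cases hq : q ∈ t₀.items
      · rw [subt_add0 hp hq, ppc_add0 hp hq, mpc_add0 hp hq]
        obtain ⟨m, c', h1, hm⟩ := ih₀ ⟨p + 1, u.c, u.A, u.B⟩ hyp h.2.2
        exact ⟨m, c', h1, hm⟩
      · rw [subt_add1 hp hq, ppc_add1 hp hq, mpc_add1 hp hq]
        obtain ⟨m, c', h1, hm⟩ := ih₁ ⟨p + 1, u.c, u.A, u.B⟩ hyp h.2.1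
        exact ⟨m, c', h1, hm⟩
  | up p Sp t ih =>
    intro u hy h
    by_cases hp : p < y
    · rw [subt_up_lt hp, ppc_up_lt hp, mpc_up_lt hp, mul_one, mul_one]
      exact ⟨u.n, u.c, hy, h⟩
    · rw [subt_up hp, ppc_up hp, mpc_up hp]
      obtain ⟨m, c', h1, hm⟩ := ih ⟨p, u.c, u.A, u.B⟩ (not_lt.1 hp) h.2
      exact ⟨m, c', h1, hm⟩
  | pl p t ih =>
    intro u hy h
    by_cases hp : p < y
    · rw [subt_pl_lt hp, ppc_pl_lt hp, mpc_pl_lt hp, mul_one, mul_one]
      exact ⟨u.n, u.c, hy, h⟩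
    · rw [subt_pl hp, ppc_pl hp, mpc_pl hp]
      obtain ⟨m, c', h1, hm⟩ := ih ⟨p + 1, u.c, u.A * p, u.B⟩
        ((not_lt.1 hp).trans (Nat.le_succ p)) h.2
      refine ⟨m, c', h1, ?_⟩
      have e : u.A * (p * ppc y t q) = u.A * p * ppc y t q := by ring
      rw [e]; exact hm
  | far p t₁ t₀ ih₁ ih₀ =>
    intro u hy h
    by_cases hp : p < y
    · rw [subt_far_lt hp, ppc_far_lt hp, mpc_far_lt hp, mul_one, mul_one]
      exact ⟨u.n, u.c, hy, h⟩
    · have hyp : y ≤ p + 1 := (not_lt.1 hp).trans (Nat.le_succ p)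
      by_cases hq : q ∈ t₀.items
      · rw [subt_far0 hp hq, ppc_far0 hp hq, mpc_far0 hp hq]
        obtain ⟨m, c', h1, hm⟩ := ih₀ ⟨p + 1, u.c, u.A, u.B⟩ hyp h.2.2
        exact ⟨m, c', h1, hm⟩
      · rw [subt_far1 hp hq, ppc_far1 hp hq, mpc_far1 hp hq]
        obtain ⟨m, c', h1, hm⟩ := ih₁ ⟨p + 1, u.c, u.A, u.B⟩ hyp h.2.1
        exact ⟨m, c', h1, hm⟩

/-- the columns on the path of an item where it is a missing tie or retained are below `n` -/
lemma pc_lt {t : IT} {q b : ℕ} : ∀ {n : ℕ}, t.Ok n → b ∈ t.mt q ∪ rt t q → b < n := by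
  induction t with
  | leaf S => intro n _ h; simp [rt, IT.mt, IT.uq] at h
  | br p Sp t₁ t₀ ih₁ ih₀ =>
    intro n hO h
    by_cases hq : q ∈ t₀.items
    · have h' : b = p ∨ b ∈ t₀.mt q ∪ rt t₀ q := by
        simp only [rt, IT.mt, IT.uq, if_pos hq, Finset.mem_union, Finset.mem_insert] at h ⊢
        tauto
      rcases h' with rfl | h'
      · exact hO.2.1
      · exact (ih₀ hO.2.2.2.2.2 h').trans hO.2.1
    · have h' : b = p ∨ b ∈ t₁.mt q ∪ rt t₁ q := by
        simp only [rt, IT.mt, IT.uq, if_neg hq, Finset.mem_union] at h ⊢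
        split_ifs at h with h1
        · rw [Finset.mem_insert] at h; tauto
        · tauto
      rcases h' with rfl | h'
      · exact hO.2.1
      · exact (ih₁ hO.2.2.2.2.1 h').trans hO.2.1
  | add p t₁ t₀ ih₁ ih₀ =>
    intro n hO h
    by_cases hq : q ∈ t₀.items
    · have h' : b ∈ t₀.mt q ∪ rt t₀ q := by
        simpa only [rt, IT.mt, IT.uq, if_pos hq] using h
      exact lt_of_lt_of_le (ih₀ hO.2.2.2.2 h') hO.2.1
    · have h' : b ∈ t₁.mt q ∪ rt t₁ q := by
        simpa only [rt, IT.mt, IT.uq, if_neg hq] using h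
      exact lt_of_lt_of_le (ih₁ hO.2.2.2.1 h') hO.2.1
  | up p Sp t ih =>
    intro n hO h
    have h' : b = p ∨ b ∈ t.mt q ∪ rt t q := by
      simp only [rt, IT.mt, IT.uq, Finset.mem_union] at h ⊢
      split_ifs at h with h1
      · rw [Finset.mem_insert] at h; tauto
      · tauto
    rcases h' with rfl | h'
    · exact hO.2.1
    · exact (ih hO.2.2.2 h').trans hO.2.1
  | pl p t ih =>
    intro n hO h
    exact lt_of_lt_of_le (ih hO.2.2 h) hO.2.1
  | far p t₁ t₀ ih₁ ih₀ =>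
    intro n hO h
    by_cases hq : q ∈ t₀.items
    · have h' : b ∈ t₀.mt q ∪ rt t₀ q := by
        simpa only [rt, IT.mt, IT.uq, if_pos hq] using h
      exact lt_of_lt_of_le (ih₀ hO.2.2.2.2 h') hO.2.1
    · have h' : b ∈ t₁.mt q ∪ rt t₁ q := by
        simpa only [rt, IT.mt, IT.uq, if_neg hq] using h
      exact lt_of_lt_of_le (ih₁ hO.2.2.2.1 h') hO.2.1

/-- **the node of the cut tree with its level**: `y ≤ m ≤ u.n`, and `m ≤ b` for every column `b ≥ y`
where the item is a missing tie or retained -/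
theorem All_subt' {Q : NS → IT → Prop} (y q : ℕ) : ∀ (t : IT) (u : NS), y ≤ u.n → t.Ok u.n →
    All Q u t → ∃ (m : ℕ) (c' : ℝ), y ≤ m ∧ m ≤ u.n ∧ (∀ b ∈ t.mt q ∪ rt t q, y ≤ b → m ≤ b) ∧
      All Q ⟨m, c', u.A * ppc y t q, u.B * mpc y t q⟩ (subt y t q) := by
  intro t
  induction t with
  | leaf S =>
    intro u hy _ h
    refine ⟨u.n, u.c, hy, le_rfl, fun b hb => by simp [rt, IT.mt, IT.uq] at hb, ?_⟩
    have e1 : ppc y (.leaf S) q = 1 := rfl
    have e2 : mpc y (.leaf S) q = 1 := rfl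
    rw [e1, e2, mul_one, mul_one]
    exact h
  | br p Sp t₁ t₀ ih₁ ih₀ =>
    intro u hy hO h
    have hO' : IT.Ok (p + 1) (.br p Sp t₁ t₀) := ⟨hO.1, Nat.lt_succ_self p, hO.2.2⟩
    by_cases hp : p < y
    · rw [subt_br_lt hp, ppc_br_lt hp, mpc_br_lt hp, mul_one, mul_one]
      refine ⟨u.n, u.c, hy, le_rfl, fun b hb hyb => ?_, h⟩
      have := pc_lt hO' hb
      omega
    · by_cases hq : q ∈ t₀.items
      · rw [subt_br0 hp hq, ppc_br0 hp hq, mpc_br0 hp hq]
        obtain ⟨m, c', h1, h2, h3, hm⟩ := ih₀ ⟨p, u.c * p, u.A, u.B * p⟩ (not_lt.1 hp)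
          hO.2.2.2.2.2 h.2.2
        refine ⟨m, c', h1, h2.trans hO.2.1.le, fun b hb hyb => ?_, ?_⟩
        · have hb' : b = p ∨ b ∈ t₀.mt q ∪ rt t₀ q := by
            simp only [rt, IT.mt, IT.uq, if_pos hq, Finset.mem_union,
              Finset.mem_insert] at hb ⊢
            tauto
          rcases hb' with rfl | hb'
          · exact h2
          · exact h3 b hb' hyb
        · have e : u.B * (p * mpc y t₀ q) = u.B * p * mpc y t₀ q := by ring
          rw [e]; exact hm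
      · rw [subt_br1 hp hq, ppc_br1 hp hq, mpc_br1 hp hq]
        obtain ⟨m, c', h1, h2, h3, hm⟩ := ih₁ ⟨p, u.c / (1 - 1 / (p : ℝ)), u.A * p, u.B⟩
          (not_lt.1 hp) hO.2.2.2.2.1 h.2.1
        refine ⟨m, c', h1, h2.trans hO.2.1.le, fun b hb hyb => ?_, ?_⟩
        · have hb' : b = p ∨ b ∈ t₁.mt q ∪ rt t₁ q := by
            simp only [rt, IT.mt, IT.uq, if_neg hq, Finset.mem_union] at hb ⊢
            split_ifs at hb with h4
            · rw [Finset.mem_insert] at hb; tauto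
            · tauto
          rcases hb' with rfl | hb'
          · exact h2
          · exact h3 b hb' hyb
        · have e : u.A * (p * ppc y t₁ q) = u.A * p * ppc y t₁ q := by ring
          rw [e]; exact hm
  | add p t₁ t₀ ih₁ ih₀ =>
    intro u hy hO h
    have hO' : IT.Ok (p + 1) (.add p t₁ t₀) := ⟨hO.1, Nat.lt_succ_self p, hO.2.2⟩
    by_cases hp : p < y
    · rw [subt_add_lt hp, ppc_add_lt hp, mpc_add_lt hp, mul_one, mul_one]
      refine ⟨u.n, u.c, hy, le_rfl, fun b hb hyb => ?_, h⟩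
      have := pc_lt hO' hb
      omega
    · have hyp : y ≤ p + 1 := (not_lt.1 hp).trans (Nat.le_succ p)
      by_cases hq : q ∈ t₀.items
      · rw [subt_add0 hp hq, ppc_add0 hp hq, mpc_add0 hp hq]
        obtain ⟨m, c', h1, h2, h3, hm⟩ := ih₀ ⟨p + 1, u.c, u.A, u.B⟩ hyp hO.2.2.2.2 h.2.2
        refine ⟨m, c', h1, h2.trans hO.2.1, fun b hb hyb => ?_, hm⟩
        have hb' : b ∈ t₀.mt q ∪ rt t₀ q := by
          simpa only [rt, IT.mt, IT.uq, if_pos hq] using hb
        exact h3 b hb' hyb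
      · rw [subt_add1 hp hq, ppc_add1 hp hq, mpc_add1 hp hq]
        obtain ⟨m, c', h1, h2, h3, hm⟩ := ih₁ ⟨p + 1, u.c, u.A, u.B⟩ hyp hO.2.2.2.1 h.2.1
        refine ⟨m, c', h1, h2.trans hO.2.1, fun b hb hyb => ?_, hm⟩
        have hb' : b ∈ t₁.mt q ∪ rt t₁ q := by
          simpa only [rt, IT.mt, IT.uq, if_neg hq] using hb
        exact h3 b hb' hyb
  | up p Sp t ih =>
    intro u hy hO h
    have hO' : IT.Ok (p + 1) (.up p Sp t) := ⟨hO.1, Nat.lt_succ_self p, hO.2.2⟩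
    by_cases hp : p < y
    · rw [subt_up_lt hp, ppc_up_lt hp, mpc_up_lt hp, mul_one, mul_one]
      refine ⟨u.n, u.c, hy, le_rfl, fun b hb hyb => ?_, h⟩
      have := pc_lt hO' hb
      omega
    · rw [subt_up hp, ppc_up hp, mpc_up hp]
      obtain ⟨m, c', h1, h2, h3, hm⟩ := ih ⟨p, u.c, u.A, u.B⟩ (not_lt.1 hp) hO.2.2.2 h.2
      refine ⟨m, c', h1, h2.trans hO.2.1.le, fun b hb hyb => ?_, hm⟩
      have hb' : b = p ∨ b ∈ t.mt q ∪ rt t q := by
        simp only [rt, IT.mt, IT.uq, Finset.mem_union] at hb ⊢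
        split_ifs at hb with h4
        · rw [Finset.mem_insert] at hb; tauto
        · tauto
      rcases hb' with rfl | hb'
      · exact h2
      · exact h3 b hb' hyb
  | pl p t ih =>
    intro u hy hO h
    have hO' : IT.Ok (p + 1) (.pl p t) := ⟨hO.1, Nat.lt_succ_self p, hO.2.2⟩
    by_cases hp : p < y
    · rw [subt_pl_lt hp, ppc_pl_lt hp, mpc_pl_lt hp, mul_one, mul_one]
      refine ⟨u.n, u.c, hy, le_rfl, fun b hb hyb => ?_, h⟩
      have := pc_lt hO' hb
      omega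
    · rw [subt_pl hp, ppc_pl hp, mpc_pl hp]
      obtain ⟨m, c', h1, h2, h3, hm⟩ := ih ⟨p + 1, u.c, u.A * p, u.B⟩
        ((not_lt.1 hp).trans (Nat.le_succ p)) hO.2.2 h.2
      refine ⟨m, c', h1, h2.trans hO.2.1, fun b hb hyb => h3 b hb hyb, ?_⟩
      have e : u.A * (p * ppc y t q) = u.A * p * ppc y t q := by ring
      rw [e]; exact hm
  | far p t₁ t₀ ih₁ ih₀ =>
    intro u hy hO h
    have hO' : IT.Ok (p + 1) (.far p t₁ t₀) := ⟨hO.1, Nat.lt_succ_self p, hO.2.2⟩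
    by_cases hp : p < y
    · rw [subt_far_lt hp, ppc_far_lt hp, mpc_far_lt hp, mul_one, mul_one]
      refine ⟨u.n, u.c, hy, le_rfl, fun b hb hyb => ?_, h⟩
      have := pc_lt hO' hb
      omega
    · have hyp : y ≤ p + 1 := (not_lt.1 hp).trans (Nat.le_succ p)
      by_cases hq : q ∈ t₀.items
      · rw [subt_far0 hp hq, ppc_far0 hp hq, mpc_far0 hp hq]
        obtain ⟨m, c', h1, h2, h3, hm⟩ := ih₀ ⟨p + 1, u.c, u.A, u.B⟩ hyp hO.2.2.2.2 h.2.2
        refine ⟨m, c', h1, h2.trans hO.2.1, fun b hb hyb => ?_, hm⟩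
        have hb' : b ∈ t₀.mt q ∪ rt t₀ q := by
          simpa only [rt, IT.mt, IT.uq, if_pos hq] using hb
        exact h3 b hb' hyb
      · rw [subt_far1 hp hq, ppc_far1 hp hq, mpc_far1 hp hq]
        obtain ⟨m, c', h1, h2, h3, hm⟩ := ih₁ ⟨p + 1, u.c, u.A, u.B⟩ hyp hO.2.2.2.1 h.2.1
        refine ⟨m, c', h1, h2.trans hO.2.1, fun b hb hyb => ?_, hm⟩
        have hb' : b ∈ t₁.mt q ∪ rt t₁ q := by
          simpa only [rt, IT.mt, IT.uq, if_neg hq] using hb
        exact h3 b hb' hyb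

/-- the product of the present ties and free pulls of an item is the one of the node times the one
inside -/
theorem All_pp {t' : IT} : ∀ (t : IT) (n : ℕ) (u : NS), t.Ok n →
    (∀ q ∈ t.items, pp t' q = u.A * pp t q) →
    All (fun u τ => ∀ q ∈ τ.items, pp t' q = u.A * pp τ q) u t := by
  intro t
  induction t with
  | leaf S => intro n u _ h; exact h
  | br p Sp t₁ t₀ ih₁ ih₀ =>
    intro n u hO h
    obtain ⟨h1, h2, h3, -, h4, h5⟩ := hO
    refine ⟨h, ih₁ _ _ h4 fun q hq => ?_, ih₀ _ _ h5 fun q hq => ?_⟩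
    · have := h q (Finset.mem_union_left _ hq)
      have hn : q ∉ t₀.items := Finset.disjoint_left.1 h3 hq
      rw [this]
      simp only [pp, if_neg hn]
      ring
    · have := h q (Finset.mem_union_right _ hq)
      rw [this]
      simp only [pp, if_pos hq]
  | add b t₁ t₀ ih₁ ih₀ =>
    intro n u hO h
    obtain ⟨h1, h2, h3, h4, h5⟩ := hO
    refine ⟨h, ih₁ _ _ h4 fun q hq => ?_, ih₀ _ _ h5 fun q hq => ?_⟩
    · have := h q (Finset.mem_union_left _ hq)
      have hn : q ∉ t₀.items := Finset.disjoint_left.1 h3 hq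
      rw [this]
      simp only [pp, if_neg hn]
    · have := h q (Finset.mem_union_right _ hq)
      rw [this]
      simp only [pp, if_pos hq]
  | up b Sp t ih =>
    intro n u hO h
    obtain ⟨h1, h2, h3, h4⟩ := hO
    refine ⟨h, ih _ _ h4 fun q hq => ?_⟩
    have := h q hq
    rw [this]
    simp only [pp]
  | pl b t ih =>
    intro n u hO h
    obtain ⟨h1, h2, h4⟩ := hO
    refine ⟨h, ih _ _ h4 fun q hq => ?_⟩
    have := h q hq
    rw [this]
    simp only [pp]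
    ring
  | far b t₁ t₀ ih₁ ih₀ =>
    intro n u hO h
    obtain ⟨h1, h2, h3, h4, h5⟩ := hO
    refine ⟨h, ih₁ _ _ h4 fun q hq => ?_, ih₀ _ _ h5 fun q hq => ?_⟩
    · have := h q (Finset.mem_union_left _ hq)
      have hn : q ∉ t₀.items := Finset.disjoint_left.1 h3 hq
      rw [this]
      simp only [pp, if_neg hn]
    · have := h q (Finset.mem_union_right _ hq)
      rw [this]
      simp only [pp, if_pos hq]

/-- the same for the missing ties -/
theorem All_mp {t' : IT} : ∀ (t : IT) (n : ℕ) (u : NS), t.Ok n →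
    (∀ q ∈ t.items, mp t' q = u.B * mp t q) →
    All (fun u τ => ∀ q ∈ τ.items, mp t' q = u.B * mp τ q) u t := by
  intro t
  induction t with
  | leaf S => intro n u _ h; exact h
  | br p Sp t₁ t₀ ih₁ ih₀ =>
    intro n u hO h
    obtain ⟨h1, h2, h3, -, h4, h5⟩ := hO
    refine ⟨h, ih₁ _ _ h4 fun q hq => ?_, ih₀ _ _ h5 fun q hq => ?_⟩
    · have := h q (Finset.mem_union_left _ hq)
      have hn : q ∉ t₀.items := Finset.disjoint_left.1 h3 hq
      rw [this]
      simp only [mp, if_neg hn]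
    · have := h q (Finset.mem_union_right _ hq)
      rw [this]
      simp only [mp, if_pos hq]
      ring
  | add b t₁ t₀ ih₁ ih₀ =>
    intro n u hO h
    obtain ⟨h1, h2, h3, h4, h5⟩ := hO
    refine ⟨h, ih₁ _ _ h4 fun q hq => ?_, ih₀ _ _ h5 fun q hq => ?_⟩
    · have := h q (Finset.mem_union_left _ hq)
      have hn : q ∉ t₀.items := Finset.disjoint_left.1 h3 hq
      rw [this]
      simp only [mp, if_neg hn]
    · have := h q (Finset.mem_union_right _ hq)
      rw [this]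
      simp only [mp, if_pos hq]
  | up b Sp t ih =>
    intro n u hO h
    obtain ⟨h1, h2, h3, h4⟩ := hO
    refine ⟨h, ih _ _ h4 fun q hq => ?_⟩
    have := h q hq
    rw [this]
    simp only [mp]
  | pl b t ih =>
    intro n u hO h
    obtain ⟨h1, h2, h4⟩ := hO
    refine ⟨h, ih _ _ h4 fun q hq => ?_⟩
    have := h q hq
    rw [this]
    simp only [mp]
  | far b t₁ t₀ ih₁ ih₀ =>
    intro n u hO h
    obtain ⟨h1, h2, h3, h4, h5⟩ := hO
    refine ⟨h, ih₁ _ _ h4 fun q hq => ?_, ih₀ _ _ h5 fun q hq => ?_⟩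
    · have := h q (Finset.mem_union_left _ hq)
      have hn : q ∉ t₀.items := Finset.disjoint_left.1 h3 hq
      rw [this]
      simp only [mp, if_neg hn]
    · have := h q (Finset.mem_union_right _ hq)
      rw [this]
      simp only [mp, if_pos hq]

/-- items of a subtree are items of the tree -/
theorem All_it {t' : IT} : ∀ (t : IT) (u : NS), t.items ⊆ t'.items →
    All (fun _ τ => τ.items ⊆ t'.items) u t := by
  intro t
  induction t with
  | leaf S => intro u h; exact h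
  | br p Sp t₁ t₀ ih₁ ih₀ =>
    intro u h
    exact ⟨h, ih₁ _ (Finset.subset_union_left.trans h), ih₀ _ (Finset.subset_union_right.trans h)⟩
  | add p t₁ t₀ ih₁ ih₀ =>
    intro u h
    exact ⟨h, ih₁ _ (Finset.subset_union_left.trans h), ih₀ _ (Finset.subset_union_right.trans h)⟩
  | up p Sp t ih => intro u h; exact ⟨h, ih _ h⟩
  | pl p t ih => intro u h; exact ⟨h, ih _ h⟩
  | far p t₁ t₀ ih₁ ih₀ =>
    intro u h
    exact ⟨h, ih₁ _ (Finset.subset_union_left.trans h), ih₀ _ (Finset.subset_union_right.trans h)⟩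

/-- `Ok` at every node (at the level of the node) -/
theorem All_Ok : ∀ (t : IT) (u : NS), t.Ok u.n → All (fun u τ => τ.Ok u.n) u t := by
  intro t
  induction t with
  | leaf S => intro u h; exact h
  | br p Sp t₁ t₀ ih₁ ih₀ => intro u h; exact ⟨h, ih₁ _ h.2.2.2.2.1, ih₀ _ h.2.2.2.2.2⟩
  | add p t₁ t₀ ih₁ ih₀ =>
    intro u h
    exact ⟨h, ih₁ ⟨p + 1, u.c, u.A, u.B⟩ h.2.2.2.1, ih₀ ⟨p + 1, u.c, u.A, u.B⟩ h.2.2.2.2⟩
  | up p Sp t ih => intro u h; exact ⟨h, ih ⟨p, u.c, u.A, u.B⟩ h.2.2.2⟩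
  | pl p t ih => intro u h; exact ⟨h, ih ⟨p + 1, u.c, u.A * p, u.B⟩ h.2.2⟩
  | far p t₁ t₀ ih₁ ih₀ =>
    intro u h
    exact ⟨h, ih₁ ⟨p + 1, u.c, u.A, u.B⟩ h.2.2.2.1, ih₀ ⟨p + 1, u.c, u.A, u.B⟩ h.2.2.2.2⟩

/-- `All` at every node -/
theorem All_All {Q : NS → IT → Prop} : ∀ (t : IT) (u : NS), All Q u t →
    All (fun u τ => All Q u τ) u t := by
  intro t
  induction t with
  | leaf S => intro u h; exact h
  | br p Sp t₁ t₀ ih₁ ih₀ => intro u h; exact ⟨h, ih₁ _ h.2.1, ih₀ _ h.2.2⟩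
  | add p t₁ t₀ ih₁ ih₀ =>
    intro u h
    exact ⟨h, ih₁ ⟨p + 1, u.c, u.A, u.B⟩ h.2.1, ih₀ ⟨p + 1, u.c, u.A, u.B⟩ h.2.2⟩
  | up p Sp t ih => intro u h; exact ⟨h, ih ⟨p, u.c, u.A, u.B⟩ h.2⟩
  | pl p t ih => intro u h; exact ⟨h, ih ⟨p + 1, u.c, u.A * p, u.B⟩ h.2⟩
  | far p t₁ t₀ ih₁ ih₀ =>
    intro u h
    exact ⟨h, ih₁ ⟨p + 1, u.c, u.A, u.B⟩ h.2.1, ih₀ ⟨p + 1, u.c, u.A, u.B⟩ h.2.2⟩

lemma uq_lt {t : IT} {n : ℕ} (hO : t.Ok n) {q l : ℕ} (h : l ∈ t.uq q) : l.Prime ∧ l < n :=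
  rt_prime t hO q l h

/-- the retained primes above a node: a set `UP` of columns common to all the items -/
def UPn (t' : IT) (u : NS) (τ : IT) : Prop :=
  (∀ q ∈ τ.items, ∀ l < u.n, (l ∈ t'.uq q ↔ l ∈ τ.uq q)) ∧
    ∃ UP : Finset ℕ, ∀ q ∈ τ.items, ∀ l : ℕ, l.Prime → u.n ≤ l →
      (l ∈ t'.uq q ↔ l ∈ UP ∧ l ∣ q / u.A)

/-- other primes do not see the factor `p` -/
lemma dvd_div_mul {l p A q : ℕ} (hl : l.Prime) (hp : p.Prime) (hlp : l ≠ p) (hA : 0 < A)
    (h : A ∣ q) (hd : p ∣ q / A) : l ∣ q / (A * p) ↔ l ∣ q / A := by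
  obtain ⟨k, hk⟩ := hd
  have e : q / (A * p) = k := by
    rw [← Nat.div_div_eq_div_mul, hk, Nat.mul_div_cancel_left _ hp.pos]
  rw [e, hk]
  constructor
  · intro h1; exact h1.mul_left _
  · intro h1
    rcases (Nat.Prime.dvd_mul hl).1 h1 with h2 | h2
    · exact absurd ((Nat.prime_dvd_prime_iff_eq hl hp).1 h2) hlp
    · exact h2

theorem All_UPn {t' : IT} {P : Bld532.Par} {W : ℕ → ℝ} : ∀ (t : IT) (u : NS), t.Ok u.n →
    All (NodeOk P W) u t → UPn t' u t → All (UPn t') u t := by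
  classical
  intro t
  induction t with
  | leaf S => intro u _ _ h; exact h
  | br p Sp t₁ t₀ ih₁ ih₀ =>
    intro u hO hN h
    obtain ⟨hp, hpn, hd, -, h4, h5⟩ := hO
    obtain ⟨h1, UP, h2⟩ := h
    obtain ⟨-, -, -, hmax, hBk, hi1, hi0, hSp, -⟩ := hN.1
    have hd1 : ∀ q ∈ t₁.items, q ∈ t₁.items ∪ t₀.items ∧ p ∣ q / u.A := fun q hq =>
      Bld532.mem_dv.1 (by rw [← hi1]; exact hq)
    refine ⟨⟨h1, UP, h2⟩, ih₁ _ h4 hN.2.1 ⟨fun q hq l hl => ?_, insert p UP,
      fun q hq l hlp hl => ?_⟩, ih₀ _ h5 hN.2.2 ⟨fun q hq l hl => ?_, UP.erase p,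
      fun q hq l hlp hl => ?_⟩⟩
    · have hn : q ∉ t₀.items := Finset.disjoint_left.1 hd hq
      have hl' : l < p := hl
      rw [h1 q (Finset.mem_union_left _ hq) l (hl'.trans hpn)]
      simp only [IT.uq, if_neg hn]
      split_ifs
      · rw [Finset.mem_insert]
        exact ⟨fun h7 => h7.resolve_left hl'.ne, Or.inr⟩
      · exact Iff.rfl
    · have hn : q ∉ t₀.items := Finset.disjoint_left.1 hd hq
      have hl' : p ≤ l := hl
      have hA := hBk.dvd q (hd1 q hq).1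
      rcases lt_or_ge l u.n with h6 | h6
      · have hlp' : l = p := le_antisymm (hmax l hlp h6) hl'
        subst hlp'
        rw [h1 q (Finset.mem_union_left _ hq) l h6]
        simp only [IT.uq, if_neg hn, Finset.mem_insert, true_or, true_and]
        have e : l ∣ q / (u.A * l) ↔ l ^ 2 ∣ q / u.A := by
          rw [← Nat.div_div_eq_div_mul]
          obtain ⟨k, hk⟩ := (hd1 q hq).2
          rw [hk, Nat.mul_div_cancel_left _ hlp.pos, pow_two,
            Nat.mul_dvd_mul_iff_left hlp.pos]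
        show l ∈ (if q ∈ Sp then insert l (t₁.uq q) else t₁.uq q) ↔ l ∣ q / (u.A * l)
        rw [e]
        split_ifs with h9
        · rw [hSp] at h9
          exact ⟨fun _ => (Bld532.mem_dv.1 h9).2, fun _ => Finset.mem_insert_self _ _⟩
        · constructor
          · intro h7; exact absurd (uq_lt h4 h7).2 (lt_irrefl _)
          · intro h7
            rw [hSp] at h9
            exact absurd (Bld532.mem_dv.2 ⟨(hd1 q hq).1, h7⟩) h9
      · have hne : l ≠ p := by omega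
        rw [h2 q (Finset.mem_union_left _ hq) l hlp h6, Finset.mem_insert]
        show l ∈ UP ∧ l ∣ q / u.A ↔ (l = p ∨ l ∈ UP) ∧ l ∣ q / (u.A * p)
        rw [dvd_div_mul hlp hp hne hBk.Apos hA (hd1 q hq).2]
        constructor
        · intro h7; exact ⟨Or.inr h7.1, h7.2⟩
        · intro h7; exact ⟨h7.1.resolve_left hne, h7.2⟩
    · have hl' : l < p := hl
      rw [h1 q (Finset.mem_union_right _ hq) l (hl'.trans hpn)]
      simp only [IT.uq, if_pos hq]
    · have hl' : p ≤ l := hl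
      rcases lt_or_ge l u.n with h6 | h6
      · have hlp' : l = p := le_antisymm (hmax l hlp h6) hl'
        subst hlp'
        rw [h1 q (Finset.mem_union_right _ hq) l h6]
        simp only [IT.uq, if_pos hq]
        constructor
        · intro h7; exact absurd (uq_lt h5 h7).2 (lt_irrefl _)
        · rintro ⟨h7, -⟩; simp at h7
      · have hne : l ≠ p := by omega
        rw [h2 q (Finset.mem_union_right _ hq) l hlp h6, Finset.mem_erase]
        exact ⟨fun h7 => ⟨⟨hne, h7.1⟩, h7.2⟩, fun h7 => ⟨h7.1.2, h7.2⟩⟩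
  | add p t₁ t₀ ih₁ ih₀ =>
    intro u hO hN h
    obtain ⟨hp, hpn, hd, h4, h5⟩ := hO
    obtain ⟨h1, UP, h2⟩ := h
    obtain ⟨-, -, -, hmax, -⟩ := hN.1
    have hge : ∀ l : ℕ, l.Prime → p + 1 ≤ l → u.n ≤ l := fun l hlp hl => by
      by_contra hc
      have := hmax l hlp (not_le.1 hc)
      omega
    refine ⟨⟨h1, UP, h2⟩, ih₁ ⟨p + 1, u.c, u.A, u.B⟩ h4 hN.2.1 ⟨fun q hq l hl => ?_,
      UP, fun q hq l hlp hl => h2 q (Finset.mem_union_left _ hq) l hlp (hge l hlp hl)⟩,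
      ih₀ ⟨p + 1, u.c, u.A, u.B⟩ h5 hN.2.2
      ⟨fun q hq l hl => ?_, UP, fun q hq l hlp hl =>
        h2 q (Finset.mem_union_right _ hq) l hlp (hge l hlp hl)⟩⟩
    · have hn : q ∉ t₀.items := Finset.disjoint_left.1 hd hq
      have hl' : l < p + 1 := hl
      rw [h1 q (Finset.mem_union_left _ hq) l (lt_of_lt_of_le hl' hpn)]
      simp only [IT.uq, if_neg hn]
    · have hl' : l < p + 1 := hl
      rw [h1 q (Finset.mem_union_right _ hq) l (lt_of_lt_of_le hl' hpn)]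
      simp only [IT.uq, if_pos hq]
  | up p Sp t ih =>
    intro u hO hN h
    obtain ⟨hp, hpn, hd, h4⟩ := hO
    obtain ⟨h1, UP, h2⟩ := h
    obtain ⟨-, -, -, hmax, hBk, hSp, -⟩ := hN.1
    refine ⟨⟨h1, UP, h2⟩, ih ⟨p, u.c, u.A, u.B⟩ h4 hN.2 ⟨fun q hq l hl => ?_,
      insert p UP, fun q hq l hlp hl => ?_⟩⟩
    · have hl' : l < p := hl
      rw [h1 q hq l (hl'.trans hpn)]
      simp only [IT.uq]
      split_ifs
      · rw [Finset.mem_insert]
        exact ⟨fun h7 => h7.resolve_left hl'.ne, Or.inr⟩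
      · exact Iff.rfl
    · have hl' : p ≤ l := hl
      rcases lt_or_ge l u.n with h6 | h6
      · have hlp' : l = p := le_antisymm (hmax l hlp h6) hl'
        subst hlp'
        rw [h1 q hq l h6]
        simp only [IT.uq, Finset.mem_insert, true_or, true_and]
        show l ∈ (if q ∈ Sp then insert l (t.uq q) else t.uq q) ↔ l ∣ q / u.A
        split_ifs with h9
        · rw [hSp] at h9
          exact ⟨fun _ => (Bld532.mem_dv.1 h9).2, fun _ => Finset.mem_insert_self _ _⟩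
        · constructor
          · intro h7; exact absurd (uq_lt h4 h7).2 (lt_irrefl _)
          · intro h7
            rw [hSp] at h9
            exact absurd (Bld532.mem_dv.2 ⟨hq, h7⟩) h9
      · have hne : l ≠ p := by omega
        rw [h2 q hq l hlp h6, Finset.mem_insert]
        show l ∈ UP ∧ l ∣ q / u.A ↔ (l = p ∨ l ∈ UP) ∧ l ∣ q / u.A
        constructor
        · intro h7; exact ⟨Or.inr h7.1, h7.2⟩
        · intro h7; exact ⟨h7.1.resolve_left hne, h7.2⟩
  | pl p t ih =>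
    intro u hO hN h
    obtain ⟨hp, hpn, h4⟩ := hO
    obtain ⟨h1, UP, h2⟩ := h
    obtain ⟨-, -, -, hmax, hBk, hdv, -⟩ := hN.1
    refine ⟨⟨h1, UP, h2⟩, ih ⟨p + 1, u.c, u.A * p, u.B⟩ h4 hN.2 ⟨fun q hq l hl => ?_,
      UP, fun q hq l hlp hl => ?_⟩⟩
    · have hl' : l < p + 1 := hl
      rw [h1 q hq l (lt_of_lt_of_le hl' hpn)]
      simp only [IT.uq]
    · have hl' : p + 1 ≤ l := hl
      have h6 : u.n ≤ l := by
        by_contra hc
        have := hmax l hlp (not_le.1 hc)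
        omega
      have hne : l ≠ p := by omega
      rw [h2 q hq l hlp h6]
      show l ∈ UP ∧ l ∣ q / u.A ↔ l ∈ UP ∧ l ∣ q / (u.A * p)
      rw [dvd_div_mul hlp hp hne hBk.Apos (hBk.dvd q hq) (hdv q hq)]
  | far p t₁ t₀ ih₁ ih₀ =>
    intro u hO hN h
    obtain ⟨hp, hpn, hd, h4, h5⟩ := hO
    obtain ⟨h1, UP, h2⟩ := h
    obtain ⟨-, -, -, hmax, -⟩ := hN.1
    have hge : ∀ l : ℕ, l.Prime → p + 1 ≤ l → u.n ≤ l := fun l hlp hl => by
      by_contra hc
      have := hmax l hlp (not_le.1 hc)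
      omega
    refine ⟨⟨h1, UP, h2⟩, ih₁ ⟨p + 1, u.c, u.A, u.B⟩ h4 hN.2.1 ⟨fun q hq l hl => ?_,
      UP, fun q hq l hlp hl => h2 q (Finset.mem_union_left _ hq) l hlp (hge l hlp hl)⟩,
      ih₀ ⟨p + 1, u.c, u.A, u.B⟩ h5 hN.2.2
      ⟨fun q hq l hl => ?_, UP, fun q hq l hlp hl =>
        h2 q (Finset.mem_union_right _ hq) l hlp (hge l hlp hl)⟩⟩
    · have hn : q ∉ t₀.items := Finset.disjoint_left.1 hd hq
      have hl' : l < p + 1 := hl
      rw [h1 q (Finset.mem_union_left _ hq) l (lt_of_lt_of_le hl' hpn)]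
      simp only [IT.uq, if_neg hn]
    · have hl' : l < p + 1 := hl
      rw [h1 q (Finset.mem_union_right _ hq) l (lt_of_lt_of_le hl' hpn)]
      simp only [IT.uq, if_pos hq]

/-- the root: no retained primes `≥ n` -/
lemma UPn_root {t : IT} {n : ℕ} (hO : t.Ok n) : UPn t ⟨n, 1, 1, 1⟩ t :=
  ⟨fun _ _ _ _ => Iff.rfl, ∅, fun q hq l _ hl =>
    ⟨fun h9 => absurd (uq_lt hO h9).2 (not_lt.2 hl), fun h9 => by simp at h9⟩⟩

end Crest.Agent.R4P.Step588
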