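import Crest.Agent.R4P.ItemDT758
import Crest.Agent.R4P.PrunePar33
import Crest.Agent.R4P.StepDataA2_83
import Crest.Agent.R4P.GInst194
import Crest.Agent.R4P.ResDef753

/-!
R4 (S0004), first part of `R4/OSWI245` (helper245), port to the tree with powers (helper19).

* `UpOk U t` : the up sets of `t` contain every item whose retained set `U` contains the prime;
  `UpOk_of`, `UpOk_self`.
* `DvAt D sp dv j b pr t` : along the path of the piece `j`, `dv` is the child of its item;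
  `DvAt_of` : true for pieces of non-zero mass and the canonical `dv`.
* `mtD_toDT` : the missing ties of `D.toDT`.
* `OSN`, `exists_OSN` : all numbers of the one-sided columns.
-/

set_option autoImplicit false
set_option linter.unusedSectionVars false
set_option linter.unusedVariables false
set_option linter.unusedSimpArgs false
set_option linter.unreachableTactic false
set_option linter.unusedTactic false

namespace Crest.Agent.R4P.OSWI245

open Crest.Agent.R4.Tour104 Crest.Agent.R4.Tour758 Crest.Agent.R4.Avg758 Crest.Agent.R4.Clos758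
open Crest.Agent.R4.ClosL758 Crest.Agent.R4.ClosG758 Crest.Agent.R4.ClosR758
open Crest.Agent.R4P.Cnt588 Crest.Agent.R4P.Item758 Crest.Agent.R4.Fam464
open Crest.Agent.R4P.Walk560 Crest.Agent.R4.Piece464 Crest.Agent.R4P.Res927
open Crest.Agent.R4P.Bld532 (NS NodeOk Bk)


/-- the up sets contain every item whose retained set `U` contains the prime -/
def UpOk (U : ℕ → Finset ℕ) : IT → Prop
  | .leaf _ => True
  | .br _ _ t₁ t₀ => UpOk U t₁ ∧ UpOk U t₀
  | .add _ t₁ t₀ => UpOk U t₁ ∧ UpOk U t₀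
  | .up b Sp t => (∀ q ∈ t.items, b ∈ U q → q ∈ Sp) ∧ UpOk U t
  | .pl _ t => UpOk U t
  | .far _ t₁ t₀ => UpOk U t₁ ∧ UpOk U t₀

lemma UpOk_of {U : ℕ → Finset ℕ} {t : IT} : ∀ {n : ℕ}, t.Ok n →
    (∀ q ∈ t.items, ∀ l < n, l ∈ U q → l ∈ t.uq q) → UpOk U t := by
  induction t with
  | leaf S => intro n _ _; trivial
  | br p Sp t₁ t₀ ih₁ ih₀ =>
    intro n hO h
    obtain ⟨hp, hpn, hdj, hSp, hO1, hO0⟩ := hO
    refine ⟨ih₁ hO1 fun q hq l hl hU => ?_, ih₀ hO0 fun q hq l hl hU => ?_⟩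
    · have hn : q ∉ t₀.items := Finset.disjoint_left.1 hdj hq
      have h1 := h q (Finset.mem_union_left _ hq) l (hl.trans hpn) hU
      simp only [IT.uq, if_neg hn] at h1
      split_ifs at h1
      · rcases Finset.mem_insert.1 h1 with rfl | h1
        · exact absurd hl (lt_irrefl _)
        · exact h1
      · exact h1
    · have h1 := h q (Finset.mem_union_right _ hq) l (hl.trans hpn) hU
      simp only [IT.uq, if_pos hq] at h1
      exact h1
  | add b t₁ t₀ ih₁ ih₀ =>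
    intro n hO h
    obtain ⟨hp, hpn, hdj, hO1, hO0⟩ := hO
    refine ⟨ih₁ hO1 fun q hq l hl hU => ?_, ih₀ hO0 fun q hq l hl hU => ?_⟩
    · have hn : q ∉ t₀.items := Finset.disjoint_left.1 hdj hq
      have h1 := h q (Finset.mem_union_left _ hq) l (by omega) hU
      simp only [IT.uq, if_neg hn] at h1
      exact h1
    · have h1 := h q (Finset.mem_union_right _ hq) l (by omega) hU
      simp only [IT.uq, if_pos hq] at h1
      exact h1
  | up b Sp t ih =>
    intro n hO h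
    obtain ⟨hp, hpn, hSp, hO1⟩ := hO
    refine ⟨fun q hq hU => ?_, ih hO1 fun q hq l hl hU => ?_⟩
    · have h1 := h q hq b hpn hU
      simp only [IT.uq] at h1
      by_contra hn
      rw [if_neg hn] at h1
      exact absurd (Step588.uq_lt hO1 h1).2 (lt_irrefl _)
    · have h1 := h q hq l (hl.trans hpn) hU
      simp only [IT.uq] at h1
      split_ifs at h1
      · rcases Finset.mem_insert.1 h1 with rfl | h1
        · exact absurd hl (lt_irrefl _)
        · exact h1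
      · exact h1
  | pl b t ih =>
    intro n hO h
    obtain ⟨hp, hpn, hO1⟩ := hO
    exact ih hO1 fun q hq l hl hU => h q hq l (by omega) hU
  | far b t₁ t₀ ih₁ ih₀ =>
    intro n hO h
    obtain ⟨hp, hpn, hdj, hO1, hO0⟩ := hO
    refine ⟨ih₁ hO1 fun q hq l hl hU => ?_, ih₀ hO0 fun q hq l hl hU => ?_⟩
    · have hn : q ∉ t₀.items := Finset.disjoint_left.1 hdj hq
      have h1 := h q (Finset.mem_union_left _ hq) l (by omega) hU
      simp only [IT.uq, if_neg hn] at h1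
      exact h1
    · have h1 := h q (Finset.mem_union_right _ hq) l (by omega) hU
      simp only [IT.uq, if_pos hq] at h1
      exact h1

/-- the root tree with its own retained sets -/
lemma UpOk_self {t : IT} {n : ℕ} (h : t.Ok n) : UpOk t.uq t :=
  UpOk_of h fun q _ l _ hl => hl

section
variable {Λ κ : Type*} [Fintype Λ] [DecidableEq Λ] [Fintype κ] [DecidableEq κ]
  {D : Item758.Par Λ κ} {sp : ℕ → Finset Λ} {dv : DT Λ κ → Λ → Prop}

/-- at every node on the path of the piece `j`, `dv` says to which child its item belongs -/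
def DvAt (D : Item758.Par Λ κ) (sp : ℕ → Finset Λ) (dv : DT Λ κ → Λ → Prop) (j : Λ) :
    ℕ → ℕ → IT → Prop
  | _, _, .leaf _ => True
  | b, pr, .br p Sp t₁ t₀ => (dv (D.toDT sp b pr (.br p Sp t₁ t₀)) j ↔ D.it j ∉ t₀.items) ∧
      (D.it j ∉ t₀.items → DvAt D sp dv j b (pr * p) t₁) ∧
      (D.it j ∈ t₀.items → DvAt D sp dv j (b * p) pr t₀)
  | b, pr, .add p t₁ t₀ => (dv (D.toDT sp b pr (.add p t₁ t₀)) j ↔ D.it j ∉ t₀.items) ∧
      (D.it j ∉ t₀.items → DvAt D sp dv j b pr t₁) ∧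
      (D.it j ∈ t₀.items → DvAt D sp dv j b pr t₀)
  | b, pr, .up _ _ t => DvAt D sp dv j b pr t
  | b, pr, .pl p t => dv (D.toDT sp b pr (.pl p t)) j ∧ DvAt D sp dv j b (pr * p) t
  | b, pr, .far p t₁ t₀ => (dv (D.toDT sp b pr (.far p t₁ t₀)) j ↔ D.it j ∉ t₀.items) ∧
      (D.it j ∉ t₀.items → DvAt D sp dv j b pr t₁) ∧
      (D.it j ∈ t₀.items → DvAt D sp dv j b pr t₀)

lemma one_div_ne {t : IT} {p : ℕ} {n : ℕ} (hp : p.Prime) : ¬ (1 / (p : ℝ) = 0) := by
  have : (0 : ℝ) < p := by exact_mod_cast hp.pos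
  positivity

/-- missing ties of a decorated item tree -/
theorem mtD_toDT {t : IT} : ∀ {n b pr : ℕ} {j : Λ}, t.Ok n → DvAt D sp dv j b pr t →
    mtD dv j (D.toDT sp b pr t) = t.mt (D.it j) := by
  induction t with
  | leaf S => intro n b pr j _ _; rfl
  | br p Sp t₁ t₀ ih₁ ih₀ =>
    intro n b pr j hO h
    obtain ⟨h1, h2, h3⟩ := h
    have hw : ¬ (1 / (p : ℝ) = 0) := by
      have : (0 : ℝ) < p := by exact_mod_cast hO.1.pos
      positivity
    simp only [Item758.Par.toDT] at h1 ⊢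
    simp only [mtD]
    by_cases hj : D.it j ∈ t₀.items
    · rw [if_neg (by rw [h1]; tauto), ih₀ hO.2.2.2.2.2 (h3 hj)]
      simp only [IT.mt, if_pos hj]
    · rw [if_pos (Or.inr (h1.2 hj)), ih₁ hO.2.2.2.2.1 (h2 hj)]
      simp only [IT.mt, if_neg hj]
  | add p t₁ t₀ ih₁ ih₀ =>
    intro n b pr j hO h
    obtain ⟨h1, h2, h3⟩ := h
    simp only [Item758.Par.toDT] at h1 ⊢
    simp only [mtD]
    by_cases hj : D.it j ∈ t₀.items
    · rw [if_neg (by rw [h1]; tauto), ih₀ hO.2.2.2.2 (h3 hj)]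
      simp only [IT.mt, if_pos hj]
    · rw [if_pos (h1.2 hj), ih₁ hO.2.2.2.1 (h2 hj)]
      simp only [IT.mt, if_neg hj]
  | up p Sp t ih => intro n b pr j hO h; exact ih hO.2.2.2 h
  | pl p t ih =>
    intro n b pr j hO h
    simp only [Item758.Par.toDT, mtD]
    rw [if_pos (Or.inl rfl), ih hO.2.2 h.2]
    rfl
  | far p t₁ t₀ ih₁ ih₀ =>
    intro n b pr j hO h
    obtain ⟨h1, h2, h3⟩ := h
    simp only [Item758.Par.toDT] at h1 ⊢
    simp only [mtD]
    by_cases hj : D.it j ∈ t₀.items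
    · rw [if_neg (by rw [h1]; tauto), ih₀ hO.2.2.2.2 (h3 hj)]
      simp only [IT.mt, if_pos hj]
    · rw [if_pos (h1.2 hj), ih₁ hO.2.2.2.1 (h2 hj)]
      simp only [IT.mt, if_neg hj]

/-! ### the canonical choice of the child -/

lemma mI_toDT' {b pr : ℕ} {t : IT} (hb : 0 < b) (hF : Fit b pr t) (hW : D.Wts pr t) (j : Λ) :
    GInst194.mI (D.toDT sp b pr t) j = I ((D.toFT b pr t).U 1 j) := by
  unfold GInst194.mI
  rw [D.toDT_g, D.toG_val hb hF hW]

lemma mI_zero' {b pr : ℕ} {t : IT} (hb : 0 < b) (hF : Fit b pr t) (hW : D.Wts pr t) {j : Λ}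
    (hj : D.it j ∉ t.items) : GInst194.mI (D.toDT sp b pr t) j = 0 := by
  rw [mI_toDT' hb hF hW]
  have e : (D.toFT b pr t).U 1 j = fun _ => 0 := funext fun x => D.U_zero t b pr 1 j hj x
  rw [e]
  simp [I]

lemma mI_ne_iff (hab : ∀ j, D.al j ≤ D.be j) {b pr : ℕ} {t : IT} (hb : 0 < b) (hF : Fit b pr t)
    (hW : D.Wts pr t) {j : Λ} (hj : D.it j ∈ t.items) :
    GInst194.mI (D.toDT sp b pr t) j ≠ 0 ↔ (D.be j - D.al j ≠ 0 ∧ prf t (D.it j) ≠ 0 ∧
      mnw (D.it j / (pr * pp t (D.it j))) (D.om j) ≠ 0) := by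
  have hb' : (b : ℝ) ≠ 0 := by positivity
  rw [mI_toDT' hb hF hW, D.I_U hab t b pr 1 hb hF hW (one_dvd _) j hj]
  push_cast
  rw [div_one, mul_ne_zero_iff, mul_ne_zero_iff, mul_ne_zero_iff]
  tauto

/-- for a piece of non-zero mass the canonical choice is the child of its item -/
theorem DvAt_of (hab : ∀ j, D.al j ≤ D.be j) {j : Λ}
    (hbr : ∀ (p : ℕ) (w : ℝ) (r : Λ → κ) (t₁ t₀ : DT Λ κ) (v : Λ → ℝ → ℝ) (B G : κ → ℝ → ℝ),
      dv (.br p w r t₁ t₀ v B G) j ↔ (GInst194.mI t₁ j ≠ 0 ∨ GInst194.mI t₀ j = 0))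
    (hadd : ∀ (p : ℕ) (r : Λ → κ) (t₁ t₀ : DT Λ κ),
      dv (.add p r t₁ t₀) j ↔ (GInst194.mI t₁ j ≠ 0 ∨ GInst194.mI t₀ j = 0))
    {t : IT} : ∀ {b pr : ℕ}, 0 < b →
    Fit b pr t → D.Wts pr t → GInst194.mI (D.toDT sp b pr t) j ≠ 0 →
    DvAt D sp dv j b pr t := by
  induction t with
  | leaf S => intro b pr _ _ _ _; trivial
  | br p Sp t₁ t₀ ih₁ ih₀ =>
    intro b pr hb hF hW hne
    have hp : p.Prime := hF.1
    have hd := hF.2.2.1
    have hF1 := hF.2.2.2.1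
    have hF0 := hF.2.2.2.2
    have hbp : 0 < b * p := Nat.mul_pos hb hp.pos
    have hW1 : D.Wts (pr * p) t₁ := Par.Wts.br₁ hd hW
    have hW0 : D.Wts pr t₀ := Par.Wts.br₀ hW
    have hj : D.it j ∈ (IT.br p Sp t₁ t₀).items := by
      by_contra h; exact hne (mI_zero' hb hF hW h)
    have hne' := (mI_ne_iff hab hb hF hW hj).1 hne
    by_cases hj0 : D.it j ∈ t₀.items
    · have hj1 : D.it j ∉ t₁.items := Finset.disjoint_right.1 hd hj0
      have e2 : pp (.br p Sp t₁ t₀) (D.it j) = pp t₀ (D.it j) := if_pos hj0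
      have e3 : prf (.br p Sp t₁ t₀) (D.it j) = prf t₀ (D.it j) := if_pos hj0
      rw [e2, e3] at hne'
      have hn0 : GInst194.mI (D.toDT sp (b * p) pr t₀) j ≠ 0 :=
        (mI_ne_iff hab hbp hF0 hW0 hj0).2 hne'
      have hz1 : GInst194.mI (D.toDT sp b (pr * p) t₁) j = 0 := mI_zero' hb hF1 hW1 hj1
      refine ⟨(hbr _ _ _ _ _ _ _ _).trans ?_, fun h => absurd hj0 h, fun _ => ih₀ hbp hF0 hW0 hn0⟩
      constructor
      · rintro (h | h)
        · exact absurd hz1 h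
        · exact absurd h hn0
      · intro h; exact absurd hj0 h
    · have hj1 : D.it j ∈ t₁.items := (Finset.mem_union.1 hj).resolve_right hj0
      have e2 : pp (.br p Sp t₁ t₀) (D.it j) = p * pp t₁ (D.it j) := if_neg hj0
      have e3 : prf (.br p Sp t₁ t₀) (D.it j) = (1 - 1 / (p : ℝ)) * prf t₁ (D.it j) :=
        if_neg hj0
      rw [e2, e3, ← mul_assoc] at hne'
      have hn1 : GInst194.mI (D.toDT sp b (pr * p) t₁) j ≠ 0 :=
        (mI_ne_iff hab hb hF1 hW1 hj1).2 ⟨hne'.1, right_ne_zero_of_mul hne'.2.1, hne'.2.2⟩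
      have hz0 : GInst194.mI (D.toDT sp (b * p) pr t₀) j = 0 := mI_zero' hbp hF0 hW0 hj0
      exact ⟨(hbr _ _ _ _ _ _ _ _).trans ⟨fun _ => hj0, fun _ => Or.inr hz0⟩,
        fun _ => ih₁ hb hF1 hW1 hn1, fun h => absurd h hj0⟩
  | add p t₁ t₀ ih₁ ih₀ =>
    intro b pr hb hF hW hne
    have hd := hF.1
    have hF1 := hF.2.1
    have hF0 := hF.2.2
    have hW1 : D.Wts pr t₁ := Par.Wts.add₁ hd hW
    have hW0 : D.Wts pr t₀ := Par.Wts.add₀ hW
    have hj : D.it j ∈ (IT.add p t₁ t₀).items := by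
      by_contra h; exact hne (mI_zero' hb hF hW h)
    have hne' := (mI_ne_iff hab hb hF hW hj).1 hne
    by_cases hj0 : D.it j ∈ t₀.items
    · have hj1 : D.it j ∉ t₁.items := Finset.disjoint_right.1 hd hj0
      have e2 : pp (.add p t₁ t₀) (D.it j) = pp t₀ (D.it j) := if_pos hj0
      have e3 : prf (.add p t₁ t₀) (D.it j) = prf t₀ (D.it j) := if_pos hj0
      rw [e2, e3] at hne'
      have hn0 : GInst194.mI (D.toDT sp b pr t₀) j ≠ 0 :=
        (mI_ne_iff hab hb hF0 hW0 hj0).2 hne'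
      have hz1 : GInst194.mI (D.toDT sp b pr t₁) j = 0 := mI_zero' hb hF1 hW1 hj1
      refine ⟨(hadd _ _ _ _).trans ?_, fun h => absurd hj0 h, fun _ => ih₀ hb hF0 hW0 hn0⟩
      constructor
      · rintro (h | h)
        · exact absurd hz1 h
        · exact absurd h hn0
      · intro h; exact absurd hj0 h
    · have hj1 : D.it j ∈ t₁.items := (Finset.mem_union.1 hj).resolve_right hj0
      have e2 : pp (.add p t₁ t₀) (D.it j) = pp t₁ (D.it j) := if_neg hj0
      have e3 : prf (.add p t₁ t₀) (D.it j) = prf t₁ (D.it j) := if_neg hj0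
      rw [e2, e3] at hne'
      have hn1 : GInst194.mI (D.toDT sp b pr t₁) j ≠ 0 :=
        (mI_ne_iff hab hb hF1 hW1 hj1).2 hne'
      have hz0 : GInst194.mI (D.toDT sp b pr t₀) j = 0 := mI_zero' hb hF0 hW0 hj0
      exact ⟨(hadd _ _ _ _).trans ⟨fun _ => hj0, fun _ => Or.inr hz0⟩,
        fun _ => ih₁ hb hF1 hW1 hn1, fun h => absurd h hj0⟩
  | up p Sp t ih =>
    intro b pr hb hF hW hne
    exact ih hb hF hW hne
  | pl p t ih =>
    intro b pr hb hF hW hne
    have hF1 := hF.2.2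
    have hW1 : D.Wts (pr * p) t := Par.Wts.pl hW
    have hj : D.it j ∈ (IT.pl p t).items := by
      by_contra h; exact hne (mI_zero' hb hF hW h)
    have hne' := (mI_ne_iff hab hb hF hW hj).1 hne
    have e2 : pp (.pl p t) (D.it j) = p * pp t (D.it j) := rfl
    have e3 : prf (.pl p t) (D.it j) = prf t (D.it j) := rfl
    rw [e2, e3, ← mul_assoc] at hne'
    have hn1 : GInst194.mI (D.toDT sp b (pr * p) t) j ≠ 0 :=
      (mI_ne_iff hab hb hF1 hW1 hj).2 hne'
    exact ⟨(hbr _ _ _ _ _ _ _ _).2 (Or.inl hn1), ih hb hF1 hW1 hn1⟩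
  | far p t₁ t₀ ih₁ ih₀ =>
    intro b pr hb hF hW hne
    have hd := hF.1
    have hF1 := hF.2.1
    have hF0 := hF.2.2
    have hW1 : D.Wts pr t₁ := Par.Wts.far₁ hd hW
    have hW0 : D.Wts pr t₀ := Par.Wts.far₀ hW
    have hj : D.it j ∈ (IT.far p t₁ t₀).items := by
      by_contra h; exact hne (mI_zero' hb hF hW h)
    have hne' := (mI_ne_iff hab hb hF hW hj).1 hne
    by_cases hj0 : D.it j ∈ t₀.items
    · have hj1 : D.it j ∉ t₁.items := Finset.disjoint_right.1 hd hj0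
      have e2 : pp (.far p t₁ t₀) (D.it j) = pp t₀ (D.it j) := if_pos hj0
      have e3 : prf (.far p t₁ t₀) (D.it j) = prf t₀ (D.it j) := if_pos hj0
      rw [e2, e3] at hne'
      have hn0 : GInst194.mI (D.toDT sp b pr t₀) j ≠ 0 :=
        (mI_ne_iff hab hb hF0 hW0 hj0).2 hne'
      have hz1 : GInst194.mI (D.toDT sp b pr t₁) j = 0 := mI_zero' hb hF1 hW1 hj1
      refine ⟨(hadd _ _ _ _).trans ?_, fun h => absurd hj0 h, fun _ => ih₀ hb hF0 hW0 hn0⟩
      constructor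
      · rintro (h | h)
        · exact absurd hz1 h
        · exact absurd h hn0
      · intro h; exact absurd hj0 h
    · have hj1 : D.it j ∈ t₁.items := (Finset.mem_union.1 hj).resolve_right hj0
      have e2 : pp (.far p t₁ t₀) (D.it j) = pp t₁ (D.it j) := if_neg hj0
      have e3 : prf (.far p t₁ t₀) (D.it j) = prf t₁ (D.it j) := if_neg hj0
      rw [e2, e3] at hne'
      have hn1 : GInst194.mI (D.toDT sp b pr t₁) j ≠ 0 :=
        (mI_ne_iff hab hb hF1 hW1 hj1).2 hne'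
      have hz0 : GInst194.mI (D.toDT sp b pr t₀) j = 0 := mI_zero' hb hF0 hW0 hj0
      exact ⟨(hadd _ _ _ _).trans ⟨fun _ => hj0, fun _ => Or.inr hz0⟩,
        fun _ => ih₁ hb hF1 hW1 hn1, fun h => absurd h hj0⟩

end

/-! ### numbers -/


/-- numbers of the one-sided columns -/
structure OSN (c D E K κ : ℝ) (p0 : ℕ) : Prop where
  ge : 8 ≤ p0
  beta : ∀ p : ℕ, p0 ≤ p → 0 ≤ K * Real.log p ^ E / p ∧
    K * Real.log p ^ E / p ≤ 1 * (p : ℝ) ^ (-(11/12) : ℝ)
  sm : 4 * 1 * (p0 : ℝ) ^ (-(1/4) : ℝ) + 2 * (p0 : ℝ) ^ (-c) ≤ κ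
  tail : ∀ M : Finset ℕ, (∀ q ∈ M, p0 < q) →
    (∀ P : ℕ, p0 ≤ P → ((M.filter (· ≤ P)).card : ℝ) ≤ Real.log P ^ D) →
    ∑ q ∈ M, (q : ℝ) ^ (-c) ≤ κ

theorem exists_OSN (c D E K κ : ℝ) (hc : 0 < c) (hK : 0 ≤ K) (hκ : 0 < κ) :
    ∃ p₁ : ℕ, ∀ p0 ≥ p₁, OSN c D E K κ p0 := by
  obtain ⟨p1, h1⟩ := PrunePar33.tail_pow D c hc
  -- `K log^E ≤ p^(1/12)`
  have e1 := (isLittleO_log_rpow_rpow_atTop E (show (0 : ℝ) < 1 / 12 by norm_num)).bound
    (c := 1 / (K + 1)) (by positivity)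
  have t1 : Filter.Tendsto (fun x : ℝ => x ^ (-(1/4) : ℝ)) Filter.atTop (nhds 0) := by
    have := tendsto_rpow_neg_atTop (show (0:ℝ) < 1/4 by norm_num)
    simpa using this
  have t2 : Filter.Tendsto (fun x : ℝ => x ^ (-c)) Filter.atTop (nhds 0) := tendsto_rpow_neg_atTop hc
  have t3 : Filter.Tendsto (fun x : ℝ => x ^ (-(c/2))) Filter.atTop (nhds 0) :=
    tendsto_rpow_neg_atTop (by positivity)
  have e2 := t1.eventually_lt_const (show (0:ℝ) < κ/8 by positivity)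
  have e3 := t2.eventually_lt_const (show (0:ℝ) < κ/4 by positivity)
  have e4 := t3.eventually_lt_const hκ
  obtain ⟨x0, hx0⟩ := Filter.eventually_atTop.1
    ((e1.and e2).and ((e3.and e4).and (Filter.eventually_ge_atTop (1:ℝ))))
  refine ⟨max (max p1 8) ⌈x0⌉₊, fun p0 hp0 => ?_⟩
  have q1 : p1 ≤ p0 := (le_max_left _ _).trans ((le_max_left _ _).trans hp0)
  have q2 : 8 ≤ p0 := (le_max_right _ _).trans ((le_max_left _ _).trans hp0)
  have q3 : ∀ p : ℕ, p0 ≤ p → x0 ≤ (p : ℝ) := fun p hp => (Nat.le_ceil x0).trans (by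
    exact_mod_cast ((le_max_right _ _).trans hp0).trans hp)
  refine ⟨q2, fun p hp => ?_, ?_, fun M hM hc' => ?_⟩
  · obtain ⟨⟨g1, -⟩, -, g5⟩ := hx0 p (q3 p hp)
    have hp0' : (0:ℝ) < p := by linarith
    have hl : 0 ≤ Real.log p := Real.log_nonneg g5
    rw [Real.norm_of_nonneg (Real.rpow_nonneg hl _), Real.norm_of_nonneg (by positivity)] at g1
    refine ⟨by positivity, ?_⟩
    rw [one_mul, div_le_iff₀ hp0']
    have h2 : (p : ℝ) ^ (-(11/12) : ℝ) * p = (p : ℝ) ^ (1/12 : ℝ) := by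
      nth_rewrite 2 [← Real.rpow_one (p : ℝ)]
      rw [← Real.rpow_add hp0']; norm_num
    rw [h2]
    have hK1 : 0 < K + 1 := by linarith
    calc K * Real.log p ^ E ≤ (K + 1) * Real.log p ^ E :=
          mul_le_mul_of_nonneg_right (by linarith) (Real.rpow_nonneg hl _)
      _ ≤ (K + 1) * (1 / (K + 1) * (p : ℝ) ^ (1/12 : ℝ)) := mul_le_mul_of_nonneg_left g1 hK1.le
      _ = (p : ℝ) ^ (1/12 : ℝ) := by field_simp
  · obtain ⟨⟨-, g2⟩, ⟨g3, -⟩, -⟩ := hx0 p0 (q3 p0 le_rfl)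
    linarith
  · obtain ⟨-, ⟨-, g4⟩, -⟩ := hx0 p0 (q3 p0 le_rfl)
    have h2 := h1 p0 q1 M hc' p0 le_rfl
    rw [Finset.filter_true_of_mem hM] at h2
    exact h2.trans g4.le


end Crest.Agent.R4P.OSWI245
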