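import Crest.Agent.R4P.ResDef753
import Crest.Agent.R4P.OSO198

/-!
R4 (S0004), helper198: **the sides of a step** of the walk of `R4P/ResDef753`.

* `RC`, `LC` : what a step does to the right / left side; `steps0_R`, `steps0_L`.
* `row_le_right`, `row_le_left` : the weights of the other side sum to at most one along the steps which
  the item follows.
-/

set_option autoImplicit false
set_option linter.unusedSectionVars false
set_option linter.unusedVariables false
set_option linter.unusedSimpArgs false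

namespace Crest.Agent.R4P.OSWS245

open Crest.Agent.R4.Tour104 Crest.Agent.R4.Tour758 Crest.Agent.R4.Avg758 Crest.Agent.R4.Clos758
open Crest.Agent.R4.ClosL758 Crest.Agent.R4.ClosG758 Crest.Agent.R4.ClosR758
open Crest.Agent.R4P.ClosR442 Crest.Agent.R4P.Walk560 Crest.Agent.R4P.Res927

variable {Λ κ : Type*} [Fintype Λ] [DecidableEq Λ] [Fintype κ] [DecidableEq κ] [WRel κ]
  {stp : Stp Λ κ} {dv : DT Λ κ → Λ → Prop}

/-- the right side of a step -/
inductive RC (dv : DT Λ κ → Λ → Prop) (x : XSt Λ κ) (e : XStep Λ κ) : Prop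
  | stay (h : x.s.isPL ∨ ∃ r t₁ t₀, vw x.s.p x.s.t = .add r t₁ t₀) (ht : e.y.s.t' = x.s.t') :
      RC dv x e
  | up (Sp : Finset Λ) (u : DT Λ κ) (hv : vw x.s.p x.s.t' = .up Sp u) (ht : e.y.s.t' = u) :
      RC dv x e
  | b1 (w : ℝ) (r : Λ → κ) (t₁ t₀ : DT Λ κ) (v : Λ → ℝ → ℝ) (B G : κ → ℝ → ℝ)
      (hv : vw x.s.p x.s.t' = .br w r t₁ t₀ v B G) (ht : e.y.s.t' = t₁)
      (hf : ∀ j, e.f' j → dv x.s.t' j) : RC dv x e
  | b0 (w : ℝ) (r : Λ → κ) (t₁ t₀ : DT Λ κ) (v : Λ → ℝ → ℝ) (B G : κ → ℝ → ℝ)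
      (hv : vw x.s.p x.s.t' = .br w r t₁ t₀ v B G) (ht : e.y.s.t' = t₀)
      (hf : ∀ j, e.f' j → ¬ dv x.s.t' j) (ha : e.a' = w) : RC dv x e
  | a1 (r : Λ → κ) (t₁ t₀ : DT Λ κ) (hv : vw x.s.p x.s.t' = .add r t₁ t₀) (ht : e.y.s.t' = t₁)
      (hf : ∀ j, e.f' j → dv x.s.t' j) : RC dv x e
  | a0 (r : Λ → κ) (t₁ t₀ : DT Λ κ) (hv : vw x.s.p x.s.t' = .add r t₁ t₀) (ht : e.y.s.t' = t₀)
      (hf : ∀ j, e.f' j → ¬ dv x.s.t' j) : RC dv x e

/-- the left side of a step -/
inductive LC (dv : DT Λ κ → Λ → Prop) (x : XSt Λ κ) (e : XStep Λ κ) : Prop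
  | stay (h : x.s.isPR ∨ ∃ r t₁ t₀, vw x.s.p x.s.t' = .add r t₁ t₀) (ht : e.y.s.t = x.s.t) :
      LC dv x e
  | up (Sp : Finset Λ) (u : DT Λ κ) (hv : vw x.s.p x.s.t = .up Sp u) (ht : e.y.s.t = u) :
      LC dv x e
  | b1 (w : ℝ) (r : Λ → κ) (t₁ t₀ : DT Λ κ) (v : Λ → ℝ → ℝ) (B G : κ → ℝ → ℝ)
      (hv : vw x.s.p x.s.t = .br w r t₁ t₀ v B G) (ht : e.y.s.t = t₁)
      (hf : ∀ j, e.f j → dv x.s.t j) : LC dv x e
  | b0 (w : ℝ) (r : Λ → κ) (t₁ t₀ : DT Λ κ) (v : Λ → ℝ → ℝ) (B G : κ → ℝ → ℝ)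
      (hv : vw x.s.p x.s.t = .br w r t₁ t₀ v B G) (ht : e.y.s.t = t₀)
      (hf : ∀ j, e.f j → ¬ dv x.s.t j) (ha : e.a = w) : LC dv x e
  | a1 (r : Λ → κ) (t₁ t₀ : DT Λ κ) (hv : vw x.s.p x.s.t = .add r t₁ t₀) (ht : e.y.s.t = t₁)
      (hf : ∀ j, e.f j → dv x.s.t j) : LC dv x e
  | a0 (r : Λ → κ) (t₁ t₀ : DT Λ κ) (hv : vw x.s.p x.s.t = .add r t₁ t₀) (ht : e.y.s.t = t₀)
      (hf : ∀ j, e.f j → ¬ dv x.s.t j) : LC dv x e

lemma steps_act {x : XSt Λ κ} {e : XStep Λ κ} (he : e ∈ steps stp dv x) :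
    ¬ (x.s.t.isLeaf ∨ x.s.t'.isLeaf) ∧ ¬ stp x.s := by
  have he := (mem_steps.1 he).1
  constructor
  · intro h1; simp [steps0, h1] at he
  · intro h2
    by_cases h1 : x.s.t.isLeaf ∨ x.s.t'.isLeaf
    · simp [steps0, h1] at he
    · simp [steps0, h1, h2] at he

/-- case list of the steps -/
theorem steps0_cases {x : XSt Λ κ} {e : XStep Λ κ} (he : e ∈ steps0 stp dv x)
    {P : Prop}
    (hL : x.s.isPL → e ∈ preL dv x → P)
    (hR : ¬ x.s.isPL → x.s.isPR → e ∈ preR dv x → P)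
    (hA : ∀ r t₁ t₀, vw x.s.p x.s.t = .add r t₁ t₀ → e ∈ oneA stp dv x t₁ t₀ → P)
    (hB : ∀ r t₁ t₀, vw x.s.p x.s.t' = .add r t₁ t₀ → e ∈ oneB stp dv x t₁ t₀ → P)
    (hM : ¬ x.s.isPL → ¬ x.s.isPR → LC dv x e → RC dv x e → P) : P := by
  classical
  unfold steps0 at he
  by_cases h1 : x.s.t.isLeaf ∨ x.s.t'.isLeaf
  · simp [h1] at he
  by_cases h2 : stp x.s
  · simp [h1, h2] at he
  rw [if_neg h1, if_neg h2] at he
  by_cases hPL : x.s.isPL
  · rw [if_pos hPL] at he; exact hL hPL he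
  by_cases hPR : x.s.isPR
  · rw [if_neg hPL, if_pos hPR] at he; exact hR hPL hPR he
  rw [if_neg hPL, if_neg hPR] at he
  have hM := hM hPL hPR
  rcases hv : vw x.s.p x.s.t with ⟨w, r, t₁, t₀, v, B, G⟩ | ⟨r, t₁, t₀⟩ | ⟨Sp, u⟩ <;>
  rcases hv' : vw x.s.p x.s.t' with ⟨w', r', t₁', t₀', v', B', G'⟩ | ⟨r', t₁', t₀'⟩ | ⟨Sp', u'⟩ <;>
  simp only [hv, hv'] at he
  · simp only [List.mem_cons, List.not_mem_nil, or_false] at he
    rcases he with rfl | rfl | rfl | rfl
    · exact hM (.b1 _ _ _ _ _ _ _ hv rfl fun j h => h) (.b1 _ _ _ _ _ _ _ hv' rfl fun j h => h)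
    · exact hM (.b1 _ _ _ _ _ _ _ hv rfl fun j h => h)
        (.b0 _ _ _ _ _ _ _ hv' rfl (fun j h => h) rfl)
    · exact hM (.b0 _ _ _ _ _ _ _ hv rfl (fun j h => h) rfl)
        (.b1 _ _ _ _ _ _ _ hv' rfl fun j h => h)
    · exact hM (.b0 _ _ _ _ _ _ _ hv rfl (fun j h => h) rfl)
        (.b0 _ _ _ _ _ _ _ hv' rfl (fun j h => h) rfl)
  · exact hB _ _ _ hv' he
  · simp only [List.mem_cons, List.not_mem_nil, or_false] at he
    rcases he with rfl | rfl
    · exact hM (.b1 _ _ _ _ _ _ _ hv rfl fun j h => h) (.up _ _ hv' rfl)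
    · exact hM (.b0 _ _ _ _ _ _ _ hv rfl (fun j h => h) rfl) (.up _ _ hv' rfl)
  · exact hA _ _ _ hv he
  · split_ifs at he with hj hl
    · simp only [List.mem_cons, List.not_mem_nil, or_false] at he
      rcases he with rfl | rfl
      · exact hM (.a1 _ _ _ hv rfl fun j h => h) (.a1 _ _ _ hv' rfl fun j h => h)
      · exact hM (.a0 _ _ _ hv rfl fun j h => h) (.a0 _ _ _ hv' rfl fun j h => h)
    · exact hA _ _ _ hv he
    · exact hB _ _ _ hv' he
  · split_ifs at he with hj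
    · simp only [List.mem_cons, List.not_mem_nil, or_false] at he
      rcases he with rfl | rfl
      · exact hM (.a1 _ _ _ hv rfl fun j h => h) (.up _ _ hv' rfl)
      · exact hM (.a0 _ _ _ hv rfl fun j h => h) (.up _ _ hv' rfl)
    · exact hA _ _ _ hv he
  · simp only [List.mem_cons, List.not_mem_nil, or_false] at he
    rcases he with rfl | rfl
    · exact hM (.up _ _ hv rfl) (.b1 _ _ _ _ _ _ _ hv' rfl fun j h => h)
    · exact hM (.up _ _ hv rfl) (.b0 _ _ _ _ _ _ _ hv' rfl (fun j h => h) rfl)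
  · split_ifs at he with hj
    · simp only [List.mem_cons, List.not_mem_nil, or_false] at he
      rcases he with rfl | rfl
      · exact hM (.up _ _ hv rfl) (.a1 _ _ _ hv' rfl fun j h => h)
      · exact hM (.up _ _ hv rfl) (.a0 _ _ _ hv' rfl fun j h => h)
    · exact hB _ _ _ hv' he
  · simp only [List.mem_cons, List.not_mem_nil, or_false] at he
    subst he
    exact hM (.up _ _ hv rfl) (.up _ _ hv' rfl)

/-- **the right side of a step** -/
theorem steps0_R {x : XSt Λ κ} {e : XStep Λ κ} (he : e ∈ steps0 stp dv x) : RC dv x e := by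
  classical
  refine steps0_cases he ?_ ?_ ?_ ?_ (fun _ _ _ h => h)
  · intro hPL h
    obtain ⟨w, r, t₁, t₀, v, B, G, hv, et, -⟩ := St.isPL_cases hPL
    simp only [preL, hv] at h
    split_ifs at h <;>
    · simp only [List.mem_cons, List.not_mem_nil, or_false] at h
      rcases h with rfl | rfl <;> exact .stay (Or.inl hPL) rfl
  · intro _ hPR h
    obtain ⟨w, r, t₁, t₀, v, B, G, hv, et, -⟩ := St.isPR_cases hPR
    simp only [preR, hv] at h
    split_ifs at h <;>
    · simp only [List.mem_cons, List.not_mem_nil, or_false] at h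
      rcases h with rfl | rfl
      · exact .b1 _ _ _ _ _ _ _ hv rfl fun j h => h
      · exact .b0 _ _ _ _ _ _ _ hv rfl (fun j h => h) rfl
  · intro r t₁ t₀ hv h
    unfold oneA at h
    split_ifs at h <;>
    · simp only [List.mem_cons, List.not_mem_nil, or_false] at h
      subst h
      exact .stay (Or.inr ⟨_, _, _, hv⟩) rfl
  · intro r t₁ t₀ hv h
    unfold oneB at h
    split_ifs at h <;> simp only [List.mem_cons, List.not_mem_nil, or_false] at h <;> subst h
    · exact .a1 _ _ _ hv rfl fun j h => h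
    · exact .a0 _ _ _ hv rfl fun j h => h

/-- **the left side of a step** -/
theorem steps0_L {x : XSt Λ κ} {e : XStep Λ κ} (he : e ∈ steps0 stp dv x) : LC dv x e := by
  classical
  refine steps0_cases he ?_ ?_ ?_ ?_ (fun _ _ h _ => h)
  · intro hPL h
    obtain ⟨w, r, t₁, t₀, v, B, G, hv, et, -⟩ := St.isPL_cases hPL
    simp only [preL, hv] at h
    split_ifs at h <;>
    · simp only [List.mem_cons, List.not_mem_nil, or_false] at h
      rcases h with rfl | rfl
      · exact .b1 _ _ _ _ _ _ _ hv rfl fun j h => h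
      · exact .b0 _ _ _ _ _ _ _ hv rfl (fun j h => h) rfl
  · intro _ hPR h
    obtain ⟨w, r, t₁, t₀, v, B, G, hv, et, -⟩ := St.isPR_cases hPR
    simp only [preR, hv] at h
    split_ifs at h <;>
    · simp only [List.mem_cons, List.not_mem_nil, or_false] at h
      rcases h with rfl | rfl <;> exact .stay (Or.inl hPR) rfl
  · intro r t₁ t₀ hv h
    unfold oneA at h
    split_ifs at h <;> simp only [List.mem_cons, List.not_mem_nil, or_false] at h <;> subst h
    · exact .a1 _ _ _ hv rfl fun j h => h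
    · exact .a0 _ _ _ hv rfl fun j h => h
  · intro r t₁ t₀ hv h
    unfold oneB at h
    split_ifs at h <;>
    · simp only [List.mem_cons, List.not_mem_nil, or_false] at h
      subst h
      exact .stay (Or.inr ⟨_, _, _, hv⟩) rfl

/-! ### row sums -/

/-- weights of the walk lists -/
lemma wt_of_all {t : DT Λ κ} (h : t.All WN) {p : ℕ} {w : ℝ} {r : Λ → κ} {t₁ t₀ : DT Λ κ}
    {v : Λ → ℝ → ℝ} {B G : κ → ℝ → ℝ} (hv : vw p t = .br w r t₁ t₀ v B G) : 0 ≤ w ∧ w ≤ 1 := by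
  rw [vw_br hv] at h
  rcases h.self with h | ⟨h1, h2, -⟩
  · rw [h]; norm_num
  · exact ⟨h1.le, h2.le⟩

open Classical in
/-- an upper bound for the row: filtering by nonzero weights only removes nonnegative terms -/
lemma row_filter (l : List (XStep Λ κ)) (F : XStep Λ κ → Prop) (g : XStep Λ κ → ℝ)
    (hg : ∀ e ∈ l, 0 ≤ g e) :
    (((l.filter fun e => e.a * e.a' ≠ 0).filter fun e => F e).map g).sum ≤
      (l.map fun e => if F e then g e else 0).sum := by
  induction l with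
  | nil => simp
  | cons a l ih =>
    have ih := ih fun e he => hg e (List.mem_cons_of_mem _ he)
    have ha := hg a List.mem_cons_self
    rw [List.map_cons, List.sum_cons]
    by_cases h1 : a.a * a.a' ≠ 0
    · rw [List.filter_cons_of_pos (by simpa using h1)]
      by_cases h2 : F a
      · rw [List.filter_cons_of_pos (by simpa using h2), List.map_cons, List.sum_cons, if_pos h2]
        linarith
      · rw [List.filter_cons_of_neg (by simpa using h2), if_neg h2]
        linarith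
    · rw [List.filter_cons_of_neg (by simpa using h1)]
      split_ifs <;> linarith

/-- weights of the steps with phantoms -/
lemma steps0_nn {x : XSt Λ κ} (h : x.s.t.All WN) (h' : x.s.t'.All WN) :
    ∀ e ∈ steps0 stp dv x, (0 ≤ e.a ∧ e.a ≤ 1) ∧ (0 ≤ e.a' ∧ e.a' ≤ 1) := by
  classical
  intro e he
  unfold steps0 at he
  by_cases h1 : x.s.t.isLeaf ∨ x.s.t'.isLeaf
  · simp [h1] at he
  by_cases h2 : stp x.s
  · simp [h1, h2] at he
  rw [if_neg h1, if_neg h2] at he
  have c1 : ∀ {w : ℝ}, 0 ≤ w ∧ w ≤ 1 → 0 ≤ 1 - w ∧ 1 - w ≤ 1 := fun {w} k => ⟨by linarith, by linarith⟩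
  have hone : (0:ℝ) ≤ 1 ∧ (1:ℝ) ≤ 1 := ⟨zero_le_one, le_rfl⟩
  by_cases hPL : x.s.isPL
  · rw [if_pos hPL] at he
    obtain ⟨w, r, t₁, t₀, v, B, G, hv, et, -⟩ := St.isPL_cases hPL
    have hw := wt_of_all h hv
    simp only [preL, hv] at he
    split_ifs at he <;>
    · simp only [List.mem_cons, List.not_mem_nil, or_false] at he
      rcases he with rfl | rfl
      · exact ⟨c1 hw, hone⟩
      · exact ⟨hw, hone⟩
  by_cases hPR : x.s.isPR
  · rw [if_neg hPL, if_pos hPR] at he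
    obtain ⟨w, r, t₁, t₀, v, B, G, hv, et, -⟩ := St.isPR_cases hPR
    have hw := wt_of_all h' hv
    simp only [preR, hv] at he
    split_ifs at he <;>
    · simp only [List.mem_cons, List.not_mem_nil, or_false] at he
      rcases he with rfl | rfl
      · exact ⟨hone, c1 hw⟩
      · exact ⟨hone, hw⟩
  rw [if_neg hPL, if_neg hPR] at he
  have hA : ∀ t₁ t₀, e ∈ oneA stp dv x t₁ t₀ → (0 ≤ e.a ∧ e.a ≤ 1) ∧ (0 ≤ e.a' ∧ e.a' ≤ 1) := by
    intro t₁ t₀ h
    unfold oneA at h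
    split_ifs at h <;>
    · simp only [List.mem_cons, List.not_mem_nil, or_false] at h
      subst h
      exact ⟨hone, hone⟩
  have hB : ∀ t₁ t₀, e ∈ oneB stp dv x t₁ t₀ → (0 ≤ e.a ∧ e.a ≤ 1) ∧ (0 ≤ e.a' ∧ e.a' ≤ 1) := by
    intro t₁ t₀ h
    unfold oneB at h
    split_ifs at h <;>
    · simp only [List.mem_cons, List.not_mem_nil, or_false] at h
      subst h
      exact ⟨hone, hone⟩
  rcases hv : vw x.s.p x.s.t with ⟨w, r, t₁, t₀, v, B, G⟩ | ⟨r, t₁, t₀⟩ | ⟨Sp, u⟩ <;>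
  rcases hv' : vw x.s.p x.s.t' with ⟨w', r', t₁', t₀', v', B', G'⟩ | ⟨r', t₁', t₀'⟩ | ⟨Sp', u'⟩ <;>
  simp only [hv, hv'] at he
  · have hw := wt_of_all h hv
    have hw' := wt_of_all h' hv'
    simp only [List.mem_cons, List.not_mem_nil, or_false] at he
    rcases he with rfl | rfl | rfl | rfl
    · exact ⟨c1 hw, c1 hw'⟩
    · exact ⟨c1 hw, hw'⟩
    · exact ⟨hw, c1 hw'⟩
    · exact ⟨hw, hw'⟩
  · exact hB _ _ he
  · have hw := wt_of_all h hv
    simp only [List.mem_cons, List.not_mem_nil, or_false] at he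
    rcases he with rfl | rfl
    · exact ⟨c1 hw, hone⟩
    · exact ⟨hw, hone⟩
  · exact hA _ _ he
  · split_ifs at he with hj hl
    · simp only [List.mem_cons, List.not_mem_nil, or_false] at he
      rcases he with rfl | rfl <;> exact ⟨hone, hone⟩
    · exact hA _ _ he
    · exact hB _ _ he
  · split_ifs at he with hj
    · simp only [List.mem_cons, List.not_mem_nil, or_false] at he
      rcases he with rfl | rfl <;> exact ⟨hone, hone⟩
    · exact hA _ _ he
  · have hw' := wt_of_all h' hv'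
    simp only [List.mem_cons, List.not_mem_nil, or_false] at he
    rcases he with rfl | rfl
    · exact ⟨hone, c1 hw'⟩
    · exact ⟨hone, hw'⟩
  · split_ifs at he with hj
    · simp only [List.mem_cons, List.not_mem_nil, or_false] at he
      rcases he with rfl | rfl <;> exact ⟨hone, hone⟩
    · exact hB _ _ he
  · simp only [List.mem_cons, List.not_mem_nil, or_false] at he
    subst he
    exact ⟨hone, hone⟩

open Classical in
/-- **row sums, right item** -/
theorem row_le_right {x : XSt Λ κ} (h : x.s.t.All WN) (h' : x.s.t'.All WN) (j : Λ) :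
    ((nxJ stp dv j x).map fun q => q.1).sum ≤ 1 := by
  have e1 : ((nxJ stp dv j x).map fun q => q.1) =
      ((steps stp dv x).filter fun e => e.f' j).map fun e => e.a := by
    unfold nxJ
    rw [List.map_map]
    rfl
  rw [e1]
  refine (row_filter (steps0 stp dv x) (fun e => e.f' j) (fun e => e.a)
    fun e he => (steps0_nn h h' e he).1.1).trans ?_
  have hA : ∀ t₁ t₀ : DT Λ κ, ((oneA stp dv x t₁ t₀).map fun e => if e.f' j then e.a else 0).sum ≤ 1 := by
    intro t₁ t₀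
    unfold oneA
    split_ifs <;> simp
  have hB : ∀ t₁ t₀ : DT Λ κ, ((oneB stp dv x t₁ t₀).map fun e => if e.f' j then e.a else 0).sum ≤ 1 := by
    intro t₁ t₀
    unfold oneB
    split_ifs <;> simp <;> split_ifs <;> norm_num
  unfold steps0
  by_cases h1 : x.s.t.isLeaf ∨ x.s.t'.isLeaf
  · simp [h1]
  by_cases h2 : stp x.s
  · simp [h1, h2]
  rw [if_neg h1, if_neg h2]
  by_cases hPL : x.s.isPL
  · rw [if_pos hPL]
    obtain ⟨w, r, t₁, t₀, v, B, G, hv, et, -⟩ := St.isPL_cases hPL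
    simp only [preL, hv]
    split_ifs <;> simp
  by_cases hPR : x.s.isPR
  · rw [if_neg hPL, if_pos hPR]
    obtain ⟨w, r, t₁, t₀, v, B, G, hv, et, -⟩ := St.isPR_cases hPR
    simp only [preR, hv]
    split_ifs <;> by_cases hd : dv x.s.t' j <;> simp [hd]
  rw [if_neg hPL, if_neg hPR]
  rcases hv : vw x.s.p x.s.t with ⟨w, r, t₁, t₀, v, B, G⟩ | ⟨r, t₁, t₀⟩ | ⟨Sp, u⟩ <;>
  rcases hv' : vw x.s.p x.s.t' with ⟨w', r', t₁', t₀', v', B', G'⟩ | ⟨r', t₁', t₀'⟩ | ⟨Sp', u'⟩ <;>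
  simp only [hv, hv']
  · by_cases hd : dv x.s.t' j <;> simp [hd]
  · exact hB _ _
  · simp
  · exact hA _ _
  · split_ifs with hj hl
    · by_cases hd : dv x.s.t' j <;> simp [hd]
    · exact hA _ _
    · exact hB _ _
  · split_ifs with hj
    · by_cases hd : j ∈ Sp' <;> simp [hd]
    · exact hA _ _
  · by_cases hd : dv x.s.t' j <;> simp [hd]
  · split_ifs with hj
    · by_cases hd : dv x.s.t' j <;> simp [hd]
    · exact hB _ _
  · simp

open Classical in
/-- **row sums, left item** -/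
theorem row_le_left {x : XSt Λ κ} (h : x.s.t.All WN) (h' : x.s.t'.All WN) (j : Λ) :
    ((nxI stp dv j x).map fun q => q.1).sum ≤ 1 := by
  have e1 : ((nxI stp dv j x).map fun q => q.1) =
      ((steps stp dv x).filter fun e => e.f j).map fun e => e.a' := by
    unfold nxI
    rw [List.map_map]
    rfl
  rw [e1]
  refine (row_filter (steps0 stp dv x) (fun e => e.f j) (fun e => e.a')
    fun e he => (steps0_nn h h' e he).2.1).trans ?_
  have hA : ∀ t₁ t₀ : DT Λ κ, ((oneA stp dv x t₁ t₀).map fun e => if e.f j then e.a' else 0).sum ≤ 1 := by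
    intro t₁ t₀
    unfold oneA
    split_ifs <;> simp <;> split_ifs <;> norm_num
  have hB : ∀ t₁ t₀ : DT Λ κ, ((oneB stp dv x t₁ t₀).map fun e => if e.f j then e.a' else 0).sum ≤ 1 := by
    intro t₁ t₀
    unfold oneB
    split_ifs <;> simp
  unfold steps0
  by_cases h1 : x.s.t.isLeaf ∨ x.s.t'.isLeaf
  · simp [h1]
  by_cases h2 : stp x.s
  · simp [h1, h2]
  rw [if_neg h1, if_neg h2]
  by_cases hPL : x.s.isPL
  · rw [if_pos hPL]
    obtain ⟨w, r, t₁, t₀, v, B, G, hv, et, -⟩ := St.isPL_cases hPL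
    simp only [preL, hv]
    split_ifs <;> by_cases hd : dv x.s.t j <;> simp [hd]
  by_cases hPR : x.s.isPR
  · rw [if_neg hPL, if_pos hPR]
    obtain ⟨w, r, t₁, t₀, v, B, G, hv, et, -⟩ := St.isPR_cases hPR
    simp only [preR, hv]
    split_ifs <;> simp
  rw [if_neg hPL, if_neg hPR]
  rcases hv : vw x.s.p x.s.t with ⟨w, r, t₁, t₀, v, B, G⟩ | ⟨r, t₁, t₀⟩ | ⟨Sp, u⟩ <;>
  rcases hv' : vw x.s.p x.s.t' with ⟨w', r', t₁', t₀', v', B', G'⟩ | ⟨r', t₁', t₀'⟩ | ⟨Sp', u'⟩ <;>
  simp only [hv, hv']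
  · by_cases hd : dv x.s.t j <;> simp [hd]
  · exact hB _ _
  · by_cases hd : dv x.s.t j <;> simp [hd]
  · exact hA _ _
  · split_ifs with hj hl
    · by_cases hd : dv x.s.t j <;> simp [hd]
    · exact hA _ _
    · exact hB _ _
  · split_ifs with hj
    · by_cases hd : dv x.s.t j <;> simp [hd]
    · exact hA _ _
  · simp
  · split_ifs with hj
    · by_cases hd : j ∈ Sp <;> simp [hd]
    · exact hB _ _
  · simp

end Crest.Agent.R4P.OSWS245
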