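import Crest.Agent.R4.Om532
import Crest.Agent.R4P.Item758b

/-!
R4 (S0004), powers pass, port of helper532's `R4/Om532` (**class weights** of the items): the tree-free
part is exported from `R4.Om532`; `omw_TopW` without `Squarefree` (for the two-case `TopW` of
`R4P/Item758b`).
-/

set_option autoImplicit false
set_option linter.unusedSectionVars false

namespace Crest.Agent.R4P.Om532

open Crest.Agent.R4.Piece464 Crest.Agent.R4.Item464 Crest.Agent.R4.Ovl560
open Crest.Agent.R4P.Item758

export Crest.Agent.R4.Om532 (cls cls_nonneg cls_le_one cls_eq_zero cls_per cls_anti card_class_le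
  cls_sum mn_cls locw omw LW_locw locw_le_one omw_Wt omw_le_one prod_one_sub_ge phi_prod omw_mean
  nw_erase)

section
variable {good : Prop} {ret : Finset ℕ} {T : ℕ → Finset ℚ} {u : ℕ → ℤ → ℝ} {w : ℕ}

/-- product weights are periodic modulo `w / l` if `l² ∣ w` -/
theorem omw_Wt_div {l : ℕ} (hw : 0 < w) (hl : l.Prime) (hlw : l * l ∣ w)
    (hu : LW w.primeFactors u) : Wt (w / l) (omw good ret T u w) := by
  obtain ⟨m, hm⟩ := hlw
  have hwl : w / l = l * m := by
    rw [hm, mul_assoc]; exact Nat.mul_div_cancel_left _ hl.pos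
  have h := Wt_nw (LW_locw (ret := ret) (T := T) hu) (w := w / l) (fun p hp => by
    have hpp := Nat.prime_of_mem_primeFactors hp
    have hpw := Nat.dvd_of_mem_primeFactors hp
    rw [hwl]
    rw [hm, mul_assoc] at hpw
    rcases (Nat.Prime.dvd_mul hpp).1 hpw with h3 | h3
    · exact h3.mul_right _
    · exact h3)
  refine ⟨fun a => ?_, fun a => ?_⟩
  · unfold Crest.Agent.R4.Om532.omw; split_ifs
    · exact h.nonneg a
    · exact le_rfl
  · unfold Crest.Agent.R4.Om532.omw; split_ifs
    · exact h.per a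
    · rfl

/-- **TopW**: every prime of the modulus whose local weight loses at most `√l` -/
theorem omw_TopW (hw : 0 < w) (hw1 : w ≠ 1) (hu : LW w.primeFactors u)
    (hu1 : ∀ l ∈ w.primeFactors, ∀ a, u l a ≤ 1)
    (hmu : ∀ l ∈ w.primeFactors, l ∉ ret → 1 - 1 / (l : ℝ) ≤ mn u l)
    (hT : good → ∀ l ∈ w.primeFactors, l ∈ ret → ((T l).card : ℝ) ≤ Real.sqrt l) :
    TopW w (omw good ret T u w) := by
  by_cases hsq : Squarefree w
  · exact Or.inl (Crest.Agent.R4.Om532.omw_TopW hsq hw1 hu hu1 hmu hT)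
  · right
    rw [Nat.squarefree_iff_prime_squarefree] at hsq
    push Not at hsq
    obtain ⟨l, hl, hlw⟩ := hsq
    exact ⟨l, hl, (dvd_mul_right l l).trans hlw, omw_Wt_div hw hl hlw hu⟩

end

end Crest.Agent.R4P.Om532
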