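import Mathlib

/-!
R4 (S0004), powers pass, T9' (helper83, #15655): **nested exponent blocks**. Tree-free.

* `blk s k l q = (v_l(q) + s l) / 8^k` : block of the exponent of `l` at scale `k` (nested in `k`).
* `Bad s k0 K q` : some exponent is within `2^(k+1)` above a block boundary; `exists_shift` : there is
  a shift `s` such that the bad items of a finite set have mass `≤ 8 / 2^k0` of the total.
* `gap`, `cof_of_gap`, `cof_of_blk` : items which are not bad and have different blocks (scale `k`,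
  `l < 2^(k+1)`) have a cofactor `≥ 2^(2^(k+1))`.
* `tagv`, `tagN` : the tag of an item at the column `p` (scale `log2 p`) and a code in `ℕ`;
  `tag_sep`, `tagN_sep` : different tags at `p` ⟹ `2^p ≤` one of the cofactors; `tag_eq_of`: equal tags
  at `p ≤ y` ⟹ equal blocks at scale `log2 y` for all `l ≤ y`.
* `eb`, `uP`, `vP` : the decomposition `r / A = u * v` for the mates of an item.
-/

set_option autoImplicit false

namespace Crest.Agent.R4P.PowTag83

/-! ### blocks -/

/-- block of the exponent of `l` in `q` at scale `k` -/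
def blk (s : ℕ → ℕ) (k l q : ℕ) : ℕ := (q.factorization l + s l) / 8 ^ k

/-- `q` is bad at `(k, l)` : its exponent is within `2^(k+1)` above a block boundary -/
def BadAt (s : ℕ → ℕ) (k l q : ℕ) : Prop := (q.factorization l + s l) % 8 ^ k < 2 ^ (k + 1)

/-- bad items -/
def Bad (s : ℕ → ℕ) (k0 K q : ℕ) : Prop :=
  ∃ k, k0 ≤ k ∧ k ≤ K ∧ ∃ l, l < 2 ^ (k + 1) ∧ BadAt s k l q

lemma not_bad {s : ℕ → ℕ} {k0 K q k l : ℕ} (h : ¬ Bad s k0 K q) (h0 : k0 ≤ k) (h1 : k ≤ K)
    (hl : l < 2 ^ (k + 1)) : 2 ^ (k + 1) ≤ (q.factorization l + s l) % 8 ^ k := by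
  by_contra hc
  exact h ⟨k, h0, h1, l, hl, not_le.1 hc⟩

/-- nested blocks -/
lemma blk_nested {s : ℕ → ℕ} {k k' l q r : ℕ} (hk : k ≤ k') (h : blk s k l q = blk s k l r) :
    blk s k' l q = blk s k' l r := by
  obtain ⟨d, rfl⟩ := Nat.exists_eq_add_of_le hk
  unfold blk at h ⊢
  rw [pow_add, ← Nat.div_div_eq_div_mul, ← Nat.div_div_eq_div_mul, h]

/-- the gap between two different blocks -/
lemma gap {s : ℕ → ℕ} {k l q r : ℕ} (hr : 2 ^ (k + 1) ≤ (r.factorization l + s l) % 8 ^ k)
    (h : blk s k l q < blk s k l r) : q.factorization l + 2 ^ (k + 1) < r.factorization l := by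
  unfold blk at h
  have hL : 0 < 8 ^ k := by positivity
  set L := 8 ^ k with hLdef
  set a := q.factorization l + s l with ha
  set b := r.factorization l + s l with hb
  have h1 : a < L * (a / L) + L := by
    have := Nat.div_add_mod a L
    have h2 := Nat.mod_lt a hL
    omega
  have h3 : L * (a / L) + L ≤ L * (b / L) := by
    have : L * (a / L + 1) ≤ L * (b / L) := Nat.mul_le_mul_left _ h
    linarith [this, Nat.mul_succ L (a / L)]
  have h4 := Nat.div_add_mod b L
  omega

/-- a gap of the exponents gives a large cofactor -/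
lemma cof_of_gap {l j q r : ℕ} (hl : l.Prime) (hq : q ≠ 0) (hr : r ≠ 0)
    (h : q.factorization l + j ≤ r.factorization l) : l ^ j ∣ r / Nat.gcd r q := by
  have hg : Nat.gcd r q ≠ 0 := Nat.gcd_ne_zero_left hr
  have hd : Nat.gcd r q ∣ r := Nat.gcd_dvd_left r q
  have h0 : r / Nat.gcd r q ≠ 0 :=
    (Nat.div_pos (Nat.le_of_dvd (Nat.pos_of_ne_zero hr) hd) (Nat.pos_of_ne_zero hg)).ne'
  rw [hl.pow_dvd_iff_le_factorization h0, Nat.factorization_div hd, Nat.factorization_gcd hr hq]
  simp only [Finsupp.coe_tsub, Pi.sub_apply, Finsupp.inf_apply]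
  have : min (r.factorization l) (q.factorization l) ≤ q.factorization l := min_le_right _ _
  omega

lemma two_pow_le {l j m : ℕ} (hl : l.Prime) (hm : m ≠ 0) (h : l ^ j ∣ m) : 2 ^ j ≤ m :=
  (Nat.pow_le_pow_left hl.two_le j).trans (Nat.le_of_dvd (Nat.pos_of_ne_zero hm) h)

/-- **different blocks: a very large cofactor** -/
theorem cof_of_blk {s : ℕ → ℕ} {k0 K k l q r : ℕ} (hl : l.Prime) (hq : q ≠ 0) (hr : r ≠ 0)
    (hbq : ¬ Bad s k0 K q) (hbr : ¬ Bad s k0 K r) (h0 : k0 ≤ k) (h1 : k ≤ K)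
    (hlk : l < 2 ^ (k + 1)) (h : blk s k l q ≠ blk s k l r) :
    2 ^ 2 ^ (k + 1) ≤ q / Nat.gcd q r ∨ 2 ^ 2 ^ (k + 1) ≤ r / Nat.gcd r q := by
  have hne : ∀ a b : ℕ, a ≠ 0 → a / Nat.gcd a b ≠ 0 := fun a b ha =>
    (Nat.div_pos (Nat.le_of_dvd (Nat.pos_of_ne_zero ha) (Nat.gcd_dvd_left a b))
      (Nat.pos_of_ne_zero (Nat.gcd_ne_zero_left ha))).ne'
  rcases lt_or_gt_of_ne h with h2 | h2
  · right
    exact two_pow_le hl (hne r q hr) (cof_of_gap hl hq hr (gap (not_bad hbr h0 h1 hlk) h2).le)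
  · left
    exact two_pow_le hl (hne q r hq) (cof_of_gap hl hr hq (gap (not_bad hbq h0 h1 hlk) h2).le)

/-- different blocks: the exponents differ by more than `2^(k+1)` -/
theorem exp_of_blk {s : ℕ → ℕ} {k0 K k l q r : ℕ}
    (hbq : ¬ Bad s k0 K q) (hbr : ¬ Bad s k0 K r) (h0 : k0 ≤ k) (h1 : k ≤ K)
    (hlk : l < 2 ^ (k + 1)) (h : blk s k l q ≠ blk s k l r) :
    q.factorization l + 2 ^ (k + 1) < r.factorization l ∨
      r.factorization l + 2 ^ (k + 1) < q.factorization l := by
  rcases lt_or_gt_of_ne h with h2 | h2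
  · exact Or.inl (gap (not_bad hbr h0 h1 hlk) h2)
  · exact Or.inr (gap (not_bad hbq h0 h1 hlk) h2)

/-! ### tags -/

/-- scale of the prime `l` at the column `p` -/
def scl (p l : ℕ) : ℕ := max (Nat.log 2 p) (Nat.log 2 l)

/-- tag of an item at the column `p` -/
def tagv (s : ℕ → ℕ) (p q l : ℕ) : ℕ := blk s (scl p l) l q

/-- code of the tag for the primes `< n` -/
def tagN (s : ℕ → ℕ) (n p q : ℕ) : ℕ :=
  ∏ l ∈ (Finset.range n).filter Nat.Prime, l ^ tagv s p q l

lemma tagN_ne (s : ℕ → ℕ) (n p q : ℕ) : tagN s n p q ≠ 0 := by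
  unfold tagN
  exact Finset.prod_ne_zero_iff.2 fun l hl => pow_ne_zero _ (Finset.mem_filter.1 hl).2.ne_zero

lemma factorization_prod_pow {T : Finset ℕ} (hT : ∀ l ∈ T, l.Prime) (f : ℕ → ℕ) (l : ℕ) :
    (∏ m ∈ T, m ^ f m).factorization l = if l ∈ T then f l else 0 := by
  classical
  rw [Nat.factorization_prod (fun m hm => pow_ne_zero _ (hT m hm).ne_zero)]
  rw [Finsupp.finsetSum_apply]
  have h1 : ∀ m ∈ T, (m ^ f m).factorization l = if m = l then f l else 0 := by
    intro m hm
    rw [(hT m hm).factorization_pow]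
    rw [Finsupp.single_apply]
    by_cases h : m = l
    · rw [if_pos h, if_pos h, h]
    · rw [if_neg h, if_neg h]
  rw [Finset.sum_congr rfl h1, Finset.sum_ite_eq']

/-- the code determines the tag -/
lemma tagN_inj {s : ℕ → ℕ} {n p q r : ℕ} :
    tagN s n p q = tagN s n p r ↔ ∀ l : ℕ, l.Prime → l < n → tagv s p q l = tagv s p r l := by
  classical
  constructor
  · intro h l hl hln
    have h1 := congrArg (fun m => m.factorization l) h
    unfold tagN at h1
    rw [factorization_prod_pow (fun m hm => (Finset.mem_filter.1 hm).2),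
      factorization_prod_pow (fun m hm => (Finset.mem_filter.1 hm).2),
      if_pos (Finset.mem_filter.2 ⟨Finset.mem_range.2 hln, hl⟩),
      if_pos (Finset.mem_filter.2 ⟨Finset.mem_range.2 hln, hl⟩)] at h1
    exact h1
  · intro h
    unfold tagN
    refine Finset.prod_congr rfl fun l hl => ?_
    rw [h l (Finset.mem_filter.1 hl).2 (Finset.mem_range.1 (Finset.mem_filter.1 hl).1)]

/-- different tags at `p`: some exponent differs by more than `p` -/
theorem tag_exp {s : ℕ → ℕ} {k0 K p q r l : ℕ}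
    (hbq : ¬ Bad s k0 K q) (hbr : ¬ Bad s k0 K r) (h0 : k0 ≤ Nat.log 2 p)
    (hpK : Nat.log 2 p ≤ K) (hlK : Nat.log 2 l ≤ K) (h : tagv s p q l ≠ tagv s p r l) :
    q.factorization l + max p l < r.factorization l ∨
      r.factorization l + max p l < q.factorization l := by
  have h1 : l < 2 ^ (scl p l + 1) := by
    refine (Nat.lt_pow_succ_log_self (by norm_num) l).trans_le
      (Nat.pow_le_pow_right (by norm_num) ?_)
    unfold scl; omega
  have h2 : p < 2 ^ (scl p l + 1) := by
    refine (Nat.lt_pow_succ_log_self (by norm_num) p).trans_le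
      (Nat.pow_le_pow_right (by norm_num) ?_)
    unfold scl; omega
  have h4 : max p l < 2 ^ (scl p l + 1) := max_lt h2 h1
  rcases exp_of_blk (k := scl p l) hbq hbr (h0.trans (le_max_left _ _)) (max_le hpK hlK) h1 h with
    h3 | h3
  · left; exact (Nat.add_lt_add_left h4 _).trans h3
  · right; exact (Nat.add_lt_add_left h4 _).trans h3

/-- **different tags at `p`: `2^p ≤` one of the cofactors** -/
theorem tag_sep {s : ℕ → ℕ} {k0 K p q r l : ℕ} (hl : l.Prime) (hq : q ≠ 0) (hr : r ≠ 0)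
    (hbq : ¬ Bad s k0 K q) (hbr : ¬ Bad s k0 K r) (h0 : k0 ≤ Nat.log 2 p)
    (hpK : Nat.log 2 p ≤ K) (hlK : Nat.log 2 l ≤ K) (h : tagv s p q l ≠ tagv s p r l) :
    2 ^ p ≤ q / Nat.gcd q r ∨ 2 ^ p ≤ r / Nat.gcd r q := by
  have hne : ∀ a b : ℕ, a ≠ 0 → a / Nat.gcd a b ≠ 0 := fun a b ha =>
    (Nat.div_pos (Nat.le_of_dvd (Nat.pos_of_ne_zero ha) (Nat.gcd_dvd_left a b))
      (Nat.pos_of_ne_zero (Nat.gcd_ne_zero_left ha))).ne'
  rcases tag_exp hbq hbr h0 hpK hlK h with h3 | h3
  · right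
    exact two_pow_le hl (hne r q hr) (cof_of_gap hl hq hr (by omega))
  · left
    exact two_pow_le hl (hne q r hq) (cof_of_gap hl hr hq (by omega))

/-- the code version of `tag_sep` -/
theorem tagN_sep {s : ℕ → ℕ} {k0 K n p q r : ℕ} (hq : q ≠ 0) (hr : r ≠ 0)
    (hbq : ¬ Bad s k0 K q) (hbr : ¬ Bad s k0 K r) (h0 : k0 ≤ Nat.log 2 p)
    (hpK : Nat.log 2 p ≤ K) (hn : Nat.log 2 n ≤ K) (h : tagN s n p q ≠ tagN s n p r) :
    2 ^ p ≤ q / Nat.gcd q r ∨ 2 ^ p ≤ r / Nat.gcd r q := by
  by_contra hc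
  refine h (tagN_inj.2 fun l hl hln => ?_)
  by_contra hne
  exact hc (tag_sep hl hq hr hbq hbr h0 hpK ((Nat.log_mono_right hln.le).trans hn) hne)

/-- equal tags at `p ≤ y`: equal blocks at the scale of `y` -/
theorem tag_eq_of {s : ℕ → ℕ} {p y q r l : ℕ} (hpy : p ≤ y) (hly : l ≤ y)
    (h : tagv s p q l = tagv s p r l) : blk s (Nat.log 2 y) l q = blk s (Nat.log 2 y) l r :=
  blk_nested (max_le (Nat.log_mono_right hpy) (Nat.log_mono_right hly)) h

/-- tags get finer as the column decreases -/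
theorem tag_mono {s : ℕ → ℕ} {p p' q r l : ℕ} (hpp : p ≤ p')
    (h : tagv s p q l = tagv s p r l) : tagv s p' q l = tagv s p' r l :=
  blk_nested (by unfold scl; exact max_le_max (Nat.log_mono_right hpp) le_rfl) h

/-- tags only change at dyadic scale changes -/
theorem tag_congr {s : ℕ → ℕ} {p p' q : ℕ} (h : Nat.log 2 p = Nat.log 2 p') :
    tagv s p q = tagv s p' q := by
  funext l
  unfold tagv scl
  rw [h]

/-! ### the shift -/

/-- residues: at most `c * m` of the numbers `< L * m` -/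
lemma card_res (v L c m : ℕ) (_hL : 0 < L) :
    ((Finset.range (L * m)).filter fun a => (v + a) % L < c).card ≤ m * c := by
  classical
  have h : ((Finset.range (L * m)).filter fun a => (v + a) % L < c).card ≤
      ((Finset.range m) ×ˢ (Finset.range c)).card := by
    refine Finset.card_le_card_of_injOn (fun a => (a / L, (v + a) % L)) ?_ ?_
    · intro a ha
      obtain ⟨h1, h2⟩ := Finset.mem_filter.1 (Finset.mem_coe.1 ha)
      exact Finset.mem_product.2 ⟨Finset.mem_range.2
        (Nat.div_lt_of_lt_mul (Finset.mem_range.1 h1)), Finset.mem_range.2 h2⟩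
    · intro a _ b _ hab
      have h1 : a / L = b / L := congrArg Prod.fst hab
      have h2 : (v + a) % L = (v + b) % L := congrArg Prod.snd hab
      have h3 : a % L = b % L := by
        have h4 : v + a ≡ v + b [MOD L] := h2
        exact Nat.ModEq.add_left_cancel' v h4
      rw [← Nat.div_add_mod a L, ← Nat.div_add_mod b L, h1, h3]
  rwa [Finset.card_product, Finset.card_range, Finset.card_range] at h

open Classical in
/-- one prime: a shift with small bad mass -/
lemma exists_shift_one (S : Finset ℕ) (w : ℕ → ℝ) (hw : ∀ q ∈ S, 0 ≤ w q) (K l : ℕ)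
    (I : Finset ℕ) (hI : ∀ k ∈ I, k ≤ K) :
    ∃ a : ℕ, ∑ q ∈ S.filter (fun q => ∃ k ∈ I, (q.factorization l + a) % 8 ^ k < 2 ^ (k + 1)), w q ≤
      (∑ k ∈ I, (2 : ℝ) ^ (k + 1) / 8 ^ k) * ∑ q ∈ S, w q := by
  set N := 8 ^ K with hN
  have hN0 : 0 < N := by positivity
  have hsum : ∑ a ∈ Finset.range N,
      ∑ q ∈ S.filter (fun q => ∃ k ∈ I, (q.factorization l + a) % 8 ^ k < 2 ^ (k + 1)), w q ≤
      ∑ a ∈ Finset.range N, (∑ k ∈ I, (2 : ℝ) ^ (k + 1) / 8 ^ k) * ∑ q ∈ S, w q := by
    have e1 : ∀ a, ∑ q ∈ S.filter (fun q => ∃ k ∈ I, (q.factorization l + a) % 8 ^ k < 2 ^ (k + 1)), w q ≤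
        ∑ q ∈ S, ∑ k ∈ I, if (q.factorization l + a) % 8 ^ k < 2 ^ (k + 1) then w q else 0 := by
      intro a
      rw [Finset.sum_filter]
      refine Finset.sum_le_sum fun q hq => ?_
      split_ifs with h
      · obtain ⟨k, hk, hk2⟩ := h
        refine le_trans (le_of_eq ?_) (Finset.single_le_sum
          (f := fun k => if (q.factorization l + a) % 8 ^ k < 2 ^ (k + 1) then w q else 0) ?_ hk)
        · rw [if_pos hk2]
        · intro j _
          split_ifs
          · exact hw q hq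
          · exact le_rfl
      · refine Finset.sum_nonneg fun j _ => ?_
        split_ifs
        · exact hw q hq
        · exact le_rfl
    calc _ ≤ ∑ a ∈ Finset.range N, ∑ q ∈ S, ∑ k ∈ I,
          (if (q.factorization l + a) % 8 ^ k < 2 ^ (k + 1) then w q else 0) :=
          Finset.sum_le_sum fun a _ => e1 a
      _ = ∑ q ∈ S, ∑ k ∈ I, ∑ a ∈ Finset.range N,
          (if (q.factorization l + a) % 8 ^ k < 2 ^ (k + 1) then w q else 0) := by
          rw [Finset.sum_comm]
          refine Finset.sum_congr rfl fun q _ => ?_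
          rw [Finset.sum_comm]
      _ ≤ ∑ q ∈ S, ∑ k ∈ I, (N : ℝ) * ((2 : ℝ) ^ (k + 1) / 8 ^ k) * w q := by
          refine Finset.sum_le_sum fun q hq => Finset.sum_le_sum fun k hk => ?_
          rw [← Finset.sum_filter, Finset.sum_const, nsmul_eq_mul]
          refine mul_le_mul_of_nonneg_right ?_ (hw q hq)
          obtain ⟨d, hd⟩ := Nat.exists_eq_add_of_le (hI k hk)
          have hN' : N = 8 ^ k * 8 ^ d := by rw [hN, hd, pow_add]
          have h1 := card_res (q.factorization l) (8 ^ k) (2 ^ (k + 1)) (8 ^ d) (by positivity)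
          rw [← hN'] at h1
          have h2 : (((Finset.range N).filter fun a =>
              (q.factorization l + a) % 8 ^ k < 2 ^ (k + 1)).card : ℝ) ≤ (8 : ℝ) ^ d * (2 : ℝ) ^ (k + 1) := by
            exact_mod_cast h1
          refine h2.trans (le_of_eq ?_)
          rw [hN']
          push_cast
          field_simp
      _ = ∑ a ∈ Finset.range N, (∑ k ∈ I, (2 : ℝ) ^ (k + 1) / 8 ^ k) * ∑ q ∈ S, w q := by
          rw [Finset.sum_const, Finset.card_range, nsmul_eq_mul, Finset.mul_sum]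
          rw [Finset.mul_sum]
          refine Finset.sum_congr rfl fun q _ => ?_
          rw [← Finset.sum_mul, ← Finset.mul_sum]
          ring
  obtain ⟨a, _, ha⟩ := Finset.exists_le_of_sum_le (Finset.nonempty_range_iff.2 hN0.ne') hsum
  exact ⟨a, ha⟩

/-- the tail `∑_{k ≥ k0} 2^(k+1) 2^(k+1) / 8^k` -/
lemma tail_le (k0 K : ℕ) :
    ∑ k ∈ Finset.Icc k0 K, (2 : ℝ) ^ (k + 1) * 2 ^ (k + 1) / 8 ^ k ≤ 8 / 2 ^ k0 := by
  have key : ∀ m : ℕ, ∑ k ∈ Finset.Ico k0 (k0 + m), (2 : ℝ) ^ (k + 1) * 2 ^ (k + 1) / 8 ^ k +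
      8 / 2 ^ (k0 + m) = 8 / 2 ^ k0 := by
    intro m
    induction m with
    | zero => simp
    | succ m ih =>
      rw [← ih, ← add_assoc, Finset.sum_Ico_succ_top (by omega)]
      have h8 : (8 : ℝ) ^ (k0 + m) = 2 ^ (k0 + m) * 2 ^ (k0 + m) * 2 ^ (k0 + m) := by
        rw [← mul_pow, ← mul_pow]; norm_num
      rw [h8]
      have h2 : (2 : ℝ) ^ (k0 + m) ≠ 0 := by positivity
      rw [pow_succ]
      field_simp
      ring
  rcases lt_or_ge K k0 with h | h
  · rw [Finset.Icc_eq_empty (not_le.2 h), Finset.sum_empty]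
    positivity
  · obtain ⟨m, rfl⟩ := Nat.exists_eq_add_of_le h
    have h1 := key (m + 1)
    have h2 : Finset.Icc k0 (k0 + m) = Finset.Ico k0 (k0 + (m + 1)) := by
      ext x; simp only [Finset.mem_Icc, Finset.mem_Ico]; omega
    rw [h2]
    have h3 : (0 : ℝ) ≤ 8 / 2 ^ (k0 + (m + 1)) := by positivity
    linarith

open Classical in
/-- **the prune**: a shift such that the bad items have small mass -/
theorem exists_shift (S : Finset ℕ) (w : ℕ → ℝ) (hw : ∀ q ∈ S, 0 ≤ w q) (k0 K : ℕ) :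
    ∃ s : ℕ → ℕ, ∑ q ∈ S.filter (Bad s k0 K), w q ≤
      8 / 2 ^ k0 * ∑ q ∈ S, w q := by
  have hM : 0 ≤ ∑ q ∈ S, w q := Finset.sum_nonneg hw
  have h1 : ∀ l : ℕ, ∃ a : ℕ, ∑ q ∈ S.filter (fun q => ∃ k ∈ (Finset.Icc k0 K).filter
      (fun k => l < 2 ^ (k + 1)), (q.factorization l + a) % 8 ^ k < 2 ^ (k + 1)), w q ≤
      (∑ k ∈ (Finset.Icc k0 K).filter (fun k => l < 2 ^ (k + 1)), (2 : ℝ) ^ (k + 1) / 8 ^ k) *
        ∑ q ∈ S, w q := fun l => by
    obtain ⟨a, ha⟩ := exists_shift_one S w hw K l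
      ((Finset.Icc k0 K).filter (fun k => l < 2 ^ (k + 1))) fun k hk =>
      (Finset.mem_Icc.1 (Finset.mem_filter.1 hk).1).2
    exact ⟨a, by convert ha⟩
  choose s hs using h1
  refine ⟨s, ?_⟩
  have h2 : ∑ q ∈ S.filter (Bad s k0 K), w q ≤ ∑ l ∈ Finset.range (2 ^ (K + 1)),
      ∑ q ∈ S.filter (fun q => ∃ k ∈ (Finset.Icc k0 K).filter
      (fun k => l < 2 ^ (k + 1)), (q.factorization l + s l) % 8 ^ k < 2 ^ (k + 1)), w q := by
    simp only [Finset.sum_filter]
    rw [Finset.sum_comm]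
    refine Finset.sum_le_sum fun q hq => ?_
    split_ifs with hb
    · obtain ⟨k, hk0, hkK, l, hl, hbad⟩ := hb
      have hlr : l ∈ Finset.range (2 ^ (K + 1)) :=
        Finset.mem_range.2 (hl.trans_le (Nat.pow_le_pow_right (by norm_num) (by omega)))
      refine le_trans (le_of_eq ?_) (Finset.single_le_sum
        (f := fun l => if ∃ k ∈ (Finset.Icc k0 K).filter (fun k => l < 2 ^ (k + 1)),
          (q.factorization l + s l) % 8 ^ k < 2 ^ (k + 1) then w q else 0) ?_ hlr)
      · rw [if_pos ⟨k, Finset.mem_filter.2 ⟨Finset.mem_Icc.2 ⟨hk0, hkK⟩, hl⟩, hbad⟩]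
      · intro j _
        split_ifs
        · exact hw q hq
        · exact le_rfl
    · refine Finset.sum_nonneg fun j _ => ?_
      split_ifs
      · exact hw q hq
      · exact le_rfl
  refine h2.trans ((Finset.sum_le_sum fun l _ => hs l).trans ?_)
  rw [← Finset.sum_mul]
  refine mul_le_mul_of_nonneg_right (le_trans ?_ (tail_le k0 K)) hM
  simp only [Finset.sum_filter]
  rw [Finset.sum_comm]
  refine Finset.sum_le_sum fun k _ => ?_
  rw [← Finset.sum_filter, Finset.sum_const, nsmul_eq_mul]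
  have h3 : (((Finset.range (2 ^ (K + 1))).filter fun l => l < 2 ^ (k + 1)).card : ℝ) ≤
      2 ^ (k + 1) := by
    have : ((Finset.range (2 ^ (K + 1))).filter fun l => l < 2 ^ (k + 1)).card ≤
        (Finset.range (2 ^ (k + 1))).card := Finset.card_le_card fun l hl =>
      Finset.mem_range.2 (Finset.mem_filter.1 hl).2
    rw [Finset.card_range] at this
    exact_mod_cast this
  have h4 : (0 : ℝ) ≤ (2 : ℝ) ^ (k + 1) / 8 ^ k := by positivity
  calc _ ≤ (2 : ℝ) ^ (k + 1) * ((2 : ℝ) ^ (k + 1) / 8 ^ k) := mul_le_mul_of_nonneg_right h3 h4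
    _ = (2 : ℝ) ^ (k + 1) * 2 ^ (k + 1) / 8 ^ k := by ring

/-! ### the decomposition `r / A = u * v` -/

/-- exponent of `l` in the common part: (lower end of the block - 1) minus the exponent in `A` -/
def eb (s : ℕ → ℕ) (k A r l : ℕ) : ℕ := (8 ^ k * blk s k l r - s l - 1) - A.factorization l

section eb
variable {s : ℕ → ℕ} {k A r l : ℕ}

lemma eb_congr {r' : ℕ} (h : blk s k l r = blk s k l r') : eb s k A r l = eb s k A r' l := by
  unfold eb; rw [h]

lemma low_le : 8 ^ k * blk s k l r - s l ≤ r.factorization l := by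
  unfold blk
  have := Nat.mul_div_le (r.factorization l + s l) (8 ^ k)
  omega

lemma lt_low : r.factorization l < (8 ^ k * blk s k l r - s l) + 8 ^ k := by
  unfold blk
  have hL : 0 < 8 ^ k := by positivity
  have h1 := Nat.div_add_mod (r.factorization l + s l) (8 ^ k)
  have h2 := Nat.mod_lt (r.factorization l + s l) hL
  omega

lemma fac_div (hA : A ∣ r) : (r / A).factorization l = r.factorization l - A.factorization l := by
  rw [Nat.factorization_div hA]; rfl

lemma eb_le (hA : A ∣ r) : eb s k A r l ≤ (r / A).factorization l := by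
  rw [fac_div hA]
  have := low_le (s := s) (k := k) (r := r) (l := l)
  unfold eb
  omega

lemma sub_eb_le (hA : A ∣ r) : (r / A).factorization l - eb s k A r l ≤ 8 ^ k := by
  rw [fac_div hA]
  have h1 := low_le (s := s) (k := k) (r := r) (l := l)
  have h2 := lt_low (s := s) (k := k) (r := r) (l := l)
  unfold eb
  omega

lemma eb_lt (hA : A ∣ r) (h : 0 < (r / A).factorization l) :
    eb s k A r l < (r / A).factorization l := by
  rw [fac_div hA] at h ⊢
  have h1 := low_le (s := s) (k := k) (r := r) (l := l)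
  unfold eb
  omega

end eb

open Classical in
/-- common part of the mates -/
noncomputable def uP (y : ℕ) (sel : ℕ → Prop) (e : ℕ → ℕ) (w : ℕ) : ℕ :=
  (∏ l ∈ (Finset.range y).filter Nat.Prime, l ^ e l) *
    ∏ l ∈ w.primeFactors.filter (fun l => y ≤ l ∧ ¬ sel l), l ^ w.factorization l

open Classical in
/-- own part -/
noncomputable def vP (y : ℕ) (sel : ℕ → Prop) (e : ℕ → ℕ) (w : ℕ) : ℕ :=
  (∏ l ∈ (Finset.range y).filter Nat.Prime, l ^ (w.factorization l - e l)) *
    ∏ l ∈ w.primeFactors.filter (fun l => y ≤ l ∧ sel l), l ^ w.factorization l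

section uv
variable {y w : ℕ} {sel : ℕ → Prop} {e : ℕ → ℕ}

lemma uP_pos : 0 < uP y sel e w := by
  classical
  unfold uP
  refine Nat.mul_pos (Finset.prod_pos fun l hl => pow_pos (Finset.mem_filter.1 hl).2.pos _)
    (Finset.prod_pos fun l hl => pow_pos
      (Nat.prime_of_mem_primeFactors (Finset.mem_filter.1 hl).1).pos _)

lemma vP_pos : 0 < vP y sel e w := by
  classical
  unfold vP
  refine Nat.mul_pos (Finset.prod_pos fun l hl => pow_pos (Finset.mem_filter.1 hl).2.pos _)
    (Finset.prod_pos fun l hl => pow_pos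
      (Nat.prime_of_mem_primeFactors (Finset.mem_filter.1 hl).1).pos _)

/-- `w` = part below `y` times part above -/
lemma split_y (hw : w ≠ 0) : w = (∏ l ∈ (Finset.range y).filter Nat.Prime, l ^ w.factorization l) *
    ∏ l ∈ w.primeFactors.filter (fun l => y ≤ l), l ^ w.factorization l := by
  classical
  conv_lhs => rw [← Nat.prod_factorization_pow_eq_self hw]
  unfold Finsupp.prod
  rw [Nat.support_factorization,
    ← Finset.prod_filter_mul_prod_filter_not w.primeFactors (fun l => l < y)]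
  congr 1
  · refine Finset.prod_subset (fun l hl => ?_) fun l hl hl2 => ?_
    · obtain ⟨h1, h2⟩ := Finset.mem_filter.1 hl
      exact Finset.mem_filter.2 ⟨Finset.mem_range.2 h2, Nat.prime_of_mem_primeFactors h1⟩
    · obtain ⟨h1, h2⟩ := Finset.mem_filter.1 hl
      have h3 : ¬ l ∈ w.primeFactors := fun h4 =>
        hl2 (Finset.mem_filter.2 ⟨h4, Finset.mem_range.1 h1⟩)
      have h4 : w.factorization l = 0 := by
        by_contra hc
        exact h3 (by rw [← Nat.support_factorization]; exact Finsupp.mem_support_iff.2 hc)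
      simp only [h4, pow_zero]
  · refine Finset.prod_congr ?_ fun _ _ => rfl
    ext l
    simp only [Finset.mem_filter, not_lt]

/-- **the decomposition** -/
theorem uP_mul_vP (hw : w ≠ 0) (he : ∀ l : ℕ, l.Prime → l < y → e l ≤ w.factorization l) :
    uP y sel e w * vP y sel e w = w := by
  classical
  conv_rhs => rw [split_y (y := y) hw]
  unfold uP vP
  have h1 : (∏ l ∈ (Finset.range y).filter Nat.Prime, l ^ e l) *
      (∏ l ∈ (Finset.range y).filter Nat.Prime, l ^ (w.factorization l - e l)) =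
      ∏ l ∈ (Finset.range y).filter Nat.Prime, l ^ w.factorization l := by
    rw [← Finset.prod_mul_distrib]
    refine Finset.prod_congr rfl fun l hl => ?_
    rw [← pow_add, Nat.add_sub_cancel' (he l (Finset.mem_filter.1 hl).2
      (Finset.mem_range.1 (Finset.mem_filter.1 hl).1))]
  have h2 : (∏ l ∈ w.primeFactors.filter (fun l => y ≤ l ∧ ¬ sel l), l ^ w.factorization l) *
      (∏ l ∈ w.primeFactors.filter (fun l => y ≤ l ∧ sel l), l ^ w.factorization l) =
      ∏ l ∈ w.primeFactors.filter (fun l => y ≤ l), l ^ w.factorization l := by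
    rw [← Finset.prod_filter_mul_prod_filter_not (w.primeFactors.filter (fun l => y ≤ l)) sel,
      Finset.filter_filter, Finset.filter_filter, mul_comm]
  rw [← h1, ← h2]
  ring

lemma vP_dvd (hw : w ≠ 0) (he : ∀ l : ℕ, l.Prime → l < y → e l ≤ w.factorization l) :
    vP y sel e w ∣ w := Dvd.intro_left _ (uP_mul_vP (sel := sel) hw he)

/-- a selected prime of `w` divides the own part -/
lemma dvd_vP {l : ℕ} (hl : l.Prime) (hw : w ≠ 0) (hd : l ∣ w)
    (he : l < y → e l < w.factorization l) (hs : y ≤ l → sel l) : l ∣ vP y sel e w := by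
  classical
  unfold vP
  rcases lt_or_ge l y with h | h
  · refine Dvd.dvd.mul_right ?_ _
    refine Dvd.dvd.trans ?_ (Finset.dvd_prod_of_mem _
      (Finset.mem_filter.2 ⟨Finset.mem_range.2 h, hl⟩))
    exact dvd_pow_self l (by have := he h; omega)
  · refine Dvd.dvd.mul_left ?_ _
    have h1 : l ∈ w.primeFactors := Nat.mem_primeFactors.2 ⟨hl, hd, hw⟩
    refine Dvd.dvd.trans ?_ (Finset.dvd_prod_of_mem _ (Finset.mem_filter.2 ⟨h1, h, hs h⟩))
    refine dvd_pow_self l ?_
    rw [← Nat.support_factorization] at h1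
    exact Finsupp.mem_support_iff.1 h1

open Classical in
/-- **size of the own part** -/
theorem vP_le {L : ℕ} (hL : ∀ l : ℕ, l.Prime → l < y → w.factorization l - e l ≤ L)
    (h1 : ∀ l ∈ w.primeFactors, y ≤ l → sel l → w.factorization l ≤ 1) :
    vP y sel e w ≤ (∏ l ∈ (Finset.range y).filter Nat.Prime, l) ^ L *
      ∏ l ∈ w.primeFactors.filter (fun l => y ≤ l ∧ sel l), l := by
  unfold vP
  refine Nat.mul_le_mul ?_ ?_
  · rw [← Finset.prod_pow]
    refine Finset.prod_le_prod' fun l hl => ?_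
    obtain ⟨h2, h3⟩ := Finset.mem_filter.1 hl
    exact Nat.pow_le_pow_right h3.pos (hL l h3 (Finset.mem_range.1 h2))
  · refine Finset.prod_le_prod' fun l hl => ?_
    obtain ⟨h2, h3, h4⟩ := Finset.mem_filter.1 hl
    have h5 := h1 l h2 h3 h4
    calc l ^ w.factorization l ≤ l ^ 1 :=
          Nat.pow_le_pow_right (Nat.prime_of_mem_primeFactors h2).pos h5
      _ = l := pow_one l

/-- mates have the same common part -/
theorem uP_congr {w' : ℕ} {sel' : ℕ → Prop} {e' : ℕ → ℕ}
    (he : ∀ l : ℕ, l.Prime → l < y → e l = e' l)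
    (h : ∀ l : ℕ, l.Prime → y ≤ l → w.factorization l = w'.factorization l)
    (hs : ∀ l : ℕ, l.Prime → y ≤ l → l ∣ w → (sel l ↔ sel' l)) :
    uP y sel e w = uP y sel' e' w' := by
  classical
  unfold uP
  congr 1
  · exact Finset.prod_congr rfl fun l hl => by
      rw [he l (Finset.mem_filter.1 hl).2 (Finset.mem_range.1 (Finset.mem_filter.1 hl).1)]
  · have hmem : ∀ l, l.Prime → y ≤ l → (l ∈ w.primeFactors ↔ l ∈ w'.primeFactors) := by
      intro l hl hy
      rw [← Nat.support_factorization, ← Nat.support_factorization, Finsupp.mem_support_iff,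
        Finsupp.mem_support_iff, h l hl hy]
    have hset : w.primeFactors.filter (fun l => y ≤ l ∧ ¬ sel l) =
        w'.primeFactors.filter (fun l => y ≤ l ∧ ¬ sel' l) := by
      ext l
      simp only [Finset.mem_filter]
      constructor
      · rintro ⟨h1, h2, h3⟩
        have hl := Nat.prime_of_mem_primeFactors h1
        exact ⟨(hmem l hl h2).1 h1, h2, fun h4 =>
          h3 ((hs l hl h2 (Nat.dvd_of_mem_primeFactors h1)).2 h4)⟩
      · rintro ⟨h1, h2, h3⟩
        have hl := Nat.prime_of_mem_primeFactors h1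
        have h1' := (hmem l hl h2).2 h1
        exact ⟨h1', h2, fun h4 => h3 ((hs l hl h2 (Nat.dvd_of_mem_primeFactors h1')).1 h4)⟩
    rw [hset]
    refine Finset.prod_congr rfl fun l hl => ?_
    obtain ⟨h1, h2, -⟩ := Finset.mem_filter.1 hl
    rw [h l (Nat.prime_of_mem_primeFactors h1) h2]

end uv

/-- number of mates: `r = c * v r` with `v r ≤ V0` -/
lemma card_mates {T : Finset ℕ} {c V0 : ℕ} {v : ℕ → ℕ} (h : ∀ r ∈ T, r = c * v r)
    (hv : ∀ r ∈ T, v r ≤ V0) : T.card ≤ V0 + 1 := by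
  have h1 : T.card ≤ (Finset.range (V0 + 1)).card := by
    refine Finset.card_le_card_of_injOn v ?_ ?_
    · intro r hr
      exact Finset.mem_coe.2 (Finset.mem_range.2 (Nat.lt_succ_of_le (hv r hr)))
    · intro r hr r' hr' e
      rw [h r hr, h r' hr', e]
  rwa [Finset.card_range] at h1

end Crest.Agent.R4P.PowTag83
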