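import Mathlib
import Crest.Agent.R4P.PrunePar33

/-!
R4 (S0004), helper579: the UP primes of a pruned item are TAME above every real `y ≥ p0`:
`Σ_{l ∈ uq q, l > y} 1/l ≤ y^{-1/2}` (hypothesis of `WalkIT579.IS.tame`), and the same for `mt`.
-/

set_option autoImplicit false
open Finset

namespace Crest.Agent.R4P.PrTame579
open Crest.Agent.R4P.PrunePar33 Crest.Agent.R4P.Cnt588

lemma tail_of (M : Finset ℕ) {P : ℕ} (hP : 2 ≤ P) {y : ℝ} (hy : 2^12 ≤ y) (h1 : (P:ℝ) ≤ y) (h2 : y < P + 1)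
    (h : ∑ s ∈ M.filter (fun b => P < b), (s : ℝ) ^ (-(9/10:ℝ)) ≤ (P : ℝ) ^ (-((9/10:ℝ) / 2))) :
    ∑ l ∈ M.filter (fun l : ℕ => y < (l : ℝ)), (1 : ℝ) / l ≤ y ^ (-(1 / 2 : ℝ)) := by
  have hP0 : (0:ℝ) < P := by exact_mod_cast (by omega : 0 < P)
  have hy0 : 0 < y := lt_of_lt_of_le (by norm_num) hy
  have e : M.filter (fun l : ℕ => y < (l : ℝ)) ⊆ M.filter (fun b => P < b) := by
    intro l hl
    rw [Finset.mem_filter] at hl ⊢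
    exact ⟨hl.1, by exact_mod_cast h1.trans_lt hl.2⟩
  have s1 : ∑ l ∈ M.filter (fun l : ℕ => y < (l : ℝ)), (1 : ℝ) / l ≤
      ∑ l ∈ M.filter (fun b => P < b), (1 : ℝ) / l :=
    Finset.sum_le_sum_of_subset_of_nonneg e fun l _ _ => by positivity
  have s2 : ∑ l ∈ M.filter (fun b => P < b), (1 : ℝ) / l ≤
      ∑ s ∈ M.filter (fun b => P < b), (P:ℝ)^(-(1/10:ℝ)) * (s : ℝ) ^ (-(9/10:ℝ)) := by
    refine Finset.sum_le_sum fun l hl => ?_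
    have hlP : (P:ℝ) ≤ l := by exact_mod_cast (Finset.mem_filter.1 hl).2.le
    have hl0 : (0:ℝ) < l := hP0.trans_le hlP
    have e1 : (1:ℝ) / l = (l:ℝ)^(-(1/10:ℝ)) * (l:ℝ)^(-(9/10:ℝ)) := by
      rw [← Real.rpow_add hl0]
      norm_num
      rw [Real.rpow_neg_one]
    rw [e1]
    apply mul_le_mul_of_nonneg_right _ (Real.rpow_nonneg hl0.le _)
    exact Real.rpow_le_rpow_of_nonpos hP0 hlP (by norm_num)
  rw [← Finset.mul_sum] at s2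
  have s3 : (P:ℝ)^(-(1/10:ℝ)) * ∑ s ∈ M.filter (fun b => P < b), (s : ℝ) ^ (-(9/10:ℝ)) ≤
      (P:ℝ)^(-(11/20:ℝ)) := by
    refine (mul_le_mul_of_nonneg_left h (Real.rpow_nonneg hP0.le _)).trans (le_of_eq ?_)
    rw [← Real.rpow_add hP0]; norm_num
  have hPy : y / 2 ≤ P := by
    have : (2:ℝ) ≤ P := by exact_mod_cast hP
    linarith
  have s4 : (P:ℝ)^(-(11/20:ℝ)) ≤ (y/2)^(-(11/20:ℝ)) :=
    Real.rpow_le_rpow_of_nonpos (by positivity) hPy (by norm_num)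
  have s5 : (y/2)^(-(11/20:ℝ)) ≤ y^(-(1/2:ℝ)) := by
    rw [Real.div_rpow hy0.le (by norm_num), div_le_iff₀ (by positivity)]
    have e1 : y^(-(1/2:ℝ)) = y^(-(11/20:ℝ)) * y^(1/20:ℝ) := by
      rw [← Real.rpow_add hy0]; norm_num
    rw [e1, mul_assoc]
    have h3 : 1 ≤ y^(1/20:ℝ) * (2:ℝ)^(-(11/20:ℝ)) := by
      have h4 : ((2:ℝ)^12)^(1/20:ℝ) ≤ y^(1/20:ℝ) := Real.rpow_le_rpow (by norm_num) hy (by norm_num)
      have h5 : ((2:ℝ)^12)^(1/20:ℝ) = (2:ℝ)^(12/20:ℝ) := by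
        rw [← Real.rpow_natCast, ← Real.rpow_mul (by norm_num)]; norm_num
      rw [h5] at h4
      calc (1:ℝ) ≤ (2:ℝ)^(1/20:ℝ) := Real.one_le_rpow (by norm_num) (by norm_num)
        _ = (2:ℝ)^(12/20:ℝ) * (2:ℝ)^(-(11/20:ℝ)) := by
            rw [← Real.rpow_add (by norm_num)]; norm_num
        _ ≤ _ := mul_le_mul_of_nonneg_right h4 (by positivity)
    exact le_mul_of_one_le_right (Real.rpow_nonneg hy0.le _) h3
  exact s1.trans (s2.trans (s3.trans (s4.trans s5)))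

/-- **tameness of the up primes (and of the missing ties) of a pruned item** -/
theorem tame_of_Pr (B C : ℝ) (hB : C + 3 ≤ B) : ∃ p₁ : ℕ, ∀ p0 ≥ p₁, ∀ (t : IT) (q : ℕ), Pr t p0 C B q →
    ∀ y : ℝ, (p0:ℝ) ≤ y →
      ∑ l ∈ (t.uq q).filter (fun l : ℕ => y < (l : ℝ)), (1 : ℝ) / l ≤ y ^ (-(1 / 2 : ℝ)) ∧
      ∑ l ∈ (t.mt q).filter (fun l : ℕ => y < (l : ℝ)), (1 : ℝ) / l ≤ y ^ (-(1 / 2 : ℝ)) := by
  obtain ⟨p1, h1⟩ := Pr_tails B C 0 0 (9/10) (by norm_num) le_rfl le_rfl (by linarith)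
  refine ⟨p1 + 2^12, fun p0 hp0 t q hq y hy => ?_⟩
  have hp12 : 2^12 ≤ p0 := by omega
  have hp12' : (2:ℝ)^12 ≤ p0 := by exact_mod_cast hp12
  have hy12 : (2:ℝ)^12 ≤ y := hp12'.trans hy
  have hy0 : 0 ≤ y := le_trans (by norm_num) hy12
  have hP : p0 ≤ ⌊y⌋₊ := Nat.le_floor hy
  obtain ⟨a1, a2, -⟩ := h1 p0 (by omega) t q hq ⌊y⌋₊ hP
  have hP2 : 2 ≤ ⌊y⌋₊ := by omega
  exact ⟨tail_of _ hP2 hy12 (Nat.floor_le hy0) (Nat.lt_floor_add_one y) a2,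
    tail_of _ hP2 hy12 (Nat.floor_le hy0) (Nat.lt_floor_add_one y) a1⟩

end Crest.Agent.R4P.PrTame579
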