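import Mathlib

/-!
R4 (S0004), powers pass (helper746): **exponent blocks on double-exponential scales**.

Scales `ys p0 0 = p0`, `ys p0 (i+1) = (ys p0 i)^3`.  At scale `i` exponents are grouped in blocks of
length `ys p0 (i+1)` (shifted by `s i l`); the items whose exponent of some `l < ys p0 i` is within
`ys p0 i` of a block boundary are pruned.

* `exists_shift` : the pruned mass is at most `1/8` of the mass.
* `blkE_eq_of_close` : away from the boundaries close exponents are in the same block.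
* `blkE_lift` : equal blocks at a lower scale give equal blocks at all higher scales.
* `st_*` : the common part of the exponents of one block.
-/

set_option autoImplicit false

namespace Crest.Agent.R4P.PruneE746

/-- block index of the exponent `v` (length `L`, shift `s`) -/
def blkE (L s v : ℕ) : ℕ := (v + s) / L

/-- the exponent `v` is close to a block boundary -/
def NearB (L G s v : ℕ) : Prop := (v + s) % L < G ∨ L ≤ (v + s) % L + G

instance (L G s v : ℕ) : Decidable (NearB L G s v) := by unfold NearB; infer_instance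

/-- **close exponents are in the same block** away from the boundaries -/
theorem blkE_eq_of_close {L G s v w : ℕ} (h : ¬ NearB L G s v) (h1 : v ≤ w + G) (h2 : w ≤ v + G) :
    blkE L s v = blkE L s w := by
  unfold NearB at h
  push Not at h
  obtain ⟨h3, h4⟩ := h
  have hL : 0 < L := by omega
  unfold blkE
  have e := Nat.div_add_mod (v + s) L
  set a := (v + s) / L with ha
  set r := (v + s) % L with hr
  symm
  have hw1 : L * a ≤ w + s := by omega
  have hw2 : w + s < L * a + L := by omega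
  refine Nat.div_eq_of_lt_le ?_ ?_
  · rw [mul_comm]; exact hw1
  · rw [Nat.add_mul, one_mul, mul_comm]; exact hw2

/-- exponents of one block differ by less than `L` -/
theorem close_of_blkE {L s v w : ℕ} (hL : 0 < L) (h : blkE L s v = blkE L s w) : v < w + L := by
  unfold blkE at h
  have e1 := Nat.div_add_mod (v + s) L
  have e2 := Nat.div_add_mod (w + s) L
  have h1 := Nat.mod_lt (v + s) hL
  have h2 := Nat.mod_lt (w + s) hL
  rw [h] at e1
  omega

/-- the number of shifts for which `v` is close to a boundary -/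
lemma card_near {L G : ℕ} (hL : 0 < L) (v : ℕ) :
    ((Finset.range L).filter fun s => NearB L G s v).card ≤ 2 * G := by
  have h1 : ((Finset.range L).filter fun s => NearB L G s v).card ≤
      (Finset.range G ∪ Finset.Ico (L - G) L).card := by
    refine Finset.card_le_card_of_injOn (fun s => (v + s) % L) ?_ ?_
    · intro s hs
      have hs' := Finset.mem_filter.1 (Finset.mem_coe.1 hs)
      have h2 := Nat.mod_lt (v + s) hL
      rw [Finset.mem_coe, Finset.mem_union, Finset.mem_range, Finset.mem_Ico]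
      rcases hs'.2 with h | h
      · exact Or.inl h
      · refine Or.inr ⟨?_, h2⟩
        show L - G ≤ (v + s) % L
        omega
    · intro s hs t ht hst
      have hs' := Finset.mem_range.1 (Finset.mem_filter.1 (Finset.mem_coe.1 hs)).1
      have ht' := Finset.mem_range.1 (Finset.mem_filter.1 (Finset.mem_coe.1 ht)).1
      have h2 : (v + s) ≡ (v + t) [MOD L] := hst
      have h3 : s ≡ t [MOD L] := Nat.ModEq.add_left_cancel' v h2
      have h4 : s % L = t % L := h3
      rwa [Nat.mod_eq_of_lt hs', Nat.mod_eq_of_lt ht'] at h4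
  refine h1.trans ((Finset.card_union_le _ _).trans ?_)
  rw [Finset.card_range, Nat.card_Ico]
  omega

/-- **pigeonhole**: a shift for which few items are close to a boundary -/
theorem exists_one_shift {L G : ℕ} (hL : 0 < L) (S : Finset ℕ) (W : ℕ → ℝ) (hW : ∀ q, 0 ≤ W q)
    (v : ℕ → ℕ) : ∃ s < L, ∑ q ∈ S.filter (fun q => NearB L G s (v q)), W q ≤
      2 * (G : ℝ) / L * ∑ q ∈ S, W q := by
  by_contra hcon
  push Not at hcon
  have hL' : (0 : ℝ) < L := by exact_mod_cast hL
  have h1 : ∑ s ∈ Finset.range L, ∑ q ∈ S.filter (fun q => NearB L G s (v q)), W q =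
      ∑ q ∈ S, (((Finset.range L).filter fun s => NearB L G s (v q)).card : ℝ) * W q := by
    simp_rw [Finset.sum_filter]
    rw [Finset.sum_comm]
    refine Finset.sum_congr rfl fun q _ => ?_
    rw [← Finset.sum_filter, Finset.sum_const, nsmul_eq_mul]
  have h2 : ∑ q ∈ S, (((Finset.range L).filter fun s => NearB L G s (v q)).card : ℝ) * W q ≤
      ∑ q ∈ S, (2 * (G : ℝ)) * W q := by
    refine Finset.sum_le_sum fun q _ => mul_le_mul_of_nonneg_right ?_ (hW q)
    exact_mod_cast card_near hL (v q)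
  have h3 : ∑ _s ∈ Finset.range L, (2 * (G : ℝ) / L * ∑ q ∈ S, W q) <
      ∑ s ∈ Finset.range L, ∑ q ∈ S.filter (fun q => NearB L G s (v q)), W q :=
    Finset.sum_lt_sum_of_nonempty (Finset.nonempty_range_iff.2 hL.ne')
      fun s hs => hcon s (Finset.mem_range.1 hs)
  rw [Finset.sum_const, Finset.card_range, nsmul_eq_mul] at h3
  rw [h1] at h3
  have h4 : (L : ℝ) * (2 * (G : ℝ) / L * ∑ q ∈ S, W q) = ∑ q ∈ S, (2 * (G : ℝ)) * W q := by
    rw [← Finset.mul_sum]; field_simp
  linarith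

/-- the scales -/
def ys (p0 : ℕ) : ℕ → ℕ
  | 0 => p0
  | i + 1 => (ys p0 i) ^ 3

@[simp] lemma ys_zero (p0 : ℕ) : ys p0 0 = p0 := rfl
lemma ys_succ (p0 i : ℕ) : ys p0 (i + 1) = (ys p0 i) ^ 3 := rfl

lemma ys_ge {p0 : ℕ} (h : 4 ≤ p0) (i : ℕ) : 4 ≤ ys p0 i := by
  induction i with
  | zero => exact h
  | succ i ih =>
    rw [ys_succ]
    calc 4 ≤ ys p0 i := ih
      _ ≤ (ys p0 i) ^ 3 := Nat.le_self_pow (by norm_num) _

lemma ys_mono {p0 : ℕ} (_h : 4 ≤ p0) : Monotone (ys p0) :=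
  monotone_nat_of_le_succ fun i => by
    rw [ys_succ]; exact Nat.le_self_pow (by norm_num) _

/-- `ys p0 (i+1) ≥ 64 * 2 ^ i` -/
lemma ys_succ_ge {p0 : ℕ} (h : 4 ≤ p0) (i : ℕ) : 64 * 2 ^ i ≤ ys p0 (i + 1) := by
  induction i with
  | zero =>
    rw [ys_succ, ys_zero]
    calc 64 * 2 ^ 0 = 4 ^ 3 := by norm_num
      _ ≤ p0 ^ 3 := Nat.pow_le_pow_left h 3
  | succ i ih =>
    rw [ys_succ]
    have h4 := ys_ge h (i + 1)
    have h5 : ys p0 (i + 1) * 2 ≤ (ys p0 (i + 1)) ^ 3 := by
      have : (ys p0 (i + 1)) ^ 3 = ys p0 (i + 1) * (ys p0 (i + 1) * ys p0 (i + 1)) := by ring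
      rw [this]
      refine Nat.mul_le_mul_left _ ?_
      nlinarith
    calc 64 * 2 ^ (i + 1) = 64 * 2 ^ i * 2 := by ring
      _ ≤ ys p0 (i + 1) * 2 := Nat.mul_le_mul_right _ ih
      _ ≤ _ := h5

/-- the items which are pruned at scale `i` -/
def bad (p0 : ℕ) (s : ℕ → ℕ → ℕ) (v : ℕ → ℕ → ℕ) (i q : ℕ) : Prop :=
  ∃ l < ys p0 i, NearB (ys p0 (i + 1)) (ys p0 i) (s i l) (v l q)

open Classical in
/-- **the shifts and the pruned set** -/
theorem exists_shift {p0 : ℕ} (hp0 : 4 ≤ p0) (S : Finset ℕ) (W : ℕ → ℝ) (hW : ∀ q, 0 ≤ W q)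
    (v : ℕ → ℕ → ℕ) (I : ℕ) : ∃ (s : ℕ → ℕ → ℕ) (S2 : Finset ℕ), S2 ⊆ S ∧
      7 / 8 * ∑ q ∈ S, W q ≤ ∑ q ∈ S2, W q ∧ (∀ i l, s i l < ys p0 (i + 1)) ∧
      ∀ q ∈ S2, ∀ i, 1 ≤ i → i ≤ I → ¬ bad p0 s v i q := by
  have hpos : ∀ i, 0 < ys p0 (i + 1) := fun i => by have := ys_ge hp0 (i + 1); omega
  have hex := fun i l => exists_one_shift (L := ys p0 (i + 1)) (G := ys p0 i) (hpos i) S W hW (v l)
  choose s hs hm using hex
  set good : ℕ → Prop := fun q => ∀ i, 1 ≤ i → i ≤ I → ¬ bad p0 s v i q with hgood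
  refine ⟨s, S.filter good, Finset.filter_subset _ _, ?_, hs, fun q hq => (Finset.mem_filter.1 hq).2⟩
  set T := ∑ q ∈ S, W q with hT
  have hT0 : 0 ≤ T := Finset.sum_nonneg fun q _ => hW q
  set B : Finset (Σ _ : ℕ, ℕ) := (Finset.Icc 1 I).sigma fun i => Finset.range (ys p0 i) with hB
  -- mass of the removed items
  have hrem : ∑ q ∈ S.filter (fun q => ¬ good q), W q ≤
      ∑ x ∈ B, ∑ q ∈ S.filter (fun q => NearB (ys p0 (x.1 + 1)) (ys p0 x.1) (s x.1 x.2) (v x.2 q)),
        W q := by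
    have e : ∀ x : Σ _ : ℕ, ℕ,
        ∑ q ∈ S.filter (fun q => NearB (ys p0 (x.1 + 1)) (ys p0 x.1) (s x.1 x.2) (v x.2 q)), W q =
        ∑ q ∈ S, if NearB (ys p0 (x.1 + 1)) (ys p0 x.1) (s x.1 x.2) (v x.2 q) then W q else 0 := by
      intro x; rw [Finset.sum_filter]
    simp_rw [e]
    rw [Finset.sum_comm, Finset.sum_filter]
    refine Finset.sum_le_sum fun q _ => ?_
    have hnn : ∀ x ∈ B, 0 ≤
        (if NearB (ys p0 (x.1 + 1)) (ys p0 x.1) (s x.1 x.2) (v x.2 q) then W q else 0) := by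
      intro x _; split_ifs
      · exact hW q
      · exact le_rfl
    split_ifs with hg
    · exact Finset.sum_nonneg hnn
    · rw [hgood] at hg
      push Not at hg
      obtain ⟨i, h1, h2, h3⟩ := hg
      obtain ⟨l, hl, hn⟩ := h3
      have hx : (⟨i, l⟩ : Σ _ : ℕ, ℕ) ∈ B := by
        rw [hB, Finset.mem_sigma, Finset.mem_Icc, Finset.mem_range]
        exact ⟨⟨h1, h2⟩, hl⟩
      have h4 := Finset.single_le_sum hnn hx
      refine le_trans (le_of_eq ?_) h4
      exact (if_pos hn).symm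
  have hone : ∀ i, 1 ≤ i → ∑ l ∈ Finset.range (ys p0 i), ∑ q ∈ S.filter (fun q =>
      NearB (ys p0 (i + 1)) (ys p0 i) (s i l) (v l q)), W q ≤ 2 / (ys p0 i : ℝ) * T := by
    intro i _
    have hy : (0 : ℝ) < ys p0 i := by
      have := ys_ge hp0 i
      exact_mod_cast (by omega : 0 < ys p0 i)
    calc _ ≤ ∑ _l ∈ Finset.range (ys p0 i), 2 * (ys p0 i : ℝ) / (ys p0 (i + 1) : ℕ) * T :=
          Finset.sum_le_sum fun l _ => hm i l
      _ = 2 / (ys p0 i : ℝ) * T := by
          rw [Finset.sum_const, Finset.card_range, nsmul_eq_mul, ys_succ]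
          push_cast
          field_simp
  have hsum : ∑ i ∈ Finset.Icc 1 I, 2 / (ys p0 i : ℝ) ≤ 1 / 8 := by
    have h1 : ∀ n : ℕ, ∑ i ∈ Finset.Icc 1 n, 2 / (ys p0 i : ℝ) ≤ 1 / 16 * (1 - 1 / 2 ^ n) := by
      intro n
      induction n with
      | zero => simp
      | succ n ih =>
        rw [Finset.sum_Icc_succ_top (by omega)]
        have h2 := ys_succ_ge hp0 n
        have h3 : (64 : ℝ) * 2 ^ n ≤ ys p0 (n + 1) := by exact_mod_cast h2
        have h4 : (0 : ℝ) < 64 * 2 ^ n := by positivity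
        have h5 : 2 / (ys p0 (n + 1) : ℝ) ≤ 2 / (64 * 2 ^ n) :=
          div_le_div_of_nonneg_left (by norm_num) h4 h3
        have h6 : (2 : ℝ) / (64 * 2 ^ n) = 1 / 16 * (1 / 2 ^ (n + 1)) := by
          rw [pow_succ]; field_simp; norm_num
        have h7 : (1 : ℝ) / 2 ^ (n + 1) = 1 / 2 ^ n / 2 := by rw [pow_succ]; field_simp
        have h8 : (0 : ℝ) < 1 / 2 ^ n := by positivity
        rw [h6] at h5
        nlinarith
    have h9 : (0 : ℝ) < 1 / 2 ^ I := by positivity
    have := h1 I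
    linarith
  have htot : ∑ q ∈ S.filter (fun q => ¬ good q), W q ≤ 1 / 8 * T := by
    refine hrem.trans ?_
    rw [hB, Finset.sum_sigma]
    calc _ ≤ ∑ i ∈ Finset.Icc 1 I, 2 / (ys p0 i : ℝ) * T :=
          Finset.sum_le_sum fun i hi => hone i (Finset.mem_Icc.1 hi).1
      _ = (∑ i ∈ Finset.Icc 1 I, 2 / (ys p0 i : ℝ)) * T := by rw [Finset.sum_mul]
      _ ≤ _ := mul_le_mul_of_nonneg_right hsum hT0
  have hsplit := Finset.sum_filter_add_sum_filter_not S good W
  linarith

/-- **kept items: close exponents are in the same block** -/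
theorem blk_of_good {p0 : ℕ} {s : ℕ → ℕ → ℕ} {v : ℕ → ℕ → ℕ} {i q : ℕ} (h : ¬ bad p0 s v i q)
    {l : ℕ} (hl : l < ys p0 i) {w : ℕ} (h1 : v l q ≤ w + ys p0 i) (h2 : w ≤ v l q + ys p0 i) :
    blkE (ys p0 (i + 1)) (s i l) (v l q) = blkE (ys p0 (i + 1)) (s i l) w :=
  blkE_eq_of_close (fun hn => h ⟨l, hl, hn⟩) h1 h2

/-- **equal blocks at a lower scale `i'` give equal blocks at all higher scales** -/
theorem blkE_lift {p0 : ℕ} (hp0 : 4 ≤ p0) {s : ℕ → ℕ → ℕ} {v : ℕ → ℕ → ℕ} {i i' q r l : ℕ}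
    (hq : ¬ bad p0 s v i q) (hl : l < ys p0 i) (hi : i' < i)
    (h : blkE (ys p0 (i' + 1)) (s i' l) (v l q) = blkE (ys p0 (i' + 1)) (s i' l) (v l r)) :
    blkE (ys p0 (i + 1)) (s i l) (v l q) = blkE (ys p0 (i + 1)) (s i l) (v l r) := by
  have hL : 0 < ys p0 (i' + 1) := by have := ys_ge hp0 (i' + 1); omega
  have hle : ys p0 (i' + 1) ≤ ys p0 i := ys_mono hp0 hi
  refine blk_of_good hq hl ?_ ?_
  · have := close_of_blkE hL h; omega
  · have := close_of_blkE hL h.symm; omega

/-- the common part of the exponents of one block -/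
def stE (L s E : ℕ) : ℕ := L * E - s - 1

lemma stE_le {L s v : ℕ} : stE L s (blkE L s v) ≤ v := by
  unfold stE blkE
  have := Nat.div_mul_le_self (v + s) L
  rw [mul_comm] at this
  omega

/-- the remaining exponent is positive if `v` is (`s < L`) -/
lemma one_le_sub_stE {L s v : ℕ} (hv : 1 ≤ v) : 1 ≤ v - stE L s (blkE L s v) := by
  unfold stE blkE
  have := Nat.div_mul_le_self (v + s) L
  rw [mul_comm] at this
  omega

/-- the remaining exponent is at most `L` -/
lemma sub_stE_le {L s v : ℕ} (hL : 0 < L) : v - stE L s (blkE L s v) ≤ L := by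
  unfold stE blkE
  have e := Nat.div_add_mod (v + s) L
  have h := Nat.mod_lt (v + s) hL
  omega

/-! ### the decomposition of the moduli -/

/-- common part below `y` of the items with blocks `E` -/
def uE (y L : ℕ) (s E : ℕ → ℕ) : ℕ :=
  ∏ l ∈ (Finset.range y).filter Nat.Prime, l ^ stE L (s l) (E l)

/-- remaining part below `y` -/
def vE (y L : ℕ) (s : ℕ → ℕ) (n : ℕ) : ℕ :=
  ∏ l ∈ (Finset.range y).filter Nat.Prime,
    l ^ (n.factorization l - stE L (s l) (blkE L (s l) (n.factorization l)))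

lemma uE_pos (y L : ℕ) (s E : ℕ → ℕ) : 0 < uE y L s E :=
  Finset.prod_pos fun _ hl => pow_pos (Finset.mem_filter.1 hl).2.pos _

lemma vE_pos (y L : ℕ) (s : ℕ → ℕ) (n : ℕ) : 0 < vE y L s n :=
  Finset.prod_pos fun _ hl => pow_pos (Finset.mem_filter.1 hl).2.pos _

/-- `uE * vE` = the `y`-smooth part of `n` -/
theorem uE_mul_vE {y L : ℕ} {s E : ℕ → ℕ} {n : ℕ}
    (hE : ∀ l < y, l.Prime → E l = blkE L (s l) (n.factorization l)) :
    uE y L s E * vE y L s n = ∏ l ∈ (Finset.range y).filter Nat.Prime, l ^ n.factorization l := by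
  unfold uE vE
  rw [← Finset.prod_mul_distrib]
  refine Finset.prod_congr rfl fun l hl => ?_
  obtain ⟨h1, h2⟩ := Finset.mem_filter.1 hl
  rw [hE l (Finset.mem_range.1 h1) h2, ← pow_add]
  congr 1
  have := stE_le (L := L) (s := s l) (v := n.factorization l)
  omega

/-- every prime `l < y` of `n` divides `vE` -/
theorem dvd_vE {y L : ℕ} {s : ℕ → ℕ} {n l : ℕ} (hl : l.Prime) (hly : l < y) (h0 : n ≠ 0)
    (hd : l ∣ n) : l ∣ vE y L s n := by
  have h1 : 1 ≤ n.factorization l := (hl.dvd_iff_one_le_factorization h0).1 hd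
  have h2 := one_le_sub_stE (L := L) (s := s l) h1
  refine (dvd_pow_self l (by omega)).trans (Finset.dvd_prod_of_mem _
    (Finset.mem_filter.2 ⟨Finset.mem_range.2 hly, hl⟩))

/-- **size**: `vE ≤ (∏_{l<y} l) ^ L` -/
theorem vE_le {y L : ℕ} (hL : 0 < L) (s : ℕ → ℕ) (n : ℕ) :
    vE y L s n ≤ (∏ l ∈ (Finset.range y).filter Nat.Prime, l) ^ L := by
  unfold vE
  rw [← Finset.prod_pow]
  refine Finset.prod_le_prod' fun l hl => ?_
  exact Nat.pow_le_pow_right (Finset.mem_filter.1 hl).2.pos (sub_stE_le hL)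

end Crest.Agent.R4P.PruneE746
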