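import Crest.Agent.R4P.ResDef753

/-!
# R4 powers, helper753 (after helper927): DISINTEGRATION of the pair walk of `R4P/Walk560`

* `Mv` : the move of one side in a step; `steps0_mv` : all steps consist of two moves.
* `steps_w`, `steps_all`, `step_right`, `step_left`, `res_right`, `res_left`, `WS_eq_H`.
* `XI.next`, `steps_p`, `row_J`, `row_I` : the shapes of the item walks, `wtJ`, `wtI`.
-/

set_option autoImplicit false
set_option linter.unusedSectionVars false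
set_option linter.unusedVariables false
set_option linter.unusedSimpArgs false

namespace Crest.Agent.R4P.Res927

open Crest.Agent.R4.Tour104 Crest.Agent.R4.Tour758 Crest.Agent.R4.Avg758 Crest.Agent.R4.Clos758
open Crest.Agent.R4.ClosL758 Crest.Agent.R4.ClosG758 Crest.Agent.R4.ClosR758
open Crest.Agent.R4P.Walk560 Crest.Agent.R4.AdvWin560 Crest.Agent.R4.AdvWin560.WT
open Crest.Agent.R4.Own927

variable {Λ κ : Type*} [Fintype Λ] [DecidableEq Λ] [Fintype κ] [DecidableEq κ] [WRel κ]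

/-- the move of one side: node, part, missing set, weight, filter, new node, part, missing set -/
inductive Mv (dv : DT Λ κ → Λ → Prop) (p : ℕ) (t : DT Λ κ) (A : Finset Λ) (u : Finset ℕ) :
    ℝ → (Λ → Prop) → DT Λ κ → Finset Λ → Finset ℕ → Prop
  | stay : Mv dv p t A u 1 (fun _ => True) t A u
  | br1 {w : ℝ} {r : Λ → κ} {t₁ t₀ : DT Λ κ} {v : Λ → ℝ → ℝ} {B G : κ → ℝ → ℝ}
      (h : vw p t = .br w r t₁ t₀ v B G) : Mv dv p t A u (1 - w) (dv t) t₁ A u
  | br0 {w : ℝ} {r : Λ → κ} {t₁ t₀ : DT Λ κ} {v : Λ → ℝ → ℝ} {B G : κ → ℝ → ℝ}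
      (h : vw p t = .br w r t₁ t₀ v B G) : Mv dv p t A u w (fun j => ¬ dv t j) t₀ A (insert p u)
  | ad1 {r : Λ → κ} {t₁ t₀ : DT Λ κ} (h : vw p t = .add r t₁ t₀) :
      Mv dv p t A u 1 (dv t) t₁ A u
  | ad0 {r : Λ → κ} {t₁ t₀ : DT Λ κ} (h : vw p t = .add r t₁ t₀) :
      Mv dv p t A u 1 (fun j => ¬ dv t j) t₀ A u
  | up {Sp : Finset Λ} {c : DT Λ κ} (h : vw p t = .up Sp c) : Mv dv p t A u 1 (fun _ => True) c A u
  | upI {Sp : Finset Λ} {c : DT Λ κ} (h : vw p t = .up Sp c) :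
      Mv dv p t A u 1 (fun j => j ∈ Sp) c (A ∩ Sp) u
  | upD {Sp : Finset Λ} {c : DT Λ κ} (h : vw p t = .up Sp c) :
      Mv dv p t A u 1 (fun j => j ∉ Sp) c (A \ Sp) u

/-- the two moves of a step -/
structure MvS (dv : DT Λ κ → Λ → Prop) (x : XSt Λ κ) (e : XStep Λ κ) : Prop where
  L : Mv dv x.s.p x.s.t x.s.A x.u e.a e.f e.y.s.t e.y.s.A e.y.u
  R : Mv dv x.s.p x.s.t' x.s.A' x.u' e.a' e.f' e.y.s.t' e.y.s.A' e.y.u'
  n : e.y.n = max x.s.p (e.y.s.p + 1)

lemma oneA_mv {stp : Stp Λ κ} {dv : DT Λ κ → Λ → Prop} {x : XSt Λ κ} {r : Λ → κ} {t₁ t₀ : DT Λ κ}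
    (h : vw x.s.p x.s.t = .add r t₁ t₀) : ∀ e ∈ oneA stp dv x t₁ t₀, MvS dv x e := by
  classical
  intro e he
  unfold oneA at he
  split_ifs at he <;> rw [List.mem_singleton] at he <;> subst he
  · exact ⟨.ad1 h, .stay, rfl⟩
  · exact ⟨.ad0 h, .stay, rfl⟩

lemma oneB_mv {stp : Stp Λ κ} {dv : DT Λ κ → Λ → Prop} {x : XSt Λ κ} {r : Λ → κ} {t₁ t₀ : DT Λ κ}
    (h : vw x.s.p x.s.t' = .add r t₁ t₀) : ∀ e ∈ oneB stp dv x t₁ t₀, MvS dv x e := by
  classical
  intro e he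
  unfold oneB at he
  split_ifs at he <;> rw [List.mem_singleton] at he <;> subst he
  · exact ⟨.stay, .ad1 h, rfl⟩
  · exact ⟨.stay, .ad0 h, rfl⟩

theorem steps0_mv {stp : Stp Λ κ} {dv : DT Λ κ → Λ → Prop} {x : XSt Λ κ} :
    ∀ e ∈ steps0 stp dv x, MvS dv x e := by
  classical
  intro e he
  by_cases h1 : x.s.t.isLeaf ∨ x.s.t'.isLeaf
  · simp [steps0, h1] at he
  by_cases h2 : stp x.s
  · simp [steps0, h1, h2] at he
  by_cases hL : x.s.isPL
  · have e2 : steps0 stp dv x = preL dv x := by simp [steps0, h1, h2, hL]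
    rw [e2] at he
    obtain ⟨w, r, t₁, t₀, v, B, G, hv, -, -⟩ := St.isPL_cases hL
    simp only [preL, hv] at he
    split_ifs at he <;> simp only [List.mem_cons, List.not_mem_nil, or_false] at he <;>
      rcases he with rfl | rfl
    · exact ⟨.br1 hv, .stay, rfl⟩
    · exact ⟨.br0 hv, .stay, rfl⟩
    · exact ⟨.br1 hv, .stay, rfl⟩
    · exact ⟨.br0 hv, .stay, rfl⟩
  by_cases hR : x.s.isPR
  · have e2 : steps0 stp dv x = preR dv x := by simp [steps0, h1, h2, hL, hR]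
    rw [e2] at he
    obtain ⟨w, r, t₁, t₀, v, B, G, hv, -, -⟩ := St.isPR_cases hR
    simp only [preR, hv] at he
    split_ifs at he <;> simp only [List.mem_cons, List.not_mem_nil, or_false] at he <;>
      rcases he with rfl | rfl
    · exact ⟨.stay, .br1 hv, rfl⟩
    · exact ⟨.stay, .br0 hv, rfl⟩
    · exact ⟨.stay, .br1 hv, rfl⟩
    · exact ⟨.stay, .br0 hv, rfl⟩
  rcases hv : vw x.s.p x.s.t with ⟨w, r, t₁, t₀, v, B₁, G⟩ | ⟨r, t₁, t₀⟩ | ⟨Sp, u⟩ <;>
  rcases hv' : vw x.s.p x.s.t' with ⟨w', r', t₁', t₀', v', B', G'⟩ | ⟨r', t₁', t₀'⟩ | ⟨Sp', u'⟩ <;>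
  simp only [steps0, h1, h2, hL, hR, hv, hv', if_false] at he
  · simp only [List.mem_cons, List.not_mem_nil, or_false] at he
    rcases he with rfl | rfl | rfl | rfl
    · exact ⟨.br1 hv, .br1 hv', rfl⟩
    · exact ⟨.br1 hv, .br0 hv', rfl⟩
    · exact ⟨.br0 hv, .br1 hv', rfl⟩
    · exact ⟨.br0 hv, .br0 hv', rfl⟩
  · exact oneB_mv hv' e he
  · simp only [List.mem_cons, List.not_mem_nil, or_false] at he
    rcases he with rfl | rfl
    · exact ⟨.br1 hv, .up hv', rfl⟩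
    · exact ⟨.br0 hv, .up hv', rfl⟩
  · exact oneA_mv hv e he
  · split_ifs at he
    · simp only [List.mem_cons, List.not_mem_nil, or_false] at he
      rcases he with rfl | rfl
      · exact ⟨.ad1 hv, .ad1 hv', rfl⟩
      · exact ⟨.ad0 hv, .ad0 hv', rfl⟩
    · exact oneA_mv hv e he
    · exact oneB_mv hv' e he
  · split_ifs at he
    · simp only [List.mem_cons, List.not_mem_nil, or_false] at he
      rcases he with rfl | rfl
      · exact ⟨.ad1 hv, .upI hv', rfl⟩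
      · exact ⟨.ad0 hv, .upD hv', rfl⟩
    · exact oneA_mv hv e he
  · simp only [List.mem_cons, List.not_mem_nil, or_false] at he
    rcases he with rfl | rfl
    · exact ⟨.up hv, .br1 hv', rfl⟩
    · exact ⟨.up hv, .br0 hv', rfl⟩
  · split_ifs at he
    · simp only [List.mem_cons, List.not_mem_nil, or_false] at he
      rcases he with rfl | rfl
      · exact ⟨.upI hv, .ad1 hv', rfl⟩
      · exact ⟨.upD hv, .ad0 hv', rfl⟩
    · exact oneB_mv hv' e he
  · rw [List.mem_singleton] at he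
    subst he
    exact ⟨.up hv, .up hv', rfl⟩

lemma steps_mv {stp : Stp Λ κ} {dv : DT Λ κ → Λ → Prop} {x : XSt Λ κ} {e : XStep Λ κ}
    (he : e ∈ steps stp dv x) : MvS dv x e ∧ e.a ≠ 0 ∧ e.a' ≠ 0 := by
  have := mem_steps.1 he
  exact ⟨steps0_mv e this.1, left_ne_zero_of_mul this.2, right_ne_zero_of_mul this.2⟩

/-! ### one side -/

section side
variable {dv : DT Λ κ → Λ → Prop} {p : ℕ} {t : DT Λ κ} {A : Finset Λ} {u : Finset ℕ} {a : ℝ}
  {f : Λ → Prop} {t₁ : DT Λ κ} {A₁ : Finset Λ} {u₁ : Finset ℕ} {m : DT Λ κ → Λ → ℝ}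

lemma WN.nn {p : ℕ} {w : ℝ} {r : Λ → κ} {t₁ t₀ : DT Λ κ} {v : Λ → ℝ → ℝ} {B G : κ → ℝ → ℝ}
    (h : WN (DT.br p w r t₁ t₀ v B G)) : 0 ≤ w ∧ w < 1 := by
  rcases h with h | ⟨h1, h2, -⟩
  · rw [h]; exact ⟨le_rfl, one_pos⟩
  · exact ⟨h1.le, h2⟩

lemma Mv.nn (h : Mv dv p t A u a f t₁ A₁ u₁) (hw : t.All WN) : 0 ≤ a := by
  cases h with
  | br1 h => rw [vw_br h] at hw; linarith [(WN.nn hw.self).2]
  | br0 h => rw [vw_br h] at hw; exact (WN.nn hw.self).1
  | _ => exact zero_le_one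

lemma Mv.sub (h : Mv dv p t A u a f t₁ A₁ u₁) : A₁ ⊆ A := by
  cases h with
  | upI h => exact Finset.inter_subset_left
  | upD h => exact Finset.sdiff_subset
  | _ => exact Finset.Subset.refl _

lemma Mv.all {F : DT Λ κ → Prop} (h : Mv dv p t A u a f t₁ A₁ u₁) (hF : t.All F) : t₁.All F := by
  cases h with
  | stay => exact hF
  | br1 h => rw [vw_br h] at hF; exact hF.2.1
  | br0 h => rw [vw_br h] at hF; exact hF.2.2
  | ad1 h => rw [vw_add h] at hF; exact hF.2.1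
  | ad0 h => rw [vw_add h] at hF; exact hF.2.2
  | up h => exact vw_up_all h hF
  | upI h => exact vw_up_all h hF
  | upD h => exact vw_up_all h hF

lemma vw_up_m {p : ℕ} {t : DT Λ κ} {Sp : Finset Λ} {c : DT Λ κ} (h : vw p t = .up Sp c)
    (ht : IM dv m t) (j : Λ) : m c j ≤ m t j := by
  rcases vw_up h with rfl | ⟨-, rfl, -⟩
  · exact ht.st j
  · exact le_rfl

open Classical in
/-- **item masses along a move** -/
lemma Mv.mass (h : Mv dv p t A u a f t₁ A₁ u₁) (ht : t.All (IM dv m)) (j : Λ) (hj : j ∈ A) :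
    a * (if j ∈ A₁ then m t₁ j else 0) ≤ if f j then m t j else 0 := by
  cases h with
  | stay => simp [hj]
  | br1 h =>
    rw [vw_br h] at ht
    have a := ht.self.st j
    rw [← vw_br h] at a
    by_cases hd : dv t j
    · obtain ⟨a1, a2⟩ := a.1 hd
      simp [hj, hd, a1, a2]
    · obtain ⟨a1, a2⟩ := a.2 hd
      simp [hj, hd, a1, a2]
  | br0 h =>
    rw [vw_br h] at ht
    have a := ht.self.st j
    rw [← vw_br h] at a
    by_cases hd : dv t j
    · obtain ⟨a1, a2⟩ := a.1 hd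
      simp [hj, hd, a1, a2]
    · obtain ⟨a1, a2⟩ := a.2 hd
      simp [hj, hd, a1, a2]
  | ad1 h =>
    rw [vw_add h] at ht
    have a := ht.self.st j
    rw [← vw_add h] at a
    by_cases hd : dv t j
    · obtain ⟨a1, a2⟩ := a.1 hd
      simp [hj, hd, a1, a2]
    · obtain ⟨a1, a2⟩ := a.2 hd
      simp [hj, hd, a1, a2]
  | ad0 h =>
    rw [vw_add h] at ht
    have a := ht.self.st j
    rw [← vw_add h] at a
    by_cases hd : dv t j
    · obtain ⟨a1, a2⟩ := a.1 hd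
      simp [hj, hd, a1, a2]
    · obtain ⟨a1, a2⟩ := a.2 hd
      simp [hj, hd, a1, a2]
  | up h => simpa [hj] using vw_up_m h ht.self j
  | @upI Sp c h =>
    have := vw_up_m h ht.self j
    by_cases hS : j ∈ Sp <;> simp [hj, hS, this]
  | @upD Sp c h =>
    have := vw_up_m h ht.self j
    by_cases hS : j ∈ Sp <;> simp [hj, hS, this]

lemma vw_up_top {p : ℕ} {t : DT Λ κ} {Sp : Finset Λ} {c : DT Λ κ} (h : vw p t = .up Sp c)
    (hp : 0 < p) (htp : t.top ≤ p) (hc : t.Col (t.top + 1)) :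
    c.Col (c.top + 1) ∧ c.top ≤ t.top ∧ c.top < p := by
  rcases vw_up h with rfl | ⟨-, rfl, h2 | h2⟩
  · have h3 : c.Col p := hc.2.2
    have h4 := h3.top_lt hp
    exact ⟨h3.lower (Nat.lt_succ_self _), h4.le, h4⟩
  · have h3 : c.top = 0 := by
      cases c with
      | leaf r f => rfl
      | br _ _ _ _ _ _ _ _ => exact absurd h2 id
      | add _ _ _ _ => exact absurd h2 id
      | up _ _ _ => exact absurd h2 id
    exact ⟨hc, le_rfl, by rw [h3]; exact hp⟩
  · exact ⟨hc, le_rfl, lt_of_le_of_ne htp h2⟩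

/-- columns along a move -/
lemma Mv.col (h : Mv dv p t A u a f t₁ A₁ u₁) (hp : 0 < p) (htp : t.top ≤ p)
    (hc : t.Col (t.top + 1)) : t₁.Col (t₁.top + 1) ∧ t₁.top ≤ t.top := by
  have k : ∀ c : DT Λ κ, c.Col (p + 1) → c.Col (c.top + 1) ∧ c.top ≤ p := fun c hc =>
    ⟨hc.lower (Nat.lt_succ_self _), hc.top_le⟩
  cases h with
  | stay => exact ⟨hc, le_rfl⟩
  | br1 h => rw [vw_br h] at hc ⊢; exact k _ hc.2.2.1
  | br0 h => rw [vw_br h] at hc ⊢; exact k _ hc.2.2.2.1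
  | ad1 h => rw [vw_add h] at hc ⊢; exact k _ hc.2.2.1
  | ad0 h => rw [vw_add h] at hc ⊢; exact k _ hc.2.2.2
  | up h => exact ⟨(vw_up_top h hp htp hc).1, (vw_up_top h hp htp hc).2.1⟩
  | upI h => exact ⟨(vw_up_top h hp htp hc).1, (vw_up_top h hp htp hc).2.1⟩
  | upD h => exact ⟨(vw_up_top h hp htp hc).1, (vw_up_top h hp htp hc).2.1⟩

/-- a tie is left strictly -/
lemma tie_col {w : ℝ} {r : Λ → κ} {t₁ t₀ : DT Λ κ} {v : Λ → ℝ → ℝ} {B G : κ → ℝ → ℝ}
    (h : vw p t = .br w r t₁ t₀ v B G) (hp : 0 < p) (hw : w ≠ 0) {n : ℕ} (hc : t.Col n) :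
    t₁.Col p ∧ t₀.Col p ∧ t₁.top < p ∧ t₀.top < p ∧ t.top = p ∧ p.Prime := by
  rw [vw_br h] at hc ⊢
  have := hc.2.2.2.2 hw
  exact ⟨this.1, this.2, this.1.top_lt hp, this.2.top_lt hp, rfl, hc.1⟩

lemma Mv.u_sub (h : Mv dv p t A u a f t₁ A₁ u₁) : u ⊆ u₁ ∧ ∀ q ∈ u₁, q ∈ u ∨ q = p := by
  cases h with
  | br0 h =>
    refine ⟨Finset.subset_insert _ _, fun q hq => ?_⟩
    rcases Finset.mem_insert.1 hq with h | h
    · exact Or.inr h
    · exact Or.inl h
  | _ => exact ⟨Finset.Subset.refl _, fun q hq => Or.inl hq⟩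

/-- the missing set stays above the own level -/
lemma Mv.u_top (h : Mv dv p t A u a f t₁ A₁ u₁) (ha : a ≠ 0) (hp : 0 < p) (htp : t.top ≤ p)
    (hc : t.Col (t.top + 1)) (hu : ∀ q ∈ u, t.top < q) : ∀ q ∈ u₁, t₁.top < q := by
  have h1 := (h.col hp htp hc).2
  cases h with
  | br0 h =>
    intro q hq
    rcases Finset.mem_insert.1 hq with rfl | hq
    · exact (tie_col h hp ha hc).2.2.2.1
    · exact h1.trans_lt (hu q hq)
  | _ => exact fun q hq => h1.trans_lt (hu q hq)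

/-- a move of `up` / absent type ends strictly below the column -/
lemma Mv.up_lt {Sp : Finset Λ} {c : DT Λ κ} (hv : vw p t = .up Sp c)
    (hp : 0 < p) (htp : t.top ≤ p) (hc : t.Col (t.top + 1)) : c.top < p :=
  (vw_up_top hv hp htp hc).2.2

/-! ### missing sets of an item -/

lemma mtD_br {j : Λ} {w : ℝ} {r : Λ → κ}
    {t₁ t₀ : DT Λ κ} {v : Λ → ℝ → ℝ} {B G : κ → ℝ → ℝ} (h : vw p t = .br w r t₁ t₀ v B G) :
    (w = 0 ∨ dv t j → mtD dv j t = mtD dv j t₁) ∧
      (w ≠ 0 → ¬ dv t j → mtD dv j t = insert p (mtD dv j t₀)) := by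
  rw [vw_br h]
  constructor
  · intro hd
    simp only [mtD]
    rw [if_pos hd]
  · intro hw hd
    simp only [mtD]
    rw [if_neg (not_or.2 ⟨hw, hd⟩)]

lemma mtD_add {j : Λ} {r : Λ → κ} {t₁ t₀ : DT Λ κ} (h : vw p t = .add r t₁ t₀) :
    (dv t j → mtD dv j t = mtD dv j t₁) ∧ (¬ dv t j → mtD dv j t = mtD dv j t₀) := by
  rw [vw_add h]
  constructor
  · intro hd; simp only [mtD]; rw [if_pos hd]
  · intro hd; simp only [mtD]; rw [if_neg hd]

lemma mtD_up {j : Λ} {Sp : Finset Λ} {c : DT Λ κ}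
    (h : vw p t = .up Sp c) : mtD dv j t = mtD dv j c := by
  rcases vw_up h with rfl | ⟨-, rfl, -⟩ <;> rfl

lemma mtD_top {j : Λ} : ∀ {t : DT Λ κ} {n : ℕ}, t.Col n → ∀ q ∈ mtD dv j t, q ≤ t.top ∧ q.Prime := by
  intro t
  induction t with
  | leaf r f => intro n h q hq; simp [mtD] at hq
  | br p w r t₁ t₀ v B G ih₁ ih₀ =>
    intro n h q hq
    simp only [mtD] at hq
    split_ifs at hq with hd
    · have h1 := ih₁ h.2.2.1 q hq
      exact ⟨h1.1.trans h.2.2.1.top_le, h1.2⟩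
    · rcases Finset.mem_insert.1 hq with rfl | hq
      · exact ⟨le_rfl, h.1⟩
      · have h1 := ih₀ h.2.2.2.1 q hq
        exact ⟨h1.1.trans h.2.2.2.1.top_le, h1.2⟩
  | add b r t₁ t₀ ih₁ ih₀ =>
    intro n h q hq
    simp only [mtD] at hq
    split_ifs at hq with hd
    · have h1 := ih₁ h.2.2.1 q hq
      exact ⟨h1.1.trans h.2.2.1.top_le, h1.2⟩
    · have h1 := ih₀ h.2.2.2 q hq
      exact ⟨h1.1.trans h.2.2.2.top_le, h1.2⟩
  | up b Sp t ih =>
    intro n h q hq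
    have h1 := ih h.2.2 q hq
    exact ⟨h1.1.trans (DT.Col.top_le (h.2.2.mono (Nat.le_succ b))), h1.2⟩

lemma mtD_le_top {j : Λ} {n : ℕ} (h : t.Col n) : ∀ q ∈ mtD dv j t, q ≤ t.top :=
  fun q hq => (mtD_top h q hq).1

lemma mtD_prime {j : Λ} {n : ℕ} (h : t.Col n) : ∀ q ∈ mtD dv j t, q.Prime :=
  fun q hq => (mtD_top h q hq).2

lemma mtD_lt {j : Λ} {n : ℕ} (h : t.Col n) : ∀ q ∈ mtD dv j t, q < n := by
  intro q hq
  have h1 := mtD_top h q hq
  exact h1.1.trans_lt (h.top_lt (by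
    cases t with
    | leaf r f => simp [mtD] at hq
    | br p w r t₁ t₀ v B G => exact (Nat.zero_le _).trans_lt h.2.1
    | add b r t₁ t₀ => exact (Nat.zero_le _).trans_lt h.2.1
    | up b Sp t => exact (Nat.zero_le _).trans_lt h.2.1))

/-- **the missing set of the item along a move which it follows** -/
lemma Mv.mt (h : Mv dv p t A u a f t₁ A₁ u₁) (ha : a ≠ 0) {j : Λ} (hf : f j) :
    (mtD dv j t = mtD dv j t₁ ∧ u₁ = u) ∨
      (mtD dv j t = insert p (mtD dv j t₁) ∧ u₁ = insert p u) := by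
  cases h with
  | stay => exact Or.inl ⟨rfl, rfl⟩
  | br1 h => exact Or.inl ⟨(mtD_br h).1 (Or.inr hf), rfl⟩
  | br0 h => exact Or.inr ⟨(mtD_br h).2 ha hf, rfl⟩
  | ad1 h => exact Or.inl ⟨(mtD_add h).1 hf, rfl⟩
  | ad0 h => exact Or.inl ⟨(mtD_add h).2 hf, rfl⟩
  | up h => exact Or.inl ⟨mtD_up h, rfl⟩
  | upI h => exact Or.inl ⟨mtD_up h, rfl⟩
  | upD h => exact Or.inl ⟨mtD_up h, rfl⟩

lemma Mv.T (h : Mv dv p t A u a f t₁ A₁ u₁) (ha : a ≠ 0) {j : Λ} (hf : f j) :
    u₁ ∪ mtD dv j t₁ = u ∪ mtD dv j t := by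
  rcases h.mt ha hf with ⟨h1, h2⟩ | ⟨h1, h2⟩
  · rw [h1, h2]
  · rw [h1, h2]
    ext q
    simp only [Finset.mem_union, Finset.mem_insert]
    tauto

end side

/-! ### the steps -/

section st
variable {stp : Stp Λ κ} {dv : DT Λ κ → Λ → Prop} {m : DT Λ κ → Λ → ℝ} {x : XSt Λ κ}

lemma steps_nxt {e : XStep Λ κ} (he : e ∈ steps stp dv x) : (e.a * e.a', e.y.s) ∈ nxt stp x.s := by
  rw [← steps_proj stp dv x]
  exact List.mem_map.2 ⟨e, he, rfl⟩

lemma steps_rank {e : XStep Λ κ} (he : e ∈ steps stp dv x) : e.y.rank < x.rank :=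
  nxt_rank stp x.s _ (steps_nxt he)

lemma nxH_rank (stp : Stp Λ κ) (dv : DT Λ κ → Λ → Prop) (x : XSt Λ κ) :
    ∀ q ∈ nxH stp dv x, q.2.rank < x.rank := by
  intro q hq
  obtain ⟨e, he, rfl⟩ := List.mem_map.1 hq
  exact steps_rank he

lemma mem_nxJ {j : Λ} {q : ℝ × XSt Λ κ} (hq : q ∈ nxJ stp dv j x) :
    ∃ e ∈ steps stp dv x, e.f' j ∧ q = (e.a, e.y) := by
  obtain ⟨e, he, rfl⟩ := List.mem_map.1 hq
  have := List.mem_filter.1 he
  exact ⟨e, this.1, by simpa using this.2, rfl⟩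

lemma mem_nxI {j : Λ} {q : ℝ × XSt Λ κ} (hq : q ∈ nxI stp dv j x) :
    ∃ e ∈ steps stp dv x, e.f j ∧ q = (e.a', e.y) := by
  obtain ⟨e, he, rfl⟩ := List.mem_map.1 hq
  have := List.mem_filter.1 he
  exact ⟨e, this.1, by simpa using this.2, rfl⟩

lemma nxJ_rank (stp : Stp Λ κ) (dv : DT Λ κ → Λ → Prop) (j : Λ) (x : XSt Λ κ) :
    ∀ q ∈ nxJ stp dv j x, q.2.rank < x.rank := by
  intro q hq
  obtain ⟨e, he, -, rfl⟩ := mem_nxJ hq
  exact steps_rank he

lemma nxI_rank (stp : Stp Λ κ) (dv : DT Λ κ → Λ → Prop) (j : Λ) (x : XSt Λ κ) :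
    ∀ q ∈ nxI stp dv j x, q.2.rank < x.rank := by
  intro q hq
  obtain ⟨e, he, -, rfl⟩ := mem_nxI hq
  exact steps_rank he

/-- projections of walks -/
lemma W_proj {S Y : Type*} {nS : S → List (ℝ × S)} {nY : Y → List (ℝ × Y)} {rS : S → ℕ}
    {rY : Y → ℕ} (hS : ∀ s, ∀ q ∈ nS s, rS q.2 < rS s) (hY : ∀ y, ∀ q ∈ nY y, rY q.2 < rY y)
    {pr : Y → S} (h : ∀ y, (nY y).map (fun q => (q.1, pr q.2)) = nS (pr y)) (loc : S → ℝ) :
    ∀ k y, rY y < k → W nY rY (fun y => loc (pr y)) y = W nS rS loc (pr y) := by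
  intro k
  induction k with
  | zero => intro y hy; omega
  | succ k ih =>
    intro y hy
    rw [W_eq hY, W_eq hS, ← h y, List.map_map]
    congr 2
    refine List.map_congr_left fun q hq => ?_
    have := hY y q hq
    simp only [Function.comp]
    rw [ih q.2 (by omega)]

/-- **the walk with history** -/
theorem WS_eq_H (stp : Stp Λ κ) (dv : DT Λ κ → Λ → Prop) (loc : St Λ κ → ℝ) (x : XSt Λ κ) :
    WS stp loc x.s = W (nxH stp dv) XSt.rank (fun x => loc x.s) x := by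
  refine (W_proj (pr := XSt.s) (nxt_rank stp) (nxH_rank stp dv) (fun y => ?_) loc
    (x.rank + 1) x (Nat.lt_succ_self _)).symm
  rw [← steps_proj stp dv y, nxH, List.map_map]
  rfl

/-- weights of the steps -/
lemma steps_w (h : x.s.t.All WN) (h' : x.s.t'.All WN) :
    ∀ e ∈ steps stp dv x, 0 < e.a ∧ 0 < e.a' := by
  intro e he
  obtain ⟨h1, h2, h3⟩ := steps_mv he
  exact ⟨lt_of_le_of_ne (h1.L.nn h) (Ne.symm h2), lt_of_le_of_ne (h1.R.nn h') (Ne.symm h3)⟩

/-- node conditions are inherited -/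
lemma steps_all {F : DT Λ κ → Prop} (h : x.s.t.All F) (h' : x.s.t'.All F) :
    ∀ e ∈ steps stp dv x, e.y.s.t.All F ∧ e.y.s.t'.All F := fun e he =>
  ⟨(steps_mv he).1.L.all h, (steps_mv he).1.R.all h'⟩

open Classical in
/-- **item masses along a step, right side** -/
lemma step_right (h : x.s.t'.All (IM dv m)) (j : Λ) (hj : j ∈ x.s.A') :
    ∀ e ∈ steps stp dv x, e.a' * (if j ∈ e.y.s.A' then m e.y.s.t' j else 0) ≤
      if e.f' j then m x.s.t' j else 0 := fun e he => (steps_mv he).1.R.mass h j hj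

open Classical in
/-- **item masses along a step, left side** -/
lemma step_left (h : x.s.t.All (IM dv m)) (j : Λ) (hj : j ∈ x.s.A) :
    ∀ e ∈ steps stp dv x, e.a * (if j ∈ e.y.s.A then m e.y.s.t j else 0) ≤
      if e.f j then m x.s.t j else 0 := fun e he => (steps_mv he).1.L.mass h j hj

lemma flt_sum {α : Type*} (l : List α) (f : α → Prop) [DecidablePred f] (g : α → ℝ) :
    ((l.filter fun e => f e).map g).sum = (l.map fun e => if f e then g e else 0).sum := by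
  induction l with
  | nil => simp
  | cons a l ih =>
    by_cases h : f a
    · simp [h, ih]
    · simp [h, ih]

lemma TC.next (h : TC dv m x) : ∀ e ∈ steps stp dv x, TC dv m e.y := fun e he => by
  have := steps_all h.L h.R e he
  exact ⟨this.1, this.2⟩

/-- **DISINTEGRATION, right side**: fixed item on the right, random left side -/
theorem res_right {I : XSt Λ κ → Prop} (hI : ∀ x, I x → ∀ e ∈ steps stp dv x, I e.y)
    {loc : XSt Λ κ → ℝ} {c : Λ → XSt Λ κ → ℝ} (hc : ∀ j x, 0 ≤ c j x)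
    (hl : ∀ x, I x → TC dv m x → loc x ≤ ∑ j ∈ x.s.A', m x.s.t' j * c j x) :
    ∀ x, I x → TC dv m x → W (nxH stp dv) XSt.rank loc x ≤
      ∑ j ∈ x.s.A', m x.s.t' j * W (nxJ stp dv j) XSt.rank (c j) x := by
  classical
  intro x hx ht
  have hnn : ∀ j x, TC dv m x → 0 ≤ W (nxJ stp dv j) XSt.rank (c j) x := fun j x hx =>
    W_nonneg (nxJ_rank stp dv j) (Inv := TC dv m) (fun x hx q hq => by
      obtain ⟨e, he, -, rfl⟩ := mem_nxJ hq
      exact ⟨hx.next e he, (steps_w hx.wL hx.wR e he).1.le⟩) (fun x _ => hc j x) x hx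
  refine W_le_super (nxH_rank stp dv) (Inv := fun x => I x ∧ TC dv m x)
    (fun x hx q hq => ?_) (Φ := fun x => ∑ j ∈ x.s.A', m x.s.t' j *
      W (nxJ stp dv j) XSt.rank (c j) x) (fun x hx => ?_) x ⟨hx, ht⟩
  · obtain ⟨e, he, rfl⟩ := List.mem_map.1 hq
    have := steps_w hx.2.wL hx.2.wR e he
    exact ⟨⟨hI x hx.1 e he, hx.2.next e he⟩, mul_nonneg this.1.le this.2.le⟩
  · have hA : ∀ e ∈ steps stp dv x, e.y.s.A' ⊆ x.s.A' := fun e he => (steps_mv he).1.R.sub
    have key : ∀ j ∈ x.s.A', ((steps stp dv x).map fun e => e.a * e.a' *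
        (if j ∈ e.y.s.A' then m e.y.s.t' j * W (nxJ stp dv j) XSt.rank (c j) e.y else 0)).sum ≤
        m x.s.t' j * ((nxJ stp dv j x).map fun q => q.1 *
          W (nxJ stp dv j) XSt.rank (c j) q.2).sum := by
      intro j hj
      have e1 : ((nxJ stp dv j x).map fun q => q.1 *
          W (nxJ stp dv j) XSt.rank (c j) q.2).sum = ((steps stp dv x).map fun e =>
          if e.f' j then e.a * W (nxJ stp dv j) XSt.rank (c j) e.y else 0).sum := by
        rw [nxJ, List.map_map]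
        exact flt_sum (steps stp dv x) (fun e => e.f' j)
          (fun e => e.a * W (nxJ stp dv j) XSt.rank (c j) e.y)
      rw [e1, ← List.sum_map_mul_left]
      refine List.sum_le_sum fun e he => ?_
      have h1 := step_right hx.2.R j hj e he
      have h2 := (steps_w hx.2.wL hx.2.wR e he).1.le
      have h3 := hnn j e.y (hx.2.next e he)
      have h4 := mul_le_mul_of_nonneg_left h1 (mul_nonneg h2 h3)
      by_cases hA' : j ∈ e.y.s.A' <;> by_cases hf : e.f' j <;>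
        simp only [hA', hf, if_true, if_false, mul_zero] at h4 ⊢ <;> nlinarith
    have e2 : ((nxH stp dv x).map fun q => q.1 * ∑ j ∈ q.2.s.A', m q.2.s.t' j *
        W (nxJ stp dv j) XSt.rank (c j) q.2).sum = ∑ j ∈ x.s.A', ((steps stp dv x).map fun e =>
        e.a * e.a' * (if j ∈ e.y.s.A' then
          m e.y.s.t' j * W (nxJ stp dv j) XSt.rank (c j) e.y else 0)).sum := by
      rw [nxH, List.map_map]
      have : ∀ l : List (XStep Λ κ), (∀ e ∈ l, e.y.s.A' ⊆ x.s.A') →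
          (l.map ((fun q : ℝ × XSt Λ κ => q.1 * ∑ j ∈ q.2.s.A', m q.2.s.t' j *
            W (nxJ stp dv j) XSt.rank (c j) q.2) ∘ fun e : XStep Λ κ => (e.a * e.a', e.y))).sum =
          ∑ j ∈ x.s.A', (l.map fun e => e.a * e.a' * (if j ∈ e.y.s.A' then
            m e.y.s.t' j * W (nxJ stp dv j) XSt.rank (c j) e.y else 0)).sum := by
        intro l
        induction l with
        | nil => intro _; simp
        | cons a l ih =>
          intro hl
          simp only [List.map_cons, List.sum_cons, Finset.sum_add_distrib]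
          rw [ih fun e he => hl e (List.mem_cons_of_mem _ he)]
          congr 1
          simp only [Function.comp]
          rw [Finset.mul_sum, ← Finset.sum_subset (hl a (List.mem_cons_self))]
          · refine Finset.sum_congr rfl fun j hj => ?_
            rw [if_pos hj]
          · intro j _ hj
            rw [if_neg hj, mul_zero]
      exact this _ hA
    rw [e2]
    refine (add_le_add (hl x hx.1 hx.2) (Finset.sum_le_sum key)).trans ?_
    rw [← Finset.sum_add_distrib]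
    refine Finset.sum_le_sum fun j hj => ?_
    rw [W_eq (nxJ_rank stp dv j) (c j) x]
    linarith

/-- **DISINTEGRATION, left side**: fixed item on the left, random right side -/
theorem res_left {I : XSt Λ κ → Prop} (hI : ∀ x, I x → ∀ e ∈ steps stp dv x, I e.y)
    {loc : XSt Λ κ → ℝ} {c : Λ → XSt Λ κ → ℝ} (hc : ∀ j x, 0 ≤ c j x)
    (hl : ∀ x, I x → TC dv m x → loc x ≤ ∑ j ∈ x.s.A, m x.s.t j * c j x) :
    ∀ x, I x → TC dv m x → W (nxH stp dv) XSt.rank loc x ≤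
      ∑ j ∈ x.s.A, m x.s.t j * W (nxI stp dv j) XSt.rank (c j) x := by
  classical
  intro x hx ht
  have hnn : ∀ j x, TC dv m x → 0 ≤ W (nxI stp dv j) XSt.rank (c j) x := fun j x hx =>
    W_nonneg (nxI_rank stp dv j) (Inv := TC dv m) (fun x hx q hq => by
      obtain ⟨e, he, -, rfl⟩ := mem_nxI hq
      exact ⟨hx.next e he, (steps_w hx.wL hx.wR e he).2.le⟩) (fun x _ => hc j x) x hx
  refine W_le_super (nxH_rank stp dv) (Inv := fun x => I x ∧ TC dv m x)
    (fun x hx q hq => ?_) (Φ := fun x => ∑ j ∈ x.s.A, m x.s.t j *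
      W (nxI stp dv j) XSt.rank (c j) x) (fun x hx => ?_) x ⟨hx, ht⟩
  · obtain ⟨e, he, rfl⟩ := List.mem_map.1 hq
    have := steps_w hx.2.wL hx.2.wR e he
    exact ⟨⟨hI x hx.1 e he, hx.2.next e he⟩, mul_nonneg this.1.le this.2.le⟩
  · have hA : ∀ e ∈ steps stp dv x, e.y.s.A ⊆ x.s.A := fun e he => (steps_mv he).1.L.sub
    have key : ∀ j ∈ x.s.A, ((steps stp dv x).map fun e => e.a * e.a' *
        (if j ∈ e.y.s.A then m e.y.s.t j * W (nxI stp dv j) XSt.rank (c j) e.y else 0)).sum ≤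
        m x.s.t j * ((nxI stp dv j x).map fun q => q.1 *
          W (nxI stp dv j) XSt.rank (c j) q.2).sum := by
      intro j hj
      have e1 : ((nxI stp dv j x).map fun q => q.1 *
          W (nxI stp dv j) XSt.rank (c j) q.2).sum = ((steps stp dv x).map fun e =>
          if e.f j then e.a' * W (nxI stp dv j) XSt.rank (c j) e.y else 0).sum := by
        rw [nxI, List.map_map]
        exact flt_sum (steps stp dv x) (fun e => e.f j)
          (fun e => e.a' * W (nxI stp dv j) XSt.rank (c j) e.y)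
      rw [e1, ← List.sum_map_mul_left]
      refine List.sum_le_sum fun e he => ?_
      have h1 := step_left hx.2.L j hj e he
      have h2 := (steps_w hx.2.wL hx.2.wR e he).2.le
      have h3 := hnn j e.y (hx.2.next e he)
      have h4 := mul_le_mul_of_nonneg_left h1 (mul_nonneg h2 h3)
      by_cases hA' : j ∈ e.y.s.A <;> by_cases hf : e.f j <;>
        simp only [hA', hf, if_true, if_false, mul_zero] at h4 ⊢ <;> nlinarith
    have e2 : ((nxH stp dv x).map fun q => q.1 * ∑ j ∈ q.2.s.A, m q.2.s.t j *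
        W (nxI stp dv j) XSt.rank (c j) q.2).sum = ∑ j ∈ x.s.A, ((steps stp dv x).map fun e =>
        e.a * e.a' * (if j ∈ e.y.s.A then
          m e.y.s.t j * W (nxI stp dv j) XSt.rank (c j) e.y else 0)).sum := by
      rw [nxH, List.map_map]
      have : ∀ l : List (XStep Λ κ), (∀ e ∈ l, e.y.s.A ⊆ x.s.A) →
          (l.map ((fun q : ℝ × XSt Λ κ => q.1 * ∑ j ∈ q.2.s.A, m q.2.s.t j *
            W (nxI stp dv j) XSt.rank (c j) q.2) ∘ fun e : XStep Λ κ => (e.a * e.a', e.y))).sum =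
          ∑ j ∈ x.s.A, (l.map fun e => e.a * e.a' * (if j ∈ e.y.s.A then
            m e.y.s.t j * W (nxI stp dv j) XSt.rank (c j) e.y else 0)).sum := by
        intro l
        induction l with
        | nil => intro _; simp
        | cons a l ih =>
          intro hl
          simp only [List.map_cons, List.sum_cons, Finset.sum_add_distrib]
          rw [ih fun e he => hl e (List.mem_cons_of_mem _ he)]
          congr 1
          simp only [Function.comp]
          rw [Finset.mul_sum, ← Finset.sum_subset (hl a (List.mem_cons_self))]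
          · refine Finset.sum_congr rfl fun j hj => ?_
            rw [if_pos hj]
          · intro j _ hj
            rw [if_neg hj, mul_zero]
      exact this _ hA
    rw [e2]
    refine (add_le_add (hl x hx.1 hx.2) (Finset.sum_le_sum key)).trans ?_
    rw [← Finset.sum_add_distrib]
    refine Finset.sum_le_sum fun j hj => ?_
    rw [W_eq (nxI_rank stp dv j) (c j) x]
    linarith

/-! ### levels -/

/-- the facts on the columns of a step -/
lemma steps_p (h : XI x) {e : XStep Λ κ} (he : e ∈ steps stp dv x) :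
    x.s.p.Prime ∧ x.s.p < x.n := by
  have h1 : ¬ (x.s.t.isLeaf ∨ x.s.t'.isLeaf) := by
    intro h1
    have := (mem_steps.1 he).1
    simp [steps0, h1] at this
  rw [not_or] at h1
  have a := col_top h.cL h1.1
  have b := col_top h.cR h1.2
  refine ⟨?_, h.n⟩
  unfold St.p
  rcases le_total x.s.t.top x.s.t'.top with h | h
  · rw [max_eq_right h]; exact b.1
  · rw [max_eq_left h]; exact a.1

/-- levels along a step -/
lemma steps_top (h : XI x) {e : XStep Λ κ} (he : e ∈ steps stp dv x) :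
    e.y.s.t.top ≤ x.s.t.top ∧ e.y.s.t'.top ≤ x.s.t'.top ∧ e.y.s.p ≤ x.s.p ∧ e.y.n ≤ x.n := by
  obtain ⟨hpp, hpn⟩ := steps_p h he
  have hm := (steps_mv he).1
  have h1 := (hm.L.col hpp.pos (le_max_left _ _) h.cL).2
  have h2 := (hm.R.col hpp.pos (le_max_right _ _) h.cR).2
  have h3 : e.y.s.p ≤ x.s.p := max_le_max h1 h2
  refine ⟨h1, h2, h3, ?_⟩
  rw [hm.n]
  omega

theorem XI.next (h : XI x) : ∀ e ∈ steps stp dv x, XI e.y := by
  intro e he
  obtain ⟨hpp, hpn⟩ := steps_p h he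
  obtain ⟨hm, ha, ha'⟩ := steps_mv he
  have hpL : x.s.t.top ≤ x.s.p := le_max_left _ _
  have hpR : x.s.t'.top ≤ x.s.p := le_max_right _ _
  have hp3 := (steps_top h he).2.2.1
  have hn := hm.n
  refine ⟨(hm.L.col hpp.pos hpL h.cL).1, (hm.R.col hpp.pos hpR h.cR).1,
    hm.L.u_top ha hpp.pos hpL h.cL h.u, hm.R.u_top ha' hpp.pos hpR h.cR h.u',
    hm.L.all h.wL, hm.R.all h.wR, by omega, fun q hq => ?_, fun q hq => ?_⟩
  · rcases hm.L.u_sub.2 q hq with h1 | h1
    · rcases h.nu q h1 with h2 | h2 <;> omega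
    · omega
  · rcases hm.R.u_sub.2 q hq with h1 | h1
    · rcases h.nu' q h1 with h2 | h2 <;> omega
    · omega

/-- history-free start: `∅`, `∅` -/
lemma XI.st {n : ℕ} {s : St Λ κ} (h : s.t.Col n) (h' : s.t'.Col n) (hn : s.p < n)
    (w : s.t.All WN) (w' : s.t'.All WN) : XI (XSt.st n s) :=
  ⟨h.lower (Nat.lt_succ_self _), h'.lower (Nat.lt_succ_self _),
    fun q hq => absurd hq (Finset.notMem_empty q), fun q hq => absurd hq
    (Finset.notMem_empty q), w, w', hn, fun q hq => absurd hq (Finset.notMem_empty q),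
    fun q hq => absurd hq (Finset.notMem_empty q)⟩

/-- the tree columns are below the gap end -/
lemma XI.colL (h : XI x) : x.s.t.Col x.n := h.cL.lower ((le_max_left _ _).trans_lt h.n)

lemma XI.colR (h : XI x) : x.s.t'.Col x.n := h.cR.lower ((le_max_right _ _).trans_lt h.n)

lemma filt_right (h : XI x) (j : Λ) (P : ℕ) (h1 : x.p ≤ P) (h2 : P < x.n) :
    (x.u' ∪ mtD dv j x.s.t').filter (P < ·) = x.u'.filter (P < ·) := by
  ext q
  simp only [Finset.mem_filter, Finset.mem_union]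
  constructor
  · rintro ⟨hq | hq, hP⟩
    · exact ⟨hq, hP⟩
    · have := mtD_le_top h.cR q hq
      have h3 : x.s.t'.top ≤ x.p := le_max_right _ _
      omega
  · rintro ⟨hq, hP⟩
    exact ⟨Or.inl hq, hP⟩

lemma filt_left (h : XI x) (j : Λ) (P : ℕ) (h1 : x.p ≤ P) (h2 : P < x.n) :
    (x.u ∪ mtD dv j x.s.t).filter (P < ·) = x.u.filter (P < ·) := by
  ext q
  simp only [Finset.mem_filter, Finset.mem_union]
  constructor
  · rintro ⟨hq | hq, hP⟩
    · exact ⟨hq, hP⟩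
    · have := mtD_le_top h.cL q hq
      have h3 : x.s.t.top ≤ x.p := le_max_left _ _
      omega
  · rintro ⟨hq, hP⟩
    exact ⟨Or.inl hq, hP⟩

/-- at a state whose own left node is in the column, the left missing set is above the column -/
lemma XI.u_gt (h : XI x) (ht : x.s.t.top = x.s.p) : ∀ q ∈ x.u, x.n ≤ q := fun q hq => by
  have h1 := h.u q hq
  rcases h.nu q hq with h2 | h2 <;> omega

lemma XI.u'_gt (h : XI x) (ht : x.s.t'.top = x.s.p) : ∀ q ∈ x.u', x.n ≤ q := fun q hq => by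
  have h1 := h.u' q hq
  rcases h.nu' q hq with h2 | h2 <;> omega

end st

/-! ### the shapes of the item walks -/

/-- the shape of a step of an item walk; `a` = level of the random side, `T` = all missing primes of
the item (constant) -/
inductive RowP {X : Type*} (next : X → List (ℝ × X)) (p a : X → ℕ) (u T : X → Finset ℕ) (x : X) :
    Prop
  | nil (h : next x = [])
  | one (y : X) (h : next x = [(1, y)]) (hu : u y = u x) (hT : T y = T x) (ha : a y ≤ a x)
  | two (w : ℝ) (y1 y0 : X) (h : next x = [(1 - w, y1), (w, y0)]) (hw0 : 0 < w) (hw2 : w < 1)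
      (hw1 : w ≤ 1 / (p x : ℝ)) (hu1 : u y1 = u x) (hu0 : u y0 = insert (p x) (u x))
      (hT1 : T y1 = T x) (hT0 : T y0 = T x) (hp : (p x).Prime) (ha : p x < a x)
      (ha1 : a y1 ≤ p x) (ha0 : a y0 ≤ p x)

theorem wtF_OkR {X : Type*} {next : X → List (ℝ × X)} {p a : X → ℕ} {u T : X → Finset ℕ}
    {Inv : X → Prop} (hI : ∀ x, Inv x → ∀ q ∈ next x, Inv q.2)
    (hrow : ∀ x, Inv x → RowP next p a u T x) :
    ∀ k n x, Inv x → a x ≤ n → (wtF next p k x).Ok n := by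
  intro k
  induction k with
  | zero => intro n x _ _; trivial
  | succ k ih =>
    intro n x hx hn
    rcases hrow x hx with h | ⟨y, h, -, -, ha⟩ |
      ⟨w, y1, y0, h, hw0, hw2, hw1, -, -, -, -, hp, ha, ha1, ha0⟩
    · simp only [wtF, h]; trivial
    · simp only [wtF, h]
      exact ih _ _ (hI x hx (1, y) (by rw [h]; simp)) (ha.trans hn)
    · simp only [wtF, h]
      exact ⟨hp, ha.trans_le hn, hw0.le, hw1, ih _ _ (hI x hx (1 - w, y1) (by rw [h]; simp)) ha1,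
        ih _ _ (hI x hx (w, y0) (by rw [h]; simp)) ha0⟩

open Classical in
/-- selected steps -/
noncomputable def sel (wt : XStep Λ κ → ℝ) (fl : XStep Λ κ → Prop) (L : List (XStep Λ κ)) :
    List (ℝ × XSt Λ κ) :=
  ((L.filter fun e => e.a * e.a' ≠ 0).filter fun e => fl e).map fun e => (wt e, e.y)

/-- raw shapes -/
inductive Shp (nx : List (ℝ × XSt Λ κ)) (p : ℕ) (uu : XSt Λ κ → Finset ℕ) (U : Finset ℕ)
    (tr : XSt Λ κ → DT Λ κ) (t : DT Λ κ) : Prop
  | nil (h : nx = [])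
  | one (y : XSt Λ κ) (h : nx = [(1, y)]) (hu : uu y = U)
  | two {w : ℝ} {r : Λ → κ} {t₁ t₀ : DT Λ κ} {v : Λ → ℝ → ℝ} {B G : κ → ℝ → ℝ} (y1 y0 : XSt Λ κ)
      (hv : vw p t = .br w r t₁ t₀ v B G) (hw : w ≠ 0) (h : nx = [(1 - w, y1), (w, y0)])
      (hu1 : uu y1 = U) (hu0 : uu y0 = insert p U) (ht1 : tr y1 = t₁) (ht0 : tr y0 = t₀)

section shp
variable {wt : XStep Λ κ → ℝ} {fl : XStep Λ κ → Prop} {p : ℕ} {uu : XSt Λ κ → Finset ℕ}
  {U : Finset ℕ} {tr : XSt Λ κ → DT Λ κ} {t : DT Λ κ}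

lemma sel_append (L L' : List (XStep Λ κ)) : sel wt fl (L ++ L') = sel wt fl L ++ sel wt fl L' := by
  unfold sel
  rw [List.filter_append, List.filter_append, List.map_append]

lemma sel_cons (e : XStep Λ κ) (L : List (XStep Λ κ)) :
    sel wt fl (e :: L) = sel wt fl [e] ++ sel wt fl L := sel_append [e] L

lemma sel_neg {e : XStep Λ κ} (h : ¬ fl e) : sel wt fl [e] = [] := by
  classical
  unfold sel
  by_cases h1 : e.a * e.a' = 0
  · rw [List.filter_cons_of_neg (by rw [decide_eq_true_iff]; exact fun h' => h' h1)]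
    rfl
  · rw [List.filter_cons_of_pos (by rw [decide_eq_true_iff]; exact h1),
      List.filter_nil, List.filter_cons_of_neg (by rw [decide_eq_true_iff]; exact h)]
    rfl

lemma sel_z {e : XStep Λ κ} (h1 : e.a * e.a' = 0) : sel wt fl [e] = [] := by
  classical
  unfold sel
  rw [List.filter_cons_of_neg (by rw [decide_eq_true_iff]; exact fun h' => h' h1)]
  rfl

lemma sel_pos {e : XStep Λ κ} (h1 : e.a * e.a' ≠ 0) (h : fl e) :
    sel wt fl [e] = [(wt e, e.y)] := by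
  classical
  unfold sel
  rw [List.filter_cons_of_pos (by rw [decide_eq_true_iff]; exact h1),
      List.filter_nil, List.filter_cons_of_pos (by rw [decide_eq_true_iff]; exact h)]
  rfl

lemma shp_nil : Shp (sel wt fl ([] : List (XStep Λ κ))) p uu U tr t := Shp.nil rfl

lemma shp_one {e : XStep Λ κ} (hw : wt e = 1) (hu : uu e.y = U) :
    Shp (sel wt fl [e]) p uu U tr t := by
  by_cases h1 : e.a * e.a' = 0
  · exact Shp.nil (sel_z h1)
  by_cases h2 : fl e
  · exact Shp.one e.y (by rw [sel_pos h1 h2, hw]) hu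
  · exact Shp.nil (sel_neg h2)

lemma shp_ex {e1 e0 : XStep Λ κ} {φ : Prop} (f1 : fl e1 → φ) (f0 : fl e0 → ¬ φ)
    (hw1 : wt e1 = 1) (hw0 : wt e0 = 1) (hu1 : uu e1.y = U) (hu0 : uu e0.y = U) :
    Shp (sel wt fl [e1, e0]) p uu U tr t := by
  rw [sel_cons]
  by_cases h : φ
  · rw [sel_neg (e := e0) fun h' => f0 h' h, List.append_nil]
    exact shp_one hw1 hu1
  · rw [sel_neg (e := e1) fun h' => h (f1 h'), List.nil_append]
    exact shp_one hw0 hu0

lemma shp_two {e1 e0 : XStep Λ κ} {φ : Prop} {w b : ℝ} {r : Λ → κ} {t₁ t₀ : DT Λ κ}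
    {v : Λ → ℝ → ℝ} {B G : κ → ℝ → ℝ} (hv : vw p t = .br w r t₁ t₀ v B G)
    (f1 : fl e1 ↔ φ) (f0 : fl e0 ↔ φ)
    (hw1 : wt e1 = 1 - w) (hw0 : wt e0 = w) (hb1 : e1.a * e1.a' = (1 - w) * b)
    (hb0 : e0.a * e0.a' = w * b) (hw : w < 1) (hu1 : uu e1.y = U) (hu0 : uu e0.y = insert p U)
    (ht1 : tr e1.y = t₁) (ht0 : tr e0.y = t₀) :
    Shp (sel wt fl [e1, e0]) p uu U tr t := by
  have h1w : 1 - w ≠ 0 := by linarith
  rw [sel_cons]
  by_cases hφ : φ
  · by_cases hb : b = 0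
    · rw [sel_z (e := e1) (by rw [hb1, hb, mul_zero]), sel_z (e := e0) (by rw [hb0, hb, mul_zero])]
      exact Shp.nil rfl
    by_cases h0 : w = 0
    · refine Shp.one e1.y ?_ hu1
      rw [sel_pos (e := e1) (by rw [hb1]; exact mul_ne_zero h1w hb) (f1.2 hφ),
        sel_z (e := e0) (by rw [hb0, h0, zero_mul]), hw1, h0, sub_zero]
      rfl
    · refine Shp.two e1.y e0.y hv h0 ?_ hu1 hu0 ht1 ht0
      rw [sel_pos (e := e1) (by rw [hb1]; exact mul_ne_zero h1w hb) (f1.2 hφ),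
        sel_pos (e := e0) (by rw [hb0]; exact mul_ne_zero h0 hb) (f0.2 hφ), hw1, hw0]
      rfl
  · refine Shp.nil ?_
    rw [sel_neg (e := e1) fun h => hφ (f1.1 h), sel_neg (e := e0) fun h => hφ (f0.1 h)]
    rfl

lemma shp_13 {e1 e2 e3 e4 : XStep Λ κ} (h2 : ¬ fl e2) (h4 : ¬ fl e4)
    (h : Shp (sel wt fl [e1, e3]) p uu U tr t) : Shp (sel wt fl [e1, e2, e3, e4]) p uu U tr t := by
  rw [sel_cons e1 [e2, e3, e4], sel_cons e2 [e3, e4], sel_cons e3 [e4], sel_neg h2, sel_neg h4,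
    List.append_nil, List.nil_append, ← sel_cons]
  exact h

lemma shp_24 {e1 e2 e3 e4 : XStep Λ κ} (h1 : ¬ fl e1) (h3 : ¬ fl e3)
    (h : Shp (sel wt fl [e2, e4]) p uu U tr t) : Shp (sel wt fl [e1, e2, e3, e4]) p uu U tr t := by
  rw [sel_cons e1 [e2, e3, e4], sel_cons e2 [e3, e4], sel_cons e3 [e4], sel_neg h1, sel_neg h3,
    List.nil_append, List.nil_append, ← sel_cons]
  exact h

lemma shp_12 {e1 e2 e3 e4 : XStep Λ κ} (h3 : ¬ fl e3) (h4 : ¬ fl e4)
    (h : Shp (sel wt fl [e1, e2]) p uu U tr t) : Shp (sel wt fl [e1, e2, e3, e4]) p uu U tr t := by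
  rw [sel_cons e1 [e2, e3, e4], sel_cons e2 [e3, e4], sel_cons e3 [e4], sel_neg h3, sel_neg h4,
    List.append_nil, List.append_nil, ← sel_cons]
  exact h

lemma shp_34 {e1 e2 e3 e4 : XStep Λ κ} (h1 : ¬ fl e1) (h2 : ¬ fl e2)
    (h : Shp (sel wt fl [e3, e4]) p uu U tr t) : Shp (sel wt fl [e1, e2, e3, e4]) p uu U tr t := by
  rw [sel_cons e1 [e2, e3, e4], sel_cons e2 [e3, e4], sel_neg h1, sel_neg h2,
    List.nil_append, List.nil_append]
  exact h

end shp

section rows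
variable {stp : Stp Λ κ} {dv : DT Λ κ → Λ → Prop} {m : DT Λ κ → Λ → ℝ} {x : XSt Λ κ}

lemma nxJ_sel (j : Λ) (x : XSt Λ κ) :
    nxJ stp dv j x = sel XStep.a (fun e => e.f' j) (steps0 stp dv x) := rfl

lemma nxI_sel (j : Λ) (x : XSt Λ κ) :
    nxI stp dv j x = sel XStep.a' (fun e => e.f j) (steps0 stp dv x) := rfl

lemma shp_J (hw : x.s.t.All WN) (j : Λ) :
    Shp (nxJ stp dv j x) x.s.p XSt.u x.u (fun y => y.s.t) x.s.t := by
  classical
  rw [nxJ_sel]
  have hlt : ∀ {w : ℝ} {r : Λ → κ} {t₁ t₀ : DT Λ κ} {v : Λ → ℝ → ℝ} {B G : κ → ℝ → ℝ},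
      vw x.s.p x.s.t = .br w r t₁ t₀ v B G → w < 1 := fun h => by
    rw [vw_br h] at hw; exact (WN.nn hw.self).2
  by_cases h1 : x.s.t.isLeaf ∨ x.s.t'.isLeaf
  · have e2 : steps0 stp dv x = [] := by simp [steps0, h1]
    rw [e2]; exact shp_nil
  by_cases h2 : stp x.s
  · have e2 : steps0 stp dv x = [] := by simp [steps0, h1, h2]
    rw [e2]; exact shp_nil
  by_cases hL : x.s.isPL
  · have e2 : steps0 stp dv x = preL dv x := by simp [steps0, h1, h2, hL]
    rw [e2]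
    obtain ⟨w, r, t₁, t₀, v, B, G, hv, -, -⟩ := St.isPL_cases hL
    simp only [preL, hv]
    split_ifs
    · exact shp_two (φ := True) (b := 1) hv Iff.rfl Iff.rfl rfl rfl rfl rfl (hlt hv) rfl rfl rfl rfl
    · exact shp_two (φ := True) (b := 1) hv Iff.rfl Iff.rfl rfl rfl rfl rfl (hlt hv) rfl rfl rfl rfl
  by_cases hR : x.s.isPR
  · have e2 : steps0 stp dv x = preR dv x := by simp [steps0, h1, h2, hL, hR]
    rw [e2]
    obtain ⟨w, r, t₁, t₀, v, B, G, hv, -, -⟩ := St.isPR_cases hR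
    simp only [preR, hv]
    split_ifs
    · exact shp_ex (φ := dv x.s.t' j) (fun h => h) (fun h => h) rfl rfl rfl rfl
    · exact shp_ex (φ := dv x.s.t' j) (fun h => h) (fun h => h) rfl rfl rfl rfl
  have hA : ∀ t₁ t₀ : DT Λ κ, Shp (sel XStep.a (fun e => e.f' j) (oneA stp dv x t₁ t₀))
      x.s.p XSt.u x.u (fun y => y.s.t) x.s.t := by
    intro t₁ t₀
    unfold oneA
    split_ifs <;> exact shp_one rfl rfl
  have hB : ∀ t₁ t₀ : DT Λ κ, Shp (sel XStep.a (fun e => e.f' j) (oneB stp dv x t₁ t₀))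
      x.s.p XSt.u x.u (fun y => y.s.t) x.s.t := by
    intro t₁ t₀
    unfold oneB
    split_ifs <;> exact shp_one rfl rfl
  rcases hv : vw x.s.p x.s.t with ⟨w, r, t₁, t₀, v, B₁, G⟩ | ⟨r, t₁, t₀⟩ | ⟨Sp, u⟩ <;>
  rcases hv' : vw x.s.p x.s.t' with ⟨w', r', t₁', t₀', v', B', G'⟩ | ⟨r', t₁', t₀'⟩ | ⟨Sp', u'⟩ <;>
  simp only [steps0, h1, h2, hL, hR, hv, hv', if_false]
  · by_cases hd : dv x.s.t' j
    · refine shp_13 (fun h => h hd) (fun h => h hd) ?_
      exact shp_two (φ := True) (b := 1 - w') hv (iff_true_intro hd) (iff_true_intro hd) rfl rfl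
        rfl rfl (hlt hv) rfl rfl rfl rfl
    · refine shp_24 hd hd ?_
      exact shp_two (φ := True) (b := w') hv (iff_true_intro hd) (iff_true_intro hd) rfl rfl
        rfl rfl (hlt hv) rfl rfl rfl rfl
  · exact hB _ _
  · exact shp_two (φ := True) (b := 1) hv Iff.rfl Iff.rfl rfl rfl rfl rfl (hlt hv) rfl rfl rfl rfl
  · exact hA _ _
  · split_ifs
    · exact shp_ex (φ := dv x.s.t' j) (fun h => h) (fun h => h) rfl rfl rfl rfl
    · exact hA _ _
    · exact hB _ _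
  · split_ifs
    · exact shp_ex (φ := j ∈ Sp') (fun h => h) (fun h => h) rfl rfl rfl rfl
    · exact hA _ _
  · exact shp_ex (φ := dv x.s.t' j) (fun h => h) (fun h => h) rfl rfl rfl rfl
  · split_ifs
    · exact shp_ex (φ := dv x.s.t' j) (fun h => h) (fun h => h) rfl rfl rfl rfl
    · exact hB _ _
  · exact shp_one rfl rfl

lemma shp_I (hw : x.s.t'.All WN) (j : Λ) :
    Shp (nxI stp dv j x) x.s.p XSt.u' x.u' (fun y => y.s.t') x.s.t' := by
  classical
  rw [nxI_sel]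
  have hlt : ∀ {w : ℝ} {r : Λ → κ} {t₁ t₀ : DT Λ κ} {v : Λ → ℝ → ℝ} {B G : κ → ℝ → ℝ},
      vw x.s.p x.s.t' = .br w r t₁ t₀ v B G → w < 1 := fun h => by
    rw [vw_br h] at hw; exact (WN.nn hw.self).2
  by_cases h1 : x.s.t.isLeaf ∨ x.s.t'.isLeaf
  · have e2 : steps0 stp dv x = [] := by simp [steps0, h1]
    rw [e2]; exact shp_nil
  by_cases h2 : stp x.s
  · have e2 : steps0 stp dv x = [] := by simp [steps0, h1, h2]
    rw [e2]; exact shp_nil
  by_cases hL : x.s.isPL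
  · have e2 : steps0 stp dv x = preL dv x := by simp [steps0, h1, h2, hL]
    rw [e2]
    obtain ⟨w, r, t₁, t₀, v, B, G, hv, -, -⟩ := St.isPL_cases hL
    simp only [preL, hv]
    split_ifs
    · exact shp_ex (φ := dv x.s.t j) (fun h => h) (fun h => h) rfl rfl rfl rfl
    · exact shp_ex (φ := dv x.s.t j) (fun h => h) (fun h => h) rfl rfl rfl rfl
  by_cases hR : x.s.isPR
  · have e2 : steps0 stp dv x = preR dv x := by simp [steps0, h1, h2, hL, hR]
    rw [e2]
    obtain ⟨w, r, t₁, t₀, v, B, G, hv, -, -⟩ := St.isPR_cases hR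
    simp only [preR, hv]
    split_ifs
    · exact shp_two (φ := True) (b := 1) hv Iff.rfl Iff.rfl rfl rfl (mul_comm _ _) (mul_comm _ _)
        (hlt hv) rfl rfl rfl rfl
    · exact shp_two (φ := True) (b := 1) hv Iff.rfl Iff.rfl rfl rfl (mul_comm _ _) (mul_comm _ _)
        (hlt hv) rfl rfl rfl rfl
  have hA : ∀ t₁ t₀ : DT Λ κ, Shp (sel XStep.a' (fun e => e.f j) (oneA stp dv x t₁ t₀))
      x.s.p XSt.u' x.u' (fun y => y.s.t') x.s.t' := by
    intro t₁ t₀
    unfold oneA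
    split_ifs <;> exact shp_one rfl rfl
  have hB : ∀ t₁ t₀ : DT Λ κ, Shp (sel XStep.a' (fun e => e.f j) (oneB stp dv x t₁ t₀))
      x.s.p XSt.u' x.u' (fun y => y.s.t') x.s.t' := by
    intro t₁ t₀
    unfold oneB
    split_ifs <;> exact shp_one rfl rfl
  rcases hv : vw x.s.p x.s.t with ⟨w, r, t₁, t₀, v, B₁, G⟩ | ⟨r, t₁, t₀⟩ | ⟨Sp, u⟩ <;>
  rcases hv' : vw x.s.p x.s.t' with ⟨w', r', t₁', t₀', v', B', G'⟩ | ⟨r', t₁', t₀'⟩ | ⟨Sp', u'⟩ <;>
  simp only [steps0, h1, h2, hL, hR, hv, hv', if_false]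
  · by_cases hd : dv x.s.t j
    · refine shp_12 (fun h => h hd) (fun h => h hd) ?_
      exact shp_two (φ := True) (b := 1 - w) hv' (iff_true_intro hd) (iff_true_intro hd) rfl rfl
        (mul_comm _ _) (mul_comm _ _) (hlt hv') rfl rfl rfl rfl
    · refine shp_34 hd hd ?_
      exact shp_two (φ := True) (b := w) hv' (iff_true_intro hd) (iff_true_intro hd) rfl rfl
        (mul_comm _ _) (mul_comm _ _) (hlt hv') rfl rfl rfl rfl
  · exact hB _ _
  · exact shp_ex (φ := dv x.s.t j) (fun h => h) (fun h => h) rfl rfl rfl rfl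
  · exact hA _ _
  · split_ifs
    · exact shp_ex (φ := dv x.s.t j) (fun h => h) (fun h => h) rfl rfl rfl rfl
    · exact hA _ _
    · exact hB _ _
  · split_ifs
    · exact shp_ex (φ := dv x.s.t j) (fun h => h) (fun h => h) rfl rfl rfl rfl
    · exact hA _ _
  · exact shp_two (φ := True) (b := 1) hv' Iff.rfl Iff.rfl rfl rfl (mul_comm _ _) (mul_comm _ _)
      (hlt hv') rfl rfl rfl rfl
  · split_ifs
    · exact shp_ex (φ := j ∈ Sp) (fun h => h) (fun h => h) rfl rfl rfl rfl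
    · exact hB _ _
  · exact shp_one rfl rfl

/-- **rows, right item** (random side = left) -/
theorem row_J (j : Λ) (h : XI x) :
    RowP (nxJ stp dv j) XSt.p (fun x => x.s.t.top + 1) XSt.u
      (fun x => x.u' ∪ mtD dv j x.s.t') x := by
  have hT : ∀ (a : ℝ) (y : XSt Λ κ), (a, y) ∈ nxJ stp dv j x →
      y.u' ∪ mtD dv j y.s.t' = x.u' ∪ mtD dv j x.s.t' := by
    intro a y hy
    obtain ⟨e, he, hf, h2⟩ := mem_nxJ hy
    obtain ⟨hm, -, ha'⟩ := steps_mv he
    cases h2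
    exact hm.R.T ha' hf
  rcases shp_J (stp := stp) (dv := dv) h.wL j with h0 | ⟨y, h0, hu⟩ |
    @⟨w, r, t₁, t₀, v, B, G, y1, y0, hv, hw, h0, hu1, hu0, ht1, ht0⟩
  · exact RowP.nil h0
  · obtain ⟨e, he, -, h2⟩ := mem_nxJ (x := x) (stp := stp) (dv := dv) (j := j) (q := (1, y))
      (by rw [h0]; simp)
    have h3 := (steps_top h he).1
    refine RowP.one y h0 hu (hT 1 _ (by rw [h0]; simp)) ?_
    have h4 : y = e.y := congrArg Prod.snd h2
    rw [h4]
    exact Nat.succ_le_succ h3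
  · obtain ⟨e, he, -, h2⟩ := mem_nxJ (x := x) (stp := stp) (dv := dv) (j := j) (q := (w, y0))
      (by rw [h0]; simp)
    obtain ⟨hpp, hpn⟩ := steps_p h he
    obtain ⟨-, -, k1, k0, k, -⟩ := tie_col hv hpp.pos hw h.cL
    have hwn : WN (DT.br x.s.p w r t₁ t₀ v B G) := by
      have := h.wL; rw [vw_br hv] at this; exact this.self
    rcases hwn with hwn | ⟨w1, w2, w3⟩
    · exact absurd hwn hw
    refine RowP.two w y1 y0 h0 w1 w2 w3 hu1 hu0 (hT (1 - w) _ (by rw [h0]; simp))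
      (hT w _ (by rw [h0]; simp)) hpp ?_ ?_ ?_
    · show x.s.p < x.s.t.top + 1
      omega
    · show y1.s.t.top + 1 ≤ x.s.p
      have ht1' : y1.s.t = t₁ := ht1
      rw [ht1']; exact k1
    · show y0.s.t.top + 1 ≤ x.s.p
      have ht0' : y0.s.t = t₀ := ht0
      rw [ht0']; exact k0

/-- **rows, left item** (random side = right) -/
theorem row_I (j : Λ) (h : XI x) :
    RowP (nxI stp dv j) XSt.p (fun x => x.s.t'.top + 1) XSt.u'
      (fun x => x.u ∪ mtD dv j x.s.t) x := by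
  have hT : ∀ (a : ℝ) (y : XSt Λ κ), (a, y) ∈ nxI stp dv j x →
      y.u ∪ mtD dv j y.s.t = x.u ∪ mtD dv j x.s.t := by
    intro a y hy
    obtain ⟨e, he, hf, h2⟩ := mem_nxI hy
    obtain ⟨hm, ha, -⟩ := steps_mv he
    cases h2
    exact hm.L.T ha hf
  rcases shp_I (stp := stp) (dv := dv) h.wR j with h0 | ⟨y, h0, hu⟩ |
    @⟨w, r, t₁, t₀, v, B, G, y1, y0, hv, hw, h0, hu1, hu0, ht1, ht0⟩
  · exact RowP.nil h0
  · obtain ⟨e, he, -, h2⟩ := mem_nxI (x := x) (stp := stp) (dv := dv) (j := j) (q := (1, y))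
      (by rw [h0]; simp)
    have h3 := (steps_top h he).2.1
    refine RowP.one y h0 hu (hT 1 _ (by rw [h0]; simp)) ?_
    have h4 : y = e.y := congrArg Prod.snd h2
    rw [h4]
    exact Nat.succ_le_succ h3
  · obtain ⟨e, he, -, h2⟩ := mem_nxI (x := x) (stp := stp) (dv := dv) (j := j) (q := (w, y0))
      (by rw [h0]; simp)
    obtain ⟨hpp, hpn⟩ := steps_p h he
    obtain ⟨-, -, k1, k0, k, -⟩ := tie_col hv hpp.pos hw h.cR
    have hwn : WN (DT.br x.s.p w r t₁ t₀ v B G) := by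
      have := h.wR; rw [vw_br hv] at this; exact this.self
    rcases hwn with hwn | ⟨w1, w2, w3⟩
    · exact absurd hwn hw
    refine RowP.two w y1 y0 h0 w1 w2 w3 hu1 hu0 (hT (1 - w) _ (by rw [h0]; simp))
      (hT w _ (by rw [h0]; simp)) hpp ?_ ?_ ?_
    · show x.s.p < x.s.t'.top + 1
      omega
    · show y1.s.t'.top + 1 ≤ x.s.p
      have ht1' : y1.s.t' = t₁ := ht1
      rw [ht1']; exact k1
    · show y0.s.t'.top + 1 ≤ x.s.p
      have ht0' : y0.s.t' = t₀ := ht0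
      rw [ht0']; exact k0

lemma XI.nextJ {j : Λ} (h : XI x) : ∀ q ∈ nxJ stp dv j x, XI q.2 := by
  intro q hq
  obtain ⟨e, he, -, rfl⟩ := mem_nxJ hq
  exact h.next e he

lemma XI.nextI {j : Λ} (h : XI x) : ∀ q ∈ nxI stp dv j x, XI q.2 := by
  intro q hq
  obtain ⟨e, he, -, rfl⟩ := mem_nxI hq
  exact h.next e he

end rows

/-- the adapted tie tree of the left side, seen by the item `j` of the right side -/
noncomputable def wtJ (stp : Stp Λ κ) (dv : DT Λ κ → Λ → Prop) (j : Λ) (x : XSt Λ κ) : WT :=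
  wtF (nxJ stp dv j) XSt.p (x.rank + 1) x

/-- the adapted tie tree of the right side, seen by the item `j` of the left side -/
noncomputable def wtI (stp : Stp Λ κ) (dv : DT Λ κ → Λ → Prop) (j : Λ) (x : XSt Λ κ) : WT :=
  wtF (nxI stp dv j) XSt.p (x.rank + 1) x

theorem wtJ_Ok' {stp : Stp Λ κ} {dv : DT Λ κ → Λ → Prop} {n : ℕ} {x : XSt Λ κ} (h : XI x)
    (hn : x.s.t.top < n) (j : Λ) : (wtJ stp dv j x).Ok n :=
  wtF_OkR (Inv := XI) (fun _ hx => hx.nextJ) (fun x hx => row_J j hx) _ _ _ h hn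

theorem wtI_Ok' {stp : Stp Λ κ} {dv : DT Λ κ → Λ → Prop} {n : ℕ} {x : XSt Λ κ} (h : XI x)
    (hn : x.s.t'.top < n) (j : Λ) : (wtI stp dv j x).Ok n :=
  wtF_OkR (Inv := XI) (fun _ hx => hx.nextI) (fun x hx => row_I j hx) _ _ _ h hn

theorem wtJ_Ok {stp : Stp Λ κ} {dv : DT Λ κ → Λ → Prop} {x : XSt Λ κ} (h : XI x)
    (j : Λ) : (wtJ stp dv j x).Ok x.n := wtJ_Ok' h ((le_max_left _ _).trans_lt h.n) j

theorem wtI_Ok {stp : Stp Λ κ} {dv : DT Λ κ → Λ → Prop} {x : XSt Λ κ} (h : XI x)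
    (j : Λ) : (wtI stp dv j x).Ok x.n := wtI_Ok' h ((le_max_right _ _).trans_lt h.n) j

end Crest.Agent.R4P.Res927
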