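import Crest.Agent.R4P.StepIso588
import Crest.Agent.R4.StepAlv588

/-!
R4 (S0004), **alive pieces** (T9'): port of helper588's `R4/StepAlv588` to the tree with powers
(helper504).

A piece `j` is alive at `x` with the numerator `M / B` (`alv`). If two points `x`, `x'` have the same
alive numerators and the same classes, the item sums agree (`step_const`).
-/

set_option autoImplicit false
set_option linter.unusedSectionVars false
open MeasureTheory Filter

namespace Crest.Agent.R4P.Step588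

export Crest.Agent.R4.Step588 (pml pml_dvd mul_pml_dvd pml_pos)

open Crest.Agent.R4.Tour104 Crest.Agent.R4.Tour758 Crest.Agent.R4.Avg758 Crest.Agent.R4.Clos758
open Crest.Agent.R4.ClosL758 Crest.Agent.R4.ClosG758 Crest.Agent.R4.Lam368
open Crest.Agent.R4.Piece464 Crest.Agent.R4.Fam464 Crest.Agent.R4P.Cnt588 Crest.Agent.R4P.Item758

section
variable {Λ κ : Type*}

/-- the piece `j` is alive at `x` with the numerator `M / B` -/
def alv (D : Par Λ κ) (s : ℝ) (pr B : ℕ) (x : ℝ) (j : Λ) (M : ℤ) : Prop :=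
  s * D.al j ≤ ((D.it j / pr : ℕ) : ℝ) * x - s * D.γ - (M : ℝ) / B ∧
    ((D.it j / pr : ℕ) : ℝ) * x - s * D.γ - (M : ℝ) / B < s * D.be j

lemma alv_unique {D : Par Λ κ} {s : ℝ} {pr B : ℕ} {x : ℝ} {j : Λ} {M M' : ℤ} (hB : 0 < B)
    (hf : s * (D.be j - D.al j) * B ≤ 1) (h : alv D s pr B x j M) (h' : alv D s pr B x j M') :
    M = M' := by
  have hB' : (0 : ℝ) < B := by exact_mod_cast hB
  have h1 : |((M - M' : ℤ) : ℝ) / B| < s * D.be j - s * D.al j := by
    push_cast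
    rw [sub_div, abs_lt]
    constructor <;> linarith [h.1, h.2, h'.1, h'.2]
  have h2 : |((M - M' : ℤ) : ℝ)| < 1 := by
    rw [abs_div, abs_of_pos hB', div_lt_iff₀ hB'] at h1
    have : (s * D.be j - s * D.al j) * B = s * (D.be j - D.al j) * B := by ring
    linarith
  have h3 : |M - M'| < 1 := by exact_mod_cast h2
  have := Int.abs_lt_one_iff.1 h3
  omega

/-- the window of a leaf in terms of the numerators `M / B` -/
lemma win_iff {D : Par Λ κ} {s X x : ℝ} {b pr pr₀ N B c m e : ℕ} {j : Λ}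
    (hb : (b : ℝ) = s * N) (hX : X * pr₀ = N * pr * x) (hpr : pr₀ ∣ pr) (hit : 0 < D.it j)
    (hd : pr ∣ D.it j) (hN : N = c * m) (hB : B = m * e) (hN0 : 0 < N) (hB0 : 0 < B) (a : ℤ) :
    a ∈ Finset.Ioc ⌊((D.it j / pr : ℕ) : ℝ) * (X / c) - (b : ℝ) / c * D.γ - (b : ℝ) / c * D.be j⌋
      ⌊((D.it j / pr : ℕ) : ℝ) * (X / c) - (b : ℝ) / c * D.γ - (b : ℝ) / c * D.al j⌋ ↔
      alv D s pr₀ B x j (a * e) := by
  have hc0 : 0 < c := Nat.pos_of_ne_zero (by rintro rfl; simp at hN; omega)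
  have hm0 : 0 < m := Nat.pos_of_ne_zero (by rintro rfl; simp at hN; omega)
  have he0 : 0 < e := Nat.pos_of_ne_zero (by rintro rfl; simp at hB; omega)
  have hpr0 : 0 < pr := Nat.pos_of_dvd_of_pos hd hit
  have hpr00 : 0 < pr₀ := Nat.pos_of_dvd_of_pos hpr hpr0
  have hcR : (0 : ℝ) < c := by exact_mod_cast hc0
  have hmR : (0 : ℝ) < m := by exact_mod_cast hm0
  have heR : (0 : ℝ) < e := by exact_mod_cast he0
  have hprR : (0 : ℝ) < pr := by exact_mod_cast hpr0
  have hpr0R : (0 : ℝ) < pr₀ := by exact_mod_cast hpr00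
  have e1 : ((D.it j / pr : ℕ) : ℝ) = (D.it j : ℝ) / pr := Nat.cast_div hd hprR.ne'
  have e2 : ((D.it j / pr₀ : ℕ) : ℝ) = (D.it j : ℝ) / pr₀ := Nat.cast_div (hpr.trans hd) hpr0R.ne'
  have e3 : (b : ℝ) / c = s * m := by
    rw [hb, hN]; push_cast; field_simp
  have e4 : ((D.it j / pr : ℕ) : ℝ) * (X / c) = m * (((D.it j / pr₀ : ℕ) : ℝ) * x) := by
    rw [e1, e2]
    have hX' : X = N * pr * x / pr₀ := by rw [← hX]; field_simp
    rw [hX', hN]
    push_cast
    field_simp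
  have e5 : (((a * e : ℤ)) : ℝ) / B = a / m := by
    rw [hB]; push_cast; field_simp
  rw [mem_pw, e3, e4]
  unfold alv
  rw [e5]
  have key : (m : ℝ) * (((D.it j / pr₀ : ℕ) : ℝ) * x) - s * m * D.γ - a =
      m * (((D.it j / pr₀ : ℕ) : ℝ) * x - s * D.γ - a / m) := by
    field_simp
  rw [key]
  constructor
  · rintro ⟨h1, h2⟩
    constructor
    · have : (m : ℝ) * (s * D.al j) ≤ m * (((D.it j / pr₀ : ℕ) : ℝ) * x - s * D.γ - a / m) := by
        linarith
      exact le_of_mul_le_mul_left this hmR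
    · have : (m : ℝ) * (((D.it j / pr₀ : ℕ) : ℝ) * x - s * D.γ - a / m) < m * (s * D.be j) := by
        linarith
      exact lt_of_mul_lt_mul_left this hmR.le
  · rintro ⟨h1, h2⟩
    constructor
    · have := mul_le_mul_of_nonneg_left h1 hmR.le
      linarith
    · have := mul_lt_mul_of_pos_left h2 hmR
      linarith

/-- all the total multipliers of the leaves divide `B` -/
def NB (B : ℕ) : IT → ℕ → Prop
  | .leaf _, N => N ∣ B
  | .br p _ t₁ t₀, N => NB B t₁ N ∧ NB B t₀ (N * p)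
  | .add _ t₁ t₀, N => NB B t₁ N ∧ NB B t₀ N
  | .up _ _ t, N => NB B t N
  | .pl _ t, N => NB B t N
  | .far _ t₁ t₀, N => NB B t₁ N ∧ NB B t₀ N

lemma NB_of_Ok {B : ℕ} (t : IT) : ∀ {n N : ℕ}, t.Ok n → N * pml n ∣ B → NB B t N := by
  induction t with
  | leaf S =>
    intro n N _ h
    exact (Dvd.intro _ rfl).trans h
  | br p Sp t₁ t₀ ih₁ ih₀ =>
    intro n N hO h
    obtain ⟨hp, hpn, -, -, h1, h0⟩ := hO
    refine ⟨ih₁ h1 (dvd_trans (Nat.mul_dvd_mul_left N (pml_dvd hpn.le)) h), ih₀ h0 ?_⟩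
    rw [mul_assoc]
    exact dvd_trans (Nat.mul_dvd_mul_left N (mul_pml_dvd hp hpn)) h
  | add p t₁ t₀ ih₁ ih₀ =>
    intro n N hO h
    obtain ⟨hp, hpn, -, h1, h0⟩ := hO
    exact ⟨ih₁ h1 (dvd_trans (Nat.mul_dvd_mul_left N (pml_dvd hpn)) h),
      ih₀ h0 (dvd_trans (Nat.mul_dvd_mul_left N (pml_dvd hpn)) h)⟩
  | up p Sp t ih =>
    intro n N hO h
    obtain ⟨hp, hpn, -, h1⟩ := hO
    exact ih h1 (dvd_trans (Nat.mul_dvd_mul_left N (pml_dvd hpn.le)) h)
  | pl p t ih =>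
    intro n N hO h
    obtain ⟨hp, hpn, h1⟩ := hO
    exact ih h1 (dvd_trans (Nat.mul_dvd_mul_left N (pml_dvd hpn)) h)
  | far p t₁ t₀ ih₁ ih₀ =>
    intro n N hO h
    obtain ⟨hp, hpn, -, h1, h0⟩ := hO
    exact ⟨ih₁ h1 (dvd_trans (Nat.mul_dvd_mul_left N (pml_dvd hpn)) h),
      ih₀ h0 (dvd_trans (Nat.mul_dvd_mul_left N (pml_dvd hpn)) h)⟩

/-- pieces of items outside the tree are dead -/
lemma dead_out (D : Par Λ κ) {k : Λ} (t : IT) : ∀ {b pr N : ℕ} {X : ℝ}, D.it k ∉ t.items →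
    Dead D k b pr t N X := by
  induction t with
  | leaf S => intro b pr N X h c _; exact if_neg h
  | br p Sp t₁ t₀ ih₁ ih₀ =>
    intro b pr N X h
    exact ⟨ih₁ fun h1 => h (Finset.mem_union_left _ h1), ih₀ fun h1 => h (Finset.mem_union_right _ h1)⟩
  | add p t₁ t₀ ih₁ ih₀ =>
    intro b pr N X h
    exact ⟨ih₁ fun h1 => h (Finset.mem_union_left _ h1), ih₀ fun h1 => h (Finset.mem_union_right _ h1)⟩
  | up p Sp t ih => intro b pr N X h; exact ih h
  | pl p t ih => intro b pr N X h; exact ih h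
  | far p t₁ t₀ ih₁ ih₀ =>
    intro b pr N X h
    exact ⟨ih₁ fun h1 => h (Finset.mem_union_left _ h1), ih₀ fun h1 => h (Finset.mem_union_right _ h1)⟩

/-- pieces which are not alive are dead -/
lemma dead_alv (D : Par Λ κ) {k : Λ} {s x : ℝ} {pr₀ B : ℕ} (hB0 : 0 < B)
    (h : ∀ M, ¬ alv D s pr₀ B x k M) (t : IT) : ∀ {b pr N : ℕ} {X : ℝ}, Fit b pr t → 0 < N →
    NB B t N → (b : ℝ) = s * N → X * pr₀ = N * pr * x → pr₀ ∣ pr → Dead D k b pr t N X := by
  induction t with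
  | leaf S =>
    intro b pr N X hF hN hNB hb hX hpr c hc
    by_cases hk : D.it k ∈ S
    · obtain ⟨a1, a2, a3⟩ := hF _ hk
      obtain ⟨m, rfl⟩ := hc
      obtain ⟨e, he⟩ : m ∣ B := (Dvd.intro_left c rfl).trans hNB
      unfold Par.L
      rw [if_pos hk]
      unfold Par.pcs pc
      refine Finset.sum_eq_zero fun a ha => ?_
      exact absurd ((win_iff hb hX hpr a1 a2 rfl he hN hB0 a).1 ha) (h _)
    · exact if_neg hk
  | br p Sp t₁ t₀ ih₁ ih₀ =>
    intro b pr N X hF hN hNB hb hX hpr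
    obtain ⟨hp, hpb, hd, h1, h0⟩ := hF
    refine ⟨ih₁ h1 hN hNB.1 hb ?_ (hpr.trans (Dvd.intro _ rfl)),
      ih₀ h0 (Nat.mul_pos hN hp.pos) hNB.2 ?_ ?_ hpr⟩
    · push_cast; linear_combination (p : ℝ) * hX
    · push_cast; rw [hb]; ring
    · push_cast; linear_combination (p : ℝ) * hX
  | add p t₁ t₀ ih₁ ih₀ =>
    intro b pr N X hF hN hNB hb hX hpr
    obtain ⟨hd, h1, h0⟩ := hF
    exact ⟨ih₁ h1 hN hNB.1 hb hX hpr, ih₀ h0 hN hNB.2 hb hX hpr⟩
  | up p Sp t ih => intro b pr N X hF hN hNB hb hX hpr; exact ih hF hN hNB hb hX hpr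
  | pl p t ih =>
    intro b pr N X hF hN hNB hb hX hpr
    obtain ⟨hp, hpb, h1⟩ := hF
    refine ih h1 hN hNB hb ?_ (hpr.trans (Dvd.intro _ rfl))
    push_cast; linear_combination (p : ℝ) * hX
  | far p t₁ t₀ ih₁ ih₀ =>
    intro b pr N X hF hN hNB hb hX hpr
    obtain ⟨hd, h1, h0⟩ := hF
    exact ⟨ih₁ h1 hN hNB.1 hb hX hpr, ih₀ h0 hN hNB.2 hb hX hpr⟩

/-- columns of the `br` nodes -/
def cols : IT → Finset ℕ
  | .leaf _ => ∅
  | .br p _ t₁ t₀ => insert p (cols t₁ ∪ cols t₀)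
  | .add _ t₁ t₀ => cols t₁ ∪ cols t₀
  | .up _ _ t => cols t
  | .pl _ t => cols t
  | .far _ t₁ t₀ => cols t₁ ∪ cols t₀

/-- **same numerators, same classes: same structure** -/
lemma same_alv (D : Par Λ κ) {A A' : Finset Λ} {σ : Λ → Λ} {s x x' : ℝ} {pr₀ B : ℕ} (hB0 : 0 < B)
    (huniq : ∀ j x M M', alv D s pr₀ B x j M → alv D s pr₀ B x j M' → M = M')
    {T : Finset ℕ}
    (hA : ∀ j ∈ A, D.it (σ j) = D.it j ∧ ∃ M, alv D s pr₀ B x j M ∧ alv D s pr₀ B x' (σ j) M)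
    {P : Finset ℕ}
    (hAout : ∀ k, D.it k ∈ T → k ∉ A → (∀ M, ¬ alv D s pr₀ B x k M) ∨
      ∀ p ∈ P, ∀ j ∈ A, D.rho p k ≠ D.rho p j)
    (hAout' : ∀ k, D.it k ∈ T → k ∉ A' → (∀ M, ¬ alv D s pr₀ B x' k M) ∨
      ∀ p ∈ P, ∀ j ∈ A', D.rho p k ≠ D.rho p j)
    (hcl : ∀ p ∈ P, ∀ j ∈ A, ∀ k ∈ A, (D.rho p j = D.rho p k ↔
      D.rho p (σ j) = D.rho p (σ k))) (t : IT) : ∀ {b pr N : ℕ} {X X' : ℝ}, cols t ⊆ P →
    t.items ⊆ T → Fit b pr t → 0 < N →
    NB B t N → (b : ℝ) = s * N → X * pr₀ = N * pr * x → X' * pr₀ = N * pr * x' → pr₀ ∣ pr →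
    (∀ j ∈ A, D.it j ∈ t.items → ∀ M, alv D s pr₀ B x j M → alv D s pr₀ B x' (σ j) M →
      ∀ z : ℤ, z * B = M * ((N * mp t (D.it j) : ℕ) : ℤ) → D.om j z = D.om (σ j) z) →
    Same D A A' σ b pr t N X X' := by
  induction t with
  | leaf S =>
    intro b pr N X X' _ hT hF hN hNB hb hX hX' hpr hom c hc j hj
    obtain ⟨hit, M, hM, hM'⟩ := hA j hj
    by_cases hk : D.it j ∈ S
    · obtain ⟨a1, a2, a3⟩ := hF _ hk
      obtain ⟨m, rfl⟩ := hc
      obtain ⟨e, he⟩ : m ∣ B := (Dvd.intro_left c rfl).trans hNB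
      have hk' : D.it (σ j) ∈ S := by rw [hit]; exact hk
      unfold Par.L
      rw [if_pos hk, if_pos hk']
      unfold Par.pcs pc
      have hset : Finset.Ioc
          ⌊((D.it j / pr : ℕ) : ℝ) * (X / c) - (b : ℝ) / c * D.γ - (b : ℝ) / c * D.be j⌋
          ⌊((D.it j / pr : ℕ) : ℝ) * (X / c) - (b : ℝ) / c * D.γ - (b : ℝ) / c * D.al j⌋ =
        Finset.Ioc
          ⌊((D.it (σ j) / pr : ℕ) : ℝ) * (X' / c) - (b : ℝ) / c * D.γ - (b : ℝ) / c * D.be (σ j)⌋
          ⌊((D.it (σ j) / pr : ℕ) : ℝ) * (X' / c) - (b : ℝ) / c * D.γ - (b : ℝ) / c * D.al (σ j)⌋ := by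
        ext a
        rw [win_iff hb hX hpr a1 a2 rfl he hN hB0 a,
          win_iff hb hX' hpr (by rw [hit]; exact a1) (by rw [hit]; exact a2) rfl he hN hB0 a]
        constructor
        · intro h
          rw [huniq _ _ _ _ h hM]; exact hM'
        · intro h
          rw [huniq _ _ _ _ h hM']; exact hM
      rw [← hset]
      refine Finset.sum_congr rfl fun a ha => ?_
      have h1 := (win_iff hb hX hpr a1 a2 rfl he hN hB0 a).1 ha
      have h2 := huniq _ _ _ _ h1 hM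
      refine hom j hj hk M hM hM' (c * a) ?_
      rw [← h2, he]
      show (c : ℤ) * a * ((m * e : ℕ) : ℤ) = a * e * ((c * m * 1 : ℕ) : ℤ)
      push_cast
      ring
    · have hk' : D.it (σ j) ∉ S := by rw [hit]; exact hk
      unfold Par.L
      rw [if_neg hk, if_neg hk']
  | br p Sp t₁ t₀ ih₁ ih₀ =>
    intro b pr N X X' hP hT hF hN hNB hb hX hX' hpr hom
    obtain ⟨hp, hpb, hd, h1, h0⟩ := hF
    have hpP : p ∈ P := hP (Finset.mem_insert_self _ _)
    have hpr1 : pr₀ ∣ pr * p := hpr.trans (Dvd.intro _ rfl)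
    have hNp : 0 < N * p := Nat.mul_pos hN hp.pos
    have e1 : ∀ {X x : ℝ}, X * pr₀ = N * pr * x → (p : ℝ) * X * pr₀ = N * ((pr * p : ℕ) : ℝ) * x := by
      intro X x h; push_cast; linear_combination (p : ℝ) * h
    have e0 : ∀ {X x : ℝ}, X * pr₀ = N * pr * x → (p : ℝ) * X * pr₀ = ((N * p : ℕ) : ℝ) * pr * x := by
      intro X x h; push_cast; linear_combination (p : ℝ) * h
    have eb : (((b * p : ℕ)) : ℝ) = s * ((N * p : ℕ) : ℝ) := by push_cast; rw [hb]; ring
    have dd : ∀ {Y y : ℝ}, Y * pr₀ = N * pr * y → ∀ k, (D.it k ∉ T ∨ ∀ M, ¬ alv D s pr₀ B y k M) →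
        Dead D k b (pr * p) t₁ N (p * Y) ∧ Dead D k (b * p) pr t₀ (N * p) (p * Y) := by
      intro Y y hY k hk
      rcases hk with hk | hk
      · have hk2 : D.it k ∉ t₁.items ∪ t₀.items := fun h => hk (hT h)
        exact ⟨dead_out D t₁ fun h => hk2 (Finset.mem_union_left _ h),
          dead_out D t₀ fun h => hk2 (Finset.mem_union_right _ h)⟩
      · exact ⟨dead_alv D hB0 hk t₁ h1 hN hNB.1 hb (e1 hY) hpr1,
          dead_alv D hB0 hk t₀ h0 hNp hNB.2 eb (e0 hY) hpr⟩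
    refine ⟨hcl p hpP, ?_, ?_, ?_, ?_⟩
    · intro j hj k hjk
      by_cases hkA : k ∈ A
      · exact Or.inl hkA
      right
      by_cases hkT : D.it k ∈ T
      · rcases hAout k hkT hkA with h | h
        · exact dd hX k (Or.inr h)
        · exact absurd hjk (h p hpP j hj)
      · exact dd hX k (Or.inl hkT)
    · intro j hj k hjk
      by_cases hkA : k ∈ A'
      · exact Or.inl hkA
      right
      by_cases hkT : D.it k ∈ T
      · rcases hAout' k hkT hkA with h | h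
        · exact dd hX' k (Or.inr h)
        · exact absurd hjk (h p hpP j hj)
      · exact dd hX' k (Or.inl hkT)
    · exact ih₁ (fun q hq => hP (Finset.mem_insert_of_mem (Finset.mem_union_left _ hq)))
        (fun q hq => hT (Finset.mem_union_left _ hq)) h1 hN hNB.1 hb (e1 hX) (e1 hX') hpr1
        fun j hj hjt M h2 h3 z hz => hom j hj (Finset.mem_union_left _ hjt) M h2 h3 z (by
          have e : mp (.br p Sp t₁ t₀) (D.it j) = mp t₁ (D.it j) :=
            if_neg (Finset.disjoint_left.1 hd hjt)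
          rw [e]; exact hz)
    · exact ih₀ (fun q hq => hP (Finset.mem_insert_of_mem (Finset.mem_union_right _ hq)))
        (fun q hq => hT (Finset.mem_union_right _ hq)) h0 hNp hNB.2 eb (e0 hX) (e0 hX') hpr
        fun j hj hjt M h2 h3 z hz => hom j hj (Finset.mem_union_right _ hjt) M h2 h3 z (by
          have e : mp (.br p Sp t₁ t₀) (D.it j) = p * mp t₀ (D.it j) := if_pos hjt
          rw [e, ← mul_assoc]; exact hz)
  | add p t₁ t₀ ih₁ ih₀ =>
    intro b pr N X X' hP hT hF hN hNB hb hX hX' hpr hom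
    obtain ⟨hd, h1, h0⟩ := hF
    exact ⟨ih₁ (fun q hq => hP (Finset.mem_union_left _ hq))
        (fun q hq => hT (Finset.mem_union_left _ hq)) h1 hN hNB.1 hb hX hX' hpr
        fun j hj hjt M h2 h3 z hz => hom j hj (Finset.mem_union_left _ hjt) M h2 h3 z (by
          have e : mp (.add p t₁ t₀) (D.it j) = mp t₁ (D.it j) :=
            if_neg (Finset.disjoint_left.1 hd hjt)
          rw [e]; exact hz),
      ih₀ (fun q hq => hP (Finset.mem_union_right _ hq))
        (fun q hq => hT (Finset.mem_union_right _ hq)) h0 hN hNB.2 hb hX hX' hpr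
        fun j hj hjt M h2 h3 z hz => hom j hj (Finset.mem_union_right _ hjt) M h2 h3 z (by
          have e : mp (.add p t₁ t₀) (D.it j) = mp t₀ (D.it j) := if_pos hjt
          rw [e]; exact hz)⟩
  | up p Sp t ih =>
    intro b pr N X X' hP hT hF hN hNB hb hX hX' hpr hom
    exact ih hP hT hF hN hNB hb hX hX' hpr hom
  | pl p t ih =>
    intro b pr N X X' hP hT hF hN hNB hb hX hX' hpr hom
    obtain ⟨hp, hpb, h1⟩ := hF
    refine ih hP hT h1 hN hNB hb ?_ ?_ (hpr.trans (Dvd.intro _ rfl)) hom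
    · push_cast; linear_combination (p : ℝ) * hX
    · push_cast; linear_combination (p : ℝ) * hX'
  | far p t₁ t₀ ih₁ ih₀ =>
    intro b pr N X X' hP hT hF hN hNB hb hX hX' hpr hom
    obtain ⟨hd, h1, h0⟩ := hF
    exact ⟨ih₁ (fun q hq => hP (Finset.mem_union_left _ hq))
        (fun q hq => hT (Finset.mem_union_left _ hq)) h1 hN hNB.1 hb hX hX' hpr
        fun j hj hjt M h2 h3 z hz => hom j hj (Finset.mem_union_left _ hjt) M h2 h3 z (by
          have e : mp (.far p t₁ t₀) (D.it j) = mp t₁ (D.it j) :=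
            if_neg (Finset.disjoint_left.1 hd hjt)
          rw [e]; exact hz),
      ih₀ (fun q hq => hP (Finset.mem_union_right _ hq))
        (fun q hq => hT (Finset.mem_union_right _ hq)) h0 hN hNB.2 hb hX hX' hpr
        fun j hj hjt M h2 h3 z hz => hom j hj (Finset.mem_union_right _ hjt) M h2 h3 z (by
          have e : mp (.far p t₁ t₀) (D.it j) = mp t₀ (D.it j) := if_pos hjt
          rw [e]; exact hz)⟩

/-- the offset of the point `x` from the numerator `M / B` -/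
noncomputable def ofs (D : Par Λ κ) (s : ℝ) (pr B : ℕ) (x : ℝ) (j : Λ) (M : ℤ) : ℝ :=
  ((D.it j / pr : ℕ) : ℝ) * x - s * D.γ - (M : ℝ) / B

/-- the pieces of every item cut `[-R, R)` -/
structure Cov (D : Par Λ κ) (R : ℕ → ℝ) : Prop where
  cov : ∀ j z, -R (D.it j) ≤ z → z < R (D.it j) → ∃ k, D.it k = D.it j ∧ D.al k ≤ z ∧ z < D.be k
  al : ∀ j, -R (D.it j) ≤ D.al j
  be : ∀ j, D.be j ≤ R (D.it j)
  dj : ∀ j k z, D.it j = D.it k → D.al j ≤ z → z < D.be j → D.al k ≤ z → z < D.be k → j = k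

variable [Fintype Λ] [DecidableEq κ] [DecidableEq Λ]

/-- **item sums at two points with the same structure agree.** `Rel` = relevant pieces. -/
theorem step_const (D : Par Λ κ) {R : ℕ → ℝ} (hC : Cov D R) {t : IT} {b pr c B : ℕ} {s x x' : ℝ}
    (hb : 0 < b) (hF : Fit b pr t) (hW : D.Wts pr t) (hc : c ∣ b) (hs : s = (b : ℝ) / c)
    (hB0 : 0 < B) (hNB : NB B t c) (hfine : ∀ j, s * (D.be j - D.al j) * B ≤ 1)
    (Rel : Λ → Prop) (hRel : ∀ j k, D.it j = D.it k → Rel j → Rel k)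
    (hG : ∀ j, Rel j → D.it j ∈ t.items → ∀ M : ℤ,
      ((s * -R (D.it j) ≤ ofs D s pr B x j M ∧ ofs D s pr B x j M < s * R (D.it j)) ↔
        (s * -R (D.it j) ≤ ofs D s pr B x' j M ∧ ofs D s pr B x' j M < s * R (D.it j))))
    (hCl : ∀ p ∈ cols t, ∀ j k, D.it j ∈ t.items → D.it k ∈ t.items → D.rho p k = D.rho p j →
      Rel j → Rel k)
    (hcls : ∀ p ∈ cols t, ∀ j k j' k', Rel j → Rel k → D.it j ∈ t.items → D.it k ∈ t.items →
      D.it j' = D.it j → D.it k' = D.it k → ∀ M M', alv D s pr B x j M → alv D s pr B x' j' M →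
      alv D s pr B x k M' → alv D s pr B x' k' M' →
      (D.rho p j = D.rho p k ↔ D.rho p j' = D.rho p k'))
    (hom : ∀ j k M, D.it j ∈ t.items → Rel j → D.it k = D.it j → alv D s pr B x j M →
      alv D s pr B x' k M → ∀ z : ℤ, z * B = M * ((c * mp t (D.it j) : ℕ) : ℤ) →
      D.om j z = D.om k z)
    {q : ℕ} (hq : ∀ j, D.it j = q → Rel j) (hqt : q ∈ t.items) :
    ∑ j ∈ Finset.univ.filter (fun j => D.it j = q), (D.toFT b pr t).U c j x =
      ∑ j ∈ Finset.univ.filter (fun j => D.it j = q), (D.toFT b pr t).U c j x' := by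
  classical
  have hc0 : 0 < c := Nat.pos_of_dvd_of_pos hc hb
  have hcR : (0 : ℝ) < c := by exact_mod_cast hc0
  have hbR : (0 : ℝ) < b := by exact_mod_cast hb
  have hs0 : 0 < s := by rw [hs]; positivity
  have huniq : ∀ j x M M', alv D s pr B x j M → alv D s pr B x j M' → M = M' :=
    fun j x M M' h h' => alv_unique hB0 (hfine j) h h'
  -- transfer of an alive piece
  have tr : ∀ {y y' : ℝ}, (∀ j, Rel j → D.it j ∈ t.items → ∀ M : ℤ,
      ((s * -R (D.it j) ≤ ofs D s pr B y j M ∧ ofs D s pr B y j M < s * R (D.it j)) →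
        (s * -R (D.it j) ≤ ofs D s pr B y' j M ∧ ofs D s pr B y' j M < s * R (D.it j)))) →
      ∀ j, Rel j → D.it j ∈ t.items → ∀ M, alv D s pr B y j M →
        ∃ k, D.it k = D.it j ∧ alv D s pr B y' k M := by
    intro y y' hG j hj hjt M hM
    have h1 : s * -R (D.it j) ≤ ofs D s pr B y j M ∧ ofs D s pr B y j M < s * R (D.it j) := by
      refine ⟨le_trans (mul_le_mul_of_nonneg_left (hC.al j) hs0.le) hM.1,
        lt_of_lt_of_le hM.2 (mul_le_mul_of_nonneg_left (hC.be j) hs0.le)⟩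
    obtain ⟨h2, h3⟩ := hG j hj hjt M h1
    have e : ofs D s pr B y' j M = s * (ofs D s pr B y' j M / s) := by field_simp
    obtain ⟨k, hk, h4, h5⟩ := hC.cov j (ofs D s pr B y' j M / s)
      (by rw [le_div_iff₀ hs0]; linarith) (by rw [div_lt_iff₀ hs0]; linarith)
    refine ⟨k, hk, ?_⟩
    have e2 : ofs D s pr B y' k M = ofs D s pr B y' j M := by unfold ofs; rw [hk]
    show s * D.al k ≤ ofs D s pr B y' k M ∧ ofs D s pr B y' k M < s * D.be k
    rw [e2, e]
    exact ⟨mul_le_mul_of_nonneg_left h4 hs0.le, mul_lt_mul_of_pos_left h5 hs0⟩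
  -- two alive pieces of one item with the same numerator are equal
  have same1 : ∀ {y : ℝ} {j k : Λ} {M : ℤ}, D.it j = D.it k → alv D s pr B y j M →
      alv D s pr B y k M → j = k := by
    intro y j k M e h1 h2
    have e2 : ofs D s pr B y k M = ofs D s pr B y j M := by unfold ofs; rw [e]
    have h1' : s * D.al j ≤ ofs D s pr B y j M ∧ ofs D s pr B y j M < s * D.be j := h1
    have h2' : s * D.al k ≤ ofs D s pr B y k M ∧ ofs D s pr B y k M < s * D.be k := h2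
    rw [e2] at h2'
    refine hC.dj j k (ofs D s pr B y j M / s) e ?_ ?_ ?_ ?_
    · rw [le_div_iff₀ hs0]; linarith [h1'.1]
    · rw [div_lt_iff₀ hs0]; linarith [h1'.2]
    · rw [le_div_iff₀ hs0]; linarith [h2'.1]
    · rw [div_lt_iff₀ hs0]; linarith [h2'.2]
  set A : Finset Λ := Finset.univ.filter fun j => Rel j ∧ D.it j ∈ t.items ∧
    ∃ M, alv D s pr B x j M with hAdef
  set A' : Finset Λ := Finset.univ.filter fun j => Rel j ∧ D.it j ∈ t.items ∧
    ∃ M, alv D s pr B x' j M with hAdef'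
  have memA : ∀ j, j ∈ A ↔ Rel j ∧ D.it j ∈ t.items ∧ ∃ M, alv D s pr B x j M := by
    intro j; rw [hAdef]; simp
  have memA' : ∀ j, j ∈ A' ↔ Rel j ∧ D.it j ∈ t.items ∧ ∃ M, alv D s pr B x' j M := by
    intro j; rw [hAdef']; simp
  have hσ0 : ∀ j, j ∈ A → ∃ k, D.it k = D.it j ∧ ∃ M, alv D s pr B x j M ∧ alv D s pr B x' k M := by
    intro j hj
    obtain ⟨h1, h2, M, hM⟩ := (memA j).1 hj
    obtain ⟨k, hk, hk2⟩ := tr (fun j h h' M => (hG j h h' M).1) j h1 h2 M hM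
    exact ⟨k, hk, M, hM, hk2⟩
  set σ : Λ → Λ := fun j => if h : j ∈ A then (hσ0 j h).choose else j with hσdef
  have hσ1 : ∀ j ∈ A, D.it (σ j) = D.it j ∧ ∃ M, alv D s pr B x j M ∧ alv D s pr B x' (σ j) M := by
    intro j hj
    have e : σ j = (hσ0 j hj).choose := by rw [hσdef]; exact dif_pos hj
    rw [e]
    exact (hσ0 j hj).choose_spec
  have hbij : Set.BijOn σ A A' := by
    refine ⟨?_, ?_, ?_⟩
    · intro j hj
      obtain ⟨h1, M, h2, h3⟩ := hσ1 j hj
      obtain ⟨h4, h5, -⟩ := (memA j).1 hj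
      exact (memA' _).2 ⟨hRel j _ h1.symm h4, by rw [h1]; exact h5, M, h3⟩
    · intro j hj k hk e
      obtain ⟨h1, M, h2, h3⟩ := hσ1 j hj
      obtain ⟨g1, M', g2, g3⟩ := hσ1 k hk
      have e1 : D.it j = D.it k := by rw [← h1, ← g1, e]
      rw [e] at h3
      have e2 := huniq _ _ _ _ h3 g3
      subst e2
      exact same1 e1 h2 g2
    · intro k hk
      obtain ⟨h1, h2, M, hM⟩ := (memA' k).1 hk
      obtain ⟨j, hj, hj2⟩ := tr (fun j h h' M => (hG j h h' M).2) k h1 h2 M hM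
      have hjA : j ∈ A := (memA j).2 ⟨hRel k j hj.symm h1, by rw [hj]; exact h2, M, hj2⟩
      refine ⟨j, hjA, ?_⟩
      obtain ⟨g1, M', g2, g3⟩ := hσ1 j hjA
      have e2 := huniq _ _ _ _ g2 hj2
      subst e2
      exact same1 (by rw [g1, hj]) g3 hM
  have hSame : Same D A A' σ b pr t c (c * x) (c * x') := by
    refine same_alv D hB0 huniq (T := t.items) (P := cols t) hσ1 ?_ ?_ ?_ t
      (Finset.Subset.refl _) (Finset.Subset.refl _) hF hc0 hNB ?_ ?_ ?_ (dvd_refl _) ?_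
    · intro k hkt hkA
      by_cases hkR : Rel k
      · left
        intro M hM
        exact hkA ((memA k).2 ⟨hkR, hkt, M, hM⟩)
      · right
        intro p hp j hj e
        obtain ⟨h1, h2, -⟩ := (memA j).1 hj
        exact hkR (hCl p hp j k h2 hkt e h1)
    · intro k hkt hkA
      by_cases hkR : Rel k
      · left
        intro M hM
        exact hkA ((memA' k).2 ⟨hkR, hkt, M, hM⟩)
      · right
        intro p hp j hj e
        obtain ⟨h1, h2, -⟩ := (memA' j).1 hj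
        exact hkR (hCl p hp j k h2 hkt e h1)
    · intro p hp j hj k hk
      obtain ⟨h1, h2, -⟩ := (memA j).1 hj
      obtain ⟨g1, g2, -⟩ := (memA k).1 hk
      obtain ⟨a1, M, a2, a3⟩ := hσ1 j hj
      obtain ⟨b1, M', b2, b3⟩ := hσ1 k hk
      exact hcls p hp j k (σ j) (σ k) h1 g1 h2 g2 a1 b1 M M' a2 a3 b2 b3
    · rw [hs]; field_simp
    · ring
    · ring
    · intro j hj hjt M h1 h2 z hz
      exact hom j (σ j) M hjt ((memA j).1 hj).1 (hσ1 j hj).1 h1 h2 z hz
  have hiso := iso_U D hbij t hb hF hW hc hSame c (dvd_refl c)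
  have ecx : ∀ y : ℝ, (c : ℝ) * y / c = y := fun y => by field_simp
  -- sums over alive pieces
  have red : ∀ {y : ℝ} {A : Finset Λ}, (∀ j, j ∈ A ↔ Rel j ∧ D.it j ∈ t.items ∧
      ∃ M, alv D s pr B y j M) →
      ∑ j ∈ Finset.univ.filter (fun j => D.it j = q), (D.toFT b pr t).U c j y =
      ∑ j ∈ A.filter (fun j => D.it j = q), (D.toFT b pr t).U c j y := by
    intro y A hA
    symm
    refine Finset.sum_subset ?_ ?_
    · intro j hj
      exact Finset.mem_filter.2 ⟨Finset.mem_univ _, (Finset.mem_filter.1 hj).2⟩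
    · intro j hj hj2
      have hjq := (Finset.mem_filter.1 hj).2
      have hno : ∀ M, ¬ alv D s pr B y j M := by
        intro M hM
        exact hj2 (Finset.mem_filter.2 ⟨(hA j).2 ⟨hq j hjq, by rw [hjq]; exact hqt, M, hM⟩, hjq⟩)
      have hdead := dead_alv D hB0 hno t hF hc0 hNB (X := c * y) (by rw [hs]; field_simp)
        (by ring) (dvd_refl _)
      have := dead_U D t hF hc0 hdead c (dvd_refl c)
      rwa [ecx] at this
  rw [red memA, red memA']
  refine Finset.sum_bij (fun j _ => σ j) ?_ ?_ ?_ ?_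
  · intro j hj
    obtain ⟨h1, h2⟩ := Finset.mem_filter.1 hj
    exact Finset.mem_filter.2 ⟨hbij.mapsTo h1, by rw [(hσ1 j h1).1]; exact h2⟩
  · intro j hj k hk e
    exact hbij.injOn (Finset.mem_filter.1 hj).1 (Finset.mem_filter.1 hk).1 e
  · intro k hk
    obtain ⟨h1, h2⟩ := Finset.mem_filter.1 hk
    obtain ⟨j, hj, rfl⟩ := hbij.surjOn h1
    exact ⟨j, Finset.mem_filter.2 ⟨hj, by rw [← (hσ1 j hj).1]; exact h2⟩, rfl⟩
  · intro j hj
    have := hiso j (Finset.mem_filter.1 hj).1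
    rwa [ecx, ecx] at this

end

end Crest.Agent.R4P.Step588
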