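import Crest.Agent.R4P.StepDataB189
import Crest.Agent.R4P.StepAlv588

/-!
R4 (S0004), powers pass: port of the end of helper189's `R4/StepData189` (helper947):

* `NDt.B_lt` : the missing ties of a node are primes below the level of the tree
* `NDt.mB_sf`, `NDt.mB_dvd` : `mpc y τ q * u.B` is squarefree and divides the product of the primes
  of `[y, n)` (the form needed for every common multiple `PV` of the lower parts)
* `NDt.N_dvd` : the number `N = B * sn` of `WOk` divides `pml n`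

(`NDt.card_rel` of R4 is not a fact with powers below the level and is dropped.)
-/

set_option autoImplicit false
set_option linter.unusedSectionVars false
set_option linter.unusedVariables false

namespace Crest.Agent.R4P.Step588

open Crest.Agent.R4P.Cnt588 Crest.Agent.R4P.Item758
open Crest.Agent.R4P.Bld532 (NS All NodeOk Bk)

export Crest.Agent.R4.Step588 (mul_pml_dvd_pml)

/-- a squarefree number with all primes in `[y, n)` divides their product -/
lemma sf_dvd_prod {B y n : ℕ} (hB : Squarefree B)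
    (h : ∀ l : ℕ, l.Prime → l ∣ B → y ≤ l ∧ l < n) :
    B ∣ ∏ l ∈ (Finset.range n).filter (fun l => l.Prime ∧ y ≤ l), l := by
  conv_lhs => rw [← Nat.prod_primeFactors_of_squarefree hB]
  refine Finset.prod_dvd_prod_of_subset _ _ _ fun l hl => ?_
  have h1 := Nat.prime_of_mem_primeFactors hl
  have h2 := h l h1 (Nat.dvd_of_mem_primeFactors hl)
  exact Finset.mem_filter.2 ⟨Finset.mem_range.2 h2.2, h1, h2.1⟩

section
variable {P : Bld532.Par} {W : ℕ → ℝ} {t' : IT} {u : NS} {τ : IT}

/-- the missing ties of a node are primes below the level of the tree -/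
theorem NDt.B_lt (h : NDt P W t' u τ) {n : ℕ} (hO : t'.Ok n) {q : ℕ} (hq : q ∈ τ.items) {l : ℕ}
    (hl : l.Prime) (hd : l ∣ u.B) : l < n := by
  have e := BldF542.mp_eq_prod t' n hO q
  have e1 := h.self.mp q hq
  have h1 : l ∣ ∏ p ∈ t'.mt q, p := by
    rw [← e, e1]; exact hd.mul_right _
  obtain ⟨c, hc, hlc⟩ := (hl.prime.dvd_finsetProd_iff _).1 h1
  have h2 := BldF542.mt_lt t' n hO q c hc
  have := (Nat.prime_dvd_prime_iff_eq hl h2.1).1 hlc
  rw [this]; exact h2.2

/-- the missing ties of a node and of the cut: squarefree -/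
theorem NDt.mB_sf (h : NDt P W t' u τ) {y : ℕ} (hy : y ≤ u.n) {q : ℕ} (hq : q ∈ τ.items) :
    Squarefree (mpc y τ q * u.B) := by
  obtain ⟨m, c', hm, h2⟩ := h.subt hy q
  rw [mul_comm]
  exact h2.bk.sfB

/-- the missing ties of a node and of the cut are primes of `[y, n)` -/
theorem NDt.mB_primes (h : NDt P W t' u τ) {n : ℕ} (hO : t'.Ok n) {y : ℕ} (hy : y ≤ u.n)
    {q : ℕ} (hq : q ∈ τ.items) {l : ℕ} (hl : l.Prime) (hd : l ∣ mpc y τ q * u.B) :
    y ≤ l ∧ l < n := by
  obtain ⟨m, c', hm, h2⟩ := h.subt hy q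
  have hd2 : l ∣ u.B * mpc y τ q := by rwa [mul_comm]
  exact ⟨hm.trans (h2.bk.geB l hl hd2), h2.B_lt hO (mem_subt y τ hq) hl hd2⟩

/-- `mpc y τ q * u.B` divides the product of the primes of `[y, n)` -/
theorem NDt.mB_dvd (h : NDt P W t' u τ) {n : ℕ} (hO : t'.Ok n) {y : ℕ} (hy : y ≤ u.n)
    {q : ℕ} (hq : q ∈ τ.items) :
    mpc y τ q * u.B ∣ ∏ l ∈ (Finset.range n).filter (fun l => l.Prime ∧ y ≤ l), l :=
  sf_dvd_prod (h.mB_sf hy hq) fun _ hl hd => h.mB_primes hO hy hq hl hd

/-- **the number `N = B * sn`** of `WOk` (`sn = u.B`, `B = mpc * pml y`) divides `pml n` -/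
theorem NDt.N_dvd (h : NDt P W t' u τ) {n : ℕ} (hO : t'.Ok n) {y : ℕ} (hy : y ≤ u.n) (hyn : y ≤ n)
    {q : ℕ} (hq : q ∈ τ.items) : (mpc y τ q * pml y) * u.B ∣ pml n := by
  have e : mpc y τ q * pml y * u.B = (mpc y τ q * u.B) * pml y := by ring
  rw [e]
  exact mul_pml_dvd_pml (h.mB_sf hy hq) (fun l hl hd => h.mB_primes hO hy hq hl hd) hyn

end

end Crest.Agent.R4P.Step588
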