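import Crest.Agent.R4P.StepDataC947
import Crest.Agent.R4P.StepDataA76
import Crest.Agent.R4P.Skel189

/-!
R4 (S0004), powers pass: port of the context part of helper189's `R4/StepData189` (helper947):

* `NDt.N_dvdP`, `NDt.N_leP` : `N = (mpc * PV y) * u.B` of a cut divides `PV n`, `≤ 4 ^ (8 n ^ 4)`
* `ctx_NDt` : all the node facts of a context
* `ctx_Cov`, `ctx_step` : everything at a cut of a node (`sn = u.B`, `B = mpc * PV y`)
-/

set_option autoImplicit false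
set_option linter.unusedSectionVars false
set_option linter.unusedVariables false

namespace Crest.Agent.R4P.Step588

open Crest.Agent.R4P.Cnt588 Crest.Agent.R4P.Item758
open Crest.Agent.R4P.Bld532 (NS All NodeOk Bk)
open Crest.Agent.R4P.Skel189
open Crest.Agent.R4.Soft104 (w)
open Crest.Agent.R4P.Fac393 (Fac)

section
variable {P : Bld532.Par} {W : ℕ → ℝ} {t' : IT} {u : NS} {τ : IT}

/-- **the number `N = B * sn`** of `WOk` (`sn = u.B`, `B = mpc * PV y`) divides `PV n` -/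
theorem NDt.N_dvdP (h : NDt P W t' u τ) {n : ℕ} (hO : t'.Ok n) (Fc : Fac) {y : ℕ} (hy : y ≤ u.n)
    (hyn : y ≤ n) {q : ℕ} (hq : q ∈ τ.items) : (mpc y τ q * Fc.PV y) * u.B ∣ Fc.PV n := by
  have e : mpc y τ q * Fc.PV y * u.B = (mpc y τ q * u.B) * Fc.PV y := by ring
  rw [e]
  refine Fc.PVm hyn ?_
  have h1 := h.N_dvd hO hy hyn hq
  have e2 : mpc y τ q * u.B * pml y = mpc y τ q * pml y * u.B := by ring
  rw [e2]
  exact h1

/-- the same number is at most `4 ^ (8 n ^ 4)` -/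
theorem NDt.N_leP (h : NDt P W t' u τ) {n : ℕ} (hO : t'.Ok n) (hn : 1 ≤ n) (Fc : Fac) {y : ℕ}
    (hy : y ≤ u.n) (hyn : y ≤ n) {q : ℕ} (hq : q ∈ τ.items) :
    (mpc y τ q * Fc.PV y) * u.B ≤ 4 ^ (8 * n ^ 4) :=
  (Nat.le_of_dvd (Fc.PV0 n) (h.N_dvdP hO Fc hy hyn hq)).trans (Fc.size n hn)

end

/-! ### the context -/

section ctx

variable {N : Skel189.Num} {γ : ℝ} {p0 P₀ : ℕ} (X : Ctx N γ p0 P₀)

/-- all the node facts of a context -/
theorem ctx_NDt : All (NDt X.par (w X.ψ) X.c.t) ⟨top X.S, 1, 1, 1⟩ X.c.t := by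
  rw [X.ht']
  exact bld_NDt X.par (w X.ψ) X.hW X.gd (top X.S) X.S X.sys.pos fun q hq l _ h => X.lt hq h

theorem ctx_Cov (Y : Finset (ℕ × ℕ × Finset ℕ)) : Cov (X.c.D.par Y) X.c.rr := data_Cov X.ok Y

lemma one_le_top (S : Finset ℕ) : 1 ≤ top S := by unfold top; omega

variable {X} {u : NS} {τ : IT}

/-- the number `N = (mpc * PV y) * u.B` of a cut of a node of a context -/
theorem ctx_N_dvd (h : NDt X.par (w X.ψ) X.c.t u τ) {y : ℕ} (hy : y ≤ u.n) (hyt : y ≤ top X.S)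
    {q : ℕ} (hq : q ∈ τ.items) : (mpc y τ q * X.fac.PV y) * u.B ∣ X.fac.PV (top X.S) :=
  h.N_dvdP X.tOk X.fac hy hyt hq

theorem ctx_N_le (h : NDt X.par (w X.ψ) X.c.t u τ) {y : ℕ} (hy : y ≤ u.n) (hyt : y ≤ top X.S)
    {q : ℕ} (hq : q ∈ τ.items) : (mpc y τ q * X.fac.PV y) * u.B ≤ 4 ^ (8 * (top X.S) ^ 4) :=
  h.N_leP X.tOk (one_le_top X.S) X.fac hy hyt hq

/-- **everything at a cut of a node** (`sn = u.B`, `B = mpc * PV y`, `t2 = subt y τ q`).  `hK` : the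
bound `Kc` of the fineness of the world parameters dominates `PV (top S)`. -/
theorem ctx_step (hK : X.fac.PV (top X.S) ≤ Kc X.S) (h : NDt X.par (w X.ψ) X.c.t u τ)
    (Y : Finset (ℕ × ℕ × Finset ℕ)) {y dm : ℕ}
    (hy : y ≤ u.n) (hyt : y ≤ top X.S) (hdep : ∀ p, p < y → X.c.wp.dep p ≤ dm)
    (hd1 : X.c.d1 * Kc X.S ≤ 1) {q : ℕ} (hq : q ∈ τ.items) :
    Wld (X.c.D.par Y) X.c.wp X.c.st X.c.rtg (cols (subt y τ q)) ∧
    WOk (X.c.D.par Y) X.c.wp X.c.st (cols (subt y τ q))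
      (subt y τ q).items dm ((mpc y τ q * X.fac.PV y) * u.B) ∧
    (∀ j, (u.B : ℝ) * ((X.c.D.par Y).be j - (X.c.D.par Y).al j) *
      ((mpc y τ q * X.fac.PV y : ℕ) : ℝ) ≤ 1) ∧
    ∀ p ∈ cols (subt y τ q), ∀ r ∈ (subt y τ q).items, ∀ r' ∈ (subt y τ q).items,
      X.c.rtg p r = X.c.rtg p r' →
        rgh y (r / (u.A * ppc y τ q)) = rgh y (r' / (u.A * ppc y τ q)) := by
  have hcl : ∀ p ∈ cols (subt y τ q), p < y := fun p hp =>
    (cols_lt _ (Ok_subt y τ q h.self.ok hy) p hp).2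
  have hC : ∀ p ∈ cols (subt y τ q), p ≤ top X.S := fun p hp => (hcl p hp).le.trans hyt
  have hN : (mpc y τ q * X.fac.PV y) * u.B ≤ Kc X.S :=
    (Nat.le_of_dvd (X.fac.PV0 _) (ctx_N_dvd h hy hyt hq)).trans hK
  refine ⟨data_Wld X.ok Y hC, data_WOk X.ok Y X.fine hC ?_ (fun p hp => hdep p (hcl p hp)) hN,
    fun j => data_fine X.ok Y ?_ j,
    fun p hp r hr r' hr' e => h.rgh_eq X.tOk hy hp hr hr' (X.c.rtg_ret p r r' e)⟩
  · intro r hr
    have h1 := h.self.sub (subt_items y τ q hr)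
    rw [X.items] at h1
    rw [X.hS]; exact h1
  · have hd0 : 0 < X.c.d1 := by rw [X.d1]; exact N.hd1 p0 X.ψ X.S
    have h1 : (((mpc y τ q * X.fac.PV y) * u.B : ℕ) : ℝ) ≤ Kc X.S := by exact_mod_cast hN
    have h2 : (u.B : ℝ) * X.c.d1 * ((mpc y τ q * X.fac.PV y : ℕ) : ℝ) =
        X.c.d1 * (((mpc y τ q * X.fac.PV y) * u.B : ℕ) : ℝ) := by push_cast; ring
    rw [h2]
    exact (mul_le_mul_of_nonneg_left h1 hd0.le).trans hd1

end ctx

end Crest.Agent.R4P.Step588
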