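import Crest.Agent.R4.AvgItem710
import Crest.Agent.R4.StepIso588
import Crest.Agent.R4P.Item758

/-!
R4 (S0004), **T9' (equidistribution at a stop)**, definitions: port of helper588's `R4/StepDef588` to
the tree with powers (helper504). `WF`, `WFOk`, `wl`, `inw` and the tree-free lemmas are the ones of
`R4.Step588` (exported here).

* `subt`, `mpc`, `ppc`, `prfc` : cut of an item tree below the level `y`, along an item.
-/

set_option autoImplicit false
set_option linter.unusedVariables false
open MeasureTheory Filter

namespace Crest.Agent.R4P.Step588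

export Crest.Agent.R4.Step588 (WF WFOk wl inw mult_one mult_congr sum_cls)

open Crest.Agent.R4.Tour104 Crest.Agent.R4.Avg758 Crest.Agent.R4.Piece464
open Crest.Agent.R4.AvgItem710 Crest.Agent.R4P.Cnt588 Crest.Agent.R4P.Item758

/-- the subtree below the level `y` which contains `q` -/
def subt (y : ℕ) : IT → ℕ → IT
  | .leaf S, _ => .leaf S
  | .br p Sp t₁ t₀, q => if p < y then .br p Sp t₁ t₀ else
      if q ∈ t₀.items then subt y t₀ q else subt y t₁ q
  | .add p t₁ t₀, q => if p < y then .add p t₁ t₀ else
      if q ∈ t₀.items then subt y t₀ q else subt y t₁ q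
  | .up p Sp t, q => if p < y then .up p Sp t else subt y t q
  | .pl p t, q => if p < y then .pl p t else subt y t q
  | .far p t₁ t₀, q => if p < y then .far p t₁ t₀ else
      if q ∈ t₀.items then subt y t₀ q else subt y t₁ q

/-- product of the missing ties `≥ y` of `q` -/
def mpc (y : ℕ) : IT → ℕ → ℕ
  | .leaf _, _ => 1
  | .br p _ t₁ t₀, q => if p < y then 1 else
      if q ∈ t₀.items then p * mpc y t₀ q else mpc y t₁ q
  | .add p t₁ t₀, q => if p < y then 1 else
      if q ∈ t₀.items then mpc y t₀ q else mpc y t₁ q
  | .up p _ t, q => if p < y then 1 else mpc y t q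
  | .pl p t, q => if p < y then 1 else mpc y t q
  | .far p t₁ t₀, q => if p < y then 1 else
      if q ∈ t₀.items then mpc y t₀ q else mpc y t₁ q

/-- product of the present ties `≥ y` and of the free pulls `≥ y` of `q` -/
def ppc (y : ℕ) : IT → ℕ → ℕ
  | .leaf _, _ => 1
  | .br p _ t₁ t₀, q => if p < y then 1 else
      if q ∈ t₀.items then ppc y t₀ q else p * ppc y t₁ q
  | .add p t₁ t₀, q => if p < y then 1 else
      if q ∈ t₀.items then ppc y t₀ q else ppc y t₁ q
  | .up p _ t, q => if p < y then 1 else ppc y t q
  | .pl p t, q => if p < y then 1 else p * ppc y t q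
  | .far p t₁ t₀, q => if p < y then 1 else
      if q ∈ t₀.items then ppc y t₀ q else ppc y t₁ q

/-- `∏ (1 - 1/p)` over the present ties `≥ y` of `q` -/
noncomputable def prfc (y : ℕ) : IT → ℕ → ℝ
  | .leaf _, _ => 1
  | .br p _ t₁ t₀, q => if p < y then 1 else
      if q ∈ t₀.items then prfc y t₀ q else (1 - 1 / (p : ℝ)) * prfc y t₁ q
  | .add p t₁ t₀, q => if p < y then 1 else
      if q ∈ t₀.items then prfc y t₀ q else prfc y t₁ q
  | .up p _ t, q => if p < y then 1 else prfc y t q
  | .pl p t, q => if p < y then 1 else prfc y t q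
  | .far p t₁ t₀, q => if p < y then 1 else
      if q ∈ t₀.items then prfc y t₀ q else prfc y t₁ q

end Crest.Agent.R4P.Step588
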