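import Crest.Agent.R4P.StepDataB189

/-!
R4 (S0004), powers pass, helper546: **refined worlds inside a cut tree**.

`U` of an item tree sees the world at the column `p` only through the classes inside the node with
column `p`.  So the worlds of `D` may be refined by any function `g p` of the item which is constant
on the classes inside every node (`Par.ext`, `U_ext`).  Applied with `gy y p q` = part of `q` at the
primes `l ∈ (p, y]`: inside a node the valuations at the primes `≥` the level are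
`v_l(q) = v_l(A) + [l ∈ uq q]` (`NDt.val`).  For the refined worlds equal worlds at a column of the
cut tree force equal valuations at all the primes `l ∈ (p, y]`, for ALL the pairs of items of the cut
tree (not only inside one node).
-/

set_option autoImplicit false
set_option linter.unusedSectionVars false
set_option linter.unusedVariables false

namespace Crest.Agent.R4P.Step588

open Crest.Agent.R4.Tour104 Crest.Agent.R4.Tour758 Crest.Agent.R4.Avg758 Crest.Agent.R4.Clos758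
open Crest.Agent.R4.ClosL758 Crest.Agent.R4.ClosG758 Crest.Agent.R4.Lam368
open Crest.Agent.R4.Piece464 Crest.Agent.R4.Fam464
open Crest.Agent.R4P.Cnt588 Crest.Agent.R4P.Item758
open Crest.Agent.R4P.Data758 (rt rt_prime dvd_ret)
open Crest.Agent.R4P.Bld532 (NS All NodeOk Bk)
open Crest.Agent.R4P.W363

section
variable {Λ κ κ' : Type*}

/-- the worlds refined by a function of the item -/
def _root_.Crest.Agent.R4P.Item758.Par.ext (D : Par Λ κ) (g : ℕ → ℕ → ℕ) : Par Λ (κ × ℕ) where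
  γ := D.γ
  it := D.it
  al := D.al
  be := D.be
  om := D.om
  rho := fun p j => (D.rho p j, g p (D.it j))
  rhoL := fun b pr S j => (D.rhoL b pr S j, 0)

/-- the two world maps have the same classes inside every node -/
def NodeG (D : Par Λ κ) (D' : Par Λ κ') : IT → Prop
  | .leaf _ => True
  | .br p _ t₁ t₀ => (∀ j k, D.it j ∈ t₁.items ∪ t₀.items → D.it k ∈ t₁.items ∪ t₀.items →
      (D'.rho p j = D'.rho p k ↔ D.rho p j = D.rho p k)) ∧ NodeG D D' t₁ ∧ NodeG D D' t₀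
  | .add _ t₁ t₀ => NodeG D D' t₁ ∧ NodeG D D' t₀
  | .up _ _ t => NodeG D D' t
  | .pl _ t => NodeG D D' t
  | .far _ t₁ t₀ => NodeG D D' t₁ ∧ NodeG D D' t₀

variable [Fintype Λ] [DecidableEq κ] [DecidableEq κ']

lemma mult_congrK {p : ℕ} {f g G f' g' G' : Λ → ℝ → ℝ} (hd : Dat p f g G) (hd' : Dat p f' g' G')
    {r : Λ → κ} {r' : Λ → κ'} {w : Λ} {x : ℝ}
    (h1 : f w (p * x) = f' w (p * x))
    (h2 : ∑ k ∈ cl' r w, f k (p * x) = ∑ k ∈ cl' r' w, f' k (p * x))
    (h3 : ∑ k ∈ cl' r w, G k (p * x) = ∑ k ∈ cl' r' w, G' k (p * x))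
    (h4 : ∑ k ∈ cl' r w, g k x = ∑ k ∈ cl' r' w, g' k x) :
    mult p f g G (fun _ => r) 1 w x = mult p f' g' G' (fun _ => r') 1 w x := by
  rw [mult_one hd, mult_one hd', h1, h2, h3, h4]

lemma sum_clsK {r : Λ → κ} {r' : Λ → κ'} {I : Λ → Prop} {h h' : Λ → ℝ} {j : Λ} (hj : I j)
    (hr : ∀ j k, I j → I k → (r' j = r' k ↔ r j = r k)) (hh : ∀ k, h k = h' k)
    (h0 : ∀ k, ¬ I k → h k = 0) :
    ∑ k ∈ cl' r j, h k = ∑ k ∈ cl' r' j, h' k := by
  classical
  unfold cl'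
  rw [Finset.sum_filter, Finset.sum_filter]
  refine Finset.sum_congr rfl fun k _ => ?_
  by_cases hk : I k
  · by_cases e : r k = r j
    · rw [if_pos e, if_pos ((hr k j hk hj).2 e), hh]
    · rw [if_neg e, if_neg fun h => e ((hr k j hk hj).1 h)]
  · rw [← hh k, h0 k hk]; simp

/-- **values only see the classes inside the nodes** -/
theorem U_cls (D : Par Λ κ) (D' : Par Λ κ') (hit : D'.it = D.it) (hL : D'.L = D.L) (t : IT) :
    ∀ {b pr : ℕ}, 0 < b → Fit b pr t → D.Wts pr t → D'.Wts pr t → NodeG D D' t →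
      ∀ (c : ℕ) (j : Λ) (x : ℝ), (D.toFT b pr t).U c j x = (D'.toFT b pr t).U c j x := by
  induction t with
  | leaf S =>
    intro b pr _ _ _ _ _ c j x
    show D.L b pr S c j x = D'.L b pr S c j x
    rw [hL]
  | br p Sp t₁ t₀ ih₁ ih₀ =>
    intro b pr hb hF hW hW' hG c j x
    by_cases hj : D.it j ∈ (IT.br p Sp t₁ t₀).items
    swap
    · rw [D.U_zero (.br p Sp t₁ t₀) b pr c j hj,
        D'.U_zero (.br p Sp t₁ t₀) b pr c j (by rw [hit]; exact hj)]
    have hA : (D.toFT b pr (.br p Sp t₁ t₀)).Adm b := D.toFT_Adm _ b pr hb hF hW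
    have hdat := FT.dat hb hA
    have hA' : (D'.toFT b pr (.br p Sp t₁ t₀)).Adm b := D'.toFT_Adm _ b pr hb hF hW'
    have hdat' := FT.dat hb hA'
    obtain ⟨hp, hpb, hd, h1, h0⟩ := hF
    obtain ⟨g1, g2, g3⟩ := hG
    have hbp : 0 < b * p := Nat.mul_pos hb hp.pos
    have i1 := ih₁ hb h1 (hW.br₁ hd) (hW'.br₁ hd) g2
    have i0 := ih₀ hbp h0 hW.br₀ hW'.br₀ g3
    have hz1 : ∀ k, D.it k ∉ t₁.items ∪ t₀.items → ∀ (c : ℕ) (y : ℝ),
        (D.toFT b (pr * p) t₁).U c k y = 0 := fun k hk c y => by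
      rw [D.U_zero t₁ b (pr * p) c k fun h => hk (Finset.mem_union_left _ h)]
    have hz0 : ∀ k, D.it k ∉ t₁.items ∪ t₀.items → ∀ (c : ℕ) (y : ℝ),
        (D.toFT (b * p) pr t₀).U c k y = 0 := fun k hk c y => by
      rw [D.U_zero t₀ (b * p) pr c k fun h => hk (Finset.mem_union_right _ h)]
    have hm := mult_congrK (r := D.rho p) (r' := D'.rho p) (w := j) (x := (c : ℝ) * x) hdat hdat'
      (i1 1 j _)
      (sum_clsK (I := fun k => D.it k ∈ t₁.items ∪ t₀.items) hj g1 (fun k => i1 1 k _)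
        fun k hk => hz1 k hk 1 _)
      (sum_clsK (I := fun k => D.it k ∈ t₁.items ∪ t₀.items) hj g1 (fun k => i0 1 k _)
        fun k hk => hz0 k hk 1 _)
      (sum_clsK (I := fun k => D.it k ∈ t₁.items ∪ t₀.items) hj g1 (fun k => i0 p k _)
        fun k hk => hz0 k hk p _)
    show mult p (fun j => (D.toFT b (pr * p) t₁).U 1 j) (fun j => (D.toFT (b * p) pr t₀).U p j)
        (fun j => (D.toFT (b * p) pr t₀).U 1 j) (fun _ => D.rho p) (0 + 1) j (c * x) *
        (D.toFT b (pr * p) t₁).U c j (p * x) + (D.toFT (b * p) pr t₀).U (c * p) j x =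
      mult p (fun j => (D'.toFT b (pr * p) t₁).U 1 j) (fun j => (D'.toFT (b * p) pr t₀).U p j)
        (fun j => (D'.toFT (b * p) pr t₀).U 1 j) (fun _ => D'.rho p) (0 + 1) j (c * x) *
        (D'.toFT b (pr * p) t₁).U c j (p * x) + (D'.toFT (b * p) pr t₀).U (c * p) j x
    rw [i1 c j, i0 (c * p) j, hm]
  | add p t₁ t₀ ih₁ ih₀ =>
    intro b pr hb hF hW hW' hG c j x
    obtain ⟨hd, h1, h0⟩ := hF
    show (D.toFT b pr t₁).U c j x + (D.toFT b pr t₀).U c j x =
      (D'.toFT b pr t₁).U c j x + (D'.toFT b pr t₀).U c j x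
    rw [ih₁ hb h1 (hW.add₁ hd) (hW'.add₁ hd) hG.1 c j x, ih₀ hb h0 hW.add₀ hW'.add₀ hG.2 c j x]
  | up p Sp t ih =>
    intro b pr hb hF hW hW' hG c j x
    exact ih hb hF hW hW' hG c j x
  | pl p t ih =>
    intro b pr hb hF hW hW' hG c j x
    obtain ⟨hp, hpb, h1⟩ := hF
    exact ih hb h1 hW.pl hW'.pl hG c j (p * x)
  | far p t₁ t₀ ih₁ ih₀ =>
    intro b pr hb hF hW hW' hG c j x
    obtain ⟨hd, h1, h0⟩ := hF
    show (D.toFT b pr t₁).U c j x + (D.toFT b pr t₀).U c j x =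
      (D'.toFT b pr t₁).U c j x + (D'.toFT b pr t₀).U c j x
    rw [ih₁ hb h1 (hW.far₁ hd) (hW'.far₁ hd) hG.1 c j x, ih₀ hb h0 hW.far₀ hW'.far₀ hG.2 c j x]

/-- the hypothesis of `U_ext`: the function `g p` is constant on the classes inside every node -/
def NodeK (D : Par Λ κ) (g : ℕ → ℕ → ℕ) : IT → Prop
  | .leaf _ => True
  | .br p _ t₁ t₀ => (∀ j k, D.it j ∈ t₁.items ∪ t₀.items → D.it k ∈ t₁.items ∪ t₀.items →
      D.rho p j = D.rho p k → g p (D.it j) = g p (D.it k)) ∧ NodeK D g t₁ ∧ NodeK D g t₀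
  | .add _ t₁ t₀ => NodeK D g t₁ ∧ NodeK D g t₀
  | .up _ _ t => NodeK D g t
  | .pl _ t => NodeK D g t
  | .far _ t₁ t₀ => NodeK D g t₁ ∧ NodeK D g t₀

omit [Fintype Λ] [DecidableEq κ] in
lemma NodeK.nodeG {D : Par Λ κ} {g : ℕ → ℕ → ℕ} {t : IT} (h : NodeK D g t) :
    NodeG D (D.ext g) t := by
  induction t with
  | leaf S => trivial
  | br p Sp t₁ t₀ ih₁ ih₀ =>
    refine ⟨fun j k hj hk => ?_, ih₁ h.2.1, ih₀ h.2.2⟩
    show (D.rho p j, g p (D.it j)) = (D.rho p k, g p (D.it k)) ↔ D.rho p j = D.rho p k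
    rw [Prod.ext_iff]
    exact ⟨fun h1 => h1.1, fun h1 => ⟨h1, h.1 j k hj hk h1⟩⟩
  | add p t₁ t₀ ih₁ ih₀ => exact ⟨ih₁ h.1, ih₀ h.2⟩
  | up p Sp t ih => exact ih h
  | pl p t ih => exact ih h
  | far p t₁ t₀ ih₁ ih₀ => exact ⟨ih₁ h.1, ih₀ h.2⟩

/-- **values do not change under the refinement** -/
theorem U_ext (D : Par Λ κ) {g : ℕ → ℕ → ℕ} {t : IT} {b pr : ℕ} (hb : 0 < b) (hF : Fit b pr t)
    (hW : D.Wts pr t) (hG : NodeK D g t) (c : ℕ) (j : Λ) (x : ℝ) :
    ((D.ext g).toFT b pr t).U c j x = (D.toFT b pr t).U c j x :=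
  (U_cls D (D.ext g) rfl rfl t hb hF hW hW hG.nodeG c j x).symm

/-- item sums do not change -/
theorem Fq_ext (D : Par Λ κ) {g : ℕ → ℕ → ℕ} {t : IT} {b pr : ℕ} (hb : 0 < b) (hF : Fit b pr t)
    (hW : D.Wts pr t) (hG : NodeK D g t) (c q : ℕ) (x : ℝ) :
    ∑ j ∈ Finset.univ.filter (fun j => (D.ext g).it j = q), ((D.ext g).toFT b pr t).U c j x =
      ∑ j ∈ Finset.univ.filter (fun j => D.it j = q), (D.toFT b pr t).U c j x :=
  Finset.sum_congr rfl fun j _ => U_ext D hb hF hW hG c j x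

end

section
variable {Λ κ : Type*}

theorem Cov.ext {D : Par Λ κ} {R : ℕ → ℝ} (h : Cov D R) (g : ℕ → ℕ → ℕ) : Cov (D.ext g) R :=
  ⟨h.cov, h.al, h.be, h.dj⟩

theorem WOk.ext {D : Par Λ κ} {P : WP} {stt : ℕ → ℕ → Option ℚ} {C T : Finset ℕ} {dm N : ℕ}
    (h : WOk D P stt C T dm N) (g : ℕ → ℕ → ℕ) : WOk (D.ext g) P stt C T dm N :=
  ⟨h.dep, h.δ, h.snap, h.rng⟩

theorem Wld.ext {D : Par Λ κ} {P : WP} {stt : ℕ → ℕ → Option ℚ} {rtt : ℕ → ℕ → ℕ}
    {C : Finset ℕ} (h : Wld D P stt rtt C) (g : ℕ → ℕ → ℕ) :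
    Wld (D.ext g) P stt (fun p q => Nat.pair (rtt p q) (g p q)) C where
  rho := fun p hp j k => by
    show (D.rho p j, g p (D.it j)) = (D.rho p k, g p (D.it k)) ↔
      (P.ix D.γ p (D.it j) (stt p (D.it j)) (D.al j) =
        P.ix D.γ p (D.it k) (stt p (D.it k)) (D.al k) ∧
        Nat.pair (rtt p (D.it j)) (g p (D.it j)) = Nat.pair (rtt p (D.it k)) (g p (D.it k)))
    rw [Prod.ext_iff, h.rho p hp j k, Nat.pair_eq_pair]
    exact and_assoc
  pt := h.pt

end

/-! ### valuations in a node -/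

section
variable {P : Bld532.Par} {W : ℕ → ℝ} {t' : IT} {u : NS} {τ : IT}

/-- **the valuation of an item at a prime `≥` the level of the node** -/
theorem ND1.val (h : ND1 P W t' u τ) (hr : ∀ q ∈ τ.items, ∀ l ∈ rt t' q, l ∣ q / u.A)
    {q l : ℕ} (hq : q ∈ τ.items) (hlp : l.Prime) (hl : u.n ≤ l) :
    q.factorization l = u.A.factorization l + if l ∈ t'.uq q then 1 else 0 := by
  have hk := WalkIT579.bk_of_nodeOk h.node
  have hq0 := hk.pos q hq
  obtain ⟨m, hm⟩ := hk.dvd q hq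
  have hA0 : 0 < u.A := hk.Apos
  have hm0 : m ≠ 0 := by
    rintro rfl
    rw [mul_zero] at hm
    omega
  have e : q / u.A = m := by rw [hm, Nat.mul_div_cancel_left _ hA0]
  have h1 : q.factorization l = u.A.factorization l + m.factorization l := by
    rw [hm, Nat.factorization_mul hA0.ne' hm0]
    rfl
  rw [h1]
  congr 1
  have h2 : m.factorization l < 2 := by
    by_contra hc
    refine h.rad q hq l hlp hl ?_
    rw [e]
    exact (hlp.pow_dvd_iff_le_factorization hm0).2 (not_lt.1 hc)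
  split_ifs with h3
  · have h4 : l ∣ m := by rw [← e]; exact hr q hq l h3
    have h5 : 1 ≤ m.factorization l :=
      (hlp.pow_dvd_iff_le_factorization hm0).1 (by simpa using h4)
    omega
  · by_contra hc
    refine h3 (h.ge q hq l hlp hl ?_)
    rw [e]
    have : l ^ 1 ∣ m := (hlp.pow_dvd_iff_le_factorization hm0).2 (by omega)
    simpa using this

theorem NDt.val (h : NDt P W t' u τ) {q l : ℕ} (hq : q ∈ τ.items) (hlp : l.Prime)
    (hl : u.n ≤ l) :
    q.factorization l = u.A.factorization l + if l ∈ t'.uq q then 1 else 0 :=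
  h.self.val (fun r hr l hl => h.rt_dvd hr hl) hq hlp hl

/-- part of `q` at the primes `l ∈ (p, y]` -/
def gy (y p q : ℕ) : ℕ := ∏ l ∈ (Finset.Ioc p y).filter Nat.Prime, l ^ q.factorization l

lemma gy_fac {y p q l : ℕ} (hlp : l.Prime) (h1 : p < l) (h2 : l ≤ y) :
    (gy y p q).factorization l = q.factorization l := by
  classical
  unfold gy
  rw [Nat.factorization_prod fun i hi =>
    (pow_pos (Finset.mem_filter.1 hi).2.pos _).ne']
  rw [Finsupp.finsetSum_apply]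
  rw [Finset.sum_eq_single l]
  · rw [hlp.factorization_pow, Finsupp.single_eq_same]
  · intro i hi hne
    rw [(Finset.mem_filter.1 hi).2.factorization_pow, Finsupp.single_eq_of_ne (Ne.symm hne)]
  · intro h3
    exact absurd (Finset.mem_filter.2 ⟨Finset.mem_Ioc.2 ⟨h1, h2⟩, hlp⟩) h3

lemma gy_eq_iff {y p q r : ℕ} : gy y p q = gy y p r ↔
    ∀ l : ℕ, l.Prime → p < l → l ≤ y → q.factorization l = r.factorization l := by
  constructor
  · intro h l hl h1 h2
    rw [← gy_fac hl h1 h2 (q := q), ← gy_fac hl h1 h2 (q := r), h]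
  · intro h
    unfold gy
    refine Finset.prod_congr rfl fun l hl => ?_
    obtain ⟨h1, h2⟩ := Finset.mem_filter.1 hl
    rw [h l h2 (Finset.mem_Ioc.1 h1).1 (Finset.mem_Ioc.1 h1).2]

variable {Λ κ : Type*}

/-- **the refinement `gy y` is constant on the classes inside the nodes** if equal worlds at `p`
force equal retained primes `> p` -/
theorem NodeK_of_All {D : Par Λ κ} {C : Finset ℕ}
    (hret : ∀ p ∈ C, ∀ j k, D.rho p j = D.rho p k → ∀ l : ℕ, l.Prime → p < l →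
      (l ∈ t'.uq (D.it j) ↔ l ∈ t'.uq (D.it k))) (y : ℕ) :
    ∀ (τ : IT) (u : NS), cols τ ⊆ C → All (NDt P W t') u τ → NodeK D (gy y) τ := by
  intro τ
  induction τ with
  | leaf S => intro u _ _; trivial
  | br p Sp t₁ t₀ ih₁ ih₀ =>
    intro u hC h
    have hpC : p ∈ C := hC (Finset.mem_insert_self _ _)
    refine ⟨fun j k hj hk e => ?_,
      ih₁ _ (fun q hq => hC (Finset.mem_insert_of_mem (Finset.mem_union_left _ hq))) h.2.1,
      ih₀ _ (fun q hq => hC (Finset.mem_insert_of_mem (Finset.mem_union_right _ hq))) h.2.2⟩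
    rw [gy_eq_iff]
    intro l hl h1 h2
    have hN := h.1
    have hln : u.n ≤ l := by
      by_contra hc
      have := hN.self.node.2.2.2.1 l hl (not_le.1 hc)
      omega
    rw [hN.val hj hl hln, hN.val hk hl hln]
    by_cases h3 : l ∈ t'.uq (D.it j)
    · rw [if_pos h3, if_pos ((hret p hpC j k e l hl h1).1 h3)]
    · rw [if_neg h3, if_neg fun h4 => h3 ((hret p hpC j k e l hl h1).2 h4)]
  | add p t₁ t₀ ih₁ ih₀ =>
    intro u hC h
    exact ⟨ih₁ _ (fun q hq => hC (Finset.mem_union_left _ hq)) h.2.1,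
      ih₀ _ (fun q hq => hC (Finset.mem_union_right _ hq)) h.2.2⟩
  | up p Sp t ih => intro u hC h; exact ih _ hC h.2
  | pl p t ih => intro u hC h; exact ih _ hC h.2
  | far p t₁ t₀ ih₁ ih₀ =>
    intro u hC h
    exact ⟨ih₁ _ (fun q hq => hC (Finset.mem_union_left _ hq)) h.2.1,
      ih₀ _ (fun q hq => hC (Finset.mem_union_right _ hq)) h.2.2⟩

/-- the same for the cut tree of a node -/
theorem NDt.nodeK (h : NDt P W t' u τ) {D : Par Λ κ} {z : ℕ} (hz : z ≤ u.n) (q : ℕ)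
    (hret : ∀ p ∈ cols (Step588.subt z τ q), ∀ j k, D.rho p j = D.rho p k →
      ∀ l : ℕ, l.Prime → p < l → (l ∈ t'.uq (D.it j) ↔ l ∈ t'.uq (D.it k))) (y : ℕ) :
    NodeK D (gy y) (Step588.subt z τ q) := by
  obtain ⟨m, c', -, -, -, h2⟩ := h.subt' hz q
  have h3 := All_All (Q := ND1 P W t') _ _ h2.all
  exact NodeK_of_All (P := P) (W := W) hret y _ _ (Finset.Subset.refl _)
    (Bld532.All.mono (fun u τ hh => ⟨hh, h.dvd, h.pos, h.rd, h.rd1⟩) h3)

/-- equal worlds give equal retained primes if the second component of the world determines the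
retained part -/
theorem Wld.ret_iff {D : Par Λ κ} {WPp : WP} {stt : ℕ → ℕ → Option ℚ} {rtt : ℕ → ℕ → ℕ}
    {C : Finset ℕ} (hw : Wld D WPp stt rtt C) {n : ℕ} (hO : t'.Ok n)
    (hrt : ∀ p q r, rtt p q = rtt p r → W363.ret t' p q = W363.ret t' p r) {p : ℕ} (hp : p ∈ C)
    {j k : Λ} (e : D.rho p j = D.rho p k) {l : ℕ} (hl : l.Prime) (hpl : p < l) :
    l ∈ t'.uq (D.it j) ↔ l ∈ t'.uq (D.it k) := by
  have h1 := hrt p _ _ ((hw.rho p hp j k).1 e).2
  have h2 := dvd_ret hO (p := p) (q := D.it j) hl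
  have h3 := dvd_ret hO (p := p) (q := D.it k) hl
  rw [h1] at h2
  have h4 := h2.symm.trans h3
  constructor
  · intro h5; exact (h4.1 ⟨h5, hpl⟩).1
  · intro h5; exact (h4.2 ⟨h5, hpl⟩).1

/-- **(hrp) for the refined worlds**: ALL the pairs of items of the cut tree -/
theorem NDt.hrp_ext (h : NDt P W t' u τ) {n : ℕ} (hO : t'.Ok n) {y : ℕ} (hyn : y ≤ u.n) {q : ℕ}
    {rtt : ℕ → ℕ → ℕ} (hrt : ∀ p q r, rtt p q = rtt p r → W363.ret t' p q = W363.ret t' p r)
    {p : ℕ} (hp : p ∈ cols (Step588.subt y τ q)) {r r' : ℕ}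
    (hr : r ∈ (Step588.subt y τ q).items) (hr' : r' ∈ (Step588.subt y τ q).items)
    (e : Nat.pair (rtt p r) (gy y p r) = Nat.pair (rtt p r') (gy y p r')) :
    rgh y (r / (u.A * ppc y τ q)) = rgh y (r' / (u.A * ppc y τ q)) ∧ rtt p r = rtt p r' ∧
      ∀ l : ℕ, l.Prime → p < l → l ≤ y → r.factorization l = r'.factorization l := by
  obtain ⟨e1, e2⟩ := Nat.pair_eq_pair.1 e
  exact ⟨h.rgh_eq hO hyn hp hr hr' (hrt p r r' e1), e1, gy_eq_iff.1 e2⟩

end

end Crest.Agent.R4P.Step588
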