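import Crest.Agent.R4.StepBrk463
import Crest.Agent.R4P.StepPer588

/-!
R4 (S0004), helper463: (E2) in the letters of `Step588.crit`, and the glue of block (E) (`badcount`)
with helper588's `good_const`: outside few windows the item sum `Fq` is constant (`good_bad`). Port to the
tree with powers (helper274); block (E) itself (`R4.StepCnt463`) is tree-free.
-/

set_option autoImplicit false
set_option linter.unusedSectionVars false
open MeasureTheory Filter

namespace Crest.Agent.R4P.Step588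

open Crest.Agent.R4.Tour104 Crest.Agent.R4.Tour758 Crest.Agent.R4.Avg758 Crest.Agent.R4.Clos758
open Crest.Agent.R4.ClosL758 Crest.Agent.R4.ClosG758 Crest.Agent.R4.Lam368
open Crest.Agent.R4.Piece464 Crest.Agent.R4.Fam464 Crest.Agent.R4P.Cnt588 Crest.Agent.R4P.Item758
open Crest.Agent.R4P.W363
open Crest.Agent.R4

/-- the critical offsets are at most `s R` -/
theorem crit_abs {P : WP} {dm : ℕ} {s R : ℝ} {q : ℕ} (hsR : 0 ≤ s * R) {e : ℝ}
    (he : e ∈ crit P dm s R q) : |e| ≤ s * R := by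
  unfold crit at he
  rw [Finset.mem_union, Finset.mem_insert, Finset.mem_singleton, Finset.mem_filter] at he
  rcases he with (h | h) | ⟨-, h⟩
  · rw [h, abs_neg, abs_of_nonneg hsR]
  · rw [h, abs_of_nonneg hsR]
  · exact h

/-- **(E2)** for `crit` -/
theorem crit_reg {P : WP} (hρ : 0 < P.ρ₀) (dm : ℕ) {s R : ℝ} (hs : 0 < s) {q : ℕ} (hq : 0 < q) :
    ∀ δ : ℝ, 0 < δ → ∀ A l : ℝ, 0 ≤ l → (δ ≤ A ∨ A + l ≤ -δ) →
      (((crit P dm s R q).filter (fun e => A ≤ e ∧ e ≤ A + l)).card : ℝ) ≤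
        3 + 2 ^ (dm + 2) * l / δ := by
  have hq' : (0 : ℝ) < q := by exact_mod_cast hq
  refine StepCnt463.brk_reg hρ (mul_pos hs hq') P.n₀ dm (s * R) ?_ ?_
  · intro e he
    unfold crit at he
    rw [Finset.mem_union, Finset.mem_insert, Finset.mem_singleton, Finset.mem_filter,
      Finset.mem_image] at he
    rcases he with (h | h) | ⟨⟨e', he', rfl⟩, -⟩
    · exact Or.inr (Or.inl h)
    · exact Or.inl h
    · exact Or.inr (Or.inr ⟨e', he', rfl⟩)
  · exact pow_le_pow_right₀ (by norm_num) (by omega)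

section
variable {Λ κ : Type*} [Fintype Λ] [DecidableEq κ] [DecidableEq Λ]

/-- **outside few windows the item sum is constant** -/
theorem good_bad {D : Par Λ κ} {P : WP} {stt : ℕ → ℕ → Option ℚ} {rtt : ℕ → ℕ → ℕ}
    {C : Finset ℕ} {dm sn : ℕ} {b pr c B : ℕ} {R : ℕ → ℝ} {t : IT} (hC : Cov D R)
    (hw : Wld D P stt rtt C) (ho : WOk D P stt C t.items dm (B * sn)) (hb : 0 < b)
    (hF : Fit b pr t) (hW : D.Wts pr t) (hbc : b = sn * c) (hB : 0 < B) (hNB : NB B t c)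
    (hfine : ∀ j, (sn : ℝ) * (D.be j - D.al j) * B ≤ 1) (hpr : 0 < pr) (hcols : cols t ⊆ C)
    {rp : ℕ → ℕ} (hrp : ∀ p ∈ cols t, ∀ q ∈ t.items, ∀ r ∈ t.items, rtt p q = rtt p r → rp q = rp r)
    {q : ℕ} (hq : q ∈ t.items) (homc : OmC D P t dm c sn pr B R rp q) (hρ₀ : 0 < P.ρ₀)
    {u v K V0 w : ℕ} (hv : 0 < v) (hK : 0 < K)
    (hvV : v ≤ V0) {θ ρ : ℝ} (hρ : 0 < ρ) (hρ2 : ρ ≤ 1 / 2) (hwu : w = u * v) {vr : ℕ → ℕ}
    (hvr : ∀ r ∈ t.items, rp r = rp q → 0 < vr r ∧ vr r ≤ V0 ∧ r / pr = u * vr r)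
    (hR : ∀ r ∈ t.items, rp r = rp q → 0 ≤ sn * R r ∧ sn * R r ≤ 1 / 2) :
    ∃ bad : Finset (ℕ × ℕ), bad ⊆ Finset.range K ×ˢ Finset.range v ∧
      (bad.card : ℝ) ≤ 30 * (t.items.filter (fun r => rp r = rp q)).card * B * (V0 : ℝ) ^ 2 *
        (2 ^ (dm + 2) + 1) * √K ∧
      ∀ i < K, ∀ a < v, (i, a) ∉ bad → ∀ x x' : ℝ, inw θ ρ K w i a x → inw θ ρ K w i a x' →
        Fq D b pr t c q x = Fq D b pr t c q x' := by
  classical
  have hsn : 0 < sn := Nat.pos_of_ne_zero (by rintro rfl; simp at hbc; omega)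
  have hsnR : (0 : ℝ) < sn := by exact_mod_cast hsn
  obtain ⟨bad, h1, h2, h3⟩ := StepCnt463.badcount30 u v B K V0 hv hB hK hvV θ ρ hρ hρ2 w hwu
    (t.items.filter (fun r => rp r = rp q)) vr
    (fun r hr => by
      rw [Finset.mem_filter] at hr
      exact ⟨(hvr r hr.1 hr.2).1, (hvr r hr.1 hr.2).2.1⟩)
    (fun r => crit P dm sn (R r) r) (2 ^ (dm + 2)) (by positivity)
    (fun r hr e he => by
      rw [Finset.mem_filter] at hr
      obtain ⟨a1, a2⟩ := hR r hr.1 hr.2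
      exact (crit_abs a1 he).trans a2)
    (fun r hr => by
      rw [Finset.mem_filter] at hr
      exact crit_reg hρ₀ dm hsnR (hF.item r hr.1).1)
    (fun _ => sn * D.γ)
  refine ⟨bad, h1, h2, ?_⟩
  intro i hi a ha hia x x' hx hx'
  refine good_const hC hw ho hb hF hW hbc hB hNB hfine hpr hcols hrp hq homc ?_
  intro r hr hrq e he
  have h4 := h3 i hi a ha hia x x' hx hx' r (Finset.mem_filter.2 ⟨hr, hrq⟩) e he
  rw [(hvr r hr hrq).2.2]
  exact h4

end

end Crest.Agent.R4P.Step588
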