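import Crest.Agent.R4.StepPair588
import Crest.Agent.R4P.StepPer588
import Crest.Agent.R4P.AvgSymA710

/-!
(Port of `R4/StepPair588` to the item tree with powers; helper746. `pair_split` is exported.)
R4 (S0004), helper588: **from item pairs to majorants** (T9').

* `iF_le_Fq` : energy of a pair of items <= energy of the averaged item sums.
* `pair_split` : item sums below arcs and below `flat + affected` majorants.
-/

set_option autoImplicit false
set_option linter.unusedSectionVars false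
set_option linter.unusedVariables false
open MeasureTheory Filter Set

namespace Crest.Agent.R4P.Step588

open Crest.Agent.R4.Tour104 Crest.Agent.R4.Tour758 Crest.Agent.R4.Avg758 Crest.Agent.R4.Clos758
open Crest.Agent.R4.ClosL758 Crest.Agent.R4.ClosG758 Crest.Agent.R4.ClosR758 Crest.Agent.R4.Lam368
open Crest.Agent.R4.Piece464 Crest.Agent.R4.Fam464 Crest.Agent.R4P.Cnt588 Crest.Agent.R4P.Item758
open Crest.Agent.R4P.AvgItem710

export Crest.Agent.R4.Step588 (pair_split)

section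
variable {Λ κ : Type*} [DecidableEq Λ] [Fintype Λ] [Fintype κ] [DecidableEq κ]

lemma PB_U1 {D : Par Λ κ} {b pr : ℕ} {t : IT} (hb : 0 < b) (hF : Fit b pr t) (hW : D.Wts pr t)
    {c : ℕ} (hc : c ∣ b) (j : Λ) : PB ((D.toFT b pr t).U c j) :=
  FT.pb hb (D.toFT_Adm t b pr hb hF hW) hc j

lemma PB_Fq0 {D : Par Λ κ} {b pr : ℕ} {t : IT} (hb : 0 < b) (hF : Fit b pr t) (hW : D.Wts pr t)
    {c : ℕ} (hc : c ∣ b) (q : ℕ) : PB (Fq D b pr t c q) :=
  PB.sum _ fun j _ => PB_U1 hb hF hW hc j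

lemma Ep_Fq {D : Par Λ κ} {b pr : ℕ} {t : IT} (M c q : ℕ) (y : ℝ) :
    Ep M (Fq D b pr t c q) y =
      ∑ j ∈ Finset.univ.filter (fun j => D.it j = q), Ep M ((D.toFT b pr t).U c j) y := by
  unfold Ep Fq
  rw [Finset.sum_comm, Finset.sum_div]

/-- **energy of a pair of items** -/
theorem iF_le_Fq {D : Par Λ κ} {M M' b pr b' pr' : ℕ} {t t' : IT} (hM : 0 < M) (hM' : 0 < M')
    (hb : 0 < b) (hb' : 0 < b') (hF : Fit b pr t) (hF' : Fit b' pr' t') (hW : D.Wts pr t)
    (hW' : D.Wts pr' t') (R : Finset (Λ × Λ)) (A A' : Finset Λ) (e : ℕ × ℕ) :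
    D.iF R (D.uA M b pr t A 1) (D.uA M' b' pr' t' A' 1) e ≤
      I (fun y => Ep M (Fq D b pr t 1 e.1) y * Ep M' (Fq D b' pr' t' 1 e.2) y) := by
  classical
  set S := Finset.univ.filter (fun j => D.it j = e.1) with hS
  set S' := Finset.univ.filter (fun j => D.it j = e.2) with hS'
  have pU : ∀ j, PB (Ep M ((D.toFT b pr t).U 1 j)) := fun j =>
    (PB_U1 hb hF hW (one_dvd _) j).Ep hM
  have pU' : ∀ j, PB (Ep M' ((D.toFT b' pr' t').U 1 j)) := fun j =>
    (PB_U1 hb' hF' hW' (one_dvd _) j).Ep hM'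
  have le1 : ∀ (A : Finset Λ) (j : Λ) (y : ℝ), D.uA M b pr t A 1 j y ≤
      Ep M ((D.toFT b pr t).U 1 j) y := by
    intro A j y
    unfold Par.uA avg
    by_cases hA : j ∈ A
    · rw [rv_of_mem hA]
    · rw [rv_of_not_mem hA, Ep_const hM]
      exact (pU j).nonneg y
  have le1' : ∀ (A : Finset Λ) (j : Λ) (y : ℝ), D.uA M' b' pr' t' A 1 j y ≤
      Ep M' ((D.toFT b' pr' t').U 1 j) y := by
    intro A j y
    unfold Par.uA avg
    by_cases hA : j ∈ A
    · rw [rv_of_mem hA]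
    · rw [rv_of_not_mem hA, Ep_const hM']
      exact (pU' j).nonneg y
  have pA : ∀ j, PB (D.uA M b pr t A 1 j) := fun j =>
    PB_avg hM (PB_rv (fun j => PB_U1 hb hF hW (one_dvd _) j) A) j
  have pA' : ∀ j, PB (D.uA M' b' pr' t' A' 1 j) := fun j =>
    PB_avg hM' (PB_rv (fun j => PB_U1 hb' hF' hW' (one_dvd _) j) A') j
  have hrhs : I (fun y => Ep M (Fq D b pr t 1 e.1) y * Ep M' (Fq D b' pr' t' 1 e.2) y) =
      ∑ x ∈ S ×ˢ S', I (fun y => Ep M ((D.toFT b pr t).U 1 x.1) y *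
        Ep M' ((D.toFT b' pr' t').U 1 x.2) y) := by
    rw [← I_sum _ fun x _ => ((pU x.1).mul (pU' x.2)).integrableOn]
    congr 1
    funext y
    rw [Ep_Fq, Ep_Fq, Finset.sum_mul_sum, ← Finset.sum_product']
  rw [hrhs]
  unfold Par.iF
  calc ∑ x ∈ R.filter (fun x => (D.it x.1, D.it x.2) = e),
        I (fun y => D.uA M b pr t A 1 x.1 y * D.uA M' b' pr' t' A' 1 x.2 y)
      ≤ ∑ x ∈ R.filter (fun x => (D.it x.1, D.it x.2) = e),
        I (fun y => Ep M ((D.toFT b pr t).U 1 x.1) y *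
          Ep M' ((D.toFT b' pr' t').U 1 x.2) y) := by
        refine Finset.sum_le_sum fun x _ => ?_
        refine I_mono ((pA x.1).mul (pA' x.2)).integrableOn ((pU x.1).mul (pU' x.2)).integrableOn
          fun y => ?_
        exact mul_le_mul (le1 A x.1 y) (le1' A' x.2 y) ((pA' x.2).nonneg y) ((pU x.1).nonneg y)
    _ ≤ _ := by
        refine Finset.sum_le_sum_of_subset_of_nonneg ?_ fun x _ _ =>
          I_nonneg fun y => mul_nonneg ((pU x.1).nonneg y) ((pU' x.2).nonneg y)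
        intro x hx
        have h := (Finset.mem_filter.1 hx).2
        rw [Finset.mem_product, hS, hS', Finset.mem_filter, Finset.mem_filter]
        exact ⟨⟨Finset.mem_univ _, congrArg Prod.fst h⟩, ⟨Finset.mem_univ _, congrArg Prod.snd h⟩⟩

end

end Crest.Agent.R4P.Step588
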