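import Crest.Agent.R4.StepHigh693
import Crest.Agent.R4P.StepFq693
import Crest.Agent.R4P.StepPair588

/-!
(Port of `R4/StepHigh693` to the item tree with powers; helper746. The tree-free half is exported.)
R4 (S0004), helper693, block (G) of T9' (helper588): the sum over item pairs with high `D`.

* `iF_le_FqA` : the energy of an item pair is at most the overlap of the averaged item sums of the
  populations;
* `high_iF`.
-/

set_option autoImplicit false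
set_option linter.unusedSectionVars false
open MeasureTheory Filter

namespace Crest.Agent.R4P.Step588

open Crest.Agent.R4.Tour104 Crest.Agent.R4.Tour758 Crest.Agent.R4.Avg758 Crest.Agent.R4.Clos758
open Crest.Agent.R4.ClosL758 Crest.Agent.R4.ClosG758 Crest.Agent.R4.Lam368
open Crest.Agent.R4.Piece464 Crest.Agent.R4.Fam464 Crest.Agent.R4P.Cnt588 Crest.Agent.R4P.Item758
open Crest.Agent.R4P.AvgItem710 Crest.Agent.R4.ClosR758

export Crest.Agent.R4.Step588 (Ep_sum_fin IW WFPair high_pair high_sum high_sum2 arcF PB_arcF I_arcF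
  WF_le_arc wl_dj WF_le_arc_wl IZ high_pairZ high_sumZ)

/-! ### energies of item pairs and item sums -/

section
variable {Λ κ : Type*} [Fintype Λ] [DecidableEq κ] [DecidableEq Λ] [Fintype κ]

/-- the item sum of a population -/
noncomputable def FqA (D : Par Λ κ) (b pr : ℕ) (t : IT) (c : ℕ) (A : Finset Λ) (q : ℕ) (x : ℝ) : ℝ :=
  ∑ j ∈ A.filter (fun j => D.it j = q), (D.toFT b pr t).U c j x

theorem PB_FqA (D : Par Λ κ) {b pr : ℕ} {t : IT} {c : ℕ} (A : Finset Λ) (q : ℕ) (hb : 0 < b)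
    (hF : Fit b pr t) (hW : D.Wts pr t) (hc : c ∣ b) : PB (FqA D b pr t c A q) :=
  PB.sum _ fun j _ => FT.pb hb (D.toFT_Adm t b pr hb hF hW) hc j

lemma FqA_le (D : Par Λ κ) {b pr : ℕ} {t : IT} {c : ℕ} (A : Finset Λ) (q : ℕ) (hb : 0 < b)
    (hF : Fit b pr t) (hW : D.Wts pr t) (hc : c ∣ b) (x : ℝ) :
    FqA D b pr t c A q x ≤ Fq D b pr t c q x := by
  unfold FqA Fq
  refine Finset.sum_le_sum_of_subset_of_nonneg
    (Finset.filter_subset_filter _ (Finset.subset_univ A)) fun j _ _ => ?_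
  exact (FT.pb hb (D.toFT_Adm t b pr hb hF hW) hc j).nonneg x

/-- **(G1)**: the energy of an item pair -/
theorem iF_le_FqA (D : Par Λ κ) {M M' b pr c b' pr' c' : ℕ} {t t' : IT} (hM : 0 < M) (hM' : 0 < M')
    (hb : 0 < b) (hb' : 0 < b') (hF : Fit b pr t) (hF' : Fit b' pr' t') (hW : D.Wts pr t)
    (hW' : D.Wts pr' t') (hc : c ∣ b) (hc' : c' ∣ b') (R : Finset (Λ × Λ)) (A A' : Finset Λ)
    (e : ℕ × ℕ) :
    D.iF R (D.uA M b pr t A c) (D.uA M' b' pr' t' A' c') e ≤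
      I (fun y => Ep M (FqA D b pr t c A e.1) y * Ep M' (FqA D b' pr' t' c' A' e.2) y) := by
  classical
  set J := A.filter fun j => D.it j = e.1 with hJ
  set J' := A'.filter fun j => D.it j = e.2 with hJ'
  have hpb : ∀ j, PB (Ep M ((D.toFT b pr t).U c j)) := fun j =>
    (FT.pb hb (D.toFT_Adm t b pr hb hF hW) hc j).Ep hM
  have hpb' : ∀ j, PB (Ep M' ((D.toFT b' pr' t').U c' j)) := fun j =>
    (FT.pb hb' (D.toFT_Adm t' b' pr' hb' hF' hW') hc' j).Ep hM'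
  have hR : I (fun y => Ep M (FqA D b pr t c A e.1) y * Ep M' (FqA D b' pr' t' c' A' e.2) y) =
      ∑ x ∈ J ×ˢ J', I (fun y => Ep M ((D.toFT b pr t).U c x.1) y *
        Ep M' ((D.toFT b' pr' t').U c' x.2) y) := by
    rw [← I_sum _ fun x _ => ((hpb x.1).mul (hpb' x.2)).integrableOn]
    congr 1
    funext y
    have e1 : FqA D b pr t c A e.1 = fun x => ∑ j ∈ J, (D.toFT b pr t).U c j x := rfl
    have e2 : FqA D b' pr' t' c' A' e.2 = fun x => ∑ j ∈ J', (D.toFT b' pr' t').U c' j x := rfl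
    rw [e1, e2, Ep_sum_fin, Ep_sum_fin, Finset.sum_mul_sum, ← Finset.sum_product']
  rw [hR]
  unfold Par.iF
  have hsub : ∀ x ∈ R.filter (fun x => (D.it x.1, D.it x.2) = e), x ∉ J ×ˢ J' →
      I (fun y => D.uA M b pr t A c x.1 y * D.uA M' b' pr' t' A' c' x.2 y) = 0 := by
    intro x hx hx'
    by_contra h
    obtain ⟨y, h5, h6⟩ := exists_of_I_ne h
    apply hx'
    have h3 := (Finset.mem_filter.1 hx).2
    have h7 : x.1 ∈ A := by
      by_contra h
      exact h5 (uA_zero hM (fun k => h k.1) y)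
    have h8 : x.2 ∈ A' := by
      by_contra h
      exact h6 (uA_zero hM' (fun k => h k.1) y)
    rw [hJ, hJ', ← h3]
    exact Finset.mem_product.2 ⟨Finset.mem_filter.2 ⟨h7, rfl⟩, Finset.mem_filter.2 ⟨h8, rfl⟩⟩
  rw [← Finset.sum_filter_add_sum_filter_not (R.filter (fun x => (D.it x.1, D.it x.2) = e))
    (fun x => x ∈ J ×ˢ J')]
  rw [Finset.sum_eq_zero (s := (R.filter (fun x => (D.it x.1, D.it x.2) = e)).filter
    (fun x => ¬ x ∈ J ×ˢ J'))
    (fun x hx => hsub x (Finset.mem_filter.1 hx).1 (Finset.mem_filter.1 hx).2), add_zero]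
  have hval : ∀ x ∈ J ×ˢ J',
      I (fun y => D.uA M b pr t A c x.1 y * D.uA M' b' pr' t' A' c' x.2 y) =
      I (fun y => Ep M ((D.toFT b pr t).U c x.1) y * Ep M' ((D.toFT b' pr' t').U c' x.2) y) := by
    intro x hx
    obtain ⟨h1, h2⟩ := Finset.mem_product.1 hx
    unfold Par.uA avg
    rw [rv_of_mem (Finset.mem_filter.1 h1).1, rv_of_mem (Finset.mem_filter.1 h2).1]
  refine le_trans (Finset.sum_le_sum_of_subset_of_nonneg (t := J ×ˢ J')
    (fun x hx => (Finset.mem_filter.1 hx).2) fun x _ _ => ?_)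
    (Finset.sum_congr rfl hval).le
  exact I_nonneg fun y => mul_nonneg ((PB_uA hM hb hF hW hc _).nonneg y)
    ((PB_uA hM' hb' hF' hW' hc' _).nonneg y)

end

section
variable {Λ κ : Type*} [Fintype Λ] [DecidableEq κ] [DecidableEq Λ] [Fintype κ]

/-- **high_state**, shell: the item energies of two nodes -/
theorem high_iF (hP : WFPair) {D : Par Λ κ} {M M' b pr b' pr' : ℕ} {t t' : IT} (hM : 0 < M)
    (hM' : 0 < M') (hb : 0 < b) (hb' : 0 < b') (hF : Fit b pr t) (hF' : Fit b' pr' t')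
    (hW : D.Wts pr t) (hW' : D.Wts pr' t') (Rl : Finset (Λ × Λ)) (A A' : Finset Λ)
    {V W : Finset ℕ} {Z Z' : ℕ → ℝ → ℝ} {R R' m m' : ℕ → ℝ}
    {v v' k k' : ℕ → ℕ} {θ θ' C1 C1' η η' η₃ : ℝ} {K K' V0 V0' : ℕ} {T : ℝ} (hT : 0 < T)
    (hη₃ : 0 ≤ η₃)
    (hI : ∀ q ∈ V, IZ (Fq D b pr t 1 q) (R q) (k q) (v q) (q / pr) θ (C1 * (m q + η * R q)) (Z q))
    (hI' : ∀ r ∈ W, IZ (Fq D b' pr' t' 1 r) (R' r) (k' r) (v' r) (r / pr') θ'
      (C1' * (m' r + η' * R' r)) (Z' r))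
    (hv : ∀ q ∈ V, v q ≤ V0) (hv' : ∀ r ∈ W, v' r ≤ V0')
    (hk : ∀ q ∈ V, k q ≤ K) (hk' : ∀ r ∈ W, k' r ≤ K')
    (E : Finset (ℕ × ℕ)) (hE : E ⊆ V ×ˢ W)
    (hD : ∀ e ∈ E, T ≤ Da (e.1 / pr) M (e.2 / pr') M' (R e.1) (R' e.2))
    (hz : ∀ e ∈ E, I (fun y => Ep M (Z e.1) y * Ep M' (arcF θ' (R' e.2) (e.2 / pr')) y) +
      I (fun y => Ep M (arcF θ (R e.1) (e.1 / pr)) y * Ep M' (Z' e.2) y) ≤
        η₃ * (R e.1 * R' e.2)) :
    ∑ e ∈ E, D.iF Rl (D.uA M b pr t A 1) (D.uA M' b' pr' t' A' 1) e ≤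
      C1 * C1' * ((∑ q ∈ V, m q + η * ∑ q ∈ V, R q) * (∑ r ∈ W, m' r + η' * ∑ r ∈ W, R' r)) +
        (2 / T * (V0 * V0') * ((K * (V0 + 2)) * (K' * (V0' + 2))) + η₃) *
          ((∑ q ∈ V, R q) * ∑ r ∈ W, R' r) :=
  (Finset.sum_le_sum fun e _ => iF_le_Fq hM hM' hb hb' hF hF' hW hW' Rl A A' e).trans
    (high_sumZ hP (w := fun q => q / pr) (w' := fun r => r / pr') hT hM hM' hη₃ hI hI' hv hv' hk
      hk' E hE hD hz)

end

end Crest.Agent.R4P.Step588
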