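import Crest.Agent.R4P.StepDef588

/-!
R4 (S0004), **local isomorphism of two points** (T9'): port of helper588's `R4/StepIso588` to the
tree with powers (helper504).
-/

set_option autoImplicit false
set_option linter.unusedSectionVars false
open MeasureTheory Filter

namespace Crest.Agent.R4P.Step588

open Crest.Agent.R4.Tour104 Crest.Agent.R4.Tour758 Crest.Agent.R4.Avg758 Crest.Agent.R4.Clos758
open Crest.Agent.R4.ClosL758 Crest.Agent.R4.ClosG758 Crest.Agent.R4.Lam368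
open Crest.Agent.R4.Piece464 Crest.Agent.R4.Fam464 Crest.Agent.R4P.Cnt588 Crest.Agent.R4P.Item758

section
variable {Λ κ : Type*} [Fintype Λ] [DecidableEq κ]

/-- all the leaf functions of the piece `k` vanish at the point -/
def Dead (D : Par Λ κ) (k : Λ) : ℕ → ℕ → IT → ℕ → ℝ → Prop
  | b, pr, .leaf S, N, X => ∀ c, c ∣ N → D.L b pr S c k (X / c) = 0
  | b, pr, .br p _ t₁ t₀, N, X => Dead D k b (pr * p) t₁ N (p * X) ∧
      Dead D k (b * p) pr t₀ (N * p) (p * X)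
  | b, pr, .add _ t₁ t₀, N, X => Dead D k b pr t₁ N X ∧ Dead D k b pr t₀ N X
  | b, pr, .up _ _ t, N, X => Dead D k b pr t N X
  | b, pr, .pl p t, N, X => Dead D k b (pr * p) t N (p * X)
  | b, pr, .far _ t₁ t₀, N, X => Dead D k b pr t₁ N X ∧ Dead D k b pr t₀ N X

lemma dead_U (D : Par Λ κ) {k : Λ} (t : IT) : ∀ {b pr N : ℕ} {X : ℝ}, Fit b pr t → 0 < N →
    Dead D k b pr t N X → ∀ c, c ∣ N → (D.toFT b pr t).U c k (X / c) = 0 := by
  induction t with
  | leaf S => intro b pr N X _ _ h c hc; exact h c hc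
  | br p Sp t₁ t₀ ih₁ ih₀ =>
    intro b pr N X hF hN h c hc
    obtain ⟨hp, hpb, hd, h1, h0⟩ := hF
    have hpR : (p : ℝ) ≠ 0 := by exact_mod_cast hp.ne_zero
    have hc0 : 0 < c := Nat.pos_of_dvd_of_pos hc hN
    have hcR : (c : ℝ) ≠ 0 := by exact_mod_cast hc0.ne'
    have e1 := ih₁ h1 hN h.1 c hc
    have e0 := ih₀ h0 (Nat.mul_pos hN hp.pos) h.2 (c * p) (mul_dvd_mul_right hc p)
    have a1 : (p : ℝ) * X / c = p * (X / c) := by ring
    have a0 : (p : ℝ) * X / ((c * p : ℕ) : ℝ) = X / c := by push_cast; field_simp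
    rw [a1] at e1
    rw [a0] at e0
    show _ * (D.toFT b (pr * p) t₁).U c k (p * (X / c)) + (D.toFT (b * p) pr t₀).U (c * p) k (X / c) = 0
    rw [e1, e0]; ring
  | add p t₁ t₀ ih₁ ih₀ =>
    intro b pr N X hF hN h c hc
    obtain ⟨hd, h1, h0⟩ := hF
    show (D.toFT b pr t₁).U c k (X / c) + (D.toFT b pr t₀).U c k (X / c) = 0
    rw [ih₁ h1 hN h.1 c hc, ih₀ h0 hN h.2 c hc]; ring
  | up p Sp t ih => intro b pr N X hF hN h c hc; exact ih hF hN h c hc
  | pl p t ih =>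
    intro b pr N X hF hN h c hc
    obtain ⟨hp, hpb, h1⟩ := hF
    have e1 := ih h1 hN h c hc
    have a1 : (p : ℝ) * X / c = p * (X / c) := by ring
    rw [a1] at e1
    exact e1
  | far p t₁ t₀ ih₁ ih₀ =>
    intro b pr N X hF hN h c hc
    obtain ⟨hd, h1, h0⟩ := hF
    show (D.toFT b pr t₁).U c k (X / c) + (D.toFT b pr t₀).U c k (X / c) = 0
    rw [ih₁ h1 hN h.1 c hc, ih₀ h0 hN h.2 c hc]; ring

/-- the two points are locally isomorphic -/
def Same (D : Par Λ κ) (A A' : Finset Λ) (σ : Λ → Λ) : ℕ → ℕ → IT → ℕ → ℝ → ℝ → Prop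
  | b, pr, .leaf S, N, X, X' =>
      ∀ c, c ∣ N → ∀ j ∈ A, D.L b pr S c j (X / c) = D.L b pr S c (σ j) (X' / c)
  | b, pr, .br p _ t₁ t₀, N, X, X' =>
      (∀ j ∈ A, ∀ k ∈ A, (D.rho p j = D.rho p k ↔ D.rho p (σ j) = D.rho p (σ k))) ∧
      (∀ j ∈ A, ∀ k, D.rho p k = D.rho p j → k ∈ A ∨
        (Dead D k b (pr * p) t₁ N (p * X) ∧ Dead D k (b * p) pr t₀ (N * p) (p * X))) ∧
      (∀ j ∈ A', ∀ k, D.rho p k = D.rho p j → k ∈ A' ∨
        (Dead D k b (pr * p) t₁ N (p * X') ∧ Dead D k (b * p) pr t₀ (N * p) (p * X'))) ∧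
      Same D A A' σ b (pr * p) t₁ N (p * X) (p * X') ∧
      Same D A A' σ (b * p) pr t₀ (N * p) (p * X) (p * X')
  | b, pr, .add _ t₁ t₀, N, X, X' => Same D A A' σ b pr t₁ N X X' ∧ Same D A A' σ b pr t₀ N X X'
  | b, pr, .up _ _ t, N, X, X' => Same D A A' σ b pr t N X X'
  | b, pr, .pl p t, N, X, X' => Same D A A' σ b (pr * p) t N (p * X) (p * X')
  | b, pr, .far _ t₁ t₀, N, X, X' => Same D A A' σ b pr t₁ N X X' ∧ Same D A A' σ b pr t₀ N X X'

variable [DecidableEq Λ]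

/-- **local isomorphism** -/
theorem iso_U (D : Par Λ κ) {A A' : Finset Λ} {σ : Λ → Λ} (hσ : Set.BijOn σ A A') (t : IT) :
    ∀ {b pr N : ℕ} {X X' : ℝ}, 0 < b → Fit b pr t → D.Wts pr t → N ∣ b →
      Same D A A' σ b pr t N X X' → ∀ c, c ∣ N → ∀ j ∈ A,
        (D.toFT b pr t).U c j (X / c) = (D.toFT b pr t).U c (σ j) (X' / c) := by
  induction t with
  | leaf S => intro b pr N X X' _ _ _ _ h c hc j hj; exact h c hc j hj
  | br p Sp t₁ t₀ ih₁ ih₀ =>
    intro b pr N X X' hb hF hW hNb h c hc j hj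
    have hA : (D.toFT b pr (.br p Sp t₁ t₀)).Adm b := D.toFT_Adm _ b pr hb hF hW
    have hdat := FT.dat hb hA
    obtain ⟨hp, hpb, hd, h1, h0⟩ := hF
    obtain ⟨r1, r2, r3, s1, s0⟩ := h
    have hN : 0 < N := Nat.pos_of_dvd_of_pos hNb hb
    have hNp : 0 < N * p := Nat.mul_pos hN hp.pos
    have hbp : 0 < b * p := Nat.mul_pos hb hp.pos
    have hpR : (p : ℝ) ≠ 0 := by exact_mod_cast hp.ne_zero
    have hc0 : 0 < c := Nat.pos_of_dvd_of_pos hc hN
    have hcR : (c : ℝ) ≠ 0 := by exact_mod_cast hc0.ne'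
    have i1 := ih₁ hb h1 (hW.br₁ hd) hNb s1
    have i0 := ih₀ hbp h0 hW.br₀ (mul_dvd_mul_right hNb p) s0
    have a1 : ∀ X : ℝ, (p : ℝ) * X / c = p * (X / c) := fun X => by ring
    have a0 : ∀ X : ℝ, (p : ℝ) * X / ((c * p : ℕ) : ℝ) = X / c := fun X => by push_cast; field_simp
    have a2 : ∀ X : ℝ, (p : ℝ) * X / ((1 : ℕ) : ℝ) = p * X := fun X => by push_cast; ring
    have a3 : ∀ X : ℝ, (p : ℝ) * X / (p : ℝ) = X := fun X => by field_simp
    -- the values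
    have v1 := i1 c hc j hj
    rw [a1, a1] at v1
    have v0 := i0 (c * p) (mul_dvd_mul_right hc p) j hj
    rw [a0, a0] at v0
    -- the multipliers
    have f1 : ∀ k ∈ A, (D.toFT b (pr * p) t₁).U 1 k (p * X) =
        (D.toFT b (pr * p) t₁).U 1 (σ k) (p * X') := by
      intro k hk
      have := i1 1 (one_dvd _) k hk
      rwa [a2, a2] at this
    have f2 : ∀ k ∈ A, (D.toFT (b * p) pr t₀).U 1 k (p * X) =
        (D.toFT (b * p) pr t₀).U 1 (σ k) (p * X') := by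
      intro k hk
      have := i0 1 (one_dvd _) k hk
      rwa [a2, a2] at this
    have f3 : ∀ k ∈ A, (D.toFT (b * p) pr t₀).U p k X =
        (D.toFT (b * p) pr t₀).U p (σ k) X' := by
      intro k hk
      have := i0 p (Dvd.intro_left N rfl) k hk
      rwa [a3, a3] at this
    have d1 : ∀ {Y : ℝ} {k : Λ}, Dead D k b (pr * p) t₁ N (p * Y) →
        (D.toFT b (pr * p) t₁).U 1 k (p * Y) = 0 := by
      intro Y k hk
      have := dead_U D t₁ h1 hN hk 1 (one_dvd _)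
      rwa [a2] at this
    have d2 : ∀ {Y : ℝ} {k : Λ}, Dead D k (b * p) pr t₀ (N * p) (p * Y) →
        (D.toFT (b * p) pr t₀).U 1 k (p * Y) = 0 := by
      intro Y k hk
      have := dead_U D t₀ h0 hNp hk 1 (one_dvd _)
      rwa [a2] at this
    have d3 : ∀ {Y : ℝ} {k : Λ}, Dead D k (b * p) pr t₀ (N * p) (p * Y) →
        (D.toFT (b * p) pr t₀).U p k Y = 0 := by
      intro Y k hk
      have := dead_U D t₀ h0 hNp hk p (Dvd.intro_left N rfl)
      rwa [a3] at this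
    have hσj : σ j ∈ A' := hσ.mapsTo hj
    have c1 := sum_cls hσ r1 f1 hj (fun k hk => (r2 j hj k hk).imp id fun h => d1 h.1)
      (fun k hk => (r3 _ hσj k hk).imp id fun h => d1 h.1)
    have c2 := sum_cls hσ r1 f2 hj (fun k hk => (r2 j hj k hk).imp id fun h => d2 h.2)
      (fun k hk => (r3 _ hσj k hk).imp id fun h => d2 h.2)
    have c3 := sum_cls hσ r1 f3 hj (fun k hk => (r2 j hj k hk).imp id fun h => d3 h.2)
      (fun k hk => (r3 _ hσj k hk).imp id fun h => d3 h.2)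
    have hm := mult_congr (r := D.rho p) (w := j) (w' := σ j) (x := X) (x' := X') hdat
      (f1 j hj) c1 c2 c3
    show mult p (fun j => (D.toFT b (pr * p) t₁).U 1 j) (fun j => (D.toFT (b * p) pr t₀).U p j)
        (fun j => (D.toFT (b * p) pr t₀).U 1 j) (fun _ => D.rho p) (0 + 1) j (c * (X / c)) *
        (D.toFT b (pr * p) t₁).U c j (p * (X / c)) + (D.toFT (b * p) pr t₀).U (c * p) j (X / c) =
      mult p (fun j => (D.toFT b (pr * p) t₁).U 1 j) (fun j => (D.toFT (b * p) pr t₀).U p j)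
        (fun j => (D.toFT (b * p) pr t₀).U 1 j) (fun _ => D.rho p) (0 + 1) (σ j) (c * (X' / c)) *
        (D.toFT b (pr * p) t₁).U c (σ j) (p * (X' / c)) +
        (D.toFT (b * p) pr t₀).U (c * p) (σ j) (X' / c)
    have b1 : (c : ℝ) * (X / c) = X := by field_simp
    have b2 : (c : ℝ) * (X' / c) = X' := by field_simp
    rw [b1, b2, v1, v0, hm]
  | add p t₁ t₀ ih₁ ih₀ =>
    intro b pr N X X' hb hF hW hNb h c hc j hj
    obtain ⟨hd, h1, h0⟩ := hF
    show (D.toFT b pr t₁).U c j (X / c) + (D.toFT b pr t₀).U c j (X / c) =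
      (D.toFT b pr t₁).U c (σ j) (X' / c) + (D.toFT b pr t₀).U c (σ j) (X' / c)
    rw [ih₁ hb h1 (hW.add₁ hd) hNb h.1 c hc j hj, ih₀ hb h0 hW.add₀ hNb h.2 c hc j hj]
  | up p Sp t ih => intro b pr N X X' hb hF hW hNb h c hc j hj; exact ih hb hF hW hNb h c hc j hj
  | pl p t ih =>
    intro b pr N X X' hb hF hW hNb h c hc j hj
    obtain ⟨hp, hpb, h1⟩ := hF
    have v1 := ih hb h1 hW.pl hNb h c hc j hj
    have a1 : ∀ X : ℝ, (p : ℝ) * X / c = p * (X / c) := fun X => by ring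
    rw [a1, a1] at v1
    exact v1
  | far p t₁ t₀ ih₁ ih₀ =>
    intro b pr N X X' hb hF hW hNb h c hc j hj
    obtain ⟨hd, h1, h0⟩ := hF
    show (D.toFT b pr t₁).U c j (X / c) + (D.toFT b pr t₀).U c j (X / c) =
      (D.toFT b pr t₁).U c (σ j) (X' / c) + (D.toFT b pr t₀).U c (σ j) (X' / c)
    rw [ih₁ hb h1 (hW.far₁ hd) hNb h.1 c hc j hj, ih₀ hb h0 hW.far₀ hNb h.2 c hc j hj]

end

end Crest.Agent.R4P.Step588
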