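import Crest.Agent.R4P.StepGood463
import Crest.Agent.R4.StepMaj693
import Crest.Agent.R4P.StepFq693
import Crest.Agent.R4P.StepCut588
import Crest.Agent.R4.TourPP464

/-!
(Port of `R4/StepItem95` to the item tree with powers; helper746.)
R4 (S0004), module C/E, **T9'**, block (F2) (helper95, statement helper588 #14878): the item sum of a
node is majorised by a window function.
-/

set_option autoImplicit false
set_option linter.unusedSectionVars false
set_option linter.unusedVariables false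
open MeasureTheory Filter

namespace Crest.Agent.R4P.Step588

open Crest.Agent.R4.Tour104 Crest.Agent.R4.Tour758 Crest.Agent.R4.Avg758 Crest.Agent.R4.Clos758
open Crest.Agent.R4.ClosL758 Crest.Agent.R4.ClosG758 Crest.Agent.R4.Lam368
open Crest.Agent.R4.Piece464 Crest.Agent.R4.Fam464 Crest.Agent.R4P.Cnt588 Crest.Agent.R4P.Item758
open Crest.Agent.R4P.W363

export Crest.Agent.R4.Step588 (maj)

lemma prfc_pos (y : ℕ) (t : IT) (q : ℕ) : ∀ {N : ℕ}, t.Ok N → 0 < prfc y t q := by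
  have hfac : ∀ {p : ℕ}, p.Prime → (0 : ℝ) < 1 - 1 / (p : ℝ) := by
    intro p hp
    have h2 : (1 : ℝ) < p := by exact_mod_cast hp.one_lt
    have h3 : 1 / (p : ℝ) < 1 := by rw [div_lt_one (by linarith)]; exact h2
    linarith
  induction t with
  | leaf S => intro N h; exact one_pos
  | br p Sp t₁ t₀ ih₁ ih₀ =>
    intro N h
    by_cases hp : p < y
    · rw [prfc_br_lt hp]; exact one_pos
    · by_cases hq : q ∈ t₀.items
      · rw [prfc_br0 hp hq]; exact ih₀ h.2.2.2.2.2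
      · rw [prfc_br1 hp hq]; exact mul_pos (hfac h.1) (ih₁ h.2.2.2.2.1)
  | add p t₁ t₀ ih₁ ih₀ =>
    intro N h
    by_cases hp : p < y
    · rw [prfc_add_lt hp]; exact one_pos
    · by_cases hq : q ∈ t₀.items
      · rw [prfc_add0 hp hq]; exact ih₀ h.2.2.2.2
      · rw [prfc_add1 hp hq]; exact ih₁ h.2.2.2.1
  | up p Sp t ih =>
    intro N h
    by_cases hp : p < y
    · rw [prfc_up_lt hp]; exact one_pos
    · rw [prfc_up hp]; exact ih h.2.2.2
  | pl p t ih =>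
    intro N h
    by_cases hp : p < y
    · rw [prfc_pl_lt hp]; exact one_pos
    · rw [prfc_pl hp]; exact ih h.2.2
  | far p t₁ t₀ ih₁ ih₀ =>
    intro N h
    by_cases hp : p < y
    · rw [prfc_far_lt hp]; exact one_pos
    · by_cases hq : q ∈ t₀.items
      · rw [prfc_far0 hp hq]; exact ih₀ h.2.2.2.2
      · rw [prfc_far1 hp hq]; exact ih₁ h.2.2.2.1

section
variable {Λ κ : Type*} [Fintype Λ] [DecidableEq κ] [DecidableEq Λ]

/-- **cut of the item sum** -/
lemma Fq_cut (D : Par Λ κ) {b pr y q : ℕ} {t : IT} (hb : 0 < b) (hF : Fit b pr t)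
    (hW : D.Wts pr t) (hq : q ∈ t.items) (x : ℝ) :
    Fq D b pr t 1 q x ≤
      Fq D (b * mpc y t q) (pr * ppc y t q) (subt y t q) (mpc y t q) q ((ppc y t q : ℕ) * x) := by
  unfold Fq
  refine Finset.sum_le_sum fun j hj => ?_
  have hjq : D.it j = q := (Finset.mem_filter.1 hj).2
  have h := U_cut D y t b pr 1 hb hF hW (one_dvd b) j (by rw [hjq]; exact hq) x
  rw [hjq, one_mul] at h
  exact h

/-- **mass of the cut** -/
lemma I_Fq_cut (D : Par Λ κ) (hab : ∀ j, D.al j ≤ D.be j) {b pr y q N : ℕ} {t : IT} (hb : 0 < b)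
    (hF : Fit b pr t) (hW : D.Wts pr t) (hO : t.Ok N) (hq : q ∈ t.items) :
    I (Fq D (b * mpc y t q) (pr * ppc y t q) (subt y t q) (mpc y t q) q) * prfc y t q =
      I (Fq D b pr t 1 q) := by
  have hm := mpc_pos y t q hO
  have hb2 : 0 < b * mpc y t q := Nat.mul_pos hb hm
  have hF2 := Fit_subt y t q hF
  have hW2 := Wts_subt y t q (Fit_dj hF) hW
  rw [I_Fq D hab (sn := b) hb2 hF2 hW2 rfl (mem_subt y t hq),
    I_Fq D hab (sn := b) hb hF hW (mul_one b).symm hq, Finset.sum_mul]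
  refine Finset.sum_congr rfl fun j hj => ?_
  rw [prf_cut y t q, pp_cut y t q, ← mul_assoc]
  ring_nf

/-- **(F2)** of #14878: the item sum of a node is majorised by a window function. -/
theorem item_step {D : Par Λ κ} {P : WP} {stt : ℕ → ℕ → Option ℚ} {rtt : ℕ → ℕ → ℕ}
    {C : Finset ℕ} {dm b pr N y K V0 u NR q : ℕ} {R : ℕ → ℝ} {t : IT} (hC : Cov D R)
    (hom : ∀ j a, D.om j a ≤ 1)
    (hab : ∀ j, D.al j ≤ D.be j) (hw : Wld D P stt rtt C) (hρ : 0 < P.ρ₀) (hb : 0 < b)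
    (hF : Fit b pr t) (hW : D.Wts pr t) (hO : t.Ok N) (hy : y ≤ N) (hq : q ∈ t.items)
    (ho : WOk D P stt C (subt y t q).items dm (mpc y t q * pml y * b))
    (hfine : ∀ j, (b : ℝ) * (D.be j - D.al j) * ((mpc y t q * pml y : ℕ) : ℝ) ≤ 1)
    (hcols : cols (subt y t q) ⊆ C)
    {rp : ℕ → ℕ} (hrp : ∀ p ∈ cols (subt y t q), ∀ q' ∈ (subt y t q).items,
      ∀ r ∈ (subt y t q).items, rtt p q' = rtt p r → rp q' = rp r)
    (hK : 0 < K) (hu : 0 < u) {v : ℕ → ℕ}
    (hv : ∀ r ∈ (subt y t q).items, rp r = rp q → r / (pr * ppc y t q) = u * v r)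
    (hV : ∀ r ∈ (subt y t q).items, rp r = rp q → v r ≤ V0)
    (hper : ∀ j, D.it j ∈ (subt y t q).items → rp (D.it j) = rp q →
      ∀ a, D.om j (a + v (D.it j)) = D.om j a)
    (hR : ∀ r ∈ (subt y t q).items, rp r = rp q → 0 < R r ∧ (b : ℝ) * R r ≤ 1 / 2)
    (hNR : ((subt y t q).items.filter (fun r => rp r = rp q)).card ≤ NR)
    (homc : OmC D P (subt y t q) dm (mpc y t q) b (pr * ppc y t q) (mpc y t q * pml y) R rp q) :
    ∃ κ' : ℕ → ℤ → ℝ, WFOk (b * R q) K (v q) (q / pr) (wl (b * R q) K)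
        (fun i => wl (b * R q) K (i + 1)) κ' ∧
      (∀ x, Fq D b pr t 1 q x ≤ WF (b * D.γ) K (wl (b * R q) K) (fun i => wl (b * R q) K (i + 1))
        (q / pr) κ' x) ∧
      I (WF (b * D.γ) K (wl (b * R q) K) (fun i => wl (b * R q) K (i + 1)) (q / pr) κ') ≤
        I (Fq D b pr t 1 q) / prfc y t q +
          30 * NR * ((mpc y t q * pml y : ℕ) : ℝ) * (V0 : ℝ) ^ 2 * (2 ^ (dm + 2) + 1) * √K *
            (2 * (b * R q) / (K * v q)) := by
  classical
  set m := mpc y t q with hm_def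
  set ϖ := ppc y t q with hϖ_def
  set t2 := subt y t q with ht2_def
  have hm : 0 < m := mpc_pos y t q hO
  have hϖ : 0 < ϖ := ppc_pos y t q hO
  have hq2 : q ∈ t2.items := mem_subt y t hq
  have hF2 : Fit (b * m) (pr * ϖ) t2 := Fit_subt y t q hF
  have hW2 : D.Wts (pr * ϖ) t2 := Wts_subt y t q (Fit_dj hF) hW
  have hO2 : t2.Ok y := Ok_subt y t q hO hy
  have hb2 : 0 < b * m := Nat.mul_pos hb hm
  have hc2 : m ∣ b * m := Dvd.intro_left b rfl
  obtain ⟨hq0, hprq, -⟩ := hF2.item q hq2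
  have hpr2 : 0 < pr * ϖ := Nat.pos_of_dvd_of_pos hprq hq0
  have hpr : 0 < pr := Nat.pos_of_mul_pos_right hpr2
  have hB : 0 < m * pml y := Nat.mul_pos hm (pml_pos y)
  have hbR : (0 : ℝ) < b := by exact_mod_cast hb
  -- moduli
  have hvpos : ∀ r ∈ t2.items, rp r = rp q → 0 < v r := by
    intro r hr hrq
    obtain ⟨hr0, hprr, -⟩ := hF2.item r hr
    have h1 : 0 < r / (pr * ϖ) := Nat.div_pos (Nat.le_of_dvd hr0 hprr) hpr2
    rw [hv r hr hrq] at h1
    exact Nat.pos_of_ne_zero (by rintro h; rw [h] at h1; simp at h1)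
  have hvq : 0 < v q := hvpos q hq2 rfl
  have hw0 : q / (pr * ϖ) = u * v q := hv q hq2 rfl
  have hRq := hR q hq2 rfl
  have hbRq : 0 < (b : ℝ) * R q := mul_pos hbR hRq.1
  -- bad windows
  obtain ⟨bad, -, hcard, hgood⟩ := good_bad (B := m * pml y) (sn := b) (θ := b * D.γ)
    (ρ := b * R q) hC hw ho hb2 hF2 hW2 rfl hB (NB_of_Ok t2 hO2 (dvd_refl _)) hfine hpr2 hcols hrp
    hq2 homc hρ hvq hK (hV q hq2 rfl) hbRq hRq.2 hw0
    (fun r hr hrq => ⟨hvpos r hr hrq, hV r hr hrq, hv r hr hrq⟩)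
    (fun r hr hrq => ⟨(mul_pos hbR (hR r hr hrq).1).le, (hR r hr hrq).2⟩)
  -- majorant on the subtree
  obtain ⟨κ', hOk, hmaj, hI⟩ := maj (PB_Fq D q hb2 hF2 hW2 hc2) hu hvq hK hbRq hRq.2 hw0
    (per_const hw hb2 hF2 hW2 hc2 hcols hrp hq2 hu hv hper)
    (Fq_le_arc hC hom hb2 hF2 hW2 rfl hq2) bad hgood
  have hdiv : ϖ * (q / (pr * ϖ)) = q / pr := by
    obtain ⟨k, hk⟩ := hprq
    rw [hk, Nat.mul_div_cancel_left k hpr2, mul_assoc pr ϖ k, Nat.mul_div_cancel_left _ hpr]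
  refine ⟨κ', ?_, ?_, ?_⟩
  · have := hOk.push hϖ
    rwa [hdiv] at this
  · intro x
    have h1 := Fq_cut (y := y) D hb hF hW hq x
    refine h1.trans ((hmaj _).trans (le_of_eq ?_))
    rw [← WF_push, hdiv]
  · have hprf0 : 0 < prfc y t q := prfc_pos y t q hO
    have e2 : I (Fq D (b * m) (pr * ϖ) t2 m q) = I (Fq D b pr t 1 q) / prfc y t q := by
      rw [eq_div_iff hprf0.ne']
      exact I_Fq_cut D hab hb hF hW hO hq
    rw [← hdiv, I_WF_push hϖ hOk.w0 hOk.vw hOk.wt]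
    refine hI.trans ?_
    rw [e2]
    have hx0 : 0 ≤ 2 * (b * R q) / (K * v q) := by
      have := hbRq.le
      positivity
    have hcard' : (bad.card : ℝ) ≤ 30 * NR * ((m * pml y : ℕ) : ℝ) * (V0 : ℝ) ^ 2 *
        (2 ^ (dm + 2) + 1) * √K := by
      refine hcard.trans ?_
      have hNR' : ((t2.items.filter (fun r => rp r = rp q)).card : ℝ) ≤ NR := by exact_mod_cast hNR
      have h3 : (30 : ℝ) * ((t2.items.filter (fun r => rp r = rp q)).card : ℝ) ≤ 30 * NR :=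
        mul_le_mul_of_nonneg_left hNR' (by norm_num)
      have h4 : (0 : ℝ) ≤ ((m * pml y : ℕ) : ℝ) := Nat.cast_nonneg _
      have h5 := mul_le_mul_of_nonneg_right h3 h4
      have h6 := mul_le_mul_of_nonneg_right h5 (sq_nonneg (V0 : ℝ))
      have h7 := mul_le_mul_of_nonneg_right h6 (show (0 : ℝ) ≤ 2 ^ (dm + 2) + 1 by positivity)
      exact mul_le_mul_of_nonneg_right h7 (Real.sqrt_nonneg _)
    have := mul_le_mul_of_nonneg_right hcard' hx0
    linarith

end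

end Crest.Agent.R4P.Step588
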