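import Crest.Agent.R4.StepItemZ693
import Crest.Agent.R4P.StepHigh693
import Crest.Agent.R4P.StepItem95

/-!
(Port of `R4/StepItemZ693` to the item tree with powers; helper746. The tree-free half is exported.)
R4 (S0004), helper693, block (G) of T9' (helper588): from `item_step` to `IZ`, and the numbers of the
cut level.

* `high_node` : `high_iF` without the hypothesis;
* `item_IZ` : `IZ` for an item sum below a flat item sum plus `Z`;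
* `num_prfc`.
-/

set_option autoImplicit false
set_option linter.unusedSectionVars false
open MeasureTheory Filter

namespace Crest.Agent.R4P.Step588

open Crest.Agent.R4.Tour104 Crest.Agent.R4.Tour758 Crest.Agent.R4.Avg758 Crest.Agent.R4.Clos758
open Crest.Agent.R4.ClosL758 Crest.Agent.R4.ClosG758 Crest.Agent.R4.Lam368
open Crest.Agent.R4.Piece464 Crest.Agent.R4.Fam464 Crest.Agent.R4P.Cnt588 Crest.Agent.R4P.Item758
open Crest.Agent.R4P.AvgItem710 Crest.Agent.R4.ClosR758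

export Crest.Agent.R4.Step588 (WF_pair2 wfPair pml_le_four yc_bounds num_B)

section
variable {Λ κ : Type*} [Fintype Λ] [DecidableEq κ] [DecidableEq Λ] [Fintype κ]

/-- **high_state**, shell -/
theorem high_node {D : Par Λ κ} {M M' b pr b' pr' : ℕ} {t t' : IT} (hM : 0 < M)
    (hM' : 0 < M') (hb : 0 < b) (hb' : 0 < b') (hF : Fit b pr t) (hF' : Fit b' pr' t')
    (hW : D.Wts pr t) (hW' : D.Wts pr' t') (Rl : Finset (Λ × Λ)) (A A' : Finset Λ)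
    {V W : Finset ℕ} {Z Z' : ℕ → ℝ → ℝ} {R R' m m' : ℕ → ℝ}
    {v v' k k' : ℕ → ℕ} {θ θ' C1 C1' η η' η₃ : ℝ} {K K' V0 V0' : ℕ} {T : ℝ} (hT : 0 < T)
    (hη₃ : 0 ≤ η₃)
    (hI : ∀ q ∈ V, IZ (Fq D b pr t 1 q) (R q) (k q) (v q) (q / pr) θ (C1 * (m q + η * R q)) (Z q))
    (hI' : ∀ r ∈ W, IZ (Fq D b' pr' t' 1 r) (R' r) (k' r) (v' r) (r / pr') θ'
      (C1' * (m' r + η' * R' r)) (Z' r))
    (hv : ∀ q ∈ V, v q ≤ V0) (hv' : ∀ r ∈ W, v' r ≤ V0')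
    (hk : ∀ q ∈ V, k q ≤ K) (hk' : ∀ r ∈ W, k' r ≤ K')
    (E : Finset (ℕ × ℕ)) (hE : E ⊆ V ×ˢ W)
    (hD : ∀ e ∈ E, T ≤ Da (e.1 / pr) M (e.2 / pr') M' (R e.1) (R' e.2))
    (hz : ∀ e ∈ E, I (fun y => Ep M (Z e.1) y * Ep M' (arcF θ' (R' e.2) (e.2 / pr')) y) +
      I (fun y => Ep M (arcF θ (R e.1) (e.1 / pr)) y * Ep M' (Z' e.2) y) ≤
        η₃ * (R e.1 * R' e.2)) :
    ∑ e ∈ E, D.iF Rl (D.uA M b pr t A 1) (D.uA M' b' pr' t' A' 1) e ≤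
      C1 * C1' * ((∑ q ∈ V, m q + η * ∑ q ∈ V, R q) * (∑ r ∈ W, m' r + η' * ∑ r ∈ W, R' r)) +
        (2 / T * (V0 * V0') * ((K * (V0 + 2)) * (K' * (V0' + 2))) + η₃) *
          ((∑ q ∈ V, R q) * ∑ r ∈ W, R' r) :=
  high_iF wfPair hM hM' hb hb' hF hF' hW hW' Rl A A' hT hη₃ hI hI' hv hv' hk hk' E hE
    hD hz

/-- the bound of `high_node` without affected parts -/
theorem high_node0 {D : Par Λ κ} {M M' b pr b' pr' : ℕ} {t t' : IT} (hM : 0 < M)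
    (hM' : 0 < M') (hb : 0 < b) (hb' : 0 < b') (hF : Fit b pr t) (hF' : Fit b' pr' t')
    (hW : D.Wts pr t) (hW' : D.Wts pr' t') (Rl : Finset (Λ × Λ)) (A A' : Finset Λ)
    {V W : Finset ℕ} {R R' m m' : ℕ → ℝ}
    {v v' k k' : ℕ → ℕ} {θ θ' C1 C1' η η' : ℝ} {K K' V0 V0' : ℕ} {T : ℝ} (hT : 0 < T)
    (hI : ∀ q ∈ V, IZ (Fq D b pr t 1 q) (R q) (k q) (v q) (q / pr) θ (C1 * (m q + η * R q))
      (fun _ => 0))
    (hI' : ∀ r ∈ W, IZ (Fq D b' pr' t' 1 r) (R' r) (k' r) (v' r) (r / pr') θ'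
      (C1' * (m' r + η' * R' r)) (fun _ => 0))
    (hv : ∀ q ∈ V, v q ≤ V0) (hv' : ∀ r ∈ W, v' r ≤ V0')
    (hk : ∀ q ∈ V, k q ≤ K) (hk' : ∀ r ∈ W, k' r ≤ K')
    (E : Finset (ℕ × ℕ)) (hE : E ⊆ V ×ˢ W)
    (hD : ∀ e ∈ E, T ≤ Da (e.1 / pr) M (e.2 / pr') M' (R e.1) (R' e.2)) :
    ∑ e ∈ E, D.iF Rl (D.uA M b pr t A 1) (D.uA M' b' pr' t' A' 1) e ≤
      C1 * C1' * ((∑ q ∈ V, m q + η * ∑ q ∈ V, R q) * (∑ r ∈ W, m' r + η' * ∑ r ∈ W, R' r)) +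
        2 / T * (V0 * V0') * ((K * (V0 + 2)) * (K' * (V0' + 2))) *
          ((∑ q ∈ V, R q) * ∑ r ∈ W, R' r) := by
  have h := high_node (Z := fun _ _ => 0) (Z' := fun _ _ => 0) hM hM' hb hb' hF hF' hW hW' Rl A A'
    hT le_rfl hI hI' hv hv' hk hk' E hE hD (fun e _ => by
      have e1 : (fun y => Ep M (fun _ => (0 : ℝ)) y *
          Ep M' (arcF θ' (R' e.2) (e.2 / pr')) y) = fun _ => 0 := by
        funext y; rw [Ep_const hM]; ring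
      have e2 : (fun y => Ep M (arcF θ (R e.1) (e.1 / pr)) y *
          Ep M' (fun _ => (0 : ℝ)) y) = fun _ => 0 := by
        funext y; rw [Ep_const hM']; ring
      rw [e1, e2]
      simp [I])
  rwa [add_zero] at h

/-- **from `item_step` (flat family `Db`) to `IZ`** -/
theorem item_IZ {D Db : Par Λ κ} {b pr y K q vq dm NR B V0 : ℕ} {R : ℕ → ℝ} {t : IT}
    {Z : ℝ → ℝ} (hb : 0 < b) (hF : Fit b pr t) (hW : D.Wts pr t) (hWb : Db.Wts pr t) (hZ : PB Z)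
    (hle : ∀ x, Fq D b pr t 1 q x ≤ Fq Db b pr t 1 q x + Z x)
    (harc : ∀ x, Fq D b pr t 1 q x ≤ arcF (b * Db.γ) (b * R q) (q / pr) x)
    (hstep : ∃ κ' : ℕ → ℤ → ℝ, WFOk (b * R q) K vq (q / pr) (wl (b * R q) K)
        (fun i => wl (b * R q) K (i + 1)) κ' ∧
      (∀ x, Fq Db b pr t 1 q x ≤ WF (b * Db.γ) K (wl (b * R q) K)
        (fun i => wl (b * R q) K (i + 1)) (q / pr) κ' x) ∧
      I (WF (b * Db.γ) K (wl (b * R q) K) (fun i => wl (b * R q) K (i + 1)) (q / pr) κ') ≤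
        I (Fq Db b pr t 1 q) / prfc y t q +
          30 * NR * (B : ℝ) * (V0 : ℝ) ^ 2 * (2 ^ (dm + 2) + 1) * √K *
            (2 * (b * R q) / (K * vq)))
    {N : ℕ} (hO : t.Ok N) {C1 m η : ℝ} (hC1 : 1 / prfc y t q ≤ C1)
    (hm : I (Fq Db b pr t 1 q) ≤ m)
    (hη : 30 * NR * (B : ℝ) * (V0 : ℝ) ^ 2 * (2 ^ (dm + 2) + 1) * √K * (2 * (b * R q) / (K * vq)) ≤
      C1 * (η * (b * R q))) :
    IZ (Fq D b pr t 1 q) (b * R q) K vq (q / pr) (b * Db.γ) (C1 * (m + η * (b * R q))) Z := by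
  obtain ⟨κ', h1, h2, h3⟩ := hstep
  refine Crest.Agent.R4.Step588.IZ.of_wl (PB_Fq D q hb hF hW (one_dvd _)) hZ harc h1 (fun x => ?_) ?_
  · exact (hle x).trans (by have := h2 x; linarith)
  · refine h3.trans ?_
    have hp := prfc_pos y t q hO
    have h4 : I (Fq Db b pr t 1 q) / prfc y t q ≤ C1 * m := by
      have h0 : 0 ≤ m := (I_nonneg (PB_Fq Db q hb hF hWb (one_dvd _)).nonneg).trans hm
      calc I (Fq Db b pr t 1 q) / prfc y t q ≤ m / prfc y t q :=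
            div_le_div_of_nonneg_right hm hp.le
        _ = 1 / prfc y t q * m := by ring
        _ ≤ C1 * m := mul_le_mul_of_nonneg_right hC1 h0
    nlinarith

end

/-- **Mertens for the cut at `⌊N ^ c⌋`** -/
theorem num_prfc : ∃ C0 : ℝ, 0 < C0 ∧ ∀ c : ℝ, 0 < c → c ≤ 1 → ∀ N : ℕ, (2 : ℝ) ^ (2 / c) ≤ N →
    ∀ t : IT, t.Ok N → ∀ q : ℕ, 1 / prfc ⌊(N : ℝ) ^ c⌋₊ t q ≤ C0 / c := by
  obtain ⟨C, hC, h⟩ := prfc_mertens
  refine ⟨C * 2, by positivity, fun c hc hc1 N hN t ht q => ?_⟩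
  obtain ⟨h2, h3, h4, h5⟩ := yc_bounds hc hc1 hN
  have hp := prfc_pos ⌊(N : ℝ) ^ c⌋₊ t q ht
  have h6 := h _ N h2 h3 t ht q
  have hy2 : (2 : ℝ) ≤ (⌊(N : ℝ) ^ c⌋₊ : ℝ) := by exact_mod_cast h2
  have hly : 0 < Real.log (⌊(N : ℝ) ^ c⌋₊ : ℝ) := Real.log_pos (by linarith)
  have h7 : Real.log N / Real.log (⌊(N : ℝ) ^ c⌋₊ : ℝ) ≤ 2 / c := by
    rw [div_le_iff₀ hly]; exact h5
  rw [div_le_iff₀ hp]
  have h8 : C * (Real.log N / Real.log (⌊(N : ℝ) ^ c⌋₊ : ℝ)) * prfc ⌊(N : ℝ) ^ c⌋₊ t q ≤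
      C * (2 / c) * prfc ⌊(N : ℝ) ^ c⌋₊ t q :=
    mul_le_mul_of_nonneg_right (mul_le_mul_of_nonneg_left h7 hC.le) hp.le
  have h9 : C * 2 / c = C * (2 / c) := by ring
  rw [h9]
  linarith

end Crest.Agent.R4P.Step588
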