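import Crest.Agent.R4.StepLeaf588
import Crest.Agent.R4P.StepItemZ693
import Crest.Agent.R4P.StepFlat588

/-!
(Port of `R4/StepLeaf588` to the item tree with powers; helper746. The tree-free half is exported.)
R4 (S0004), helper588: **the item majorant when the cut subtree is a leaf** (T9', no error term).
-/

set_option autoImplicit false
set_option linter.unusedSectionVars false
set_option linter.unusedVariables false
open MeasureTheory Filter

namespace Crest.Agent.R4P.Step588

open Crest.Agent.R4.Tour104 Crest.Agent.R4.Tour758 Crest.Agent.R4.Avg758 Crest.Agent.R4.Clos758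
open Crest.Agent.R4.ClosL758 Crest.Agent.R4.ClosG758 Crest.Agent.R4.Lam368
open Crest.Agent.R4.Piece464 Crest.Agent.R4.Fam464 Crest.Agent.R4P.Cnt588 Crest.Agent.R4P.Item758

export Crest.Agent.R4.Step588 (pc_empty WF_one)

section
variable {Λ κ : Type*} [Fintype Λ] [DecidableEq κ] [DecidableEq Λ]

/-- **the item majorant at a leaf** -/
theorem item_leaf {D : Par Λ κ} {R : ℕ → ℝ} (hC : Cov D R) (hom : ∀ j a, D.om j a ≤ 1)
    (hab : ∀ j, D.al j ≤ D.be j) {b pr N y K v q : ℕ} {t : IT} {S : Finset ℕ} {g : ℤ → ℝ}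
    (hb : 0 < b) (hF : Fit b pr t) (hW : D.Wts pr t) (hO : t.Ok N) (hq : q ∈ t.items)
    (hlf : subt y t q = .leaf S) (hK : 0 < K) (hR : 0 < R q) (hv : 0 < v)
    (hvw : v ∣ q / (pr * ppc y t q)) (hg : Wt v g) (hg1 : ∀ a, g a ≤ 1)
    (hle : ∀ j, D.it j = q → ∀ a, D.om j a ≤ g a)
    (hfull : ∑ j ∈ Finset.univ.filter (fun j => D.it j = q), (D.be j - D.al j) = 2 * R q)
    {lam C1 η : ℝ} (hlam : 0 < lam) (hη : 0 ≤ η)
    (hmean : ∀ j, D.it j = q →
      lam * mnw (q / (pr * ppc y t q)) g ≤ mnw (q / (pr * ppc y t q)) (D.om j))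
    (hC1 : 1 / prfc y t q * (1 / lam) ≤ C1) :
    IZ (Fq D b pr t 1 q) (b * R q) K v (q / pr) (b * D.γ)
      (C1 * (I (Fq D b pr t 1 q) + η * (b * R q))) (fun _ => 0) := by
  classical
  have hbR : (0 : ℝ) < b := by exact_mod_cast hb
  have hm := mpc_pos y t q hO
  have hϖ : 0 < ppc y t q := ppc_pos y t q hO
  have hb2 : 0 < b * mpc y t q := Nat.mul_pos hb hm
  have hF2 : Fit (b * mpc y t q) (pr * ppc y t q) (.leaf S) := by
    rw [← hlf]; exact Fit_subt y t q hF
  have hq2 : q ∈ S := by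
    have := mem_subt y t hq
    rw [hlf] at this
    exact this
  obtain ⟨hq0, hprq, -⟩ := hF2 q hq2
  have hpr2 : 0 < pr * ppc y t q := Nat.pos_of_dvd_of_pos hprq hq0
  have hpr : 0 < pr := Nat.pos_of_mul_pos_right hpr2
  have w0 : 0 < q / (pr * ppc y t q) := Nat.div_pos (Nat.le_of_dvd hq0 hprq) hpr2
  have hdiv : ppc y t q * (q / (pr * ppc y t q)) = q / pr := by
    obtain ⟨k, hk⟩ := hprq
    generalize ppc y t q = ϖ at *
    rw [hk, Nat.mul_div_cancel_left k hpr2, mul_assoc pr ϖ k, Nat.mul_div_cancel_left _ hpr]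
  obtain ⟨κ', h1, h2, h3⟩ := leaf_maj (D := D) (R := R) hC hab (sn := b) hb2 hF2 rfl hq2 hR hv hvw hg
    hg1 hle
  have hr : 0 < (b : ℝ) * R q := mul_pos hbR hR
  have e0 : wl (b * R q) 1 0 = -(b * R q) := by unfold wl; simp
  have e1 : wl (b * R q) 1 (0 + 1) = b * R q := by unfold wl; push_cast; ring
  have eW : ∀ x, WF (b * D.γ) 1 (wl (b * R q) 1) (fun i => wl (b * R q) 1 (i + 1))
      (q / (pr * ppc y t q)) κ' x =
      pc (b * D.γ) (-(b * R q)) (b * R q) (q / (pr * ppc y t q)) (κ' 0) x := by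
    intro x
    unfold WF
    rw [Finset.sum_range_one, e0]
    show pc _ _ (wl (b * R q) 1 (0 + 1)) _ _ _ = _
    rw [e1]
  set α : ℕ → ℝ := fun i => if i = 0 then -(b * R q) else b * R q with hα
  set β : ℕ → ℝ := fun _ => (b : ℝ) * R q with hβ
  have hOk : WFOk (b * R q) K v (q / (pr * ppc y t q)) α β (fun _ => κ' 0) := by
    refine ⟨hr, w0, hv, hvw, ?_, ?_, ?_, fun _ => h1.wt 0, fun _ a => h1.le1 0 a⟩
    · intro i _
      rw [hα]; dsimp only
      split_ifs
      · exact le_rfl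
      · linarith
    · intro i _
      rw [hα]; dsimp only
      split_ifs
      · show -((b : ℝ) * R q) ≤ b * R q
        linarith
      · exact le_rfl
    · intro i _; exact le_rfl
  have hW1 : ∀ x, WF (b * D.γ) K α β (q / (pr * ppc y t q)) (fun _ => κ' 0) x =
      WF (b * D.γ) 1 (wl (b * R q) 1) (fun i => wl (b * R q) 1 (i + 1))
      (q / (pr * ppc y t q)) κ' x := fun x => by
    rw [eW x]; exact WF_one hK x
  have hOk2 : WFOk (b * R q) K v (q / pr) α β (fun _ => κ' 0) := by
    have := hOk.push hϖ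
    rwa [hdiv] at this
  have harc := Fq_le_arc (R := R) hC hom hb hF hW (c := 1) (sn := b) (mul_one b).symm hq
  refine ⟨PB_Fq D q hb hF hW (one_dvd _), PB.const le_rfl, harc, α, β, fun _ => κ' 0, hOk2,
    ?_, ?_, ?_⟩
  · intro x
    rw [add_zero]
    have h4 := Fq_cut (y := y) D hb hF hW hq x
    rw [hlf] at h4
    refine h4.trans ((h2 _).trans (le_of_eq ?_))
    rw [← hW1, ← WF_push, hdiv]
  · intro x
    have e2 := WF_one (θ := b * D.γ) (R := b * R q) (w := q / pr) (g := κ' 0) hK x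
    have e3 : WF (b * D.γ) K α β (q / pr) (fun _ => κ' 0) x =
        pc (b * D.γ) (-(b * R q)) (b * R q) (q / pr) (κ' 0) x := e2
    rw [e3]
    unfold arcF
    exact pc_mono (fun a => h1.le1 0 a) x
  · have e2 : I (WF (b * D.γ) K α β (q / pr) (fun _ => κ' 0)) =
        2 * (b * R q) * mnw (q / (pr * ppc y t q)) g := by
      rw [← hdiv, I_WF_push hϖ w0 hvw (fun _ => h1.wt 0), ← h3]
      congr 1
      funext x
      exact hW1 x
    rw [e2]
    -- the mass
    have hI := I_Fq D hab (sn := b) hb hF hW (mul_one b).symm hq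
    have ep : prf t q = prfc y t q := by
      rw [prf_cut y t q, hlf]
      show prfc y t q * 1 = _
      ring
    have epp : pp t q = ppc y t q := by
      rw [pp_cut y t q, hlf]
      show ppc y t q * 1 = _
      ring
    rw [ep, epp] at hI
    have hprf := prfc_pos y t q hO
    have hg0 : 0 ≤ mnw (q / (pr * ppc y t q)) g := mnw_nonneg (hg.dvd hvw)
    have h5 : (b : ℝ) * (2 * R q) * prfc y t q * (lam * mnw (q / (pr * ppc y t q)) g) ≤
        I (Fq D b pr t 1 q) := by
      rw [hI, ← hfull, Finset.mul_sum, Finset.sum_mul, Finset.sum_mul]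
      refine Finset.sum_le_sum fun j hj => ?_
      have hjq := (Finset.mem_filter.1 hj).2
      have := sub_nonneg.2 (hab j)
      exact mul_le_mul_of_nonneg_left (hmean j hjq) (by positivity)
    have h6 : 2 * ((b : ℝ) * R q) * mnw (q / (pr * ppc y t q)) g ≤
        1 / prfc y t q * (1 / lam) * I (Fq D b pr t 1 q) := by
      have e3 : 2 * ((b : ℝ) * R q) * mnw (q / (pr * ppc y t q)) g =
          1 / prfc y t q * (1 / lam) * ((b : ℝ) * (2 * R q) * prfc y t q *
            (lam * mnw (q / (pr * ppc y t q)) g)) := by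
        field_simp
      rw [e3]
      exact mul_le_mul_of_nonneg_left h5 (by positivity)
    have hI0 : 0 ≤ I (Fq D b pr t 1 q) := I_nonneg (PB_Fq D q hb hF hW (one_dvd _)).nonneg
    have h7 : 1 / prfc y t q * (1 / lam) * I (Fq D b pr t 1 q) ≤ C1 * I (Fq D b pr t 1 q) :=
      mul_le_mul_of_nonneg_right hC1 hI0
    have hC10 : 0 ≤ C1 := le_trans (by positivity) hC1
    have h8 : 0 ≤ C1 * (η * (b * R q)) := by positivity
    linarith

end

end Crest.Agent.R4P.Step588
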