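import Crest.Agent.R4.StepNum463
import Crest.Agent.R4P.StepCut588
import Crest.Agent.R4P.StepAlv588
import Crest.Agent.R4P.PrunePar33

/-!
R4 (S0004), helper463: block (G4) of helper588's #14966: counting facts for pruned items.
Port to the tree with powers (helper274); the tree-free lemmas are those of `R4.Step588`.
-/

set_option autoImplicit false
open Finset

namespace Crest.Agent.R4P.Step588

open Crest.Agent.R4P.Cnt588

export Crest.Agent.R4.Step588 (prod_le_exp squarefree_pml card_same_le card_same_node)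

/-- **(a)** the product of the missing ties -/
theorem mpc_le_exp {t : IT} {q N : ℕ} (hN : 2 ≤ N) (hO : t.Ok N) {M : Finset ℕ}
    (hM : t.mt q ⊆ M) {E : ℝ} (hE : ((M.filter (· ≤ N)).card : ℝ) ≤ Real.log N ^ E) (y : ℕ) :
    (mpc y t q : ℝ) ≤ Real.exp (Real.log N ^ (E + 1)) := by
  rw [mpc_eq y t q hO]
  have hlt : ∀ s ∈ (t.mt q).filter (y ≤ ·), s ≤ N := fun s hs =>
    (mt_prime_lt t hO (Finset.mem_filter.1 hs).1).2.le
  refine prod_le_exp hN hlt (le_trans ?_ hE)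
  have : ((t.mt q).filter (y ≤ ·)).card ≤ (M.filter (· ≤ N)).card := by
    refine Finset.card_le_card fun s hs => ?_
    exact Finset.mem_filter.2 ⟨hM (Finset.mem_filter.1 hs).1, hlt s hs⟩
  exact_mod_cast this

/-- **(a)** for pruned items: the node `t` (level `N`) of the root tree `T` -/
theorem Pr_mpc {T t : IT} {p0 : ℕ} {C B : ℝ} {q N : ℕ} (h : PrunePar33.Pr T p0 C B q)
    (hN : 2 ≤ N) (hp0 : p0 ≤ N) (hO : t.Ok N) (hM : t.mt q ⊆ T.mt q) (y : ℕ) :
    (mpc y t q : ℝ) ≤ Real.exp (Real.log N ^ (C + 2)) := by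
  have := mpc_le_exp hN hO hM (h.mt N hp0) y
  rwa [show C + 1 + 1 = C + 2 by ring] at this

/-- **(b)** the up primes `≤ Y` of a pruned item -/
theorem Pr_uq {T : IT} {p0 : ℕ} {C B : ℝ} {q Y : ℕ} (h : PrunePar33.Pr T p0 C B q)
    (hY : 2 ≤ Y) (hp0 : p0 ≤ Y) {U : Finset ℕ} (hU : U ⊆ T.uq q) :
    ((U.filter (· ≤ Y)).card : ℝ) ≤ Real.log Y ^ (B + 1) ∧
      ((∏ b ∈ U.filter (· ≤ Y), b : ℕ) : ℝ) ≤ Real.exp (Real.log Y ^ (B + 2)) := by
  have h1 : ((U.filter (· ≤ Y)).card : ℝ) ≤ Real.log Y ^ (B + 1) := by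
    refine le_trans ?_ (h.uq Y hp0)
    exact_mod_cast Finset.card_le_card (Finset.filter_subset_filter _ hU)
  refine ⟨h1, ?_⟩
  have h2 := prod_le_exp hY (fun s hs => (Finset.mem_filter.1 hs).2) h1
  rwa [show B + 1 + 1 = B + 2 by ring] at h2

end Crest.Agent.R4P.Step588
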