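import Crest.Agent.R4P.StepRadA546
import Crest.Agent.R4P.StepDataD947
import Crest.Agent.R4P.LeafA734
import Crest.Agent.R4P.BldC153

/-!
R4 (S0004), powers pass: port of the context part of helper463's `R4/StepRad463` (helper947):

* `ctx_mass` : masses of the nodes of a context
* `ctx_rd` : **(R2)** raised radii of the alive items at all the nodes of a context
* `rd_cut`, `rd_cut_b`, `rd_cut_col`, `rd_root` : the same at the cuts
-/

set_option autoImplicit false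
set_option linter.unusedSectionVars false
set_option linter.unusedVariables false

namespace Crest.Agent.R4P.Step588

open Crest.Agent.R4P.Cnt588 Crest.Agent.R4P.PrunePar33
open Crest.Agent.R4P.Item758
open Crest.Agent.R4P.Data758 (rt rt_prime dvd_ret Cf)
open Crest.Agent.R4P.Bld532 (NS All NodeOk Bk)
open Crest.Agent.R4P.Skel189

section ctx

variable {N : Skel189.Num} {γ : ℝ} {p0 P₀ : ℕ}

/-- **masses of the nodes of a context** -/
theorem ctx_mass (X : Ctx N γ p0 P₀) (hP : 2 ≤ P₀) (h2 : 2 ≤ p0) :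
    All (fun s t => 0 < s.c ∧ s.c * Ws (R4.Soft104.w X.ψ) t.items ≤
      4 * Real.log s.n ^ (N.B + N.c2)) ⟨top X.S, 1, 1, 1⟩ X.c.t := by
  have hB0 : 0 ≤ N.B := by have := N.hB; have := N.hC1; have := N.hc2; linarith
  have htop : 3 ≤ top X.S := by
    have h := X.sys.mass_lo
    have hne : X.S.Nonempty := by
      rw [Finset.nonempty_iff_ne_empty]
      rintro e
      rw [e, Finset.sum_empty] at h
      norm_num at h
    obtain ⟨q, hq⟩ := hne
    have h1 : q ≤ X.S.sup id := Finset.le_sup (f := id) hq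
    have h2 := X.sys.large q hq
    unfold top
    omega
  have hmass : ∑ q ∈ X.S, R4.Soft104.w X.ψ q ≤ 1 := by
    have h := X.sys.node 1 one_pos
    rwa [R4.Max709.NM_one] at h
  have h1 : (1 : ℝ) ≤ Real.log (top X.S) ^ (N.B + N.c2) :=
    Real.one_le_rpow (Bld532.one_le_log_nat htop) (by have := N.hc2; linarith)
  refine Bld532.par_mass N.B N.C1 N.c2 p0 hB0 N.hc2 h2 (R4.Soft104.w X.ψ) X.hW X.c.t
    ⟨top X.S, 1, 1, 1⟩ X.nodes one_pos ?_
  show (1 : ℝ) * Ws (R4.Soft104.w X.ψ) X.c.t.items ≤ 4 * Real.log (top X.S) ^ (N.B + N.c2)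
  rw [X.items]
  unfold Ws
  linarith

/-- **raised radii of the alive items at a node** -/
structure RdOk (X : Ctx N γ p0 P₀) (u : NS) (τ : IT) : Prop where
  /-- any node -/
  gen : ∀ q ∈ τ.items, q ∈ X.S' → ∀ n : ℕ, p0 < n → u.n ≤ n →
    (u.B : ℝ) * X.c.rr q ≤ Real.log n ^ (N.B + N.c2 + 2)
  /-- non-leaf nodes -/
  col : ¬ WalkIT579.isL τ → ∀ q ∈ τ.items, q ∈ X.S' →
    (u.B : ℝ) * X.c.rr q ≤ Real.log (WalkIT579.tp τ) ^ (N.c2 + 2)

lemma ctx_rr (X : Ctx N γ p0 P₀) {q : ℕ} (hq : q ∈ X.S') : X.c.rr q = X.ψ q / 2 := by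
  unfold Cf.rr
  rw [if_pos (X.rpos hq), X.hr]

/-- node masses of the pulls of a context -/
theorem ctx_MsN (X : Ctx N γ p0 P₀) : All (NMass800.MsN X.c.t) ⟨top X.S, 1, 1, 1⟩ X.c.t :=
  NMass800.All_MsN X.tOk X.fit (by rw [X.ht']; exact Bld532.bld_PlOk _ _ _ _ _ _ _)

/-- **(R2)**: raised radii of the alive items at all the nodes of a context -/
theorem ctx_rd (N : Skel189.Num) : ∃ p₁ : ℕ, ∀ p0 ≥ p₁, ∀ (γ : ℝ) (P₀ : ℕ), 2 ≤ P₀ →
    ∀ X : Ctx N γ p0 P₀, All (RdOk X) ⟨top X.S, 1, 1, 1⟩ X.c.t := by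
  have hB1 := N.hB
  have hC1 := N.hC1
  have hc2 := N.hc2
  obtain ⟨p1, h1⟩ := rad_node N.B (N.C1 + N.c2) (by linarith)
  obtain ⟨p2, hp2⟩ := LeafA734.rt_half N.B (N.C1 + N.c2) (by linarith)
  refine ⟨p1 + p2 + ⌈Real.exp (4 * CT + 2)⌉₊ + 3, fun p0 hp0 γ P₀ hP X => ?_⟩
  have hlogp : 4 * CT + 2 ≤ Real.log p0 := by
    have h5 : Real.exp (4 * CT + 2) ≤ ⌈Real.exp (4 * CT + 2)⌉₊ := Nat.le_ceil _
    have h6 : ((⌈Real.exp (4 * CT + 2)⌉₊ : ℕ) : ℝ) ≤ p0 := by
      have : ⌈Real.exp (4 * CT + 2)⌉₊ ≤ p0 := by omega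
      exact_mod_cast this
    have hp : (0 : ℝ) < p0 := lt_of_lt_of_le (Real.exp_pos _) (h5.trans h6)
    rw [Real.le_log_iff_exp_le hp]
    linarith
  have hp0R : (0 : ℝ) < p0 := by exact_mod_cast (by omega : 0 < p0)
  have hCT := CT_pos
  have hlogn : ∀ n : ℕ, p0 < n → 4 * CT + 2 ≤ Real.log n := fun n hn =>
    hlogp.trans (Real.log_le_log hp0R (by exact_mod_cast hn.le))
  have hcols : ∀ q b, (b ∈ X.c.t.mt q ∨ b ∈ X.c.t.sp q ∨ b ∈ X.c.t.uq q) → p0 < b :=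
    fun q b hb => (Bld532.cols_of_All _ _ _ _ X.nodes q b hb).2.1
  have hall := ((ctx_NDt X).and (ctx_mass X hP (by omega))).and (ctx_MsN X)
  refine All.mono (fun u τ hh => ?_) hall
  obtain ⟨⟨hN, hc, hM⟩, hms⟩ := hh
  have hpr : ∀ q, q ∈ X.S' → Pr X.c.t p0 (N.C1 + N.c2) N.B q := fun q hq => by
    rw [X.ht]; exact X.prn.pr q hq
  have hs : ∀ q, q ∈ X.S' → ∑ p ∈ X.c.t.mt q ∪ X.c.t.sp q, 1 / (p : ℝ) ≤ 1 / 2 := fun q hq =>
    (hp2 p0 (by omega) X.c.t q (hpr q hq) (fun b hb => hcols q b hb)).2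
  refine ⟨fun q hq hq' n hn hun => ?_, fun hl q hq hq' => ?_⟩
  · have hL := hlogn n hn
    have hL0 : 0 < Real.log n := by linarith
    have h2 : u.c * Ws (R4.Soft104.w X.ψ) τ.items ≤ 4 * Real.log n ^ (N.B + N.c2) := by
      refine hM.trans (mul_le_mul_of_nonneg_left ?_ (by norm_num))
      refine Real.rpow_le_rpow (Real.log_natCast_nonneg _) ?_ (by linarith)
      rcases Nat.eq_zero_or_pos u.n with h0 | h0
      · rw [h0, Nat.cast_zero, Real.log_zero]; exact hL0.le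
      · exact Real.log_le_log (by exact_mod_cast h0) (by exact_mod_cast hun)
    have h3 := h1 p0 (by omega) X.par X.ψ X.sys.nonneg X.c.t u τ hN hms X.tOk q hq (hpr q hq')
      (hs q hq') n hn (fun l _ hnl => hun.trans hnl) _ h2
    rw [ctx_rr X hq']
    have e1 : Real.log n ^ (N.B + N.c2 + 2) =
        Real.log n ^ (N.B + N.c2) * (Real.log n * Real.log n) := by
      rw [Real.rpow_add hL0, show (2 : ℝ) = ((2 : ℕ) : ℝ) by norm_num, Real.rpow_natCast]
      ring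
    have hY : 0 < Real.log n ^ (N.B + N.c2) := Real.rpow_pos_of_pos hL0 _
    rw [e1]
    have h4 : (u.B : ℝ) * (X.ψ q / 2) ≤
        2 * CT * Real.log n * (4 * Real.log n ^ (N.B + N.c2)) / 2 := by
      linarith
    refine h4.trans ?_
    have h5 : 2 * CT * Real.log n * (4 * Real.log n ^ (N.B + N.c2)) / 2 =
        Real.log n ^ (N.B + N.c2) * (Real.log n * (4 * CT)) := by ring
    rw [h5]
    refine mul_le_mul_of_nonneg_left ?_ hY.le
    refine mul_le_mul_of_nonneg_left ?_ hL0.le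
    linarith
  · obtain ⟨k1, k2, k3, k4⟩ := WalkIT579.nodeOk_hi hN.self.node hl
    set p := WalkIT579.tp τ with hp
    have k2' : p0 < p := k2
    have k1' : u.c * Ws (R4.Soft104.w X.ψ) τ.items ≤ Real.log p ^ N.c2 := k1
    have hL := hlogn p k2'
    have hL0 : 0 < Real.log p := by linarith
    have h3 := h1 p0 (by omega) X.par X.ψ X.sys.nonneg X.c.t u τ hN hms X.tOk q hq (hpr q hq')
      (hs q hq') (p + 1) (by omega) (fun l hl1 hnl => by
        by_contra hlt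
        have := k4 l hl1 (not_le.1 hlt)
        omega) _ k1'
    have hlog2 : Real.log ((p + 1 : ℕ) : ℝ) ≤ 2 * Real.log p := by
      have hp2 : (2 : ℝ) ≤ p := by exact_mod_cast (by omega : 2 ≤ p)
      have h5 : ((p + 1 : ℕ) : ℝ) ≤ (p : ℝ) ^ 2 := by push_cast; nlinarith
      have h6 : (0 : ℝ) < ((p + 1 : ℕ) : ℝ) := by push_cast; linarith
      have h7 := Real.log_le_log h6 h5
      rw [Real.log_pow] at h7
      exact_mod_cast h7
    rw [ctx_rr X hq']
    have e1 : Real.log p ^ (N.c2 + 2) =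
        Real.log p ^ N.c2 * (Real.log p * Real.log p) := by
      rw [Real.rpow_add hL0, show (2 : ℝ) = ((2 : ℕ) : ℝ) by norm_num, Real.rpow_natCast]
      ring
    have hY : 0 < Real.log p ^ N.c2 := Real.rpow_pos_of_pos hL0 _
    rw [e1]
    have h4 : (u.B : ℝ) * X.ψ q ≤ 2 * CT * (2 * Real.log p) * Real.log p ^ N.c2 :=
      h3.trans (mul_le_mul_of_nonneg_right (mul_le_mul_of_nonneg_left hlog2 (by linarith)) hY.le)
    have h5 : (u.B : ℝ) * (X.ψ q / 2) ≤ Real.log p ^ N.c2 * (Real.log p * (2 * CT)) := by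
      have e2 : 2 * CT * (2 * Real.log p) * Real.log p ^ N.c2 =
        2 * (Real.log p ^ N.c2 * (Real.log p * (2 * CT))) := by ring
      linarith
    refine h5.trans ?_
    refine mul_le_mul_of_nonneg_left ?_ hY.le
    refine mul_le_mul_of_nonneg_left ?_ hL0.le
    linarith

variable {X : Ctx N γ p0 P₀} {u : NS} {τ : IT}

/-- **(R2) at the cut node**, in terms of the level of the node -/
theorem rd_cut (h : All (RdOk X) u τ) (hO : τ.Ok u.n) {y : ℕ} (hy : y ≤ u.n) (hn : p0 < u.n)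
    {q r : ℕ} (hr : r ∈ (subt y τ q).items) (hr' : r ∈ X.S') :
    ((u.B * mpc y τ q : ℕ) : ℝ) * X.c.rr r ≤ Real.log u.n ^ (N.B + N.c2 + 2) := by
  obtain ⟨m, c', -, h2, -, h4⟩ := All_subt' y q τ u hy hO h
  exact h4.self.gen r hr hr' u.n hn h2

/-- **(R2) at the cut node**, in terms of a column `b ≥ y` of the item -/
theorem rd_cut_b (h : All (RdOk X) u τ) (hO : τ.Ok u.n) {y : ℕ} (hy : y ≤ u.n)
    {q b r : ℕ} (hb : b ∈ τ.mt q ∪ rt τ q) (hyb : y ≤ b) (hbp : p0 < b)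
    (hr : r ∈ (subt y τ q).items) (hr' : r ∈ X.S') :
    ((u.B * mpc y τ q : ℕ) : ℝ) * X.c.rr r ≤ Real.log b ^ (N.B + N.c2 + 2) := by
  obtain ⟨m, c', -, -, h3, h4⟩ := All_subt' y q τ u hy hO h
  exact h4.self.gen r hr hr' b hbp (h3 b hb hyb)

/-- **(R2) at a non-leaf cut node**: `(log y)^(c2+2)` (its column is `< y`) -/
theorem rd_cut_col (h : All (RdOk X) u τ) (hO : τ.Ok u.n) {y : ℕ} (hy : y ≤ u.n)
    {q r : ℕ} (hl : ¬ WalkIT579.isL (subt y τ q)) (hr : r ∈ (subt y τ q).items)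
    (hr' : r ∈ X.S') :
    ((u.B * mpc y τ q : ℕ) : ℝ) * X.c.rr r ≤ Real.log y ^ (N.c2 + 2) := by
  obtain ⟨m, c', -, -, -, h4⟩ := All_subt' y q τ u hy hO h
  refine (h4.self.col hl r hr hr').trans ?_
  have h1 := tp_subt_lt y q τ hl
  have hc2 := N.hc2
  refine Real.rpow_le_rpow (Real.log_natCast_nonneg _) ?_ (by linarith)
  rcases Nat.eq_zero_or_pos (WalkIT579.tp (subt y τ q)) with h0 | h0
  · rw [h0, Nat.cast_zero, Real.log_zero]; exact Real.log_natCast_nonneg _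
  · exact Real.log_le_log (by exact_mod_cast h0) (by exact_mod_cast h1.le)

/-- the root version for 464's `(R2)` -/
theorem rd_root (h : All (RdOk X) ⟨top X.S, 1, 1, 1⟩ X.c.t) {y : ℕ}
    {q b r : ℕ} (hb : b ∈ X.c.t.mt q ∪ rt X.c.t q) (hyb : y ≤ b) (hbp : p0 < b)
    (hr : r ∈ (subt y X.c.t q).items) (hr' : r ∈ X.S') :
    (mpc y X.c.t q : ℝ) * X.c.rr r ≤ Real.log b ^ (N.B + N.c2 + 2) := by
  have hlt := pc_lt X.tOk hb
  have h1 := rd_cut_b h X.tOk (y := y) (hyb.trans hlt.le) hb hyb hbp hr hr'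
  have e : (((⟨top X.S, 1, 1, 1⟩ : NS).B * mpc y X.c.t q : ℕ) : ℝ) = (mpc y X.c.t q : ℝ) := by
    show ((1 * mpc y X.c.t q : ℕ) : ℝ) = _
    rw [one_mul]
  rwa [e] at h1

end ctx

end Crest.Agent.R4P.Step588
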