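import Crest.Agent.R4P.StepDataB189
import Crest.Agent.R4P.PrunePar33
import Crest.Agent.R4P.NMass800
import Crest.Agent.R4P.PruneB153
import Crest.Agent.R4.StepRad463

/-!
R4 (S0004), powers pass: port of helper463's `R4/StepRad463`, first half (helper546): raised radii of
the items at a node.

* `tot_ge` : `φ(m)/m ≥ c / log N` if the primes `≥ N` of `m` are retained primes of a pruned item.
* `rad_node` : `u.B ψ q ≤ 2 CT log n · M` (`M` = bound of the mass of the node); with powers the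
  factor of the node is bounded below by 800's `MsN.ms`.
-/

set_option autoImplicit false
set_option linter.unusedSectionVars false
set_option linter.unusedVariables false

namespace Crest.Agent.R4P.Step588

export Crest.Agent.R4.Step588 (totient_div_prod one_sub_sum_le_pr CT CT_pos)

open Crest.Agent.R4P.Cnt588 Crest.Agent.R4P.PrunePar33
open Crest.Agent.R4P.Item758
open Crest.Agent.R4P.Data758 (rt rt_prime dvd_ret)
open Crest.Agent.R4P.Bld532 (NS All NodeOk Bk)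

/-- **`φ(m)/m ≥ 1 / (CT log N)`** if the primes `≥ N` of `m` are retained primes of a pruned item -/
theorem tot_ge (B C : ℝ) (hB : C + 4 ≤ B) : ∃ p₁ : ℕ, ∀ p0 ≥ p₁, ∀ (t : IT) (q : ℕ),
    Pr t p0 C B q → (∀ l ∈ rt t q, l.Prime) → ∀ N : ℕ, p0 < N → ∀ m : ℕ, 0 < m →
      (∀ l : ℕ, l.Prime → l ∣ m → N ≤ l → l ∈ rt t q) →
      1 ≤ CT * Real.log N * ((m.totient : ℝ) / m) := by
  classical
  obtain ⟨p1, h1⟩ := Pr_tails B C 0 1 1 (by norm_num) le_rfl (by norm_num) (by linarith)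
  refine ⟨p1 + ⌈Real.exp 2⌉₊ + 3, fun p0 hp0 t q hq hpr N hN m hm hl => ?_⟩
  obtain ⟨-, -, h2⟩ := h1 p0 (by omega) t q hq (N - 1) (by omega)
  have hexp : Real.exp 2 ≤ ((N - 1 : ℕ) : ℝ) := by
    have h5 : Real.exp 2 ≤ ⌈Real.exp 2⌉₊ := Nat.le_ceil _
    have h6 : ((⌈Real.exp 2⌉₊ : ℕ) : ℝ) ≤ ((N - 1 : ℕ) : ℝ) := by
      have : ⌈Real.exp 2⌉₊ ≤ N - 1 := by omega
      exact_mod_cast this
    linarith
  have hN1 : (0 : ℝ) < ((N - 1 : ℕ) : ℝ) := lt_of_lt_of_le (Real.exp_pos 2) hexp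
  have hlog : 2 ≤ Real.log ((N - 1 : ℕ) : ℝ) := by rwa [Real.le_log_iff_exp_le hN1]
  have hinv : Real.log ((N - 1 : ℕ) : ℝ) ^ (-(1:ℝ)) ≤ 1 / 2 := by
    rw [Real.rpow_neg_one, inv_eq_one_div]
    exact one_div_le_one_div_of_le (by norm_num) hlog
  set F2 := (rt t q).filter (fun b => N ≤ b) with hF2
  have hsum : ∑ l ∈ F2, 1 / (l : ℝ) ≤ 1 / 2 := by
    refine le_trans ?_ (h2.trans hinv)
    have e : F2 ⊆ (t.sp q ∪ t.uq q).filter (fun b => N - 1 < b) := by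
      rw [hF2]
      intro b hb
      obtain ⟨hb1, hb2⟩ := Finset.mem_filter.1 hb
      exact Finset.mem_filter.2 ⟨Finset.mem_union_right _ hb1, by omega⟩
    refine le_trans (Finset.sum_le_sum_of_subset_of_nonneg e fun b _ _ => by positivity) ?_
    refine le_of_eq (Finset.sum_congr rfl fun b _ => ?_)
    rw [Real.rpow_zero]
  have hF2p : ∀ l ∈ F2, l.Prime := fun l h => hpr l (Finset.mem_filter.1 h).1
  have hpYp : ∀ l ∈ pY 2 N, l.Prime := fun l h => (mem_pY.1 h).2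
  have hsub : m.primeFactors ⊆ pY 2 N ∪ F2 := by
    intro l h
    have hp := Nat.prime_of_mem_primeFactors h
    have hd := Nat.dvd_of_mem_primeFactors h
    rw [Finset.mem_union]
    by_cases hlN : l < N
    · exact Or.inl (mem_pY.2 ⟨⟨hp.two_le, hlN⟩, hp⟩)
    · exact Or.inr (Finset.mem_filter.2 ⟨hl l hp hd (not_lt.1 hlN), not_lt.1 hlN⟩)
  have hdisj : Disjoint (pY 2 N) F2 := by
    rw [Finset.disjoint_left]
    intro l h h'
    have h3 := (mem_pY.1 h).1.2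
    have h4 := (Finset.mem_filter.1 h').2
    omega
  have h3 : ∏ l ∈ pY 2 N ∪ F2, (1 - 1 / (l : ℝ)) ≤ ∏ l ∈ m.primeFactors, (1 - 1 / (l : ℝ)) :=
    pr_anti (fun l h => (Finset.mem_union.1 h).elim (hpYp l) (hF2p l)) hsub
  rw [Finset.prod_union hdisj] at h3
  have h4 := prod_pY_ge (y := 2) (N := N) le_rfl (by omega)
  have h5 : 1 / 2 ≤ ∏ l ∈ F2, (1 - 1 / (l : ℝ)) := by
    refine le_trans ?_ (one_sub_sum_le_pr (fun l : ℕ => 1 / (l : ℝ)) (fun l _ => by positivity) fun l h => ?_)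
    · linarith
    · have h6 : (1 : ℝ) ≤ l := by exact_mod_cast (hF2p l h).one_lt.le
      rw [div_le_one (by linarith)]; exact h6
  rw [totient_div_prod hm]
  have hl2 : 0 < Real.log 2 := Real.log_pos one_lt_two
  have hNR : (2 : ℝ) ≤ N := by exact_mod_cast (by omega : 2 ≤ N)
  have hlN : 0 < Real.log N := Real.log_pos (by linarith)
  have h6 : 0 ≤ 1 / 2 * (Real.exp (-(22 / Real.log 2)) * (Real.log (2 : ℕ) / Real.log N)) := by
    have : 0 ≤ Real.log ((2 : ℕ) : ℝ) := Real.log_natCast_nonneg 2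
    positivity
  have h7 : 1 / 2 * (Real.exp (-(22 / Real.log 2)) * (Real.log (2 : ℕ) / Real.log N)) * (1 / 2) ≤
      ∏ l ∈ m.primeFactors, (1 - 1 / (l : ℝ)) :=
    (mul_le_mul h4 h5 (by norm_num) (h6.trans h4)).trans h3
  have h8 : 0 ≤ CT * Real.log N := mul_nonneg CT_pos.le hlN.le
  refine le_trans (le_of_eq ?_) (mul_le_mul_of_nonneg_left h7 h8)
  unfold Crest.Agent.R4.Step588.CT
  rw [Real.exp_neg]
  have he : Real.exp (22 / Real.log 2) ≠ 0 := (Real.exp_pos _).ne'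
  have hl2' : Real.log 2 ≠ 0 := hl2.ne'
  push_cast
  field_simp
  norm_num

/-- **raised radius at a node**, in terms of the mass of the node -/
theorem rad_node (B C : ℝ) (hB : C + 4 ≤ B) : ∃ p₁ : ℕ, ∀ p0 ≥ p₁,
    ∀ (P : Bld532.Par) (ψ : ℕ → ℝ), (∀ q, 0 ≤ ψ q) → ∀ (t' : IT) (u : NS) (τ : IT),
      NDt P (R4.Soft104.w ψ) t' u τ → NMass800.MsN t' u τ → ∀ {n' : ℕ}, t'.Ok n' →
      ∀ q ∈ τ.items, Pr t' p0 C B q →
      ∑ p ∈ t'.mt q ∪ t'.sp q, 1 / (p : ℝ) ≤ 1 / 2 →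
      ∀ n : ℕ, p0 < n → (∀ l : ℕ, l.Prime → n ≤ l → u.n ≤ l) →
      ∀ M : ℝ, u.c * Ws (R4.Soft104.w ψ) τ.items ≤ M →
      (u.B : ℝ) * ψ q ≤ 2 * CT * Real.log n * M := by
  obtain ⟨p1, h1⟩ := tot_ge B C hB
  refine ⟨p1, fun p0 hp0 P ψ hψ t' u τ h hms n' hO q hq hpr hs n hn hlev M hM => ?_⟩
  have hq0 : 0 < q := h.pos q (h.self.sub hq)
  have hk := h.bk
  have hd : u.A ∣ q := hk.dvd q hq
  have hA0 : 0 < u.A := hk.Apos
  have hc0 : 0 ≤ u.c := zero_le_one.trans hk.one_le_c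
  have hw0 : ∀ q, 0 ≤ R4.Soft104.w ψ q := fun q => by
    have := hψ q
    unfold R4.Soft104.w; positivity
  have hwpos : 0 < q / u.A := Nat.div_pos (Nat.le_of_dvd hq0 hd) hA0
  have key := h1 p0 hp0 t' q hpr (fun l hl => (rt_prime t' hO q l hl).1) n hn (q / u.A) hwpos
    fun l hl1 hl2 hl3 => h.self.ge q hq l hl1 (hlev l hl1 hl3) hl2
  have hF : Fit u.B u.A τ := Bld532.Fit_of_NodeOk (Bld532.All.mono (fun s t h => h.node) h.all)
  have h2 := hms.ms hO hF hq hs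
  have e1 : u.c * (ψ q * R4.DeepSt579.tq q) = u.c * R4.Soft104.w ψ q := by
    unfold R4.DeepSt579.tq R4.Soft104.w
    ring
  have h3 : u.c * R4.Soft104.w ψ q ≤ M := by
    refine le_trans (mul_le_mul_of_nonneg_left ?_ hc0) hM
    unfold Ws
    exact Finset.single_le_sum (f := fun q => R4.Soft104.w ψ q) (fun q _ => hw0 q) hq
  have h4 : (u.B : ℝ) * ψ q * R4.DeepSt579.tq (q / u.A) ≤ 2 * M := by
    have h5 := mul_le_mul_of_nonneg_left h2 (hψ q)
    nlinarith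
  have hBψ : 0 ≤ (u.B : ℝ) * ψ q := mul_nonneg (Nat.cast_nonneg _) (hψ q)
  have hCl : 0 ≤ CT * Real.log n := mul_nonneg CT_pos.le (Real.log_natCast_nonneg n)
  calc (u.B : ℝ) * ψ q = (u.B : ℝ) * ψ q * 1 := (mul_one _).symm
    _ ≤ (u.B : ℝ) * ψ q * (CT * Real.log n * (((q / u.A).totient : ℝ) / ((q / u.A : ℕ) : ℝ))) :=
        mul_le_mul_of_nonneg_left key hBψ
    _ = CT * Real.log n * ((u.B : ℝ) * ψ q * R4.DeepSt579.tq (q / u.A)) := by
        unfold R4.DeepSt579.tq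
        ring
    _ ≤ CT * Real.log n * (2 * M) := mul_le_mul_of_nonneg_left h4 hCl
    _ = 2 * CT * Real.log n * M := by ring

end Crest.Agent.R4P.Step588
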