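import Crest.Agent.R4P.StopIt95
import Crest.Agent.R4P.NMS800

/-!
R4 powers pass (S0004), helper95: **STOP of a state** (state half of `R4/StopW95`) on the tree with powers,
over helper800's `NI`, `NSd`; averages `s.M`, `s.M'` need not be squarefree.

A stop is only allowed at a state whose column `p` does not divide `s.M`, `s.M'` (not inside a chain).
-/

set_option autoImplicit false
set_option linter.unusedSectionVars false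
set_option linter.unusedVariables false
open Finset

namespace Crest.Agent.R4P.StopW95

open Crest.Agent.R4.HVW560 Crest.Agent.R4.Schur709 Crest.Agent.R4.StopHvw709
open Crest.Agent.R4.StopAsm709 Crest.Agent.R4P.AvgItem710 Crest.Agent.R4.DeepSt579
open Crest.Agent.R4P.Rad800 Crest.Agent.R4P.Item758 Crest.Agent.R4P.NMW710
open Crest.Agent.R4.ClsS (eps1)

section state
open Crest.Agent.R4.Tour104 Crest.Agent.R4.Tour758 Crest.Agent.R4.Avg758 Crest.Agent.R4.Clos758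
open Crest.Agent.R4.ClosL758 Crest.Agent.R4.ClosG758 Crest.Agent.R4.ClosR758
open Crest.Agent.R4.Fam464 Crest.Agent.R4P.Cnt588 Crest.Agent.R4P.Walk560 Crest.Agent.R4.Piece464
open Crest.Agent.R4P.GInst194 Crest.Agent.R4P.WalkIT579
open Crest.Agent.R4P.Bld532 (NS All NodeOk Bk)

variable {Λ κ : Type*} [Fintype Λ] [DecidableEq Λ] [Fintype κ] [DecidableEq κ]
  {D : Par Λ κ} {ρ : ℕ → ℝ} {Al : Finset ℕ} {P : Bld532.Par} {W : ℕ → ℝ}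
  {CL C1 C2 c₀ N0 : ℝ} {p₁ : ℕ}

/-- raised radii of the alive items of a node in terms of the raw mass -/
lemma rad_le_raw {u : NS} {τ : IT} (h : NodeOk P W u τ)
    (hms : ∀ q ∈ Al, q ∈ τ.items → (u.B : ℝ) * tq (q / u.A) ≤ 2 * (u.c * tq q))
    (hρ : ∀ q, 0 < ρ q) (hW0 : ∀ q, 0 ≤ W q) (hWρ : ∀ q ∈ Al, ρ q * tq q ≤ W q) (A : Finset Λ) :
    ∑ q ∈ Qi D Al τ A, rd u.B 1 ρ q * tq (q / u.A) ≤ 2 * (u.c * Ws W τ.items) := by
  have hk := bk_of_nodeOk h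
  have hc0 : 0 ≤ u.c := by
    obtain ⟨T, hT, hc⟩ := hk.ceq
    rw [hc]
    refine mul_nonneg (Nat.cast_nonneg _) (Finset.prod_nonneg fun r hr => inv_nonneg.2 ?_)
    exact (Phi542.fac_bounds (hT r hr).1).1.le
  have h1 : ∀ q ∈ Qi D Al τ A, rd u.B 1 ρ q * tq (q / u.A) ≤ 2 * (u.c * W q) := by
    intro q hq
    obtain ⟨hqt, hqA, -⟩ := mem_Qi.1 hq
    rw [rd_one]
    have h2 := hWρ _ hqA
    have h3 := mul_le_mul_of_nonneg_left (hms q hqA hqt) (hρ q).le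
    calc (u.B : ℝ) * ρ q * tq (q / u.A) = ρ q * ((u.B : ℝ) * tq (q / u.A)) := by ring
      _ ≤ ρ q * (2 * (u.c * tq q)) := h3
      _ = 2 * (u.c * (ρ q * tq q)) := by ring
      _ ≤ 2 * (u.c * W q) := by
        have := mul_le_mul_of_nonneg_left h2 hc0
        linarith
  calc ∑ q ∈ Qi D Al τ A, rd u.B 1 ρ q * tq (q / u.A)
      ≤ ∑ q ∈ Qi D Al τ A, 2 * (u.c * W q) := Finset.sum_le_sum h1
    _ ≤ ∑ q ∈ τ.items, 2 * (u.c * W q) := Finset.sum_le_sum_of_subset_of_nonneg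
        (fun q hq => (mem_Qi.1 hq).1) fun q _ _ =>
          mul_nonneg (by norm_num) (mul_nonneg hc0 (hW0 q))
    _ = 2 * (u.c * Ws W τ.items) := by rw [← Finset.mul_sum, ← Finset.mul_sum]; rfl

/-- raised radii of the alive items of a node in terms of the masses of the pieces -/
lemma rad_le_mass [WRel κ] {sp : ℕ → Finset Λ} {d : DT Λ κ} (hab : ∀ j, D.al j ≤ D.be j) {b pr : ℕ}
    {τ : IT} {A : Finset Λ} (h : SideI D sp b pr τ A d)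
    {c₀ : ℝ} (hc₀ : 0 < c₀)
    (hph : ∀ q ∈ Al, q ∈ τ.items → tq (q / pr) ≤ 2 * (prf τ q * tq (q / (pr * pp τ q))))
    (hmean : ∀ j, D.it j ∈ Al → D.it j ∈ τ.items →
      c₀ * tq (D.it j / (pr * pp τ (D.it j))) ≤
        mnw (D.it j / (pr * pp τ (D.it j))) (D.om j))
    (hfull : ∀ q ∈ Al, 2 * ρ q ≤
      ∑ j ∈ Finset.univ.filter (fun j => D.it j = q), (D.be j - D.al j))
    (hil : IL D.it A) (hnn : ∀ j, 0 ≤ mI d j) :
    ∑ q ∈ Qi D Al τ A, rd b 1 ρ q * tq (q / pr) ≤ 1 / c₀ * ∑ j ∈ A, mI d j := by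
  classical
  obtain ⟨n, hO⟩ := h.ok
  have h1 : ∀ q ∈ Qi D Al τ A, rd b 1 ρ q * tq (q / pr) ≤
      1 / c₀ * ∑ j ∈ A.filter (fun j => D.it j = q), mI d j := by
    intro q hq
    obtain ⟨h5, h3, h4⟩ := mem_Qi.1 hq
    rw [rd_one]
    refine (mass_ge hab h.hb h.hF h.hW h5 (BldF542.prf_pos _ n hO q).1.le hc₀ (hph q h3 h5)
      (fun j hj => ?_) (hfull q h3) hil h4).trans (le_of_eq ?_)
    · have := hmean j (hj ▸ h3) (hj ▸ h5)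
      rw [hj] at this
      exact this
    · congr 1
      exact Finset.sum_congr rfl fun j _ => (SideI_mI h j).symm
  refine (Finset.sum_le_sum h1).trans ?_
  rw [← Finset.mul_sum]
  refine mul_le_mul_of_nonneg_left ?_ (by positivity)
  have h2 := Finset.sum_fiberwise_of_maps_to (s := A.filter fun j => D.it j ∈ Qi D Al τ A)
    (t := Qi D Al τ A) (g := D.it) (fun j hj => (Finset.mem_filter.1 hj).2) (fun j => mI d j)
  have h3 : ∑ q ∈ Qi D Al τ A, ∑ j ∈ A.filter (fun j => D.it j = q), mI d j =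
      ∑ j ∈ A.filter (fun j => D.it j ∈ Qi D Al τ A), mI d j := by
    rw [← h2]
    refine Finset.sum_congr rfl fun q hq => Finset.sum_congr ?_ fun _ _ => rfl
    ext j
    simp only [Finset.mem_filter]
    exact ⟨fun k => ⟨⟨k.1, k.2 ▸ hq⟩, k.2⟩, fun k => ⟨k.1.1, k.2⟩⟩
  rw [h3]
  exact Finset.sum_le_sum_of_subset_of_nonneg (Finset.filter_subset _ _) fun j _ _ => hnn j

/-- the primes above `p` of the alive items of a node are `up` primes -/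
def UpP (U : ℕ → Finset ℕ) (Al : Finset ℕ) (p : ℕ) (u : NS) (t : IT) : Prop :=
  ∀ q ∈ Al, q ∈ t.items → ∀ l : ℕ, l.Prime → p < l → l ∣ q / u.A → l ∈ U q

/-- the missed mass of an alive item -/
lemma miss_massP {U : ℕ → Finset ℕ} {p q k M : ℕ} (hU : ∀ l : ℕ, l.Prime → p < l → l ∣ k → l ∈ U q)
    (hO : ∀ l : ℕ, l.Prime → l ∣ M → p < l) {C : ℝ}
    (hC : (p:ℝ)^(-(1/2):ℝ) + C ≤ ∑ l ∈ M.primeFactors, 1/(l:ℝ))
    (hT : ∑ l ∈ (U q).filter (fun l : ℕ => p < l), (1 : ℝ) / l ≤ (p:ℝ) ^ (-(1 / 2 : ℝ))) :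
    C ≤ ∑ l ∈ M.primeFactors.filter (fun l => ¬ l ∣ k), 1/(l:ℝ) := by
  classical
  have h1 : ∑ l ∈ M.primeFactors, 1/(l:ℝ) = ∑ l ∈ M.primeFactors.filter (fun l => l ∣ k), 1/(l:ℝ) +
      ∑ l ∈ M.primeFactors.filter (fun l => ¬ l ∣ k), 1/(l:ℝ) :=
    (Finset.sum_filter_add_sum_filter_not _ _ _).symm
  have h2 : ∑ l ∈ M.primeFactors.filter (fun l => l ∣ k), 1/(l:ℝ) ≤
      ∑ l ∈ (U q).filter (fun l : ℕ => p < l), (1 : ℝ) / l := by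
    refine Finset.sum_le_sum_of_subset_of_nonneg ?_ fun l _ _ => by positivity
    intro l hl
    obtain ⟨h3, h4⟩ := Finset.mem_filter.1 hl
    have h5 := Nat.prime_of_mem_primeFactors h3
    have h6 := hO l h5 (Nat.dvd_of_mem_primeFactors h3)
    exact Finset.mem_filter.2 ⟨hU l h5 h6 h4, h6⟩
  have h3 : (p:ℝ) ^ (-(1 / 2 : ℝ)) = (p:ℝ)^(-(1/2):ℝ) := rfl
  linarith

variable [WRel κ] {sp : ℕ → Finset Λ} {s : St Λ κ} {U : ℕ → Finset ℕ}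

/-- the final inequality of a stop -/
lemma stop_numG {F0 F1 F2 X X' Φ Φ' L0 H E e₃ Ch ν ν' : ℝ} (hX0 : 0 ≤ X) (hX0' : 0 ≤ X')
    (hΦ : 0 ≤ Φ) (hΦ' : 0 ≤ Φ') (hν : 0 ≤ ν) (hν' : 0 ≤ ν') (hCh : 0 ≤ Ch)
    (hL0 : 0 ≤ L0) (hX : X ≤ L0 * Φ) (hX' : X' ≤ L0 * Φ') (hH : X ≤ H) (hH' : X' ≤ H)
    (hE : 0 ≤ E) (hnum : E * (L0 * (1 + H)^2) ≤ 1) (he₃ : 0 ≤ e₃) (he : e₃ * L0^2 ≤ 1)
    (h0 : F0 ≤ F1 + E * (Real.sqrt (X * X') + X * X') + F2)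
    (h1 : F1 ≤ Ch * (Φ * Φ') + e₃ * (X * X')) :
    F0 ≤ (Ch + 1) * Lh Φ ν Φ' ν' + F2 := by
  refine Crest.Agent.R4.StopW95.stop_num (F1 := F1) (L0 := L0) (H := H) (E := E) (e₃ := e₃)
    hX0 hX0' hΦ hΦ' hν hν' hCh hL0 hX hX' hH hH' hE hnum he₃ he (h0.trans ?_) h1
  have h2 : Real.sqrt (X * X') + X * X' ≤ Real.sqrt (X * X') * ((1 + X) * (1 + X')) := by
    have hXX : 0 ≤ X * X' := mul_nonneg hX0 hX0'
    set z := Real.sqrt (X * X') with hz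
    have hz0 : 0 ≤ z := Real.sqrt_nonneg _
    have hzz : z * z = X * X' := Real.mul_self_sqrt hXX
    -- z ≤ X + X'
    have h3 : z ≤ X + X' := by
      refine Real.sqrt_le_iff.2 ⟨by linarith, ?_⟩
      nlinarith
    nlinarith [mul_nonneg hz0 hXX, mul_le_mul_of_nonneg_left h3 hz0]
  have := mul_le_mul_of_nonneg_left h2 hE
  linarith

open Classical in
/-- **STOP at a state** -/
theorem stop_state (hst : StopCls2 N0) (hsc : SC N0 CL C2 (c₀/2) p₁) {p n G : ℕ} {T Ch e₃ : ℝ}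
    (hni : NI D ρ Al P W C1 c₀ p)
    {u u' : NS} {τ τ' : IT} (hl : ¬ isL τ) (hl' : ¬ isL τ')
    (h : StI D sp s u.B u.A τ u'.B u'.A τ') (hG : 0 < G)
    (hL : NSd D Al P W CL c₀ p G s.M u τ s.A) (hR : NSd D Al P W CL c₀ p G s.M' u' τ' s.A')
    (hCL : 0 ≤ CL) (hhi : ∀ k : ℕ, P.p0 < k → k ≤ p → 2 * P.hi k ≤ (Real.log p)^C2)
    (hp : p₁ ≤ p) (htp : tp τ ≤ p) (htp' : tp τ' ≤ p) (hpM : ¬ p ∣ s.M) (hpM' : ¬ p ∣ s.M')
    (hn : n = ⌊100 * (p * ((p:ℝ)^(-(1/3):ℝ)/4)) / Real.log 2⌋₊)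
    (hs : ∑ l ∈ s.M.primeFactors, 1/(l:ℝ) ≤ 1) (hs' : ∑ l ∈ s.M'.primeFactors, 1/(l:ℝ) ≤ 1)
    (hU : UpP U Al p u τ) (hU' : UpP U Al p u' τ')
    (hUt : ∀ q ∈ Al, ∑ l ∈ (U q).filter (fun l : ℕ => p < l), (1 : ℝ) / l ≤ (p:ℝ) ^ (-(1 / 2 : ℝ)))
    (hstop : (p:ℝ)^(-(1/3):ℝ) ≤ ∑ l ∈ s.M'.primeFactors ∪ s.M.primeFactors, 1/(l:ℝ))
    (hT1 : 1 ≤ T) (hT : T ≤ Real.exp (p * ((p:ℝ)^(-(1/3):ℝ)/4)/20))
    (hCh : 0 ≤ Ch) (he₃ : 0 ≤ e₃) (he : e₃ * (CL * Real.log p * (1/c₀))^2 ≤ 1)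
    (hhigh : ∑ e ∈ (Qi D Al τ s.A ×ˢ Qi D Al τ' s.A').filter (fun e =>
        T < Dq ρ s.M u.B u.A 1 s.M' u'.B u'.A 1 e),
        D.iF s.R (D.uA s.M u.B u.A τ s.A 1) (D.uA s.M' u'.B u'.A τ' s.A' 1) e ≤
      Ch * ((∑ j ∈ s.A, mI s.t j) * ∑ j ∈ s.A', mI s.t' j) +
      e₃ * ((∑ q ∈ Qi D Al τ s.A, u.B * ρ q) * ∑ q ∈ Qi D Al τ' s.A', u'.B * ρ q))
    {ν ν' : ℝ} (hν : 0 ≤ ν) (hν' : 0 ≤ ν') :
    Qs s ≤ (Ch + 1) * Lh (∑ j ∈ s.A, mI s.t j) ν (∑ j ∈ s.A', mI s.t' j) ν' +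
      ∑ e ∈ (Qi D Al τ s.A ×ˢ Qi D Al τ' s.A').filter (fun e =>
        0 < D.iF s.R (D.uA s.M u.B u.A τ s.A 1) (D.uA s.M' u'.B u'.A τ' s.A' 1) e ∧
        (Dq ρ s.M u.B u.A 1 s.M' u'.B u'.A 1 e ≤ 1/2^n ∧
          FSI D.γ ρ n s.M u.B u.A 1 s.M' u'.B u'.A 1 e)),
        D.iF s.R (D.uA s.M u.B u.A τ s.A 1) (D.uA s.M' u'.B u'.A τ' s.A' 1) e := by
  classical
  set cc : ℝ := (p:ℝ)^(-(1/3):ℝ)/4 with hcc
  set F : ℕ × ℕ → ℝ := D.iF s.R (D.uA s.M u.B u.A τ s.A 1) (D.uA s.M' u'.B u'.A τ' s.A' 1) with hFdef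
  have hF0 : ∀ e, 0 ≤ F e := fun e => D.iF_nonneg _
    (fun j y => (PB_uA h.M0 h.L.hb h.L.hF h.L.hW (one_dvd _) j).nonneg y)
    (fun j y => (PB_uA h.M0' h.R.hb h.R.hF h.R.hW (one_dvd _) j).nonneg y) e
  have mnn : ∀ (d : DT Λ κ), d.g.Ok → ∀ j, 0 ≤ mI d j := fun d hd j => by
    unfold mI
    exact I_nonneg fun x => (hd.pb j).nonneg x
  have okL : s.t.g.Ok := by rw [h.L.eq, D.toDT_g]; exact D.toG_Ok h.L.hb h.L.hF h.L.hW
  have okR : s.t'.g.Ok := by rw [h.R.eq, D.toDT_g]; exact D.toG_Ok h.R.hb h.R.hF h.R.hW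
  have nΦ : 0 ≤ ∑ j ∈ s.A, mI s.t j := Finset.sum_nonneg fun j _ => mnn _ okL j
  have nΦ' : 0 ≤ ∑ j ∈ s.A', mI s.t' j := Finset.sum_nonneg fun j _ => mnn _ okR j
  -- the energy
  have hQ : Qs s ≤ ∑ e ∈ Qi D Al τ s.A ×ˢ Qi D Al τ' s.A', F e := by
    rw [Qs_eq h]
    exact Finset.sum_le_sum_of_subset_of_nonneg (PE_sub hni.dead h.M0 h.M0' h.L.hb h.R.hb h.L.hF
      h.R.hF h.L.hW h.R.hW (one_dvd _) (one_dvd _) _ _ _) fun e _ _ => hF0 e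
  -- the pieces of the estimate
  have top1 := nodeOk_hi hL.node hl
  have top2 := nodeOk_hi hR.node hl'
  have bB : 0 < u.B := h.L.hb
  have bB' : 0 < u'.B := h.R.hb
  have hp3 : 3 ≤ p := hsc.one.trans hp
  have hp0 : 0 < p := by omega
  have itL : ∀ q ∈ Qi D Al τ s.A, q ∈ τ.items := fun q hq => (mem_Qi.1 hq).1
  have itR : ∀ q ∈ Qi D Al τ' s.A', q ∈ τ'.items := fun q hq => (mem_Qi.1 hq).1
  have w0L : ∀ q ∈ Qi D Al τ s.A, 0 < q / u.A := fun q hq => by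
    have hq0 := (h.L.hF.item q (mem_Qi.1 hq).1)
    exact Nat.div_pos (Nat.le_of_dvd hq0.1 hq0.2.1) (Nat.pos_of_dvd_of_pos hq0.2.1 hq0.1)
  have w0R : ∀ q ∈ Qi D Al τ' s.A', 0 < q / u'.A := fun q hq => by
    have hq0 := (h.R.hF.item q (mem_Qi.1 hq).1)
    exact Nat.div_pos (Nat.le_of_dvd hq0.1 hq0.2.1) (Nat.pos_of_dvd_of_pos hq0.2.1 hq0.1)
  have hlogp0 : 0 ≤ Real.log p := Real.log_natCast_nonneg p
  have logp : 0 ≤ CL * Real.log p := mul_nonneg hCL hlogp0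
  have dvL : ∀ q ∈ Qi D Al τ s.A, 0 < q ∧ u.A ∣ q := fun q hq =>
    ⟨(h.L.hF.item q (mem_Qi.1 hq).1).1, (h.L.hF.item q (mem_Qi.1 hq).1).2.1⟩
  have dvR : ∀ q ∈ Qi D Al τ' s.A', 0 < q ∧ u'.A ∣ q := fun q hq =>
    ⟨(h.R.hF.item q (mem_Qi.1 hq).1).1, (h.R.hF.item q (mem_Qi.1 hq).1).2.1⟩
  have lgL : ∀ q ∈ Qi D Al τ s.A, 1 ≤ CL * Real.log p * tq (q / u.A) := fun q hq =>
    hL.lg q (mem_Qi.1 hq).2.1 (itL q hq)
  have lgR : ∀ q ∈ Qi D Al τ' s.A', 1 ≤ CL * Real.log p * tq (q / u'.A) := fun q hq =>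
    hR.lg q (mem_Qi.1 hq).2.1 (itR q hq)
  have hlog2 : 0 < Real.log 2 := Real.log_pos (by norm_num)
  have hst0 := hsc.st p hp
  have hpp1 : (1:ℝ) ≤ p := by exact_mod_cast hp0
  have hs1 : 1 ≤ Real.sqrt p := Real.one_le_sqrt.2 hpp1
  have hn1 : 1 ≤ n := by
    rw [hn]
    apply Nat.le_floor
    rw [Nat.cast_one, le_div_iff₀ hlog2]
    have := Real.log_two_lt_d9
    nlinarith
  have tL' : ∀ z : ℝ, (p:ℝ) ≤ z → ∀ q ∈ Qi D Al τ s.A,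
      Crest.Agent.R4.ClsB.Tame z G (q / u.A / s.M.gcd (q / u.A)) := by
    intro z hz q hq
    obtain ⟨h1, h2, j, hj, rfl⟩ := mem_Qi.1 hq
    exact hL.tame z hz j hj h2 (itL _ hq)
  have tR' : ∀ z : ℝ, (p:ℝ) ≤ z → ∀ q ∈ Qi D Al τ' s.A',
      Crest.Agent.R4.ClsB.Tame z G (q / u'.A / s.M'.gcd (q / u'.A)) := by
    intro z hz q hq
    obtain ⟨h1, h2, j, hj, rfl⟩ := mem_Qi.1 hq
    exact hR.tame z hz j hj h2 (itR _ hq)
  have lL' : ∀ q ∈ Qi D Al τ s.A, 1 ≤ CL * Real.log p *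
      tq (q / u.A / s.M.gcd (q / u.A)) := fun q hq => (lgL q hq).trans
    (mul_le_mul_of_nonneg_left (tq_mono (Nat.div_dvd_of_dvd (Nat.gcd_dvd_right _ _))
      (w0L q hq)) logp)
  have lR' : ∀ q ∈ Qi D Al τ' s.A', 1 ≤ CL * Real.log p *
      tq (q / u'.A / s.M'.gcd (q / u'.A)) := fun q hq => (lgR q hq).trans
    (mul_le_mul_of_nonneg_left (tq_mono (Nat.div_dvd_of_dvd (Nat.gcd_dvd_right _ _))
      (w0R q hq)) logp)
  have oL : ∀ q ∈ Qi D Al τ s.A, Once s.M (q / u.A) := fun q hq =>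
    hL.once q (mem_Qi.1 hq).2.1 (itL q hq)
  have oR : ∀ q ∈ Qi D Al τ' s.A', Once s.M' (q / u'.A) := fun q hq =>
    hR.once q (mem_Qi.1 hq).2.1 (itR q hq)
  have gM : ∀ l : ℕ, l.Prime → l ∣ s.M → p < l := fun l hl hd =>
    lt_of_le_of_ne (hL.geM l hl hd) fun e => hpM (e ▸ hd)
  have gM' : ∀ l : ℕ, l.Prime → l ∣ s.M' → p < l := fun l hl hd =>
    lt_of_le_of_ne (hR.geM l hl hd) fun e => hpM' (e ▸ hd)
  have hFpb : ∀ e ∈ Qi D Al τ s.A ×ˢ Qi D Al τ' s.A', F e ≤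
      D.pb ρ s.M u.B u.A 1 e.1 s.M' u'.B u'.A 1 e.2 := by
    intro e he
    obtain ⟨h1, h2⟩ := Finset.mem_product.1 he
    exact iF_le hni.rad h.M0 h.M0' h.L.hb h.R.hb h.L.hF h.R.hF h.L.hW h.R.hW
      (one_dvd u.B) (one_dvd u'.B) s.R s.A s.A' e (mem_Qi.1 h1).1 (mem_Qi.1 h2).1
  -- the estimate
  have main : ∑ e ∈ Qi D Al τ s.A ×ˢ Qi D Al τ' s.A', F e ≤
      ∑ e ∈ (Qi D Al τ s.A ×ˢ Qi D Al τ' s.A').filter (fun e => T < Dq ρ s.M u.B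
        u.A 1 s.M' u'.B u'.A 1 e), F e +
      Real.exp (-(p*cc/10)) * (Real.sqrt ((∑ q ∈ Qi D Al τ s.A, rd u.B 1 ρ q) *
        (∑ q ∈ Qi D Al τ' s.A', rd u'.B 1 ρ q)) +
        (∑ q ∈ Qi D Al τ s.A, rd u.B 1 ρ q) * (∑ q ∈ Qi D Al τ' s.A', rd u'.B 1 ρ q)) +
      ∑ e ∈ (Qi D Al τ s.A ×ˢ Qi D Al τ' s.A').filter (fun e => 0 < F e ∧
        (Dq ρ s.M u.B u.A 1 s.M' u'.B u'.A 1 e ≤ 1/2^n ∧
        FSI D.γ ρ n s.M u.B u.A 1 s.M' u'.B u'.A 1 e)), F e := by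
    have hsum : ∑ l ∈ s.M'.primeFactors ∪ s.M.primeFactors, 1/(l:ℝ) ≤
        ∑ l ∈ s.M'.primeFactors, 1/(l:ℝ) + ∑ l ∈ s.M.primeFactors, 1/(l:ℝ) := by
      rw [← Finset.sum_union_inter]
      have : 0 ≤ ∑ l ∈ s.M'.primeFactors ∩ s.M.primeFactors, 1/(l:ℝ) :=
        Finset.sum_nonneg fun l _ => by positivity
      linarith
    have hc2 := hsc.cc p hp
    rcases le_total (∑ l ∈ s.M.primeFactors, 1/(l:ℝ)) (∑ l ∈ s.M'.primeFactors, 1/(l:ℝ)) with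
      hcase | hcase
    · refine stop_itemsLG hst (F := F) (γ := D.γ) (G := G) (N := p) (L := CL * Real.log p) (cc := cc)
        (T := T) (M := s.M) (M' := s.M') (pr := u.A) (pr' := u'.A) (b := u.B)
        (b' := u'.B) (c := 1) (c' := 1) (V := Qi D Al τ s.A) (W := Qi D Al τ' s.A')
        (hsc.n0 p hp) hst0 hn hn1 hG hT1 hT logp (hsc.lg p hp) hni.rad.pos bB one_pos bB' one_pos
        h.M0 h.M0' hL.geM hR.geM hs hs' dvL dvR oL oR tL' tR' lL' lR' ?_ hFpb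
      intro q hq
      obtain ⟨h1, h2, -⟩ := mem_Qi.1 hq
      refine miss_massP (p := p) (fun l => hU' q h2 h1 l) gM' ?_ (hUt q h2)
      linarith
    · refine stop_itemsRG hst (F := F) (γ := D.γ) (G := G) (N := p) (L := CL * Real.log p) (cc := cc)
        (T := T) (M := s.M) (M' := s.M') (pr := u.A) (pr' := u'.A) (b := u.B)
        (b' := u'.B) (c := 1) (c' := 1) (V := Qi D Al τ s.A) (W := Qi D Al τ' s.A')
        (hsc.n0 p hp) hst0 hn hn1 hG hT1 hT logp (hsc.lg p hp) hni.rad.pos bB one_pos bB' one_pos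
        h.M0 h.M0' hL.geM hR.geM hs hs' dvL dvR oL oR tL' tR' lL' lR' ?_ hFpb
      intro q hq
      obtain ⟨h1, h2, -⟩ := mem_Qi.1 hq
      refine miss_massP (p := p) (fun l => hU q h2 h1 l) gM ?_ (hUt q h2)
      linarith
  have xX : ∀ (b pr : ℕ) (S : Finset ℕ), (∀ q ∈ S, 1 ≤ CL * Real.log p * tq (q / pr)) →
      ∑ q ∈ S, rd b 1 ρ q ≤ CL * Real.log p * ∑ q ∈ S, rd b 1 ρ q * tq (q / pr) := by
    intro b pr S hS
    rw [Finset.mul_sum]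
    refine Finset.sum_le_sum fun q hq => ?_
    have h1 : 0 ≤ rd b 1 ρ q := by
      rw [rd_one]
      exact mul_nonneg (Nat.cast_nonneg _) (hni.rad.pos q).le
    calc rd b 1 ρ q = rd b 1 ρ q * 1 := (mul_one _).symm
      _ ≤ rd b 1 ρ q * (CL * Real.log p * tq (q / pr)) := mul_le_mul_of_nonneg_left (hS q hq) h1
      _ = _ := by ring
  have x0 : ∀ (b : ℕ) (S : Finset ℕ), 0 ≤ ∑ q ∈ S, rd b 1 ρ q := fun b S =>
    Finset.sum_nonneg fun q _ => by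
      rw [rd_one]
      exact mul_nonneg (Nat.cast_nonneg _) (hni.rad.pos q).le
  have mL1 := (xX u.B u.A _ lgL).trans (mul_le_mul_of_nonneg_left
    (rad_le_mass hni.ab h.L hni.c0 hL.ph hL.mean hni.full hL.il (mnn _ okL)) logp)
  have mR1 := (xX u'.B u'.A _ lgR).trans (mul_le_mul_of_nonneg_left
    (rad_le_mass hni.ab h.R hni.c0 hR.ph hR.mean hni.full hR.il (mnn _ okR)) logp)
  have hiL : 2 * (u.c * Ws W τ.items) ≤ (Real.log p)^C2 := by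
    have h1 := hhi (tp τ) top1.2.1 htp
    have h2 := top1.1
    linarith
  have hiR : 2 * (u'.c * Ws W τ'.items) ≤ (Real.log p)^C2 := by
    have h1 := hhi (tp τ') top2.2.1 htp'
    have h2 := top2.1
    linarith
  have mL2 := (xX u.B u.A _ lgL).trans (mul_le_mul_of_nonneg_left
    ((rad_le_raw (D := D) (ρ := ρ) hL.node hL.ms hni.rad.pos hni.W0 hni.Wρ s.A).trans hiL) logp)
  have mR2 := (xX u'.B u'.A _ lgR).trans (mul_le_mul_of_nonneg_left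
    ((rad_le_raw (D := D) (ρ := ρ) hR.node hR.ms hni.rad.pos hni.W0 hni.Wρ s.A').trans hiR) logp)
  have hfin := hsc.fin p hp
  have e12 : 1/(2*(c₀/2)) = 1/c₀ := by congr 1; ring
  rw [e12] at hfin
  have hrd : ∀ (b : ℕ) (S : Finset ℕ), ∑ q ∈ S, (b:ℝ) * ρ q = ∑ q ∈ S, rd b 1 ρ q := fun b S =>
    Finset.sum_congr rfl fun q _ => (rd_one b ρ q).symm
  rw [hrd, hrd] at hhigh
  refine hQ.trans ?_
  refine stop_numG (L0 := CL * Real.log p * (1/c₀)) (H := CL * Real.log p * (Real.log p)^C2)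
    (E := Real.exp (-(p*cc/10))) (e₃ := e₃) (Ch := Ch) (x0 _ _) (x0 _ _) nΦ nΦ' hν hν' hCh
    (mul_nonneg logp (by have := hni.c0; positivity)) (mL1.trans (le_of_eq (by ring)))
    (mR1.trans (le_of_eq (by ring))) mL2 mR2 (Real.exp_nonneg _) hfin he₃ he main hhigh

end state

end Crest.Agent.R4P.StopW95
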