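import Crest.Agent.R4P.StopFFIt95
import Crest.Agent.R4P.StopW95

/-!
R4 powers pass (S0004), helper95: **the `[F]` pairs of a STOP, and the stop symbol** (state half of
`R4/StopFF95`) on the tree with powers, over helper800's `NI`, `NSd`.

* `FSY` : the `[F]` pairs of a stopped state are payable (factor `Y`) or named by `Qf`.
* `stop_state2` : `Qs s ≤ (Ch + 2) Lh(..) + Σ_{Qf}`; **`eSTOP_le2`**.
-/

set_option autoImplicit false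
set_option linter.unusedSectionVars false
set_option linter.unusedVariables false
open Finset

namespace Crest.Agent.R4P.StopFF95

open Crest.Agent.R4.HVW560 Crest.Agent.R4.HVWX793 Crest.Agent.R4.Schur709 Crest.Agent.R4.StopHvw709
open Crest.Agent.R4.StopAsm709 Crest.Agent.R4P.AvgItem710 Crest.Agent.R4.DeepSt579
open Crest.Agent.R4P.Rad800 Crest.Agent.R4P.Item758 Crest.Agent.R4P.NMW710 Crest.Agent.R4P.StopW95
open Crest.Agent.R4.ClsS (eps1)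

/-- the numbers of the exact-false pairs, with `c₀ / 2` -/
lemma ff_num {N0 CL C2 c₀ : ℝ} {p₁ : ℕ} (hsc : SC N0 CL C2 (c₀/2) p₁) (hsf : SF CL p₁) {p : ℕ}
    (hp : p₁ ≤ p) (hCL : 0 ≤ CL) (hc₀ : 0 < c₀) {Y : ℝ} (hY : 1 ≤ Y)
    (hYp : Y ≤ Real.exp (p * ((p:ℝ)^(-(1/3):ℝ)/4))) :
    (6 * (CL * Real.log p)^2 * (60000 * KH 1 0 eps1) * Y^(22/1000:ℝ) * 3 *
        Real.exp (-(p * ((p:ℝ)^(-(1/3):ℝ)/4) * Real.log p / 60))) *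
      (CL * Real.log p * (1/c₀) * (1 + CL * Real.log p * (Real.log p)^C2)^2) ≤ 1 := by
  have h := Crest.Agent.R4.StopFF95.ff_num hsc hsf hp hCL (by positivity) hY hYp
  have e12 : 1/(2*(c₀/2)) = 1/c₀ := by congr 1; ring
  rw [e12] at h
  exact h

/-- `√(X X') + X X'` in terms of the masses -/
lemma ff_num2G {F0 X X' Φ Φ' L0 H E : ℝ} (hX0 : 0 ≤ X) (hX0' : 0 ≤ X')
    (hΦ : 0 ≤ Φ) (hΦ' : 0 ≤ Φ')
    (hL0 : 0 ≤ L0) (hX : X ≤ L0 * Φ) (hX' : X' ≤ L0 * Φ') (hH : X ≤ H) (hH' : X' ≤ H)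
    (hE : 0 ≤ E) (hnum : E * (L0 * (1 + H)^2) ≤ 1)
    (h0 : F0 ≤ E * (Real.sqrt (X * X') + X * X')) :
    F0 ≤ (Φ + Φ')/2 := by
  refine Crest.Agent.R4.StopFF95.ff_num2 (L0 := L0) (H := H) (E := E) hX0 hX0' hΦ hΦ' hL0 hX hX' hH
    hH' hE hnum (h0.trans ?_)
  have h2 : Real.sqrt (X * X') + X * X' ≤ Real.sqrt (X * X') * ((1 + X) * (1 + X')) := by
    have hXX : 0 ≤ X * X' := mul_nonneg hX0 hX0'
    set z := Real.sqrt (X * X') with hz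
    have hz0 : 0 ≤ z := Real.sqrt_nonneg _
    have hzz : z * z = X * X' := Real.mul_self_sqrt hXX
    have h3 : z ≤ X + X' := by
      refine Real.sqrt_le_iff.2 ⟨by linarith, ?_⟩
      nlinarith
    nlinarith [mul_nonneg hz0 hXX, mul_le_mul_of_nonneg_left h3 hz0]
  exact mul_le_mul_of_nonneg_left h2 hE

section state
open Crest.Agent.R4.Tour104 Crest.Agent.R4.Tour758 Crest.Agent.R4.Avg758 Crest.Agent.R4.Clos758
open Crest.Agent.R4.ClosL758 Crest.Agent.R4.ClosG758 Crest.Agent.R4.ClosR758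
open Crest.Agent.R4.Fam464 Crest.Agent.R4P.Cnt588 Crest.Agent.R4P.Walk560 Crest.Agent.R4.Piece464
open Crest.Agent.R4P.GInst194 Crest.Agent.R4P.WalkIT579
open Crest.Agent.R4P.Bld532 (NS All NodeOk Bk)

variable {Λ κ : Type*} [Fintype Λ] [DecidableEq Λ] [Fintype κ] [DecidableEq κ]
  {D : Par Λ κ} {ρ : ℕ → ℝ} {Al : Finset ℕ} {P : Bld532.Par} {W : ℕ → ℝ}
  {CL C1 C2 c₀ N0 : ℝ} {p₁ : ℕ}
variable [WRel κ] {sp : ℕ → Finset Λ} {s : St Λ κ} {U : ℕ → Finset ℕ}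

open Classical in
/-- **the exact-false pairs of a stopped state** -/
theorem ff_state (hsc : SC N0 CL C2 (c₀/2) p₁) (hsf : SF CL p₁) {p n G : ℕ} {Y : ℝ}
    (hni : NI D ρ Al P W C1 c₀ p)
    {u u' : NS} {τ τ' : IT} (hl : ¬ isL τ) (hl' : ¬ isL τ')
    (h : StI D sp s u.B u.A τ u'.B u'.A τ')
    (hL : NSd D Al P W CL c₀ p G s.M u τ s.A) (hR : NSd D Al P W CL c₀ p G s.M' u' τ' s.A')
    (hCL : 0 ≤ CL) (hhi : ∀ k : ℕ, P.p0 < k → k ≤ p → 2 * P.hi k ≤ (Real.log p)^C2)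
    (hp : p₁ ≤ p) (htp : tp τ ≤ p) (htp' : tp τ' ≤ p) (hpM : ¬ p ∣ s.M) (hpM' : ¬ p ∣ s.M')
    (hn1 : 1 ≤ n)
    (hs : ∑ l ∈ s.M.primeFactors, (l:ℝ)^(-(11/12):ℝ) ≤ 1)
    (hs' : ∑ l ∈ s.M'.primeFactors, (l:ℝ)^(-(11/12):ℝ) ≤ 1)
    (hU : UpP U Al p u τ) (hU' : UpP U Al p u' τ')
    (hUt : ∀ q ∈ Al, ∑ l ∈ (U q).filter (fun l : ℕ => p < l), (1 : ℝ) / l ≤ (p:ℝ) ^ (-(1 / 2 : ℝ)))
    (hstop : (p:ℝ)^(-(1/3):ℝ) ≤ ∑ l ∈ s.M'.primeFactors ∪ s.M.primeFactors, 1/(l:ℝ))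
    (hY : 1 ≤ Y) (hYp : Y ≤ Real.exp (p * ((p:ℝ)^(-(1/3):ℝ)/4)))
    (E : Finset (ℕ × ℕ)) (hE : E ⊆ Qi D Al τ s.A ×ˢ Qi D Al τ' s.A')
    (hED : ∀ e ∈ E, Dq ρ s.M u.B u.A 1 s.M' u'.B u'.A 1 e ≤ 1/2^n)
    (hEm : ∀ e ∈ E, 1 < 2 * (Y * ((rf (e.1 / u.A) s.M : ℝ) * rf (e.2 / u'.A) s.M'))^10 *
      Dq ρ s.M u.B u.A 1 s.M' u'.B u'.A 1 e) :
    ∑ e ∈ E, D.iF s.R (D.uA s.M u.B u.A τ s.A 1) (D.uA s.M' u'.B u'.A τ' s.A' 1) e ≤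
      ((∑ j ∈ s.A, mI s.t j) + ∑ j ∈ s.A', mI s.t' j) / 2 := by
  classical
  set cc : ℝ := (p:ℝ)^(-(1/3):ℝ)/4 with hcc
  set F : ℕ × ℕ → ℝ := D.iF s.R (D.uA s.M u.B u.A τ s.A 1) (D.uA s.M' u'.B u'.A τ' s.A' 1) with hFdef
  have hF0 : ∀ e, 0 ≤ F e := fun e => D.iF_nonneg _
    (fun j y => (PB_uA h.M0 h.L.hb h.L.hF h.L.hW (one_dvd _) j).nonneg y)
    (fun j y => (PB_uA h.M0' h.R.hb h.R.hF h.R.hW (one_dvd _) j).nonneg y) e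
  have mnn : ∀ (d : DT Λ κ), d.g.Ok → ∀ j, 0 ≤ mI d j := fun d hd j => by
    unfold mI
    exact I_nonneg fun x => (hd.pb j).nonneg x
  have okL : s.t.g.Ok := by rw [h.L.eq, D.toDT_g]; exact D.toG_Ok h.L.hb h.L.hF h.L.hW
  have okR : s.t'.g.Ok := by rw [h.R.eq, D.toDT_g]; exact D.toG_Ok h.R.hb h.R.hF h.R.hW
  have nΦ : 0 ≤ ∑ j ∈ s.A, mI s.t j := Finset.sum_nonneg fun j _ => mnn _ okL j
  have nΦ' : 0 ≤ ∑ j ∈ s.A', mI s.t' j := Finset.sum_nonneg fun j _ => mnn _ okR j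
  -- the pieces of the estimate
  have top1 := nodeOk_hi hL.node hl
  have top2 := nodeOk_hi hR.node hl'
  have bB : 0 < u.B := h.L.hb
  have bB' : 0 < u'.B := h.R.hb
  have hp3 : 3 ≤ p := hsc.one.trans hp
  have hp0 : 0 < p := by omega
  have itL : ∀ q ∈ Qi D Al τ s.A, q ∈ τ.items := fun q hq => (mem_Qi.1 hq).1
  have itR : ∀ q ∈ Qi D Al τ' s.A', q ∈ τ'.items := fun q hq => (mem_Qi.1 hq).1
  have w0L : ∀ q ∈ Qi D Al τ s.A, 0 < q / u.A := fun q hq => by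
    have hq0 := (h.L.hF.item q (mem_Qi.1 hq).1)
    exact Nat.div_pos (Nat.le_of_dvd hq0.1 hq0.2.1) (Nat.pos_of_dvd_of_pos hq0.2.1 hq0.1)
  have w0R : ∀ q ∈ Qi D Al τ' s.A', 0 < q / u'.A := fun q hq => by
    have hq0 := (h.R.hF.item q (mem_Qi.1 hq).1)
    exact Nat.div_pos (Nat.le_of_dvd hq0.1 hq0.2.1) (Nat.pos_of_dvd_of_pos hq0.2.1 hq0.1)
  have hlogp0 : 0 ≤ Real.log p := Real.log_natCast_nonneg p
  have logp : 0 ≤ CL * Real.log p := mul_nonneg hCL hlogp0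
  have dvL : ∀ q ∈ Qi D Al τ s.A, 0 < q ∧ u.A ∣ q := fun q hq =>
    ⟨(h.L.hF.item q (mem_Qi.1 hq).1).1, (h.L.hF.item q (mem_Qi.1 hq).1).2.1⟩
  have dvR : ∀ q ∈ Qi D Al τ' s.A', 0 < q ∧ u'.A ∣ q := fun q hq =>
    ⟨(h.R.hF.item q (mem_Qi.1 hq).1).1, (h.R.hF.item q (mem_Qi.1 hq).1).2.1⟩
  have lgL : ∀ q ∈ Qi D Al τ s.A, 1 ≤ CL * Real.log p * tq (q / u.A) := fun q hq =>
    hL.lg q (mem_Qi.1 hq).2.1 (itL q hq)
  have lgR : ∀ q ∈ Qi D Al τ' s.A', 1 ≤ CL * Real.log p * tq (q / u'.A) := fun q hq =>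
    hR.lg q (mem_Qi.1 hq).2.1 (itR q hq)
  have hlog2 : 0 < Real.log 2 := Real.log_pos (by norm_num)
  have hst0 := hsc.st p hp
  have hpp1 : (1:ℝ) ≤ p := by exact_mod_cast hp0
  have hs1 : 1 ≤ Real.sqrt p := Real.one_le_sqrt.2 hpp1
  have lL' : ∀ q ∈ Qi D Al τ s.A, 1 ≤ CL * Real.log p *
      tq (q / u.A / s.M.gcd (q / u.A)) := fun q hq => (lgL q hq).trans
    (mul_le_mul_of_nonneg_left (tq_mono (Nat.div_dvd_of_dvd (Nat.gcd_dvd_right _ _))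
      (w0L q hq)) logp)
  have lR' : ∀ q ∈ Qi D Al τ' s.A', 1 ≤ CL * Real.log p *
      tq (q / u'.A / s.M'.gcd (q / u'.A)) := fun q hq => (lgR q hq).trans
    (mul_le_mul_of_nonneg_left (tq_mono (Nat.div_dvd_of_dvd (Nat.gcd_dvd_right _ _))
      (w0R q hq)) logp)
  have oL : ∀ q ∈ Qi D Al τ s.A, Once s.M (q / u.A) := fun q hq =>
    hL.once q (mem_Qi.1 hq).2.1 (itL q hq)
  have oR : ∀ q ∈ Qi D Al τ' s.A', Once s.M' (q / u'.A) := fun q hq =>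
    hR.once q (mem_Qi.1 hq).2.1 (itR q hq)
  have gM : ∀ l : ℕ, l.Prime → l ∣ s.M → p < l := fun l hl hd =>
    lt_of_le_of_ne (hL.geM l hl hd) fun e => hpM (e ▸ hd)
  have gM' : ∀ l : ℕ, l.Prime → l ∣ s.M' → p < l := fun l hl hd =>
    lt_of_le_of_ne (hR.geM l hl hd) fun e => hpM' (e ▸ hd)
  have hFpb : ∀ e ∈ Qi D Al τ s.A ×ˢ Qi D Al τ' s.A', F e ≤
      D.pb ρ s.M u.B u.A 1 e.1 s.M' u'.B u'.A 1 e.2 := by
    intro e he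
    obtain ⟨h1, h2⟩ := Finset.mem_product.1 he
    exact iF_le hni.rad h.M0 h.M0' h.L.hb h.R.hb h.L.hF h.R.hF h.L.hW h.R.hW
      (one_dvd u.B) (one_dvd u'.B) s.R s.A s.A' e (mem_Qi.1 h1).1 (mem_Qi.1 h2).1
  have hcc0 : 0 ≤ cc := by rw [hcc]; positivity
  have hsum : ∑ l ∈ s.M'.primeFactors ∪ s.M.primeFactors, 1/(l:ℝ) ≤
      ∑ l ∈ s.M'.primeFactors, 1/(l:ℝ) + ∑ l ∈ s.M.primeFactors, 1/(l:ℝ) := by
    rw [← Finset.sum_union_inter]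
    have : 0 ≤ ∑ l ∈ s.M'.primeFactors ∩ s.M.primeFactors, 1/(l:ℝ) :=
      Finset.sum_nonneg fun l _ => by positivity
    linarith
  have hc2 := hsc.cc p hp
  have hcm : (∀ q ∈ Qi D Al τ' s.A', cc ≤ ∑ l ∈ s.M'.primeFactors.filter
        (fun l => ¬ l ∣ q / u'.A), 1/(l:ℝ)) ∨
      (∀ q ∈ Qi D Al τ s.A, cc ≤ ∑ l ∈ s.M.primeFactors.filter
        (fun l => ¬ l ∣ q / u.A), 1/(l:ℝ)) := by
    rcases le_total (∑ l ∈ s.M.primeFactors, 1/(l:ℝ)) (∑ l ∈ s.M'.primeFactors, 1/(l:ℝ)) with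
      hcase | hcase
    · left
      intro q hq
      obtain ⟨h1, h2, -⟩ := mem_Qi.1 hq
      refine miss_massP (p := p) (fun l => hU' q h2 h1 l) gM' ?_ (hUt q h2)
      linarith
    · right
      intro q hq
      obtain ⟨h1, h2, -⟩ := mem_Qi.1 hq
      refine miss_massP (p := p) (fun l => hU q h2 h1 l) gM ?_ (hUt q h2)
      linarith
  have hhalf : ∀ e ∈ E, Dq ρ s.M u.B u.A 1 s.M' u'.B u'.A 1 e ≤ 1/2 := fun e he => by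
    refine (hED e he).trans ?_
    apply one_div_le_one_div_of_le (by norm_num)
    calc (2:ℝ) = 2^1 := (pow_one _).symm
      _ ≤ 2^n := pow_le_pow_right₀ (by norm_num) hn1
  have main := ff_itemsG (ρ := ρ) (F := F) (L := CL * Real.log p) (cc := cc) (Y := Y) (N := p)
    (M := s.M) (M' := s.M') (pr := u.A) (pr' := u'.A) (b := u.B)
    (b' := u'.B) (c := 1) (c' := 1) (V := Qi D Al τ s.A) (W := Qi D Al τ' s.A')
    hp0 hcc0 hY logp hni.rad.pos bB one_pos bB' one_pos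
    h.M0 h.M0' hL.geM hR.geM hs hs' dvL dvR oL oR lL' lR' hcm E hE
    (fun e he => by linarith [hhalf e he]) hEm
    (fun e he => by
      have h1 := hFpb e (hE he)
      have r1 : 0 ≤ rd u.B 1 ρ e.1 := by
        rw [rd_one]; exact mul_nonneg (Nat.cast_nonneg _) (hni.rad.pos _).le
      have r2 : 0 ≤ rd u'.B 1 ρ e.2 := by
        rw [rd_one]; exact mul_nonneg (Nat.cast_nonneg _) (hni.rad.pos _).le
      have h3 := Crest.Agent.R4.AvgItem710.pbd_le (θ := (u.B : ℝ) / (1:ℕ) * D.γ)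
        (θ' := (u'.B : ℝ) / (1:ℕ) * D.γ)
        (w := e.1 / u.A) (M := s.M) (w' := e.2 / u'.A) (M' := s.M') r1 r2 (T := 1) (by norm_num)
        (show Dq ρ s.M u.B u.A 1 s.M' u'.B u'.A 1 e ≤ 1 by linarith [hhalf e he])
      refine h1.trans (h3.trans (le_of_eq ?_))
      have e6 : (4 * (1:ℝ) + 2) = 6 := by norm_num
      rw [e6]
      rfl)
  have xX : ∀ (b pr : ℕ) (S : Finset ℕ), (∀ q ∈ S, 1 ≤ CL * Real.log p * tq (q / pr)) →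
      ∑ q ∈ S, rd b 1 ρ q ≤ CL * Real.log p * ∑ q ∈ S, rd b 1 ρ q * tq (q / pr) := by
    intro b pr S hS
    rw [Finset.mul_sum]
    refine Finset.sum_le_sum fun q hq => ?_
    have h1 : 0 ≤ rd b 1 ρ q := by
      rw [rd_one]
      exact mul_nonneg (Nat.cast_nonneg _) (hni.rad.pos q).le
    calc rd b 1 ρ q = rd b 1 ρ q * 1 := (mul_one _).symm
      _ ≤ rd b 1 ρ q * (CL * Real.log p * tq (q / pr)) := mul_le_mul_of_nonneg_left (hS q hq) h1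
      _ = _ := by ring
  have x0 : ∀ (b : ℕ) (S : Finset ℕ), 0 ≤ ∑ q ∈ S, rd b 1 ρ q := fun b S =>
    Finset.sum_nonneg fun q _ => by
      rw [rd_one]
      exact mul_nonneg (Nat.cast_nonneg _) (hni.rad.pos q).le
  have mL1 := (xX u.B u.A _ lgL).trans (mul_le_mul_of_nonneg_left
    (rad_le_mass hni.ab h.L hni.c0 hL.ph hL.mean hni.full hL.il (mnn _ okL)) logp)
  have mR1 := (xX u'.B u'.A _ lgR).trans (mul_le_mul_of_nonneg_left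
    (rad_le_mass hni.ab h.R hni.c0 hR.ph hR.mean hni.full hR.il (mnn _ okR)) logp)
  have hiL : 2 * (u.c * Ws W τ.items) ≤ (Real.log p)^C2 := by
    have h1 := hhi (tp τ) top1.2.1 htp
    have h2 := top1.1
    linarith
  have hiR : 2 * (u'.c * Ws W τ'.items) ≤ (Real.log p)^C2 := by
    have h1 := hhi (tp τ') top2.2.1 htp'
    have h2 := top2.1
    linarith
  have mL2 := (xX u.B u.A _ lgL).trans (mul_le_mul_of_nonneg_left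
    ((rad_le_raw (D := D) (ρ := ρ) hL.node hL.ms hni.rad.pos hni.W0 hni.Wρ s.A).trans hiL) logp)
  have mR2 := (xX u'.B u'.A _ lgR).trans (mul_le_mul_of_nonneg_left
    ((rad_le_raw (D := D) (ρ := ρ) hR.node hR.ms hni.rad.pos hni.W0 hni.Wρ s.A').trans hiR) logp)
  exact ff_num2G (L0 := CL * Real.log p * (1/c₀)) (H := CL * Real.log p * (Real.log p)^C2)
    (x0 _ _) (x0 _ _) nΦ nΦ' (mul_nonneg logp (by have := hni.c0; positivity))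
    (mL1.trans (le_of_eq (by ring))) (mR1.trans (le_of_eq (by ring))) mL2 mR2
    (by have := (KH_pos 1 0 eps1).le; positivity) (ff_num hsc hsf hp hCL hni.c0 hY hYp) main

/-- the `[F]` pairs of a stopped state: payable (with the factor `Y` = previous column) or named by `Qf` -/
def FSY (D : Par Λ κ) (ρ : ℕ → ℝ) (n : ℕ) (Y : ℝ) (s : St Λ κ) (b pr : ℕ) (t : IT) (b' pr' : ℕ)
    (t' : IT) (Qf : ℕ × ℕ → Prop) : Prop :=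
  ∀ e : ℕ × ℕ, e.1 ∈ t.items → e.2 ∈ t'.items → Dq ρ s.M b pr 1 s.M' b' pr' 1 e ≤ 1/2^n →
    0 < D.iF s.R (D.uA s.M b pr t s.A 1) (D.uA s.M' b' pr' t' s.A' 1) e →
    FSI D.γ ρ n s.M b pr 1 s.M' b' pr' 1 e →
    1 < 2 * (Y * ((rf (e.1 / pr) s.M : ℝ) * rf (e.2 / pr') s.M'))^10 *
      Dq ρ s.M b pr 1 s.M' b' pr' 1 e ∨ Qf e

/-- a stop is only allowed outside of chains and if the one-sided columns are heavy -/
def StopOk (s : St Λ κ) : Prop :=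
  ¬ s.p ∣ s.M ∧ ¬ s.p ∣ s.M' ∧
    (s.p:ℝ)^(-(1/3):ℝ) ≤ ∑ l ∈ s.M'.primeFactors ∪ s.M.primeFactors, 1/(l:ℝ)

open Classical in
/-- **STOP at a state, final form** -/
theorem stop_state2 (hst : StopCls2 N0) (hsc : SC N0 CL C2 (c₀/2) p₁) (hsf : SF CL p₁) {p n G : ℕ}
    {T Ch e₃ Y : ℝ} {Qf : ℕ × ℕ → Prop}
    (hni : NI D ρ Al P W C1 c₀ p)
    {u u' : NS} {τ τ' : IT} (hl : ¬ isL τ) (hl' : ¬ isL τ')
    (h : StI D sp s u.B u.A τ u'.B u'.A τ') (hG : 0 < G)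
    (hL : NSd D Al P W CL c₀ p G s.M u τ s.A) (hR : NSd D Al P W CL c₀ p G s.M' u' τ' s.A')
    (hCL : 0 ≤ CL) (hhi : ∀ k : ℕ, P.p0 < k → k ≤ p → 2 * P.hi k ≤ (Real.log p)^C2)
    (hp : p₁ ≤ p) (htp : tp τ ≤ p) (htp' : tp τ' ≤ p) (hpM : ¬ p ∣ s.M) (hpM' : ¬ p ∣ s.M')
    (hn : n = ⌊100 * (p * ((p:ℝ)^(-(1/3):ℝ)/4)) / Real.log 2⌋₊)
    (hs : ∑ l ∈ s.M.primeFactors, (l:ℝ)^(-(11/12):ℝ) ≤ 1)
    (hs' : ∑ l ∈ s.M'.primeFactors, (l:ℝ)^(-(11/12):ℝ) ≤ 1)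
    (hU : UpP U Al p u τ) (hU' : UpP U Al p u' τ')
    (hUt : ∀ q ∈ Al, ∑ l ∈ (U q).filter (fun l : ℕ => p < l), (1 : ℝ) / l ≤ (p:ℝ) ^ (-(1 / 2 : ℝ)))
    (hstop : (p:ℝ)^(-(1/3):ℝ) ≤ ∑ l ∈ s.M'.primeFactors ∪ s.M.primeFactors, 1/(l:ℝ))
    (hT1 : 1 ≤ T) (hT : T ≤ Real.exp (p * ((p:ℝ)^(-(1/3):ℝ)/4)/20))
    (hY : 1 ≤ Y) (hYp : Y ≤ Real.exp (p * ((p:ℝ)^(-(1/3):ℝ)/4)))
    (hFS : FSY D ρ n Y s u.B u.A τ u'.B u'.A τ' Qf)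
    (hCh : 0 ≤ Ch) (he₃ : 0 ≤ e₃) (he : e₃ * (CL * Real.log p * (1/c₀))^2 ≤ 1)
    (hhigh : ∑ e ∈ (Qi D Al τ s.A ×ˢ Qi D Al τ' s.A').filter (fun e =>
        T < Dq ρ s.M u.B u.A 1 s.M' u'.B u'.A 1 e),
        D.iF s.R (D.uA s.M u.B u.A τ s.A 1) (D.uA s.M' u'.B u'.A τ' s.A' 1) e ≤
      Ch * ((∑ j ∈ s.A, mI s.t j) * ∑ j ∈ s.A', mI s.t' j) +
      e₃ * ((∑ q ∈ Qi D Al τ s.A, u.B * ρ q) * ∑ q ∈ Qi D Al τ' s.A', u'.B * ρ q))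
    {ν ν' : ℝ} (hν : 0 ≤ ν) (hν' : 0 ≤ ν') :
    Qs s ≤ (Ch + 2) * Lh (∑ j ∈ s.A, mI s.t j) ν (∑ j ∈ s.A', mI s.t' j) ν' +
      ∑ e ∈ (Qi D Al τ s.A ×ˢ Qi D Al τ' s.A').filter (fun e =>
        0 < D.iF s.R (D.uA s.M u.B u.A τ s.A 1) (D.uA s.M' u'.B u'.A τ' s.A' 1) e ∧
        (Dq ρ s.M u.B u.A 1 s.M' u'.B u'.A 1 e ≤ 1/2^n ∧ Qf e)),
        D.iF s.R (D.uA s.M u.B u.A τ s.A 1) (D.uA s.M' u'.B u'.A τ' s.A' 1) e := by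
  classical
  set F : ℕ × ℕ → ℝ := D.iF s.R (D.uA s.M u.B u.A τ s.A 1) (D.uA s.M' u'.B u'.A τ' s.A' 1) with hFdef
  have one_le : ∀ O : Finset ℕ, (∀ l ∈ O, l.Prime) → ∑ l ∈ O, (l:ℝ)^(-(11/12):ℝ) ≤ 1 →
      ∑ l ∈ O, 1/(l:ℝ) ≤ 1 := by
    intro O hO h1
    refine (Finset.sum_le_sum fun l hl => ?_).trans h1
    have h2 : (1:ℝ) ≤ l := by exact_mod_cast (hO l hl).one_lt.le
    rw [one_div, ← Real.rpow_neg_one]
    exact Real.rpow_le_rpow_of_exponent_le h2 (by norm_num)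
  have key := stop_state hst hsc hni hl hl' h hG hL hR hCL hhi hp htp htp' hpM hpM' hn
    (one_le _ (fun l hl => Nat.prime_of_mem_primeFactors hl) hs)
    (one_le _ (fun l hl => Nat.prime_of_mem_primeFactors hl) hs') hU hU' hUt hstop hT1 hT hCh he₃
    he hhigh hν hν'
  have hn1 : 1 ≤ n := by
    have hlog2 : 0 < Real.log 2 := Real.log_pos (by norm_num)
    have hst0 := hsc.st p hp
    have hp3 : 3 ≤ p := hsc.one.trans hp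
    have hpp1 : (1:ℝ) ≤ p := by exact_mod_cast (by omega : 1 ≤ p)
    have hs1 : 1 ≤ Real.sqrt p := Real.one_le_sqrt.2 hpp1
    rw [hn]
    apply Nat.le_floor
    rw [Nat.cast_one, le_div_iff₀ hlog2]
    have := Real.log_two_lt_d9
    nlinarith
  set E0 := (Qi D Al τ s.A ×ˢ Qi D Al τ' s.A').filter (fun e => 0 < F e ∧
        (Dq ρ s.M u.B u.A 1 s.M' u'.B u'.A 1 e ≤ 1/2^n ∧
          FSI D.γ ρ n s.M u.B u.A 1 s.M' u'.B u'.A 1 e)) with hE0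
  set E1 := E0.filter (fun e => 1 < 2 * (Y * ((rf (e.1 / u.A) s.M : ℝ) * rf (e.2 / u'.A) s.M'))^10 *
      Dq ρ s.M u.B u.A 1 s.M' u'.B u'.A 1 e) with hE1
  have hsub : E1 ⊆ Qi D Al τ s.A ×ˢ Qi D Al τ' s.A' := fun e he =>
    (Finset.mem_filter.1 (Finset.mem_filter.1 he).1).1
  have ff := ff_state hsc hsf hni hl hl' h hL hR hCL hhi hp htp htp' hpM hpM' hn1 hs hs' hU hU'
    hUt hstop hY hYp E1 hsub (fun e he => (Finset.mem_filter.1 (Finset.mem_filter.1 he).1).2.2.1)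
    (fun e he => (Finset.mem_filter.1 he).2)
  have split : ∑ e ∈ E0, F e ≤ ∑ e ∈ E1, F e +
      ∑ e ∈ (Qi D Al τ s.A ×ˢ Qi D Al τ' s.A').filter (fun e => 0 < F e ∧
        (Dq ρ s.M u.B u.A 1 s.M' u'.B u'.A 1 e ≤ 1/2^n ∧ Qf e)), F e := by
    rw [← Finset.sum_filter_add_sum_filter_not E0 (fun e => 1 < 2 * (Y *
      ((rf (e.1 / u.A) s.M : ℝ) * rf (e.2 / u'.A) s.M'))^10 *
      Dq ρ s.M u.B u.A 1 s.M' u'.B u'.A 1 e)]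
    refine add_le_add le_rfl ?_
    refine Finset.sum_le_sum_of_subset_of_nonneg ?_ fun e he _ => (Finset.mem_filter.1 he).2.1.le
    intro e he
    obtain ⟨h1, h2⟩ := Finset.mem_filter.1 he
    obtain ⟨h3, h4, h5, h6⟩ := Finset.mem_filter.1 h1
    obtain ⟨k1, k2⟩ := Finset.mem_product.1 h3
    refine Finset.mem_filter.2 ⟨h3, h4, h5, ?_⟩
    rcases hFS e (mem_Qi.1 k1).1 (mem_Qi.1 k2).1 h5 h4 h6 with h7 | h7
    · exact absurd h7 h2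
    · exact h7
  have mnn : ∀ (d : DT Λ κ), d.g.Ok → ∀ j, 0 ≤ mI d j := fun d hd j => by
    unfold mI
    exact I_nonneg fun x => (hd.pb j).nonneg x
  have okL : s.t.g.Ok := by rw [h.L.eq, D.toDT_g]; exact D.toG_Ok h.L.hb h.L.hF h.L.hW
  have okR : s.t'.g.Ok := by rw [h.R.eq, D.toDT_g]; exact D.toG_Ok h.R.hb h.R.hF h.R.hW
  have nΦ : 0 ≤ ∑ j ∈ s.A, mI s.t j := Finset.sum_nonneg fun j _ => mnn _ okL j
  have nΦ' : 0 ≤ ∑ j ∈ s.A', mI s.t' j := Finset.sum_nonneg fun j _ => mnn _ okR j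
  have hLh : ((∑ j ∈ s.A, mI s.t j) + ∑ j ∈ s.A', mI s.t' j) / 2 ≤
      Lh (∑ j ∈ s.A, mI s.t j) ν (∑ j ∈ s.A', mI s.t' j) ν' := by
    unfold Lh
    have a1 := mul_nonneg nΦ nΦ'
    have a2 := mul_nonneg nΦ hν'
    have a3 := mul_nonneg hν nΦ'
    linarith
  have e1 : (Ch + 2) * Lh (∑ j ∈ s.A, mI s.t j) ν (∑ j ∈ s.A', mI s.t' j) ν' =
      (Ch + 1) * Lh (∑ j ∈ s.A, mI s.t j) ν (∑ j ∈ s.A', mI s.t' j) ν' +
      Lh (∑ j ∈ s.A, mI s.t j) ν (∑ j ∈ s.A', mI s.t' j) ν' := by ring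
  rw [e1]
  linarith

lemma toDT_isLeafP (sp : ℕ → Finset Λ) {b pr : ℕ} {t : IT} (h : isL t) :
    (D.toDT sp b pr t).isLeaf := by
  cases t with
  | leaf S => trivial
  | br p Sp t₁ t₀ => exact absurd h (fun h => h)
  | add b t₁ t₀ => exact absurd h (fun h => h)
  | up b Sp t => exact absurd h (fun h => h)
  | pl b t => exact absurd h (fun h => h)
  | far b t₁ t₀ => exact absurd h (fun h => h)

lemma toDT_topP (sp : ℕ → Finset Λ) {b pr : ℕ} {t : IT} : (D.toDT sp b pr t).top = tp t := by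
  cases t <;> rfl

open Classical in
/-- **the stop symbol vanishes** (up to the named pairs) -/
theorem eSTOP_le2 (hst : StopCls2 N0) (hsc : SC N0 CL C2 (c₀/2) p₁) (hsf : SF CL p₁) {n G : ℕ}
    {T Ch e₃ Y : ℝ} {Qf : ℕ × ℕ → Prop}
    (hni : NI D ρ Al P W C1 c₀ s.p)
    {u u' : NS} {τ τ' : IT}
    (h : StI D sp s u.B u.A τ u'.B u'.A τ') (hG : 0 < G)
    (hL : NSd D Al P W CL c₀ s.p G s.M u τ s.A) (hR : NSd D Al P W CL c₀ s.p G s.M' u' τ' s.A')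
    (hCL : 0 ≤ CL) (hhi : ∀ k : ℕ, P.p0 < k → k ≤ s.p → 2 * P.hi k ≤ (Real.log s.p)^C2)
    (hp : p₁ ≤ s.p)
    (hn : n = ⌊100 * (s.p * ((s.p:ℝ)^(-(1/3):ℝ)/4)) / Real.log 2⌋₊)
    (hs : ∑ l ∈ s.M.primeFactors, (l:ℝ)^(-(11/12):ℝ) ≤ 1)
    (hs' : ∑ l ∈ s.M'.primeFactors, (l:ℝ)^(-(11/12):ℝ) ≤ 1)
    (hU : UpP U Al s.p u τ) (hU' : UpP U Al s.p u' τ')
    (hUt : ∀ q ∈ Al, ∑ l ∈ (U q).filter (fun l : ℕ => s.p < l), (1 : ℝ) / l ≤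
      (s.p:ℝ) ^ (-(1 / 2 : ℝ)))
    {stp : Stp Λ κ} (hstp : stp s → StopOk s)
    (hT1 : 1 ≤ T) (hT : T ≤ Real.exp (s.p * ((s.p:ℝ)^(-(1/3):ℝ)/4)/20))
    (hY : 1 ≤ Y) (hYp : Y ≤ Real.exp (s.p * ((s.p:ℝ)^(-(1/3):ℝ)/4)))
    (hFS : FSY D ρ n Y s u.B u.A τ u'.B u'.A τ' Qf)
    (hCh : 0 ≤ Ch) (he₃ : 0 ≤ e₃) (he : e₃ * (CL * Real.log s.p * (1/c₀))^2 ≤ 1)
    (hhigh : ∑ e ∈ (Qi D Al τ s.A ×ˢ Qi D Al τ' s.A').filter (fun e =>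
        T < Dq ρ s.M u.B u.A 1 s.M' u'.B u'.A 1 e),
        D.iF s.R (D.uA s.M u.B u.A τ s.A 1) (D.uA s.M' u'.B u'.A τ' s.A' 1) e ≤
      Ch * ((∑ j ∈ s.A, mI s.t j) * ∑ j ∈ s.A', mI s.t' j) +
      e₃ * ((∑ q ∈ Qi D Al τ s.A, u.B * ρ q) * ∑ q ∈ Qi D Al τ' s.A', u'.B * ρ q))
    {μ : TrG Λ κ → Finset Λ → ℝ} {ν : TrG Λ κ → ℝ} {B : ℝ} (hB : Ch + 2 ≤ B)
    (hμ : ∑ j ∈ s.A, mI s.t j ≤ μ s.t.g s.A) (hμ' : ∑ j ∈ s.A', mI s.t' j ≤ μ s.t'.g s.A')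
    (hν : 0 ≤ ν s.t.g) (hν' : 0 ≤ ν s.t'.g) :
    eSTOP stp μ ν B s ≤
      ∑ e ∈ (Qi D Al τ s.A ×ˢ Qi D Al τ' s.A').filter (fun e =>
        0 < D.iF s.R (D.uA s.M u.B u.A τ s.A 1) (D.uA s.M' u'.B u'.A τ' s.A' 1) e ∧
        (Dq ρ s.M u.B u.A 1 s.M' u'.B u'.A 1 e ≤ 1/2^n ∧ Qf e)),
        D.iF s.R (D.uA s.M u.B u.A τ s.A 1) (D.uA s.M' u'.B u'.A τ' s.A' 1) e := by
  have hsum0 : 0 ≤ ∑ e ∈ (Qi D Al τ s.A ×ˢ Qi D Al τ' s.A').filter (fun e =>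
        0 < D.iF s.R (D.uA s.M u.B u.A τ s.A 1) (D.uA s.M' u'.B u'.A τ' s.A' 1) e ∧
        (Dq ρ s.M u.B u.A 1 s.M' u'.B u'.A 1 e ≤ 1/2^n ∧ Qf e)),
        D.iF s.R (D.uA s.M u.B u.A τ s.A 1) (D.uA s.M' u'.B u'.A τ' s.A' 1) e :=
    Finset.sum_nonneg fun e he => (Finset.mem_filter.1 he).2.1.le
  unfold eSTOP
  split_ifs with h1 h2
  · exact hsum0
  swap
  · exact hsum0
  have hl : ¬ isL τ := fun h3 => h1 (Or.inl (by rw [h.L.eq]; exact toDT_isLeafP sp h3))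
  have hl' : ¬ isL τ' := fun h3 => h1 (Or.inr (by rw [h.R.eq]; exact toDT_isLeafP sp h3))
  have htp : tp τ ≤ s.p := by
    unfold St.p
    rw [h.L.eq, toDT_topP]; exact le_max_left _ _
  have htp' : tp τ' ≤ s.p := by
    unfold St.p
    rw [h.R.eq, toDT_topP]; exact le_max_right _ _
  have mnn : ∀ (d : DT Λ κ), d.g.Ok → ∀ j, 0 ≤ mI d j := fun d hd j => by
    unfold mI
    exact I_nonneg fun x => (hd.pb j).nonneg x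
  have okL : s.t.g.Ok := by rw [h.L.eq, D.toDT_g]; exact D.toG_Ok h.L.hb h.L.hF h.L.hW
  have okR : s.t'.g.Ok := by rw [h.R.eq, D.toDT_g]; exact D.toG_Ok h.R.hb h.R.hF h.R.hW
  have nΦ : 0 ≤ ∑ j ∈ s.A, mI s.t j := Finset.sum_nonneg fun j _ => mnn _ okL j
  have nΦ' : 0 ≤ ∑ j ∈ s.A', mI s.t' j := Finset.sum_nonneg fun j _ => mnn _ okR j
  obtain ⟨hpM, hpM', hstop⟩ := hstp h2
  have key := stop_state2 hst hsc hsf hni hl hl' h hG hL hR hCL hhi hp htp htp' hpM hpM' hn hs hs'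
    hU hU' hUt hstop hT1 hT hY hYp hFS hCh he₃ he hhigh hν hν'
  refine max_le hsum0 ?_
  have hmono : (Ch + 2) * Lh (∑ j ∈ s.A, mI s.t j) (ν s.t.g) (∑ j ∈ s.A', mI s.t' j) (ν s.t'.g) ≤
      B * Lh (μ s.t.g s.A) (ν s.t.g) (μ s.t'.g s.A') (ν s.t'.g) := by
    refine mul_le_mul hB ?_ (Lh_nonneg nΦ hν nΦ' hν') (by linarith)
    unfold Lh
    have a1 := mul_le_mul hμ hμ' nΦ' (nΦ.trans hμ)
    have a2 := mul_le_mul_of_nonneg_right hμ hν'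
    have a3 := mul_le_mul_of_nonneg_left hμ' hν
    linarith
  linarith

end state

end Crest.Agent.R4P.StopFF95
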