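import Mathlib
import Crest.Agent.R4.StopCls709

/-!
R4 (S0004), powers pass, helper95: the STOP estimate of helper709 (`stop_final_sqrt`, `stop_final_cls`) with
the error `exp(-Nc/10) (√Z + Z)`, `Z = (Σ R)(Σ R')`: it can be divided by the excess `ex M` of an average
which is not squarefree.
-/

set_option autoImplicit false
open Finset

namespace Crest.Agent.R4P.StopW95

open Crest.Agent.R4.StopAsm709
open Crest.Agent.R4.HVW560 Crest.Agent.R4.HVWX793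
open Crest.Agent.R4.Schur709 Crest.Agent.R4.StopHvw709
open Crest.Agent.R4.ClsS (eps1)
open Crest.Agent.R4.Dich579 (Alt FF Small EPair)
open Crest.Agent.R4

open Classical in
/-- **STOP with numbers**, error `√Z + Z`, `Z` = product of the masses -/
theorem stop_final_lin {Gen : ℝ → ℝ → ℝ → ℕ → ℕ → ℝ → ℝ → Prop} {κ : ℝ} (hGen : DeepHyp Gen κ) (hκ : 0 ≤ κ) :
    ∃ N0 : ℝ, 1 ≤ N0 ∧
    ∀ (T K2 L : ℝ) (n N G : ℕ) (O O' V W : Finset ℕ) (R R' : ℕ → ℝ)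
    (γ γ' : Finset ℕ → ℝ) (F : ℕ × ℕ → ℝ) (c c' : ℝ) (PG PE : ℕ × ℕ → Prop),
    N0 ≤ N → 400 * Real.sqrt N ≤ N * c → 0 ≤ c' → n = ⌊100 * (N * c) / Real.log 2⌋₊ → 0 < G →
    0 ≤ K2 → K2 ≤ 6 * Real.exp (N*c/20) → 0 ≤ L → L^2 ≤ Real.exp (N*c/50) → 1 ≤ T →
    T ≤ Real.exp (N*c/20) →
    (∀ p ∈ O, p.Prime ∧ N ≤ p) → (∀ p ∈ O', p.Prime ∧ N ≤ p) →
    ∑ p ∈ O, 1/(p:ℝ) ≤ 1 → ∑ p ∈ O', 1/(p:ℝ) ≤ 1 →
    (∀ w ∈ V, 0 < w ∧ 0 < R w) → (∀ w ∈ W, 0 < w ∧ 0 < R' w) →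
    (∀ w ∈ V, R w ≤ L * mu O' R w) → (∀ w ∈ W, R' w ≤ L * mu O R' w) →
    (∀ z : ℝ, (N:ℝ) ≤ z → ∀ w ∈ V, Crest.Agent.R4.ClsB.Tame z G (uu O' w)) →
    (∀ z : ℝ, (N:ℝ) ≤ z → ∀ w ∈ W, Crest.Agent.R4.ClsB.Tame z G (uu O w)) →
    (∀ r ∈ W, c ≤ ∑ p ∈ O.filter (fun p => ¬ p ∣ r), 1/(p:ℝ)) →
    (∀ q ∈ V, c' ≤ ∑ p ∈ O'.filter (fun p => ¬ p ∣ q), 1/(p:ℝ)) →
    (∀ e ∈ V ×ˢ W, Dc O O' R R' e ≤ T → F e ≤ K2 * ((R e.1 * R' e.2) / Dc O O' R R' e)) →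
    (∀ e ∈ V ×ˢ W, ¬ CaseA N O O' e → PG e → ∀ t : ℝ, (2:ℝ)^n ≤ t → 1/(2*t) < Dc O O' R R' e →
      Dc O O' R R' e ≤ 1/t → 0 < F e →
      Gen (γ (miss O' e.1)) (γ' (miss O e.2)) t (cof (uu O' e.1) (uu O e.2))
        (cof (uu O e.2) (uu O' e.1)) (Rc O' R e.1) (Rc O R' e.2)) →
    (∀ e ∈ V ×ˢ W, ∀ f ∈ V ×ˢ W, PE e → PE f → miss O e.2 = miss O f.2 → e.1 = f.1 → e.2 = f.2) →
    (∀ e ∈ V ×ˢ W, ∀ f ∈ V ×ˢ W, PE e → PE f → miss O' e.1 = miss O' f.1 → e.2 = f.2 → e.1 = f.1) →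
    ∑ e ∈ V ×ˢ W, F e ≤
      ∑ e ∈ (V ×ˢ W).filter (fun e => T < Dc O O' R R' e), F e +
      Real.exp (-(N*c/10)) * (Real.sqrt ((∑ q ∈ V, R q) * (∑ r ∈ W, R' r)) +
        (∑ q ∈ V, R q) * (∑ r ∈ W, R' r)) +
      ∑ e ∈ (V ×ˢ W).filter (Rest N O O' R R' n PG PE), F e := by
  obtain ⟨C, c0, hC1, hc0, hC⟩ := stop_core2 hGen
  obtain ⟨T0, hT01, hT0⟩ := hC c0 hc0 le_rfl
  obtain ⟨Y0, hY01, hY0⟩ := numbers (KH 1 0 eps1) C (KH_pos 1 0 eps1).le (by linarith)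
  set S0 : ℝ := 1 + Real.log T0 + Y0 + 16/c0^2 with hS0
  have hlT0 : 0 ≤ Real.log T0 := Real.log_nonneg hT01
  have h16 : 0 ≤ 16/c0^2 := by positivity
  have hS01 : 1 ≤ S0 := by rw [hS0]; linarith
  refine ⟨S0^2, one_le_pow₀ hS01, ?_⟩
  intro T K2 L n N G O O' V W R R' γ γ' F c c' PG PE hN hNc hc'0 hn hG hK20 hK2 hL0 hL hT1 hT hO hO' hsO hsO'
    hV hW hLV hLW hVt hWt hc hc' hsmall hgen hm1 hm2
  have hs : S0 ≤ Real.sqrt N := Real.le_sqrt_of_sq_le hN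
  have hs1 : 1 ≤ Real.sqrt N := hS01.trans hs
  set s := Real.sqrt (N:ℝ) with hsd
  set y : ℝ := N * c with hy
  have hss : s * s = N := Real.mul_self_sqrt (Nat.cast_nonneg N)
  have hyY : Y0 ≤ y := by
    have : Y0 ≤ S0 := by rw [hS0]; linarith
    linarith
  have hy0 : 0 < y := by linarith
  have hl2 : 0 < Real.log 2 := Real.log_pos (by norm_num)
  have hl2' : Real.log 2 < 1 := by have := Real.log_two_lt_d9; linarith
  have hn1 : (n:ℝ) ≤ 100 * y / Real.log 2 := by rw [hn]; exact Nat.floor_le (by positivity)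
  have hn1' : (n:ℝ) * Real.log 2 ≤ 100 * y := by rwa [le_div_iff₀ hl2] at hn1
  have hn2 : 100 * y / Real.log 2 < n + 1 := by rw [hn]; exact Nat.lt_floor_add_one _
  have hn2' : 100 * y < (n + 1) * Real.log 2 := by rwa [div_lt_iff₀ hl2] at hn2
  have h2n : Real.exp (99 * y) ≤ (2:ℝ)^n := by
    have : (2:ℝ)^n = Real.exp (n * Real.log 2) := by
      rw [Real.exp_nat_mul, Real.exp_log (by norm_num)]
    rw [this]
    apply Real.exp_le_exp.2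
    nlinarith
  have h2ns : Real.exp s ≤ (2:ℝ)^n := (Real.exp_le_exp.2 (by linarith)).trans h2n
  have hT0n : T0 ≤ (2:ℝ)^n := by
    refine le_trans ?_ h2ns
    rw [← Real.log_le_iff_le_exp (by linarith)]
    have : Real.log T0 ≤ S0 := by rw [hS0]; linarith
    linarith
  have hXn : (N:ℝ) ≤ Real.exp (((2:ℝ)^n)^c0) := by
    have hN0 : (0:ℝ) < N := by nlinarith
    rw [← Real.log_le_iff_le_exp hN0]
    have h1 : Real.log N = 2 * Real.log s := by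
      rw [← hss, Real.log_mul (by linarith) (by linarith)]; ring
    have hs0 : 0 < s := by linarith
    have h2 : Real.log s ≤ 2 * Real.sqrt s := by
      have h3 : Real.sqrt s * Real.sqrt s = s := Real.mul_self_sqrt hs0.le
      have h4 : 0 < Real.sqrt s := Real.sqrt_pos.2 hs0
      have h5 : Real.log s = 2 * Real.log (Real.sqrt s) := by
        conv_lhs => rw [← h3]
        rw [Real.log_mul h4.ne' h4.ne']; ring
      rw [h5]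
      have := Real.log_le_sub_one_of_pos h4
      linarith
    have h6 : 4 * Real.sqrt s ≤ c0 * s := by
      have h7 : 16/c0^2 ≤ s := by
        have : 16/c0^2 ≤ S0 := by rw [hS0]; linarith
        linarith
      have h8 : 4/c0 ≤ Real.sqrt s := by
        apply Real.le_sqrt_of_sq_le
        rw [div_pow]; norm_num; exact h7
      have h3 : Real.sqrt s * Real.sqrt s = s := Real.mul_self_sqrt hs0.le
      have h9 : 4 ≤ Real.sqrt s * c0 := by rwa [div_le_iff₀ hc0] at h8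
      have h10 : 0 ≤ Real.sqrt s := Real.sqrt_nonneg s
      nlinarith
    have h11 : c0 * s ≤ Real.exp (c0 * s) := by
      have := Real.add_one_le_exp (c0 * s); linarith
    have h12 : Real.exp (c0 * s) ≤ ((2:ℝ)^n)^c0 := by
      calc Real.exp (c0 * s) = (Real.exp s)^c0 := by rw [← Real.exp_mul]; ring_nf
        _ ≤ _ := Real.rpow_le_rpow (Real.exp_nonneg _) h2ns hc0.le
    rw [h1]
    linarith
  have main := hT0 T N K2 L n N G O O' V W R R' γ γ' F c c' PG PE hT0n hXn hG hK20 hT1 hO hO' hV hW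
    hLV hLW hVt hWt hc hc' hsmall hgen hm1 hm2
  set a : ℝ := 3 * (∑ p ∈ O, 1/(p:ℝ)) + 3 * (∑ p ∈ O', 1/(p:ℝ)) - N * c' with ha
  have hNc' : 0 ≤ (N:ℝ) * c' := mul_nonneg (Nat.cast_nonneg _) hc'0
  have ha6 : a ≤ 6 := by rw [ha]; linarith
  set a' : ℝ := 3 * (∑ p ∈ O, 1/(p:ℝ)) + 3 * (∑ p ∈ O', 1/(p:ℝ)) with ha'
  have ha6' : a' ≤ 6 := by rw [ha']; linarith
  have e20 : Real.exp (N*c/20) = Real.exp (y/20) := rfl
  obtain ⟨n1, -, -⟩ := hY0 y s K2 L T κ a' n hyY (by linarith) hNc hK20 hK2 hL0 hL hT1 hT hκ ha6' hn1'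
  obtain ⟨-, n2, n3⟩ := hY0 y s K2 L T κ a n hyY (by linarith) hNc hK20 hK2 hL0 hL hT1 hT hκ ha6 hn1'
  set SR := ∑ q ∈ V, R q with hSR
  set SR' := ∑ r ∈ W, R' r with hSR'
  have hSR0 : 0 ≤ SR := Finset.sum_nonneg fun q hq => (hV q hq).2.le
  have hSR0' : 0 ≤ SR' := Finset.sum_nonneg fun q hq => (hW q hq).2.le
  have hX0 : 0 ≤ SR * SR' := mul_nonneg hSR0 hSR0'
  set Q : ℝ := Real.sqrt (SR * SR') + SR * SR' with hQ
  have hmumu : (∑ q ∈ V, mu O' R q) * (∑ r ∈ W, mu O R' r) ≤ SR * SR' := by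
    exact mul_le_mul (Finset.sum_le_sum fun q hq => mu_le (hV q hq).2.le)
      (Finset.sum_le_sum fun q hq => mu_le (hW q hq).2.le)
      (Finset.sum_nonneg fun q hq => mu_nonneg (hW q hq).2.le) hSR0
  have hmu0 : 0 ≤ (∑ q ∈ V, mu O' R q) * (∑ r ∈ W, mu O R' r) :=
    mul_nonneg (Finset.sum_nonneg fun q hq => mu_nonneg (hV q hq).2.le)
      (Finset.sum_nonneg fun q hq => mu_nonneg (hW q hq).2.le)
  have powQ : ∀ z e : ℝ, 0 ≤ z → z ≤ SR * SR' → 1/2 ≤ e → e ≤ 1 → z^e ≤ Q := by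
    intro z e hz hzQ he he1
    have h0 : z^e ≤ (SR * SR')^e := Real.rpow_le_rpow hz hzQ (by linarith)
    refine h0.trans ?_
    rw [hQ, Real.sqrt_eq_rpow]
    rcases hX0.eq_or_lt with h1 | h1
    · rw [← h1, Real.zero_rpow (by linarith)]
      have : (0:ℝ) ≤ (0:ℝ)^(1/2:ℝ) := Real.rpow_nonneg le_rfl _
      linarith
    · rcases le_total (SR * SR') 1 with h2 | h2
      · have h3 : (SR * SR')^e ≤ (SR * SR')^(1/2:ℝ) := Real.rpow_le_rpow_of_exponent_ge h1 h2 he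
        linarith
      · have h3 : (SR * SR')^e ≤ (SR * SR')^(1:ℝ) := Real.rpow_le_rpow_of_exponent_le h2 he1
        rw [Real.rpow_one] at h3
        have : (0:ℝ) ≤ (SR * SR')^(1/2:ℝ) := Real.rpow_nonneg h1.le _
        linarith
  have hsqrt : Real.sqrt SR * Real.sqrt SR' ≤ Q := by
    rw [← Real.sqrt_mul hSR0, Real.sqrt_eq_rpow]
    exact powQ _ _ hX0 le_rfl (by norm_num) (by norm_num)
  have he1 : eps1 = 1/1000 := rfl
  have t1 : K2 * (Real.exp (16 * s) *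
        Real.exp ((-(N * c) + 3 * ∑ p ∈ O, 1/(p:ℝ) + 3 * ∑ p ∈ O', 1/(p:ℝ))/2) *
        (Real.sqrt SR * Real.sqrt SR')) ≤ Real.exp (-(y/10))/3 * Q := by
    have e1 : (-(N * c) + 3 * ∑ p ∈ O, 1/(p:ℝ) + 3 * ∑ p ∈ O', 1/(p:ℝ))/2 = (-y + a')/2 := by
      rw [hy, ha']; ring
    rw [e1]
    calc K2 * (Real.exp (16 * s) * Real.exp ((-y + a')/2) * (Real.sqrt SR * Real.sqrt SR'))
        = (K2 * (Real.exp (16 * s) * Real.exp ((-y + a')/2))) * (Real.sqrt SR * Real.sqrt SR') := by ring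
      _ ≤ _ := mul_le_mul n1 hsqrt (by positivity) (by positivity)
  have t2 : K2 * L^2 * (KH 1 0 eps1 * T^(1-2*eps1) + n * (2 * KH 1 0 eps1 * (2:ℝ)^(2*eps1*n)) +
        C * ((2:ℝ)^n)^(-κ)) *
        (Real.exp ((1/2-eps1) * (-(N*c) + 3 * (∑ p ∈ O, 1/(p:ℝ)) + (-(N*c') + 3 * ∑ p ∈ O', 1/(p:ℝ)))) *
        ((∑ q ∈ V, mu O' R q) * (∑ r ∈ W, mu O R' r))^(1/2+eps1)) ≤ Real.exp (-(y/10))/3 * Q := by
    have e1 : -(N*c) + 3 * (∑ p ∈ O, 1/(p:ℝ)) + (-(N*c') + 3 * ∑ p ∈ O', 1/(p:ℝ)) = -y + a := by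
      rw [hy, ha]; ring
    rw [e1, ← mul_assoc]
    exact mul_le_mul n2 (powQ _ _ hmu0 hmumu (by rw [he1]; norm_num) (by rw [he1]; norm_num))
      (Real.rpow_nonneg hmu0 _) (by positivity)
  have t3 : K2 * Real.exp ((1/2) * (-(N*c) + 3 * (∑ p ∈ O, 1/(p:ℝ)) + (-(N*c') + 3 * ∑ p ∈ O', 1/(p:ℝ)))) *
        (SR * SR')^(1/2:ℝ) ≤ Real.exp (-(y/10))/3 * Q := by
    have e1 : -(N*c) + 3 * (∑ p ∈ O, 1/(p:ℝ)) + (-(N*c') + 3 * ∑ p ∈ O', 1/(p:ℝ)) = -y + a := by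
      rw [hy, ha]; ring
    rw [e1]
    exact mul_le_mul n3 (powQ _ _ hX0 le_rfl (by norm_num) (by norm_num))
      (Real.rpow_nonneg (mul_nonneg hSR0 hSR0') _) (by positivity)
  have e10 : Real.exp (-(N*c/10)) * Q = Real.exp (-(y/10))/3 * Q + Real.exp (-(y/10))/3 * Q +
      Real.exp (-(y/10))/3 * Q := by
    rw [hy]; ring
  rw [e10]
  linarith

open Classical in
/-- **STOP, classified**: the rest is the sum over the `[F]` pairs with `D ≤ 2^{-n}` (not case A). -/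
theorem stop_final_cls_lin : ∃ N0 : ℝ, 1 ≤ N0 ∧
    ∀ (T K2 L : ℝ) (n N G : ℕ) (O O' V W : Finset ℕ) (R R' : ℕ → ℝ)
    (γ γ' : Finset ℕ → ℝ) (F : ℕ × ℕ → ℝ) (c c' : ℝ),
    N0 ≤ N → 400 * Real.sqrt N ≤ N * c → 0 ≤ c' → n = ⌊100 * (N * c) / Real.log 2⌋₊ → 0 < G →
    0 ≤ K2 → K2 ≤ 6 * Real.exp (N*c/20) → 0 ≤ L → L^2 ≤ Real.exp (N*c/50) → 1 ≤ T →
    T ≤ Real.exp (N*c/20) →
    (∀ p ∈ O, p.Prime ∧ N ≤ p) → (∀ p ∈ O', p.Prime ∧ N ≤ p) →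
    ∑ p ∈ O, 1/(p:ℝ) ≤ 1 → ∑ p ∈ O', 1/(p:ℝ) ≤ 1 →
    (∀ w ∈ V, 0 < w ∧ 0 < R w) → (∀ w ∈ W, 0 < w ∧ 0 < R' w) →
    (∀ w ∈ V, R w ≤ L * mu O' R w) → (∀ w ∈ W, R' w ≤ L * mu O R' w) →
    (∀ z : ℝ, (N:ℝ) ≤ z → ∀ w ∈ V, Crest.Agent.R4.ClsB.Tame z G (uu O' w)) →
    (∀ z : ℝ, (N:ℝ) ≤ z → ∀ w ∈ W, Crest.Agent.R4.ClsB.Tame z G (uu O w)) →
    (∀ r ∈ W, c ≤ ∑ p ∈ O.filter (fun p => ¬ p ∣ r), 1/(p:ℝ)) →
    (∀ q ∈ V, c' ≤ ∑ p ∈ O'.filter (fun p => ¬ p ∣ q), 1/(p:ℝ)) →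
    (∀ e ∈ V ×ˢ W, Dc O O' R R' e ≤ T → F e ≤ K2 * ((R e.1 * R' e.2) / Dc O O' R R' e)) →
    (∀ e ∈ V ×ˢ W, ¬ CaseA N O O' e → Dc O O' R R' e ≤ 1/2^n → 0 < F e →
      RelG O O' R R' γ γ' e) →
    ∑ e ∈ V ×ˢ W, F e ≤
      ∑ e ∈ (V ×ˢ W).filter (fun e => T < Dc O O' R R' e), F e +
      Real.exp (-(N*c/10)) * (Real.sqrt ((∑ q ∈ V, R q) * (∑ r ∈ W, R' r)) +
        (∑ q ∈ V, R q) * (∑ r ∈ W, R' r)) +
      ∑ e ∈ (V ×ˢ W).filter (fun e => 0 < F e ∧ (¬ CaseA N O O' e ∧ Dc O O' R R' e ≤ 1/2^n ∧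
        FG O O' R R' γ γ' n e)), F e := by
  obtain ⟨N0, hN0, h0⟩ := stop_final_lin ClsT2.deepHyp_Gen3 (by norm_num)
  refine ⟨N0, hN0, ?_⟩
  intro T K2 L n N G O O' V W R R' γ γ' F c c' hN hNc hc'0 hn hG hK20 hK2 hL0 hL hT1 hT hO hO' hsO hsO'
    hV hW hLV hLW hVt hWt hc hc' hsmall hrel
  have hOp : ∀ p ∈ O, p.Prime := fun q hq => (hO q hq).1
  have hOp' : ∀ p ∈ O', p.Prime := fun q hq => (hO' q hq).1
  have hn400 : 400 ≤ n := by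
    have hl2 : 0 < Real.log 2 := Real.log_pos (by norm_num)
    have hl2' : Real.log 2 < 1 := by have := Real.log_two_lt_d9; linarith
    have h1 : 1 ≤ Real.sqrt N := Real.one_le_sqrt.2 (hN0.trans hN)
    rw [hn]
    apply Nat.le_floor
    rw [le_div_iff₀ hl2]
    push_cast
    nlinarith
  have main := h0 T K2 L n N G O O' V W R R' γ γ' F c c' (AltG O O' R R' γ γ' n) (EG O O' R R' γ γ')
    hN hNc hc'0 hn hG hK20 hK2 hL0 hL hT1 hT hO hO' hsO hsO' hV hW hLV hLW hVt hWt hc hc' hsmall (by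
      intro e he hnA hA t ht h1 h2 hF
      obtain ⟨m, m', hm⟩ := hrel e he hnA (inv_le_of ht h2) hF
      exact gen3_of hm hA ht h1 h2)
    (fun e _ f _ he hf hm h1 => EG_partner hOp hOp' he hf hm h1)
    (fun e _ f _ he hf hm h1 => EG_partner' hOp hOp' he hf hm h1)
  refine main.trans (add_le_add le_rfl ?_)
  apply rest_le
  intro e he hQ hF
  have h := Finset.mem_product.1 he
  obtain ⟨hnA, hD, hnG, hnE⟩ := hQ
  refine ⟨hnA, hD, ?_⟩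
  rcases classify_G hn400 hOp hOp' (hV _ h.1) (hW _ h.2) (hrel e he hnA hD hF) with h1 | h1 | h1
  · exact absurd h1 hnG
  · exact absurd h1 hnE
  · exact h1


end Crest.Agent.R4P.StopW95
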