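import Crest.Agent.R4.StopW95
import Crest.Agent.R4P.StopFin95
import Crest.Agent.R4P.NMG800

/-!
R4 powers pass (S0004), helper95: **STOP for item pairs, averages which are not squarefree**
(tree-free; `Once M w`: no prime of `M` divides the item `w` twice).

* `StopCls2` : the statement of `stop_final_cls_lin` for a fixed `N0`.
* `stop_itemsLG`, `stop_itemsRG` : twins of `stop_itemsL`, `stop_itemsR` of `R4/StopW95`.
-/

set_option autoImplicit false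
set_option linter.unusedSectionVars false
set_option linter.unusedVariables false
open Finset

namespace Crest.Agent.R4P.StopW95

open Crest.Agent.R4.HVW560 Crest.Agent.R4.Schur709 Crest.Agent.R4.StopHvw709
open Crest.Agent.R4.StopAsm709 Crest.Agent.R4.AvgItem710 Crest.Agent.R4.DeepSt579
open Crest.Agent.R4P.Rad800 Crest.Agent.R4P.NMW710
open Crest.Agent.R4

export Crest.Agent.R4.StopW95 (Dp_swap Da_swap Rel_swap Ra_swap pbd_swap Dq_swap FS_swap FSI_swap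
  sum_swap SC SC.mono exists_SC rd_one miss_mass OU)

open Classical in
/-- the statement of `stop_final_cls_lin` for a fixed constant -/
def StopCls2 (N0 : ℝ) : Prop :=
    ∀ (T K2 L : ℝ) (n N G : ℕ) (O O' V W : Finset ℕ) (R R' : ℕ → ℝ)
    (γ γ' : Finset ℕ → ℝ) (F : ℕ × ℕ → ℝ) (c c' : ℝ),
    N0 ≤ N → 400 * Real.sqrt N ≤ N * c → 0 ≤ c' → n = ⌊100 * (N * c) / Real.log 2⌋₊ → 0 < G →
    0 ≤ K2 → K2 ≤ 6 * Real.exp (N*c/20) → 0 ≤ L → L^2 ≤ Real.exp (N*c/50) → 1 ≤ T →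
    T ≤ Real.exp (N*c/20) →
    (∀ p ∈ O, p.Prime ∧ N ≤ p) → (∀ p ∈ O', p.Prime ∧ N ≤ p) →
    ∑ p ∈ O, 1/(p:ℝ) ≤ 1 → ∑ p ∈ O', 1/(p:ℝ) ≤ 1 →
    (∀ w ∈ V, 0 < w ∧ 0 < R w) → (∀ w ∈ W, 0 < w ∧ 0 < R' w) →
    (∀ w ∈ V, R w ≤ L * mu O' R w) → (∀ w ∈ W, R' w ≤ L * mu O R' w) →
    (∀ z : ℝ, (N:ℝ) ≤ z → ∀ w ∈ V, Crest.Agent.R4.ClsB.Tame z G (uu O' w)) →
    (∀ z : ℝ, (N:ℝ) ≤ z → ∀ w ∈ W, Crest.Agent.R4.ClsB.Tame z G (uu O w)) →
    (∀ r ∈ W, c ≤ ∑ p ∈ O.filter (fun p => ¬ p ∣ r), 1/(p:ℝ)) →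
    (∀ q ∈ V, c' ≤ ∑ p ∈ O'.filter (fun p => ¬ p ∣ q), 1/(p:ℝ)) →
    (∀ e ∈ V ×ˢ W, Dc O O' R R' e ≤ T → F e ≤ K2 * ((R e.1 * R' e.2) / Dc O O' R R' e)) →
    (∀ e ∈ V ×ˢ W, ¬ CaseA N O O' e → Dc O O' R R' e ≤ 1/2^n → 0 < F e →
      RelG O O' R R' γ γ' e) →
    ∑ e ∈ V ×ˢ W, F e ≤
      ∑ e ∈ (V ×ˢ W).filter (fun e => T < Dc O O' R R' e), F e +
      Real.exp (-(N*c/10)) * (Real.sqrt ((∑ q ∈ V, R q) * (∑ r ∈ W, R' r)) +
        (∑ q ∈ V, R q) * (∑ r ∈ W, R' r)) +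
      ∑ e ∈ (V ×ˢ W).filter (fun e => 0 < F e ∧ (¬ CaseA N O O' e ∧ Dc O O' R R' e ≤ 1/2^n ∧
        FG O O' R R' γ γ' n e)), F e

theorem exists_StopCls2 : ∃ N0 : ℝ, 1 ≤ N0 ∧ StopCls2 N0 := stop_final_cls_lin

open Classical in
/-- **STOP for item pairs**, the right items miss the mass `cc` of the one-sided primes -/
theorem stop_itemsLG {N0 : ℝ}
    (hst : StopCls2 N0) {γ : ℝ} {ρ : ℕ → ℝ} {F : ℕ × ℕ → ℝ} {T L cc : ℝ}
    {n N G M b pr c M' b' pr' c' : ℕ} {V W : Finset ℕ}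
    (hN : N0 ≤ N) (hNc : 400 * Real.sqrt N ≤ N * cc) (hn : n = ⌊100 * (N * cc) / Real.log 2⌋₊)
    (hn1 : 1 ≤ n) (hG : 0 < G) (hT1 : 1 ≤ T) (hT : T ≤ Real.exp (N*cc/20)) (hL0 : 0 ≤ L)
    (hL : L^2 ≤ Real.exp (N*cc/50))
    (hρ : ∀ q, 0 < ρ q) (hb : 0 < b) (hc : 0 < c) (hb' : 0 < b') (hc' : 0 < c')
    (hM : 0 < M) (hM' : 0 < M')
    (hMp : ∀ l : ℕ, l.Prime → l ∣ M → N ≤ l) (hMp' : ∀ l : ℕ, l.Prime → l ∣ M' → N ≤ l)
    (hs : ∑ l ∈ M.primeFactors, 1/(l:ℝ) ≤ 1) (hs' : ∑ l ∈ M'.primeFactors, 1/(l:ℝ) ≤ 1)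
    (hV : ∀ q ∈ V, 0 < q ∧ pr ∣ q) (hW : ∀ q ∈ W, 0 < q ∧ pr' ∣ q)
    (oV : ∀ q ∈ V, Once M (q / pr)) (oW : ∀ q ∈ W, Once M' (q / pr'))
    (tV : ∀ z : ℝ, (N:ℝ) ≤ z → ∀ q ∈ V, ClsB.Tame z G (q / pr / M.gcd (q / pr)))
    (tW : ∀ z : ℝ, (N:ℝ) ≤ z → ∀ q ∈ W, ClsB.Tame z G (q / pr' / M'.gcd (q / pr')))
    (lV : ∀ q ∈ V, 1 ≤ L * tq (q / pr / M.gcd (q / pr)))
    (lW : ∀ q ∈ W, 1 ≤ L * tq (q / pr' / M'.gcd (q / pr')))
    (cW : ∀ q ∈ W, cc ≤ ∑ l ∈ M'.primeFactors.filter (fun l => ¬ l ∣ q / pr'), 1/(l:ℝ))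
    (hF : ∀ e ∈ V ×ˢ W, F e ≤ pbd ((b : ℝ) / c * γ) (rd b c ρ e.1) (e.1 / pr) M
      ((b' : ℝ) / c' * γ) (rd b' c' ρ e.2) (e.2 / pr') M') :
    ∑ e ∈ V ×ˢ W, F e ≤
      ∑ e ∈ (V ×ˢ W).filter (fun e => T < Dq ρ M b pr c M' b' pr' c' e), F e +
      Real.exp (-(N*cc/10)) * (Real.sqrt ((∑ q ∈ V, rd b c ρ q) * (∑ q ∈ W, rd b' c' ρ q)) +
        (∑ q ∈ V, rd b c ρ q) * (∑ q ∈ W, rd b' c' ρ q)) +
      ∑ e ∈ (V ×ˢ W).filter (fun e => 0 < F e ∧ (Dq ρ M b pr c M' b' pr' c' e ≤ 1/2^n ∧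
        FSI γ ρ n M b pr c M' b' pr' c' e)), F e := by
  classical
  have hb0 : (0:ℝ) < b := by exact_mod_cast hb
  have hc0' : (0:ℝ) < c := by exact_mod_cast hc
  have hbb0 : (0:ℝ) < b' := by exact_mod_cast hb'
  have hcc0 : (0:ℝ) < c' := by exact_mod_cast hc'
  have hR : ∀ q, 0 < rd b c ρ q := fun q => mul_pos (div_pos hb0 hc0') (hρ q)
  have hR' : ∀ q, 0 < rd b' c' ρ q := fun q => mul_pos (div_pos hbb0 hcc0) (hρ q)
  have hMp0 : 0 < M := hM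
  have hMp0' : 0 < M' := hM'
  have xM : (0:ℝ) < ex M := by exact_mod_cast ex_pos hM
  have xM' : (0:ℝ) < ex M' := by exact_mod_cast ex_pos hM'
  have xM1 : (1:ℝ) ≤ ex M := by exact_mod_cast ex_pos hM
  have xM1' : (1:ℝ) ≤ ex M' := by exact_mod_cast ex_pos hM'
  have hVw : ∀ q ∈ V, 0 < q / pr := fun q hq =>
    Nat.div_pos (Nat.le_of_dvd (hV q hq).1 (hV q hq).2) (Nat.pos_of_dvd_of_pos (hV q hq).2 (hV q hq).1)
  have hWw : ∀ q ∈ W, 0 < q / pr' := fun q hq =>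
    Nat.div_pos (Nat.le_of_dvd (hW q hq).1 (hW q hq).2) (Nat.pos_of_dvd_of_pos (hW q hq).2 (hW q hq).1)
  have hVm : ∀ q ∈ V, pr * (q / pr) = q := fun q hq => Nat.mul_div_cancel' (hV q hq).2
  have hWm : ∀ q ∈ W, pr' * (q / pr') = q := fun q hq => Nat.mul_div_cancel' (hW q hq).2
  set V0 := V.image (fun q => q / pr) with hV0
  set W0 := W.image (fun q => q / pr') with hW0
  set O' := M.primeFactors with hO'd
  set O := M'.primeFactors with hOd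
  have hO : ∀ l ∈ O, l.Prime ∧ N ≤ l := fun l hl =>
    ⟨Nat.prime_of_mem_primeFactors hl, hMp' l (Nat.prime_of_mem_primeFactors hl)
      (Nat.dvd_of_mem_primeFactors hl)⟩
  have hO' : ∀ l ∈ O', l.Prime ∧ N ≤ l := fun l hl =>
    ⟨Nat.prime_of_mem_primeFactors hl, hMp l (Nat.prime_of_mem_primeFactors hl)
      (Nat.dvd_of_mem_primeFactors hl)⟩
  set R0 : ℕ → ℝ := fun w => rd b c ρ (pr * w) with hRd
  set R0' : ℕ → ℝ := fun w => rd b' c' ρ (pr' * w) with hRd'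
  have hRe0 : ∀ q ∈ V, R0 (q / pr) = rd b c ρ q := fun q hq => by rw [hRd]; simp only; rw [hVm q hq]
  have hRe0' : ∀ q ∈ W, R0' (q / pr') = rd b' c' ρ q := fun q hq => by rw [hRd']; simp only; rw [hWm q hq]
  set R : ℕ → ℝ := fun w => (ex M : ℝ) * R0 w with hRx
  set R' : ℕ → ℝ := fun w => (ex M' : ℝ) * R0' w with hRx'
  have hRe : ∀ q ∈ V, R (q / pr) = ex M * rd b c ρ q := fun q hq => by
    rw [hRx]; simp only; rw [hRe0 q hq]
  have hRe' : ∀ q ∈ W, R' (q / pr') = ex M' * rd b' c' ρ q := fun q hq => by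
    rw [hRx']; simp only; rw [hRe0' q hq]
  have hXX : (0:ℝ) < (ex M : ℝ) * ex M' := mul_pos xM xM'
  set F0 : ℕ × ℕ → ℝ := fun f => ((ex M : ℝ) * ex M') * F (pr * f.1, pr' * f.2) with hF0
  have hF0e : ∀ e ∈ V ×ˢ W, F0 (e.1 / pr, e.2 / pr') = ((ex M : ℝ) * ex M') * F e := fun e he => by
    obtain ⟨h1, h2⟩ := Finset.mem_product.1 he
    rw [hF0]; simp only; rw [hVm _ h1, hWm _ h2]
  have hDc : ∀ e ∈ V ×ˢ W, Dc O O' R R' (e.1 / pr, e.2 / pr') = Dq ρ M b pr c M' b' pr' c' e :=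
    fun e he => by
    obtain ⟨k1, k2⟩ := Finset.mem_product.1 he
    have h1 := Dc_rad hM hM' R0 R0' (e := (e.1 / pr, e.2 / pr')) (hVw _ k1) (hWw _ k2)
      (oV _ k1) (oW _ k2)
    rw [hRe0 _ k1, hRe0' _ k2] at h1
    exact h1
  have hinjV : Set.InjOn (fun q => q / pr) (V : Set ℕ) := by
    intro e he f hf hef
    simp only at hef
    rw [← hVm _ (Finset.mem_coe.1 he), ← hVm _ (Finset.mem_coe.1 hf), hef]
  have hinjW : Set.InjOn (fun q => q / pr') (W : Set ℕ) := by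
    intro e he f hf hef
    simp only at hef
    rw [← hWm _ (Finset.mem_coe.1 he), ← hWm _ (Finset.mem_coe.1 hf), hef]
  have hinj : Set.InjOn (fun e : ℕ × ℕ => (e.1 / pr, e.2 / pr')) ((V ×ˢ W : Finset (ℕ × ℕ)) : Set (ℕ × ℕ)) := by
    intro e he f hf hef
    obtain ⟨h1, h2⟩ := Finset.mem_product.1 (Finset.mem_coe.1 he)
    obtain ⟨h3, h4⟩ := Finset.mem_product.1 (Finset.mem_coe.1 hf)
    simp only [Prod.mk.injEq] at hef
    exact Prod.ext (hinjV h1 h3 hef.1) (hinjW h2 h4 hef.2)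
  have himg : V0 ×ˢ W0 = (V ×ˢ W).image (fun e : ℕ × ℕ => (e.1 / pr, e.2 / pr')) := by
    ext f
    simp only [Finset.mem_product, Finset.mem_image, hV0, hW0]
    constructor
    · rintro ⟨⟨a, ha, ha'⟩, ⟨d, hd, hd'⟩⟩
      exact ⟨(a, d), ⟨ha, hd⟩, Prod.ext ha' hd'⟩
    · rintro ⟨e, ⟨h1, h2⟩, rfl⟩
      exact ⟨⟨_, h1, rfl⟩, ⟨_, h2, rfl⟩⟩
  have hsum : ∀ Q : ℕ × ℕ → Prop, ∀ Q0 : ℕ × ℕ → Prop,
      (∀ e ∈ V ×ˢ W, Q0 (e.1 / pr, e.2 / pr') → Q e) →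
      (∀ e ∈ V ×ˢ W, Q e → Q0 (e.1 / pr, e.2 / pr')) →
      ∑ f ∈ (V0 ×ˢ W0).filter Q0, F0 f = ((ex M : ℝ) * ex M') * ∑ e ∈ (V ×ˢ W).filter Q, F e := by
    intro Q Q0 h1 h2
    rw [himg, Finset.filter_image, Finset.sum_image
      (hinj.mono (by intro x hx; exact (Finset.mem_filter.1 (Finset.mem_coe.1 hx)).1))]
    have e1 : (V ×ˢ W).filter (fun a => Q0 (a.1 / pr, a.2 / pr')) = (V ×ˢ W).filter Q := by
      ext e
      simp only [Finset.mem_filter]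
      exact ⟨fun h => ⟨h.1, h1 e h.1 h.2⟩, fun h => ⟨h.1, h2 e h.1 h.2⟩⟩
    rw [e1, Finset.mul_sum]
    exact Finset.sum_congr rfl fun e he => hF0e e (Finset.mem_filter.1 he).1
  have hsumT : ∑ f ∈ V0 ×ˢ W0, F0 f = ((ex M : ℝ) * ex M') * ∑ e ∈ V ×ˢ W, F e := by
    have := hsum (fun _ => True) (fun _ => True) (fun _ _ _ => trivial) (fun _ _ _ => trivial)
    simpa using this
  have mem0 : ∀ f ∈ V0 ×ˢ W0, ∃ e ∈ V ×ˢ W, f = (e.1 / pr, e.2 / pr') := fun f hf => by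
    rw [himg] at hf
    obtain ⟨e, he, rfl⟩ := Finset.mem_image.1 hf
    exact ⟨e, he, rfl⟩
  have muV : ∀ q ∈ V, mu O' R (q / pr) = ex M * rd b c ρ q * tq (q / pr / M.gcd (q / pr)) := fun q hq => by
    unfold mu tq
    rw [hRe q hq, (oV q hq).uu hM (hVw q hq)]
  have muW : ∀ q ∈ W, mu O R' (q / pr') = ex M' * rd b' c' ρ q * tq (q / pr' / M'.gcd (q / pr')) :=
    fun q hq => by
    unfold mu tq
    rw [hRe' q hq, (oW q hq).uu hM' (hWw q hq)]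
  set gL : Finset ℕ → ℝ := fun S => ((ex M * ∏ l ∈ S, l : ℕ) : ℝ) * ((b : ℝ) / c * γ) with hgL
  set gR : Finset ℕ → ℝ := fun S => ((ex M' * ∏ l ∈ S, l : ℕ) : ℝ) * ((b' : ℝ) / c' * γ) with hgR
  have RcV : ∀ q ∈ V, Rc O' R (q / pr) = (rf (q / pr) M : ℕ) * rd b c ρ q := fun q hq => by
    have := (oV q hq).Rc hM (hVw q hq) R0
    rw [hRe0 q hq] at this
    exact this
  have RcW : ∀ q ∈ W, Rc O R' (q / pr') = (rf (q / pr') M' : ℕ) * rd b' c' ρ q := fun q hq => by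
    have := (oW q hq).Rc hM' (hWw q hq) R0'
    rw [hRe0' q hq] at this
    exact this
  have hFS : ∀ e ∈ V ×ˢ W, FG O O' R R' gL gR n (e.1 / pr, e.2 / pr') ↔
      FSI γ ρ n M b pr c M' b' pr' c' e := fun e he => by
    obtain ⟨k1, k2⟩ := Finset.mem_product.1 he
    have hw1 := hVw _ k1
    have hw2 := hWw _ k2
    show FS n (((ex M * ∏ l ∈ miss O' (e.1 / pr), l : ℕ) : ℝ) * ((b : ℝ) / c * γ))
        (((ex M' * ∏ l ∈ miss O (e.2 / pr'), l : ℕ) : ℝ) * ((b' : ℝ) / c' * γ))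
        (cof (uu O' (e.1 / pr)) (uu O (e.2 / pr'))) (cof (uu O (e.2 / pr')) (uu O' (e.1 / pr)))
        (Rc O' R (e.1 / pr)) (Rc O R' (e.2 / pr')) ↔ _
    rw [(oV _ k1).miss hM hw1, (oW _ k2).miss hM' hw2, (oV _ k1).uu hM hw1, (oW _ k2).uu hM' hw2,
      RcV _ k1, RcW _ k2]
    exact Iff.rfl
  have key := hst T (6*T) L n N G O O' V0 W0 R R' gL gR F0 cc 0 hN hNc le_rfl hn hG (by linarith)
    (by linarith) hL0 hL hT1 hT hO hO' hs' hs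
    (by
      intro w hw
      obtain ⟨q, hq, rfl⟩ := Finset.mem_image.1 hw
      exact ⟨hVw q hq, by rw [hRe q hq]; exact mul_pos xM (hR q)⟩)
    (by
      intro w hw
      obtain ⟨q, hq, rfl⟩ := Finset.mem_image.1 hw
      exact ⟨hWw q hq, by rw [hRe' q hq]; exact mul_pos xM' (hR' q)⟩)
    (by
      intro w hw
      obtain ⟨q, hq, rfl⟩ := Finset.mem_image.1 hw
      rw [hRe q hq, muV q hq]
      have := mul_le_mul_of_nonneg_left (lV q hq) (mul_pos xM (hR q)).le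
      calc ex M * rd b c ρ q = ex M * rd b c ρ q * 1 := (mul_one _).symm
        _ ≤ _ := this
        _ = _ := by ring)
    (by
      intro w hw
      obtain ⟨q, hq, rfl⟩ := Finset.mem_image.1 hw
      rw [hRe' q hq, muW q hq]
      have := mul_le_mul_of_nonneg_left (lW q hq) (mul_pos xM' (hR' q)).le
      calc ex M' * rd b' c' ρ q = ex M' * rd b' c' ρ q * 1 := (mul_one _).symm
        _ ≤ _ := this
        _ = _ := by ring)
    (by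
      intro z hz w hw
      obtain ⟨q, hq, rfl⟩ := Finset.mem_image.1 hw
      rw [(oV q hq).uu hM (hVw q hq)]
      exact tV z hz q hq)
    (by
      intro z hz w hw
      obtain ⟨q, hq, rfl⟩ := Finset.mem_image.1 hw
      rw [(oW q hq).uu hM' (hWw q hq)]
      exact tW z hz q hq)
    (by
      intro w hw
      obtain ⟨q, hq, rfl⟩ := Finset.mem_image.1 hw
      exact cW q hq)
    (fun w hw => Finset.sum_nonneg fun l hl => by positivity)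
    (by
      intro f hf h1
      obtain ⟨e, he, rfl⟩ := mem0 f hf
      obtain ⟨k1, k2⟩ := Finset.mem_product.1 he
      have hd0 : 0 < Dc O O' R R' (e.1 / pr, e.2 / pr') := by
        refine Dc_pos (N := N) hO hO' ?_ (hWw _ k2)
        rw [hRe _ k1]; exact mul_pos xM (hR _)
      rw [hDc e he] at h1 hd0 ⊢
      rw [hF0e e he, hRe _ k1, hRe' _ k2]
      have h2 := hF e he
      have h3 := pbd_le (θ := (b : ℝ) / c * γ) (θ' := (b' : ℝ) / c' * γ) (w := e.1 / pr) (M := M)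
        (w' := e.2 / pr') (M' := M') (hR e.1).le (hR' e.2).le (by linarith) h1
      have h4 : 0 ≤ rd b c ρ e.1 * rd b' c' ρ e.2 / Dq ρ M b pr c M' b' pr' c' e :=
        div_nonneg (mul_nonneg (hR _).le (hR' _).le) hd0.le
      have h5 : F e ≤ (6*T) * (rd b c ρ e.1 * rd b' c' ρ e.2 / Dq ρ M b pr c M' b' pr' c' e) :=
        h2.trans (h3.trans (mul_le_mul_of_nonneg_right (by linarith) h4))
      calc (ex M : ℝ) * ex M' * F e ≤ (ex M : ℝ) * ex M' *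
            ((6*T) * (rd b c ρ e.1 * rd b' c' ρ e.2 / Dq ρ M b pr c M' b' pr' c' e)) :=
            mul_le_mul_of_nonneg_left h5 hXX.le
        _ = _ := by ring)
    (by
      intro f hf _ h1 h3
      obtain ⟨e, he, rfl⟩ := mem0 f hf
      obtain ⟨k1, k2⟩ := Finset.mem_product.1 he
      rw [hDc e he] at h1
      rw [hF0e e he] at h3
      have h3 : 0 < F e := (mul_pos_iff_of_pos_left hXX).1 h3
      have hw1 := hVw _ k1
      have hw2 := hWw _ k2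
      have hhalf : Dq ρ M b pr c M' b' pr' c' e ≤ 1/2 := by
        refine h1.trans ?_
        apply one_div_le_one_div_of_le (by norm_num)
        calc (2:ℝ) = 2^1 := (pow_one _).symm
          _ ≤ 2^n := pow_le_pow_right₀ (by norm_num) hn1
      have hRa : Ra ((b : ℝ) / c * γ) (rd b c ρ e.1) (e.1 / pr) M ((b' : ℝ) / c' * γ)
          (rd b' c' ρ e.2) (e.2 / pr') M' := by
        by_contra hneg
        have h4 := hF e he
        unfold pbd at h4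
        unfold Dq at hhalf
        rw [if_pos hhalf, if_neg hneg] at h4
        linarith
      have hu : 0 < e.1 / pr / M.gcd (e.1 / pr) := div_pos' hw1 hMp0
      obtain ⟨m, m', hmm⟩ := rel_two (AvgItem710.cof_coprime hu) hRa
      refine ⟨m, m', ?_⟩
      show |(m + (((ex M * ∏ l ∈ miss O' (e.1 / pr), l : ℕ) : ℝ) * ((b : ℝ) / c * γ))) *
          (cof (uu O (e.2 / pr')) (uu O' (e.1 / pr)) : ℕ) -
          (m' + (((ex M' * ∏ l ∈ miss O (e.2 / pr'), l : ℕ) : ℝ) * ((b' : ℝ) / c' * γ))) *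
          (cof (uu O' (e.1 / pr)) (uu O (e.2 / pr')) : ℕ)| ≤ 2 * Dc O O' R R' (e.1 / pr, e.2 / pr')
      rw [hDc e he, (oV _ k1).miss hM hw1, (oW _ k2).miss hM' hw2, (oV _ k1).uu hM hw1,
        (oW _ k2).uu hM' hw2]
      exact hmm)
  have hleft : ∑ f ∈ (V0 ×ˢ W0).filter (fun f => 0 < F0 f ∧ (Dc O O' R R' f ≤ 1/2^n ∧
      FG O O' R R' gL gR n f)), F0 f = ((ex M : ℝ) * ex M') *
      ∑ e ∈ (V ×ˢ W).filter (fun e => 0 < F e ∧ (Dq ρ M b pr c M' b' pr' c' e ≤ 1/2^n ∧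
        FSI γ ρ n M b pr c M' b' pr' c' e)), F e := by
    have hh := hsum (fun e => 0 < F e ∧ (Dq ρ M b pr c M' b' pr' c' e ≤ 1/2^n ∧
        FSI γ ρ n M b pr c M' b' pr' c' e))
      (fun f => 0 < F0 f ∧ (Dc O O' R R' f ≤ 1/2^n ∧ FG O O' R R' gL gR n f)) (fun e he h => by
        obtain ⟨h0, h1, h2⟩ := h
        rw [hDc e he] at h1
        rw [hF0e e he] at h0
        rw [hFS e he] at h2
        exact ⟨(mul_pos_iff_of_pos_left hXX).1 h0, h1, h2⟩) (fun e he h => by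
        obtain ⟨h0, h1, h2⟩ := h
        refine ⟨?_, ?_, ?_⟩
        · rw [hF0e e he]; exact mul_pos hXX h0
        · rw [hDc e he]; exact h1
        · rw [hFS e he]; exact h2)
    convert hh
  have hhigh : ∑ f ∈ (V0 ×ˢ W0).filter (fun f => T < Dc O O' R R' f), F0 f = ((ex M : ℝ) * ex M') *
      ∑ e ∈ (V ×ˢ W).filter (fun e => T < Dq ρ M b pr c M' b' pr' c' e), F e := by
    have hh := hsum (fun e => T < Dq ρ M b pr c M' b' pr' c' e) (fun f => T < Dc O O' R R' f)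
      (fun e he h => by rw [hDc e he] at h; exact h) (fun e he h => by rw [hDc e he]; exact h)
    convert hh
  have hsV : ∑ w ∈ V0, R w = ex M * ∑ q ∈ V, rd b c ρ q := by
    rw [hV0, Finset.sum_image hinjV, Finset.mul_sum]
    exact Finset.sum_congr rfl fun q hq => hRe q hq
  have hsW : ∑ w ∈ W0, R' w = ex M' * ∑ q ∈ W, rd b' c' ρ q := by
    rw [hW0, Finset.sum_image hinjW, Finset.mul_sum]
    exact Finset.sum_congr rfl fun q hq => hRe' q hq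
  rw [hsumT, hhigh, hsV, hsW] at key
  have nX : 0 ≤ ∑ q ∈ V, rd b c ρ q := Finset.sum_nonneg fun q _ => (hR q).le
  have nY : 0 ≤ ∑ q ∈ W, rd b' c' ρ q := Finset.sum_nonneg fun q _ => (hR' q).le
  have xx1 : (1:ℝ) ≤ (ex M : ℝ) * ex M' := by nlinarith
  have hsq : Real.sqrt ((ex M * ∑ q ∈ V, rd b c ρ q) * (ex M' * ∑ q ∈ W, rd b' c' ρ q)) +
      (ex M * ∑ q ∈ V, rd b c ρ q) * (ex M' * ∑ q ∈ W, rd b' c' ρ q) ≤
      ((ex M : ℝ) * ex M') * (Real.sqrt ((∑ q ∈ V, rd b c ρ q) * (∑ q ∈ W, rd b' c' ρ q)) +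
        (∑ q ∈ V, rd b c ρ q) * (∑ q ∈ W, rd b' c' ρ q)) := by
    have e1 : (ex M * ∑ q ∈ V, rd b c ρ q) * (ex M' * ∑ q ∈ W, rd b' c' ρ q) =
        ((ex M : ℝ) * ex M') * ((∑ q ∈ V, rd b c ρ q) * (∑ q ∈ W, rd b' c' ρ q)) := by ring
    rw [e1, Real.sqrt_mul hXX.le, mul_add]
    refine add_le_add (mul_le_mul_of_nonneg_right ?_ (Real.sqrt_nonneg _)) le_rfl
    refine Real.sqrt_le_iff.2 ⟨hXX.le, ?_⟩
    nlinarith
  refine le_of_mul_le_mul_left ?_ hXX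
  refine key.trans ?_
  rw [mul_add ((ex M : ℝ) * (ex M' : ℝ)), mul_add ((ex M : ℝ) * (ex M' : ℝ))]
  refine add_le_add (add_le_add le_rfl ?_) ?_
  · calc _ ≤ Real.exp (-(N*cc/10)) * (((ex M : ℝ) * ex M') * (Real.sqrt ((∑ q ∈ V, rd b c ρ q) *
          (∑ q ∈ W, rd b' c' ρ q)) + (∑ q ∈ V, rd b c ρ q) * (∑ q ∈ W, rd b' c' ρ q))) :=
          mul_le_mul_of_nonneg_left hsq (Real.exp_nonneg _)
      _ = _ := by ring
  rw [← hleft]
  refine Finset.sum_le_sum_of_subset_of_nonneg ?_ ?_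
  · intro f hf
    obtain ⟨h1, h2, -, h3, h4⟩ := Finset.mem_filter.1 hf
    exact Finset.mem_filter.2 ⟨h1, h2, h3, h4⟩
  · intro f hf _
    exact (Finset.mem_filter.1 hf).2.1.le



open Classical in
/-- **STOP for item pairs**, the left items miss the mass `cc` of the one-sided primes -/
theorem stop_itemsRG {N0 : ℝ}
    (hst : StopCls2 N0) {γ : ℝ} {ρ : ℕ → ℝ} {F : ℕ × ℕ → ℝ} {T L cc : ℝ}
    {n N G M b pr c M' b' pr' c' : ℕ} {V W : Finset ℕ}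
    (hN : N0 ≤ N) (hNc : 400 * Real.sqrt N ≤ N * cc) (hn : n = ⌊100 * (N * cc) / Real.log 2⌋₊)
    (hn1 : 1 ≤ n) (hG : 0 < G) (hT1 : 1 ≤ T) (hT : T ≤ Real.exp (N*cc/20)) (hL0 : 0 ≤ L)
    (hL : L^2 ≤ Real.exp (N*cc/50))
    (hρ : ∀ q, 0 < ρ q) (hb : 0 < b) (hc : 0 < c) (hb' : 0 < b') (hc' : 0 < c')
    (hM : 0 < M) (hM' : 0 < M')
    (hMp : ∀ l : ℕ, l.Prime → l ∣ M → N ≤ l) (hMp' : ∀ l : ℕ, l.Prime → l ∣ M' → N ≤ l)
    (hs : ∑ l ∈ M.primeFactors, 1/(l:ℝ) ≤ 1) (hs' : ∑ l ∈ M'.primeFactors, 1/(l:ℝ) ≤ 1)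
    (hV : ∀ q ∈ V, 0 < q ∧ pr ∣ q) (hW : ∀ q ∈ W, 0 < q ∧ pr' ∣ q)
    (oV : ∀ q ∈ V, Once M (q / pr)) (oW : ∀ q ∈ W, Once M' (q / pr'))
    (tV : ∀ z : ℝ, (N:ℝ) ≤ z → ∀ q ∈ V, ClsB.Tame z G (q / pr / M.gcd (q / pr)))
    (tW : ∀ z : ℝ, (N:ℝ) ≤ z → ∀ q ∈ W, ClsB.Tame z G (q / pr' / M'.gcd (q / pr')))
    (lV : ∀ q ∈ V, 1 ≤ L * tq (q / pr / M.gcd (q / pr)))
    (lW : ∀ q ∈ W, 1 ≤ L * tq (q / pr' / M'.gcd (q / pr')))
    (cV : ∀ q ∈ V, cc ≤ ∑ l ∈ M.primeFactors.filter (fun l => ¬ l ∣ q / pr), 1/(l:ℝ))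
    (hF : ∀ e ∈ V ×ˢ W, F e ≤ pbd ((b : ℝ) / c * γ) (rd b c ρ e.1) (e.1 / pr) M
      ((b' : ℝ) / c' * γ) (rd b' c' ρ e.2) (e.2 / pr') M') :
    ∑ e ∈ V ×ˢ W, F e ≤
      ∑ e ∈ (V ×ˢ W).filter (fun e => T < Dq ρ M b pr c M' b' pr' c' e), F e +
      Real.exp (-(N*cc/10)) * (Real.sqrt ((∑ q ∈ V, rd b c ρ q) * (∑ q ∈ W, rd b' c' ρ q)) +
        (∑ q ∈ V, rd b c ρ q) * (∑ q ∈ W, rd b' c' ρ q)) +
      ∑ e ∈ (V ×ˢ W).filter (fun e => 0 < F e ∧ (Dq ρ M b pr c M' b' pr' c' e ≤ 1/2^n ∧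
        FSI γ ρ n M b pr c M' b' pr' c' e)), F e := by
  have key := stop_itemsLG hst (γ := γ) (ρ := ρ) (F := fun e => F (e.2, e.1)) (T := T) (L := L) (cc := cc)
    (n := n) (N := N) (G := G) (M := M') (b := b') (pr := pr') (c := c') (M' := M) (b' := b)
    (pr' := pr) (c' := c) (V := W) (W := V) hN hNc hn hn1 hG hT1 hT hL0 hL hρ hb' hc' hb hc hM' hM
    hMp' hMp hs' hs hW hV oW oV tW tV lW lV cV (by
      intro e he
      obtain ⟨h1, h2⟩ := Finset.mem_product.1 he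
      have h3 := hF (e.2, e.1) (Finset.mem_product.2 ⟨h2, h1⟩)
      refine h3.trans (le_of_eq ?_)
      exact pbd_swap _ _ _ _ _ _ _ _)
  have e1 : ∑ e ∈ W ×ˢ V, F (e.2, e.1) = ∑ e ∈ V ×ˢ W, F e := by
    have := sum_swap (V := V) (W := W) (fun _ => True) (fun _ => True) (fun _ => Iff.rfl) F
    simpa using this
  have e2 := sum_swap (V := V) (W := W) (fun e => T < Dq ρ M b pr c M' b' pr' c' e)
    (fun e => T < Dq ρ M' b' pr' c' M b pr c e) (fun e => by rw [Dq_swap]) F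
  have e3 := sum_swap (V := V) (W := W) (fun e => 0 < F e ∧ (Dq ρ M b pr c M' b' pr' c' e ≤ 1/2^n ∧
        FSI γ ρ n M b pr c M' b' pr' c' e))
    (fun e => 0 < F (e.2, e.1) ∧ (Dq ρ M' b' pr' c' M b pr c e ≤ 1/2^n ∧
        FSI γ ρ n M' b' pr' c' M b pr c e)) (fun e => by rw [Dq_swap, FSI_swap]) F
  rw [e1, e2, e3] at key
  refine key.trans (le_of_eq ?_)
  rw [mul_comm (∑ q ∈ W, rd b' c' ρ q) (∑ q ∈ V, rd b c ρ q)]


end Crest.Agent.R4P.StopW95
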