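import Crest.Agent.R4.StopFF95
import Crest.Agent.R4P.StopIt95

/-!
R4 powers pass (S0004), helper95: **the `[F]` pairs of a STOP, averages which are not squarefree**
(tree-free): `ff_itemsG` = twin of `ff_items` of `R4/StopFF95`.
-/

set_option autoImplicit false
set_option linter.unusedSectionVars false
set_option linter.unusedVariables false
open Finset

namespace Crest.Agent.R4P.StopFF95

open Crest.Agent.R4.HVW560 Crest.Agent.R4.HVWX793 Crest.Agent.R4.Schur709 Crest.Agent.R4.StopHvw709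
open Crest.Agent.R4.StopAsm709 Crest.Agent.R4.AvgItem710 Crest.Agent.R4.DeepSt579
open Crest.Agent.R4.OSCore709 Crest.Agent.R4P.Rad800 Crest.Agent.R4P.NMW710 Crest.Agent.R4P.StopW95
open Crest.Agent.R4.ClsS (eps1)
open Crest.Agent.R4

export Crest.Agent.R4.StopFF95 (ff_gY ff_sum om_small SF SF.mono pcc_eq exists_SF)

/-- final form of the sum, with the excess `x` -/
lemma ff_fin2 {a b X X' θ x : ℝ} (ha : 0 ≤ a) (hb : 0 ≤ b) (hX : 0 ≤ X) (hX' : 0 ≤ X')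
    (hθ : 0 ≤ θ) (hx : 1 ≤ x) (hab : a * b ≤ Real.exp (-θ) * (x * (X * X'))) :
    x^(22/1000:ℝ) * (a * b)^(1/2+eps1) ≤
      x * (Real.exp (-(θ/2)) * (Real.sqrt (X * X') + X * X')) := by
  have he1 : eps1 = 1/1000 := rfl
  have hXX : 0 ≤ X * X' := mul_nonneg hX hX'
  have hx0 : 0 ≤ x := by linarith
  have h1 : (a * b)^(1/2+eps1) ≤ (Real.exp (-θ) * (x * (X * X')))^(1/2+eps1) :=
    Real.rpow_le_rpow (mul_nonneg ha hb) hab (by rw [he1]; norm_num)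
  have h2 : (Real.exp (-θ))^(1/2+eps1) ≤ Real.exp (-(θ/2)) := by
    rw [← Real.exp_mul]
    apply Real.exp_le_exp.2
    rw [he1]; nlinarith
  have h3 : (X * X')^(1/2+eps1) ≤ Real.sqrt (X * X') + X * X' := by
    rw [Real.sqrt_eq_rpow]
    rcases hXX.eq_or_lt with h4 | h4
    · rw [← h4, Real.zero_rpow (by rw [he1]; norm_num)]
      have : (0:ℝ) ≤ (0:ℝ)^(1/2:ℝ) := Real.rpow_nonneg le_rfl _
      linarith
    · rcases le_total (X * X') 1 with h5 | h5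
      · have h6 : (X * X')^(1/2+eps1) ≤ (X * X')^(1/2:ℝ) :=
          Real.rpow_le_rpow_of_exponent_ge h4 h5 (by rw [he1]; norm_num)
        linarith
      · have h6 : (X * X')^(1/2+eps1) ≤ (X * X')^(1:ℝ) :=
          Real.rpow_le_rpow_of_exponent_le h5 (by rw [he1]; norm_num)
        rw [Real.rpow_one] at h6
        have : (0:ℝ) ≤ (X * X')^(1/2:ℝ) := Real.rpow_nonneg h4.le _
        linarith
  have h7 : (Real.exp (-θ) * (x * (X * X')))^(1/2+eps1) =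
      (Real.exp (-θ))^(1/2+eps1) * (x^(1/2+eps1) * (X * X')^(1/2+eps1)) := by
    rw [Real.mul_rpow (Real.exp_nonneg _) (mul_nonneg hx0 hXX), Real.mul_rpow hx0 hXX]
  have h8 : x^(22/1000:ℝ) * x^(1/2+eps1) ≤ x := by
    rw [← Real.rpow_add (by linarith)]
    calc x^((22/1000:ℝ) + (1/2+eps1)) ≤ x^(1:ℝ) :=
          Real.rpow_le_rpow_of_exponent_le hx (by rw [he1]; norm_num)
      _ = x := Real.rpow_one _
  have n1 : 0 ≤ x^(22/1000:ℝ) := Real.rpow_nonneg hx0 _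
  calc x^(22/1000:ℝ) * (a * b)^(1/2+eps1)
      ≤ x^(22/1000:ℝ) * ((Real.exp (-θ))^(1/2+eps1) * (x^(1/2+eps1) * (X * X')^(1/2+eps1))) := by
        rw [← h7]; exact mul_le_mul_of_nonneg_left h1 n1
    _ = (x^(22/1000:ℝ) * x^(1/2+eps1)) * ((Real.exp (-θ))^(1/2+eps1) * (X * X')^(1/2+eps1)) := by ring
    _ ≤ x * (Real.exp (-(θ/2)) * (Real.sqrt (X * X') + X * X')) := by
        refine mul_le_mul h8 (mul_le_mul h2 h3 (by positivity) (Real.exp_nonneg _))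
          (by positivity) hx0

section items

open Classical in
/-- **exact-false pairs of items** -/
theorem ff_itemsG {ρ : ℕ → ℝ} {F : ℕ × ℕ → ℝ} {L cc Y : ℝ}
    {N M b pr c M' b' pr' c' : ℕ} {V W : Finset ℕ} (hN1 : 1 ≤ N) (hcc : 0 ≤ cc) (hY : 1 ≤ Y)
    (hL0 : 0 ≤ L)
    (hρ : ∀ q, 0 < ρ q) (hb : 0 < b) (hc : 0 < c) (hb' : 0 < b') (hc' : 0 < c')
    (hM : 0 < M) (hM' : 0 < M')
    (hMp : ∀ l : ℕ, l.Prime → l ∣ M → N ≤ l) (hMp' : ∀ l : ℕ, l.Prime → l ∣ M' → N ≤ l)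
    (hs : ∑ l ∈ M.primeFactors, (l:ℝ)^(-(11/12):ℝ) ≤ 1)
    (hs' : ∑ l ∈ M'.primeFactors, (l:ℝ)^(-(11/12):ℝ) ≤ 1)
    (hV : ∀ q ∈ V, 0 < q ∧ pr ∣ q) (hW : ∀ q ∈ W, 0 < q ∧ pr' ∣ q)
    (oV : ∀ q ∈ V, Once M (q / pr)) (oW : ∀ q ∈ W, Once M' (q / pr'))
    (lV : ∀ q ∈ V, 1 ≤ L * tq (q / pr / M.gcd (q / pr)))
    (lW : ∀ q ∈ W, 1 ≤ L * tq (q / pr' / M'.gcd (q / pr')))
    (hcm : (∀ q ∈ W, cc ≤ ∑ l ∈ M'.primeFactors.filter (fun l => ¬ l ∣ q / pr'), 1/(l:ℝ)) ∨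
      (∀ q ∈ V, cc ≤ ∑ l ∈ M.primeFactors.filter (fun l => ¬ l ∣ q / pr), 1/(l:ℝ)))
    (E : Finset (ℕ × ℕ)) (hE : E ⊆ V ×ˢ W)
    (hE1 : ∀ e ∈ E, Dq ρ M b pr c M' b' pr' c' e ≤ 1)
    (hmE : ∀ e ∈ E, 1 < 2 * (Y * ((rf (e.1 / pr) M : ℝ) * rf (e.2 / pr') M'))^10 *
      Dq ρ M b pr c M' b' pr' c' e)
    (hF : ∀ e ∈ E, F e ≤ 6 * (rd b c ρ e.1 * rd b' c' ρ e.2 / Dq ρ M b pr c M' b' pr' c' e)) :
    ∑ e ∈ E, F e ≤ (6 * L^2 * (60000 * KH 1 0 eps1) * Y^(22/1000:ℝ) * 3 *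
        Real.exp (-(N * cc * Real.log N / 60))) *
      (Real.sqrt ((∑ q ∈ V, rd b c ρ q) * (∑ q ∈ W, rd b' c' ρ q)) +
        (∑ q ∈ V, rd b c ρ q) * (∑ q ∈ W, rd b' c' ρ q)) := by
  classical
  have xM : (0:ℝ) < ex M := by exact_mod_cast ex_pos hM
  have xM' : (0:ℝ) < ex M' := by exact_mod_cast ex_pos hM'
  have xM1 : (1:ℝ) ≤ ex M := by exact_mod_cast ex_pos hM
  have xM1' : (1:ℝ) ≤ ex M' := by exact_mod_cast ex_pos hM'
  have hXX : (0:ℝ) < (ex M : ℝ) * ex M' := mul_pos xM xM'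
  have xx1 : (1:ℝ) ≤ (ex M : ℝ) * ex M' := by nlinarith
  have he1 : eps1 = 1/1000 := rfl
  have hKH := (KH_pos 1 0 eps1).le
  have hb0 : (0:ℝ) < b := by exact_mod_cast hb
  have hc0' : (0:ℝ) < c := by exact_mod_cast hc
  have hbb0 : (0:ℝ) < b' := by exact_mod_cast hb'
  have hcc0 : (0:ℝ) < c' := by exact_mod_cast hc'
  have hR : ∀ q, 0 < rd b c ρ q := fun q => mul_pos (div_pos hb0 hc0') (hρ q)
  have hR' : ∀ q, 0 < rd b' c' ρ q := fun q => mul_pos (div_pos hbb0 hcc0) (hρ q)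
  have hVw : ∀ q ∈ V, 0 < q / pr := fun q hq =>
    Nat.div_pos (Nat.le_of_dvd (hV q hq).1 (hV q hq).2) (Nat.pos_of_dvd_of_pos (hV q hq).2 (hV q hq).1)
  have hWw : ∀ q ∈ W, 0 < q / pr' := fun q hq =>
    Nat.div_pos (Nat.le_of_dvd (hW q hq).1 (hW q hq).2) (Nat.pos_of_dvd_of_pos (hW q hq).2 (hW q hq).1)
  have hVm : ∀ q ∈ V, pr * (q / pr) = q := fun q hq => Nat.mul_div_cancel' (hV q hq).2
  have hWm : ∀ q ∈ W, pr' * (q / pr') = q := fun q hq => Nat.mul_div_cancel' (hW q hq).2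
  set V0 := V.image (fun q => q / pr) with hV0
  set W0 := W.image (fun q => q / pr') with hW0
  set O' := M.primeFactors with hO'd
  set O := M'.primeFactors with hOd
  have hO : ∀ l ∈ O, l.Prime ∧ N ≤ l := fun l hl =>
    ⟨Nat.prime_of_mem_primeFactors hl, hMp' l (Nat.prime_of_mem_primeFactors hl)
      (Nat.dvd_of_mem_primeFactors hl)⟩
  have hO' : ∀ l ∈ O', l.Prime ∧ N ≤ l := fun l hl =>
    ⟨Nat.prime_of_mem_primeFactors hl, hMp l (Nat.prime_of_mem_primeFactors hl)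
      (Nat.dvd_of_mem_primeFactors hl)⟩
  set R0 : ℕ → ℝ := fun w => rd b c ρ (pr * w) with hRd
  set R0' : ℕ → ℝ := fun w => rd b' c' ρ (pr' * w) with hRd'
  have hRe0 : ∀ q ∈ V, R0 (q / pr) = rd b c ρ q := fun q hq => by rw [hRd]; simp only; rw [hVm q hq]
  have hRe0' : ∀ q ∈ W, R0' (q / pr') = rd b' c' ρ q := fun q hq => by rw [hRd']; simp only; rw [hWm q hq]
  set R : ℕ → ℝ := fun w => (ex M : ℝ) * R0 w with hRx
  set R' : ℕ → ℝ := fun w => (ex M' : ℝ) * R0' w with hRx'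
  have hRe : ∀ q ∈ V, R (q / pr) = ex M * rd b c ρ q := fun q hq => by
    rw [hRx]; simp only; rw [hRe0 q hq]
  have hRe' : ∀ q ∈ W, R' (q / pr') = ex M' * rd b' c' ρ q := fun q hq => by
    rw [hRx']; simp only; rw [hRe0' q hq]
  set F0 : ℕ × ℕ → ℝ := fun f => ((ex M : ℝ) * ex M') * F (pr * f.1, pr' * f.2) with hF0
  have hF0e : ∀ e ∈ V ×ˢ W, F0 (e.1 / pr, e.2 / pr') = ((ex M : ℝ) * ex M') * F e := fun e he => by
    obtain ⟨h1, h2⟩ := Finset.mem_product.1 he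
    rw [hF0]; simp only; rw [hVm _ h1, hWm _ h2]
  have hDc : ∀ e ∈ V ×ˢ W, Dc O O' R R' (e.1 / pr, e.2 / pr') = Dq ρ M b pr c M' b' pr' c' e :=
    fun e he => by
    obtain ⟨k1, k2⟩ := Finset.mem_product.1 he
    have h1 := Dc_rad hM hM' R0 R0' (e := (e.1 / pr, e.2 / pr')) (hVw _ k1) (hWw _ k2)
      (oV _ k1) (oW _ k2)
    rw [hRe0 _ k1, hRe0' _ k2] at h1
    exact h1
  have hmm : ∀ e ∈ V ×ˢ W, ((ex M : ℝ) * ex M') * mm O O' (e.1 / pr, e.2 / pr') =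
      (rf (e.1 / pr) M : ℝ) * rf (e.2 / pr') M' := fun e he => by
    obtain ⟨k1, k2⟩ := Finset.mem_product.1 he
    unfold mm
    rw [← (oV _ k1).miss hM (hVw _ k1), ← (oW _ k2).miss hM' (hWw _ k2)]
    push_cast
    ring
  have hinjV : Set.InjOn (fun q => q / pr) (V : Set ℕ) := by
    intro e he f hf hef
    simp only at hef
    rw [← hVm _ (Finset.mem_coe.1 he), ← hVm _ (Finset.mem_coe.1 hf), hef]
  have hinjW : Set.InjOn (fun q => q / pr') (W : Set ℕ) := by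
    intro e he f hf hef
    simp only at hef
    rw [← hWm _ (Finset.mem_coe.1 he), ← hWm _ (Finset.mem_coe.1 hf), hef]
  have hinj : Set.InjOn (fun e : ℕ × ℕ => (e.1 / pr, e.2 / pr')) ((V ×ˢ W : Finset (ℕ × ℕ)) : Set (ℕ × ℕ)) := by
    intro e he f hf hef
    obtain ⟨h1, h2⟩ := Finset.mem_product.1 (Finset.mem_coe.1 he)
    obtain ⟨h3, h4⟩ := Finset.mem_product.1 (Finset.mem_coe.1 hf)
    simp only [Prod.mk.injEq] at hef
    exact Prod.ext (hinjV h1 h3 hef.1) (hinjW h2 h4 hef.2)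
  set E0 := E.image (fun e : ℕ × ℕ => (e.1 / pr, e.2 / pr')) with hE0
  have hE0s : E0 ⊆ V0 ×ˢ W0 := by
    intro f hf
    obtain ⟨e, he, rfl⟩ := Finset.mem_image.1 hf
    obtain ⟨h1, h2⟩ := Finset.mem_product.1 (hE he)
    exact Finset.mem_product.2 ⟨Finset.mem_image_of_mem _ h1, Finset.mem_image_of_mem _ h2⟩
  have hsumE : ∑ f ∈ E0, F0 f = ((ex M : ℝ) * ex M') * ∑ e ∈ E, F e := by
    rw [hE0, Finset.sum_image (hinj.mono (by intro x hx; exact hE (Finset.mem_coe.1 hx))),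
      Finset.mul_sum]
    exact Finset.sum_congr rfl fun e he => hF0e e (hE he)
  have muV : ∀ q ∈ V, mu O' R (q / pr) = ex M * rd b c ρ q * tq (q / pr / M.gcd (q / pr)) := fun q hq => by
    unfold mu tq
    rw [hRe q hq, (oV q hq).uu hM (hVw q hq)]
  have muW : ∀ q ∈ W, mu O R' (q / pr') = ex M' * rd b' c' ρ q * tq (q / pr' / M'.gcd (q / pr')) :=
    fun q hq => by
    unfold mu tq
    rw [hRe' q hq, (oW q hq).uu hM' (hWw q hq)]
  have gV : ∀ q ∈ V, ex M * rd b c ρ q ≤ L * mu O' R (q / pr) := fun q hq => by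
    rw [muV q hq]
    have := mul_le_mul_of_nonneg_left (lV q hq) (mul_pos xM (hR q)).le
    calc ex M * rd b c ρ q = ex M * rd b c ρ q * 1 := (mul_one _).symm
      _ ≤ _ := this
      _ = _ := by ring
  have gW : ∀ q ∈ W, ex M' * rd b' c' ρ q ≤ L * mu O R' (q / pr') := fun q hq => by
    rw [muW q hq]
    have := mul_le_mul_of_nonneg_left (lW q hq) (mul_pos xM' (hR' q)).le
    calc ex M' * rd b' c' ρ q = ex M' * rd b' c' ρ q * 1 := (mul_one _).symm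
      _ ≤ _ := this
      _ = _ := by ring
  have posV : ∀ w ∈ V0, 0 < w ∧ 0 < R w := by
    intro w hw
    obtain ⟨q, hq, rfl⟩ := Finset.mem_image.1 hw
    exact ⟨hVw q hq, by rw [hRe q hq]; exact mul_pos xM (hR q)⟩
  have posW : ∀ w ∈ W0, 0 < w ∧ 0 < R' w := by
    intro w hw
    obtain ⟨q, hq, rfl⟩ := Finset.mem_image.1 hw
    exact ⟨hWw q hq, by rw [hRe' q hq]; exact mul_pos xM' (hR' q)⟩
  have hD0 : ∀ e ∈ E, 0 < Dq ρ M b pr c M' b' pr' c' e := fun e he => by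
    by_contra hneg
    have h1 := hmE e he
    have : 2 * (Y * ((rf (e.1 / pr) M : ℝ) * rf (e.2 / pr') M'))^10 *
      Dq ρ M b pr c M' b' pr' c' e ≤ 0 :=
      mul_nonpos_of_nonneg_of_nonpos (by positivity) (not_lt.1 hneg)
    linarith
  have hYX : 1 ≤ Y * ((ex M : ℝ) * ex M') := by nlinarith
  have key := ff_sum (K := 6 * L^2) (Y := Y * ((ex M : ℝ) * ex M')) (F := F0) hO hO' posV posW hE0s (by positivity) hYX
    (by
      intro f hf
      obtain ⟨e, he, rfl⟩ := Finset.mem_image.1 hf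
      rw [hDc e (hE he)]
      exact hE1 e he)
    (by
      intro f hf
      obtain ⟨e, he, rfl⟩ := Finset.mem_image.1 hf
      rw [hDc e (hE he), mul_assoc Y, hmm e (hE he)]
      exact hmE e he)
    (by
      intro f hf
      obtain ⟨e, he, rfl⟩ := Finset.mem_image.1 hf
      obtain ⟨k1, k2⟩ := Finset.mem_product.1 (hE he)
      rw [hDc e (hE he), hF0e e (hE he)]
      have h0 := mul_le_mul_of_nonneg_left (hF e he) hXX.le
      refine h0.trans ?_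
      have h1 : (ex M * rd b c ρ e.1) * (ex M' * rd b' c' ρ e.2) ≤
          (L * mu O' R (e.1 / pr)) * (L * mu O R' (e.2 / pr')) :=
        mul_le_mul (gV _ k1) (gW _ k2) (mul_pos xM' (hR' _)).le
          ((mul_pos xM (hR _)).le.trans (gV _ k1))
      have h2 : (ex M * rd b c ρ e.1) * (ex M' * rd b' c' ρ e.2) / Dq ρ M b pr c M' b' pr' c' e ≤
          (L * mu O' R (e.1 / pr)) * (L * mu O R' (e.2 / pr')) / Dq ρ M b pr c M' b' pr' c' e :=
        div_le_div_of_nonneg_right h1 (hD0 e he).le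
      calc (ex M : ℝ) * ex M' * (6 * (rd b c ρ e.1 * rd b' c' ρ e.2 / Dq ρ M b pr c M' b' pr' c' e))
          = 6 * ((ex M * rd b c ρ e.1) * (ex M' * rd b' c' ρ e.2) / Dq ρ M b pr c M' b' pr' c' e) := by
            ring
        _ ≤ 6 * ((L * mu O' R (e.1 / pr)) * (L * mu O R' (e.2 / pr')) /
            Dq ρ M b pr c M' b' pr' c' e) := mul_le_mul_of_nonneg_left h2 (by norm_num)
        _ = _ := by ring)
  rw [hsumE] at key
  refine le_of_mul_le_mul_left ?_ hXX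
  refine key.trans ?_
  have hexp : Real.exp ((1/2-eps1) * ((∑ p ∈ O, (p:ℝ)^(-(11/12):ℝ)) +
      ∑ p ∈ O', (p:ℝ)^(-(11/12):ℝ))) ≤ 3 := by
    have h1 : (1/2-eps1) * ((∑ p ∈ O, (p:ℝ)^(-(11/12):ℝ)) + ∑ p ∈ O', (p:ℝ)^(-(11/12):ℝ)) ≤ 1 := by
      have h0 : 0 ≤ (∑ p ∈ O, (p:ℝ)^(-(11/12):ℝ)) + ∑ p ∈ O', (p:ℝ)^(-(11/12):ℝ) :=
        add_nonneg (Finset.sum_nonneg fun _ _ => by positivity)
          (Finset.sum_nonneg fun _ _ => by positivity)
      rw [he1]; nlinarith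
    have h2 := Real.exp_one_lt_d9
    linarith [Real.exp_le_exp.2 h1]
  have hlogN : 0 ≤ Real.log N := Real.log_natCast_nonneg N
  have hθ0 : 0 ≤ N * cc * Real.log N / 30 := by positivity
  -- the masses
  have muR : ∀ w ∈ V0, mu O' R w ≤ R w := by
    intro w hw
    obtain ⟨q, hq, rfl⟩ := Finset.mem_image.1 hw
    rw [muV q hq, hRe q hq]
    have := Crest.Agent.R4.NMW927.tq_le_one (q / pr / M.gcd (q / pr))
    nlinarith [mul_pos xM (hR q)]
  have muR' : ∀ w ∈ W0, mu O R' w ≤ R' w := by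
    intro w hw
    obtain ⟨q, hq, rfl⟩ := Finset.mem_image.1 hw
    rw [muW q hq, hRe' q hq]
    have := Crest.Agent.R4.NMW927.tq_le_one (q / pr' / M'.gcd (q / pr'))
    nlinarith [mul_pos xM' (hR' q)]
  have hsV : ∑ w ∈ V0, R w = ex M * ∑ q ∈ V, rd b c ρ q := by
    rw [hV0, Finset.sum_image hinjV, Finset.mul_sum]
    exact Finset.sum_congr rfl fun q hq => hRe q hq
  have hsW : ∑ w ∈ W0, R' w = ex M' * ∑ q ∈ W, rd b' c' ρ q := by
    rw [hW0, Finset.sum_image hinjW, Finset.mul_sum]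
    exact Finset.sum_congr rfl fun q hq => hRe' q hq
  have nmu : ∀ w ∈ V0, 0 ≤ mu O' R w := fun w hw => mu_nonneg (posV w hw).2.le
  have nmu' : ∀ w ∈ W0, 0 ≤ mu O R' w := fun w hw => mu_nonneg (posW w hw).2.le
  have n1 : 0 ≤ ∑ q ∈ V0, om O' q * mu O' R q :=
    Finset.sum_nonneg fun w hw => mul_nonneg (om_nonneg _ _) (nmu w hw)
  have n2 : 0 ≤ ∑ r ∈ W0, om O r * mu O R' r :=
    Finset.sum_nonneg fun w hw => mul_nonneg (om_nonneg _ _) (nmu' w hw)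
  have b1 : ∑ q ∈ V0, om O' q * mu O' R q ≤ ex M * ∑ q ∈ V, rd b c ρ q := by
    rw [← hsV]
    refine Finset.sum_le_sum fun w hw => ?_
    have h1 := om_le_one (fun p hp => (hO' p hp).1.pos) w
    calc om O' w * mu O' R w ≤ 1 * mu O' R w := mul_le_mul_of_nonneg_right h1 (nmu w hw)
      _ ≤ R w := by rw [one_mul]; exact muR w hw
  have b2 : ∑ r ∈ W0, om O r * mu O R' r ≤ ex M' * ∑ q ∈ W, rd b' c' ρ q := by
    rw [← hsW]
    refine Finset.sum_le_sum fun w hw => ?_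
    have h1 := om_le_one (fun p hp => (hO p hp).1.pos) w
    calc om O w * mu O R' w ≤ 1 * mu O R' w := mul_le_mul_of_nonneg_right h1 (nmu' w hw)
      _ ≤ R' w := by rw [one_mul]; exact muR' w hw
  have x0 : 0 ≤ ∑ q ∈ V, rd b c ρ q := Finset.sum_nonneg fun q _ => (hR q).le
  have x0' : 0 ≤ ∑ q ∈ W, rd b' c' ρ q := Finset.sum_nonneg fun q _ => (hR' q).le
  have y0 : 0 ≤ ex M * ∑ q ∈ V, rd b c ρ q := mul_nonneg xM.le x0
  have y0' : 0 ≤ ex M' * ∑ q ∈ W, rd b' c' ρ q := mul_nonneg xM'.le x0'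
  have hab : (∑ q ∈ V0, om O' q * mu O' R q) * (∑ r ∈ W0, om O r * mu O R' r) ≤
      Real.exp (-(N * cc * Real.log N / 30)) *
        (((ex M : ℝ) * ex M') * ((∑ q ∈ V, rd b c ρ q) * (∑ q ∈ W, rd b' c' ρ q))) := by
    rcases hcm with hcm | hcm
    · have b3 : ∑ r ∈ W0, om O r * mu O R' r ≤
          Real.exp (-(N * cc * Real.log N / 30)) * (ex M' * ∑ q ∈ W, rd b' c' ρ q) := by
        rw [← hsW, Finset.mul_sum]
        refine Finset.sum_le_sum fun w hw => ?_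
        have h1 : om O w ≤ Real.exp (-(N * cc * Real.log N / 30)) := by
          obtain ⟨q, hq, rfl⟩ := Finset.mem_image.1 hw
          exact om_small hN1 (fun l hl => (hO l hl).2) (hcm q hq)
        calc om O w * mu O R' w ≤ Real.exp (-(N * cc * Real.log N / 30)) * mu O R' w :=
              mul_le_mul_of_nonneg_right h1 (nmu' w hw)
          _ ≤ _ := mul_le_mul_of_nonneg_left (muR' w hw) (Real.exp_nonneg _)
      calc _ ≤ (ex M * ∑ q ∈ V, rd b c ρ q) * (Real.exp (-(N * cc * Real.log N / 30)) *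
            (ex M' * ∑ q ∈ W, rd b' c' ρ q)) := mul_le_mul b1 b3 n2 y0
        _ = _ := by ring
    · have b3 : ∑ q ∈ V0, om O' q * mu O' R q ≤
          Real.exp (-(N * cc * Real.log N / 30)) * (ex M * ∑ q ∈ V, rd b c ρ q) := by
        rw [← hsV, Finset.mul_sum]
        refine Finset.sum_le_sum fun w hw => ?_
        have h1 : om O' w ≤ Real.exp (-(N * cc * Real.log N / 30)) := by
          obtain ⟨q, hq, rfl⟩ := Finset.mem_image.1 hw
          exact om_small hN1 (fun l hl => (hO' l hl).2) (hcm q hq)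
        calc om O' w * mu O' R w ≤ Real.exp (-(N * cc * Real.log N / 30)) * mu O' R w :=
              mul_le_mul_of_nonneg_right h1 (nmu w hw)
          _ ≤ _ := mul_le_mul_of_nonneg_left (muR w hw) (Real.exp_nonneg _)
      calc _ ≤ (Real.exp (-(N * cc * Real.log N / 30)) * (ex M * ∑ q ∈ V, rd b c ρ q)) *
            (ex M' * ∑ q ∈ W, rd b' c' ρ q) := mul_le_mul b3 b2 n2 (by positivity)
        _ = _ := by ring
  have hfin := ff_fin2 n1 n2 x0 x0' hθ0 xx1 hab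
  have e60 : N * cc * Real.log N / 30 / 2 = N * cc * Real.log N / 60 := by ring
  rw [e60] at hfin
  have hY0 : 0 ≤ Y^(22/1000:ℝ) := by positivity
  have hpre : 0 ≤ 6 * L^2 * (60000 * KH 1 0 eps1) * Y^(22/1000:ℝ) := by positivity
  have hrp : 0 ≤ ((ex M : ℝ) * ex M')^(22/1000:ℝ) *
      ((∑ q ∈ V0, om O' q * mu O' R q) * (∑ r ∈ W0, om O r * mu O R' r))^(1/2+eps1) :=
    mul_nonneg (Real.rpow_nonneg hXX.le _) (Real.rpow_nonneg (mul_nonneg n1 n2) _)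
  have hYr : (Y * ((ex M : ℝ) * ex M'))^(22/1000:ℝ) =
      Y^(22/1000:ℝ) * ((ex M : ℝ) * ex M')^(22/1000:ℝ) := Real.mul_rpow (by linarith) hXX.le
  rw [hYr]
  calc 6 * L^2 * (60000 * KH 1 0 eps1) * (Y^(22/1000:ℝ) * ((ex M : ℝ) * ex M')^(22/1000:ℝ)) *
        Real.exp ((1/2-eps1) * ((∑ p ∈ O, (p:ℝ)^(-(11/12):ℝ)) + ∑ p ∈ O', (p:ℝ)^(-(11/12):ℝ))) *
        ((∑ q ∈ V0, om O' q * mu O' R q) * (∑ r ∈ W0, om O r * mu O R' r))^(1/2+eps1)
      = (6 * L^2 * (60000 * KH 1 0 eps1) * Y^(22/1000:ℝ) *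
        Real.exp ((1/2-eps1) * ((∑ p ∈ O, (p:ℝ)^(-(11/12):ℝ)) + ∑ p ∈ O', (p:ℝ)^(-(11/12):ℝ)))) *
        (((ex M : ℝ) * ex M')^(22/1000:ℝ) *
        ((∑ q ∈ V0, om O' q * mu O' R q) * (∑ r ∈ W0, om O r * mu O R' r))^(1/2+eps1)) := by ring
    _ ≤ (6 * L^2 * (60000 * KH 1 0 eps1) * Y^(22/1000:ℝ) * 3) *
        (((ex M : ℝ) * ex M') * (Real.exp (-(N * cc * Real.log N / 60)) *
          (Real.sqrt ((∑ q ∈ V, rd b c ρ q) * (∑ q ∈ W, rd b' c' ρ q)) +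
          (∑ q ∈ V, rd b c ρ q) * (∑ q ∈ W, rd b' c' ρ q)))) :=
        mul_le_mul (mul_le_mul_of_nonneg_left hexp hpre) hfin hrp (by positivity)
    _ = _ := by ring

end items

end Crest.Agent.R4P.StopFF95
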