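import Crest.Agent.R4P.StopFF95
import Crest.Agent.R4P.WalkIT579

/-!
R4 powers pass (S0004), helper95: **the stop symbol at a state in item form** (`IS` of helper442).

* `NF` : item facts of one side (mean, share, masses); `NSd_L`, `NSd_R` : 800's side conditions from `IS`.
* `UpP_L`, `UpP_R` : the primes above the column of an item are `up` primes.
* **`eSTOP_IS`** : `eSTOP_le2` at a state with `IS`.
-/

set_option autoImplicit false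
set_option linter.unusedSectionVars false
set_option linter.unusedVariables false
open Finset

namespace Crest.Agent.R4P.StopFF95

open Crest.Agent.R4.HVW560 Crest.Agent.R4.HVWX793 Crest.Agent.R4.Schur709 Crest.Agent.R4.StopHvw709
open Crest.Agent.R4.StopAsm709 Crest.Agent.R4P.AvgItem710 Crest.Agent.R4.DeepSt579
open Crest.Agent.R4P.Rad800 Crest.Agent.R4P.Item758 Crest.Agent.R4P.NMW710 Crest.Agent.R4P.StopW95
open Crest.Agent.R4.ClsS (eps1)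
open Crest.Agent.R4.Tour104 Crest.Agent.R4.Tour758 Crest.Agent.R4.Avg758 Crest.Agent.R4.Clos758
open Crest.Agent.R4.ClosL758 Crest.Agent.R4.ClosG758 Crest.Agent.R4.ClosR758
open Crest.Agent.R4.Fam464 Crest.Agent.R4P.Cnt588 Crest.Agent.R4P.Walk560 Crest.Agent.R4.Piece464
open Crest.Agent.R4P.GInst194 Crest.Agent.R4P.WalkIT579
open Crest.Agent.R4P.Bld532 (NS All NodeOk Bk)

variable {Λ κ : Type*} [Fintype Λ] [DecidableEq Λ] [Fintype κ] [DecidableEq κ]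
  {D : Par Λ κ} {ρ : ℕ → ℝ} {Al : Finset ℕ} {P : Bld532.Par} {W : ℕ → ℝ}
  {CL C1 C2 c₀ N0 : ℝ} {p₁ : ℕ}
variable [WRel κ] {sp : ℕ → Finset Λ} {s : St Λ κ} {U : ℕ → Finset ℕ}

/-- item facts of one side -/
structure NF (D : Par Λ κ) (Al : Finset ℕ) (CL c₀ : ℝ) (p : ℕ)
    (u : NS) (t : IT) (A : Finset Λ) : Prop where
  il : IL D.it A
  lg : ∀ q ∈ Al, q ∈ t.items → 1 ≤ CL * Real.log p * tq (q / u.A)
  mean : ∀ j, D.it j ∈ Al → D.it j ∈ t.items →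
    c₀ * tq (D.it j / (u.A * pp t (D.it j))) ≤ mnw (D.it j / (u.A * pp t (D.it j))) (D.om j)
  ph : ∀ q ∈ Al, q ∈ t.items → tq (q / u.A) ≤ 2 * (prf t q * tq (q / (u.A * pp t q)))
  ms : ∀ q ∈ Al, q ∈ t.items → (u.B : ℝ) * tq (q / u.A) ≤ 2 * (u.c * tq q)

variable {u u' : NS} {τ τ' : IT}

lemma NSd_L (h : IS D sp P W U s u u' τ τ') (hl : ¬ s.t.isLeaf) (hl' : ¬ s.t'.isLeaf)
    (hp : ¬ s.p ∣ s.M) (hf : NF D Al CL c₀ s.p u τ s.A)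
    (hU : ∀ q ∈ Al, ∀ z : ℝ, (s.p:ℝ) ≤ z →
      ∑ l ∈ (U q).filter (fun l : ℕ => z < (l : ℝ)), (1 : ℝ) / l ≤ z ^ (-(1 / 2 : ℝ))) :
    NSd D Al P W CL c₀ s.p 1 s.M u τ s.A where
  node := h.qL.self.1
  il := hf.il
  lg := hf.lg
  mean := hf.mean
  ph := hf.ph
  ms := hf.ms
  once := fun q _ hq => h.once hl hl' hp hq
  geM := fun l h1 h2 => h.ge_p hl hl' h1 (Or.inl h2)
  tame := fun z hz j _ h1 h2 => h.qL.self.tame h2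
    (fun l h3 h4 => (h.level hl hl' hz l h3 h4).1) (hU _ h1 z hz)

lemma NSd_R (h : IS D sp P W U s u u' τ τ') (hl : ¬ s.t.isLeaf) (hl' : ¬ s.t'.isLeaf)
    (hp : ¬ s.p ∣ s.M') (hf : NF D Al CL c₀ s.p u' τ' s.A')
    (hU : ∀ q ∈ Al, ∀ z : ℝ, (s.p:ℝ) ≤ z →
      ∑ l ∈ (U q).filter (fun l : ℕ => z < (l : ℝ)), (1 : ℝ) / l ≤ z ^ (-(1 / 2 : ℝ))) :
    NSd D Al P W CL c₀ s.p 1 s.M' u' τ' s.A' where
  node := h.qR.self.1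
  il := hf.il
  lg := hf.lg
  mean := hf.mean
  ph := hf.ph
  ms := hf.ms
  once := fun q _ hq => h.once' hl hl' hp hq
  geM := fun l h1 h2 => h.ge_p hl hl' h1 (Or.inr h2)
  tame := fun z hz j _ h1 h2 => h.qR.self.tame h2
    (fun l h3 h4 => (h.level hl hl' hz l h3 h4).2) (hU _ h1 z hz)

lemma UpP_L (h : IS D sp P W U s u u' τ τ') (hl : ¬ s.t.isLeaf) (hl' : ¬ s.t'.isLeaf) :
    UpP U Al s.p u τ := fun q _ hq l h1 h2 h3 =>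
  ((h.qL.self.2 q hq).1 l h1
    (h.level hl hl' (le_refl (s.p:ℝ)) l h1 (by exact_mod_cast h2)).1 h3).1

lemma UpP_R (h : IS D sp P W U s u u' τ τ') (hl : ¬ s.t.isLeaf) (hl' : ¬ s.t'.isLeaf) :
    UpP U Al s.p u' τ' := fun q _ hq l h1 h2 h3 =>
  ((h.qR.self.2 q hq).1 l h1
    (h.level hl hl' (le_refl (s.p:ℝ)) l h1 (by exact_mod_cast h2)).2 h3).1

open Classical in
/-- **the stop symbol at a state in item form** -/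
theorem eSTOP_IS (hst : StopCls2 N0) (hsc : SC N0 CL C2 (c₀/2) p₁) (hsf : SF CL p₁) {n : ℕ}
    {T Ch e₃ Y : ℝ} {Qf : ℕ × ℕ → Prop}
    (hni : NI D ρ Al P W C1 c₀ s.p)
    (h : StI D sp s u.B u.A τ u'.B u'.A τ')
    (hI : IS D sp P W U s u u' τ τ')
    (hL : NF D Al CL c₀ s.p u τ s.A) (hR : NF D Al CL c₀ s.p u' τ' s.A')
    (hCL : 0 ≤ CL) (hhi : ∀ k : ℕ, P.p0 < k → k ≤ s.p → 2 * P.hi k ≤ (Real.log s.p)^C2)
    (hp : p₁ ≤ s.p)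
    (hn : n = ⌊100 * (s.p * ((s.p:ℝ)^(-(1/3):ℝ)/4)) / Real.log 2⌋₊)
    (hs : ∑ l ∈ s.M.primeFactors, (l:ℝ)^(-(11/12):ℝ) ≤ 1)
    (hs' : ∑ l ∈ s.M'.primeFactors, (l:ℝ)^(-(11/12):ℝ) ≤ 1)
    (hU : ∀ q ∈ Al, ∀ z : ℝ, (s.p:ℝ) ≤ z →
      ∑ l ∈ (U q).filter (fun l : ℕ => z < (l : ℝ)), (1 : ℝ) / l ≤ z ^ (-(1 / 2 : ℝ)))
    {stp : Stp Λ κ} (hstp : stp s → StopOk s)
    (hT1 : 1 ≤ T) (hT : T ≤ Real.exp (s.p * ((s.p:ℝ)^(-(1/3):ℝ)/4)/20))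
    (hY : 1 ≤ Y) (hYp : Y ≤ Real.exp (s.p * ((s.p:ℝ)^(-(1/3):ℝ)/4)))
    (hFS : FSY D ρ n Y s u.B u.A τ u'.B u'.A τ' Qf)
    (hCh : 0 ≤ Ch) (he₃ : 0 ≤ e₃) (he : e₃ * (CL * Real.log s.p * (1/c₀))^2 ≤ 1)
    (hhigh : ∑ e ∈ (Qi D Al τ s.A ×ˢ Qi D Al τ' s.A').filter (fun e =>
        T < Dq ρ s.M u.B u.A 1 s.M' u'.B u'.A 1 e),
        D.iF s.R (D.uA s.M u.B u.A τ s.A 1) (D.uA s.M' u'.B u'.A τ' s.A' 1) e ≤
      Ch * ((∑ j ∈ s.A, mI s.t j) * ∑ j ∈ s.A', mI s.t' j) +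
      e₃ * ((∑ q ∈ Qi D Al τ s.A, u.B * ρ q) * ∑ q ∈ Qi D Al τ' s.A', u'.B * ρ q))
    {μ : TrG Λ κ → Finset Λ → ℝ} {ν : TrG Λ κ → ℝ} {B : ℝ} (hB : Ch + 2 ≤ B)
    (hμ : ∑ j ∈ s.A, mI s.t j ≤ μ s.t.g s.A) (hμ' : ∑ j ∈ s.A', mI s.t' j ≤ μ s.t'.g s.A')
    (hν : 0 ≤ ν s.t.g) (hν' : 0 ≤ ν s.t'.g) :
    eSTOP stp μ ν B s ≤
      ∑ e ∈ (Qi D Al τ s.A ×ˢ Qi D Al τ' s.A').filter (fun e =>
        0 < D.iF s.R (D.uA s.M u.B u.A τ s.A 1) (D.uA s.M' u'.B u'.A τ' s.A' 1) e ∧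
        (Dq ρ s.M u.B u.A 1 s.M' u'.B u'.A 1 e ≤ 1/2^n ∧ Qf e)),
        D.iF s.R (D.uA s.M u.B u.A τ s.A 1) (D.uA s.M' u'.B u'.A τ' s.A' 1) e := by
  classical
  have hsum0 : 0 ≤ ∑ e ∈ (Qi D Al τ s.A ×ˢ Qi D Al τ' s.A').filter (fun e =>
        0 < D.iF s.R (D.uA s.M u.B u.A τ s.A 1) (D.uA s.M' u'.B u'.A τ' s.A' 1) e ∧
        (Dq ρ s.M u.B u.A 1 s.M' u'.B u'.A 1 e ≤ 1/2^n ∧ Qf e)),
        D.iF s.R (D.uA s.M u.B u.A τ s.A 1) (D.uA s.M' u'.B u'.A τ' s.A' 1) e :=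
    Finset.sum_nonneg fun e he => (Finset.mem_filter.1 he).2.1.le
  by_cases h1 : s.t.isLeaf ∨ s.t'.isLeaf
  · unfold eSTOP; rw [if_pos h1]; exact hsum0
  by_cases h2 : stp s
  swap
  · unfold eSTOP; rw [if_neg h1, if_neg h2]; exact hsum0
  have hl : ¬ s.t.isLeaf := fun h3 => h1 (Or.inl h3)
  have hl' : ¬ s.t'.isLeaf := fun h3 => h1 (Or.inr h3)
  have hok := hstp h2
  have hUt : ∀ q ∈ Al, ∑ l ∈ (U q).filter (fun l : ℕ => s.p < l), (1 : ℝ) / l ≤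
      (s.p:ℝ) ^ (-(1 / 2 : ℝ)) := fun q hq => by
    have h3 := hU q hq s.p le_rfl
    have e1 : (U q).filter (fun l : ℕ => (s.p:ℝ) < (l : ℝ)) =
        (U q).filter (fun l : ℕ => s.p < l) :=
      Finset.filter_congr fun l _ => by rw [Nat.cast_lt]
    rw [e1] at h3
    exact h3
  exact eSTOP_le2 hst hsc hsf hni h one_pos (NSd_L hI hl hl' hok.1 hL hU)
    (NSd_R hI hl hl' hok.2.1 hR hU) hCL hhi hp hn hs hs' (UpP_L hI hl hl') (UpP_R hI hl hl') hUt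
    hstp hT1 hT hY hYp hFS hCh he₃ he hhigh hB hμ hμ' hν hν'

end Crest.Agent.R4P.StopFF95
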