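import Crest.Agent.R4.Cramer944
import Crest.Agent.R4P.World2_363
import Crest.Agent.R4.LFDef2_363

/-!
(Port of `R4/Tag944` to the item tree with powers, `R4P/Cnt588`; helper746.)
R4 (S0004), helper944: tag function for the leaf states of the worlds W* (module J).

The state of an item at a leaf is the label of one of the last stages; at a given stage two labels
whose radii are comparable coincide, hence the hypothesis of `exact_cramer` holds with
`J` = number of possible stages.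
-/

set_option autoImplicit false
open Finset

namespace Crest.Agent.R4P.LF363
open Crest.Agent.R4.LF363

open Crest.Agent.R4P.W363

/-- labels of one target at comparable radii coincide -/
lemma lab_eq_ratio {θ r r' : ℝ} {ρ σ : ℚ} (h : Lab θ r ρ) (h' : Lab θ r' σ) (h1 : r ≤ 2 * r')
    (h2 : r' ≤ 2 * r) : ρ = σ := by
  by_contra hne
  have hk : (0 : ℝ) < ρ.den := by exact_mod_cast ρ.den_pos
  have hl : (0 : ℝ) < σ.den := by exact_mod_cast σ.den_pos
  have hr := h.pos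
  have hr' := h'.pos
  have g1 := rat_gap hne
  have g2 : |(ρ : ℝ) - σ| ≤ 2 * max |θ - ρ| |θ - σ| := by
    have := abs_sub (θ - σ) (θ - ρ)
    have e : (θ - σ) - (θ - ρ) = (ρ : ℝ) - σ := by ring
    rw [e] at this
    have h3 := le_max_left |θ - ρ| |θ - σ|
    have h4 := le_max_right |θ - ρ| |θ - σ|
    linarith
  have hm0 : 0 ≤ max |θ - ρ| |θ - σ| := le_max_of_le_left (abs_nonneg _)
  have h3 : (max |θ - ρ| |θ - σ|) ^ 5 ≤ 1 / 50 * (r * r') := by
    rcases max_choice |θ - ρ| |θ - σ| with h4 | h4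
    · rw [h4]
      refine h.near.trans ?_
      have e1 : r ^ 2 ≤ (1 / 10) ^ 2 := pow_le_pow_left₀ hr.le h.le 2
      calc r ^ 4 = r ^ 2 * (r * r) := by ring
        _ ≤ (1 / 10) ^ 2 * (r * (2 * r')) := by gcongr
        _ = 1 / 50 * (r * r') := by ring
    · rw [h4]
      refine h'.near.trans ?_
      have e1 : r' ^ 2 ≤ (1 / 10) ^ 2 := pow_le_pow_left₀ hr'.le h'.le 2
      calc r' ^ 4 = r' ^ 2 * (r' * r') := by ring
        _ ≤ (1 / 10) ^ 2 * (2 * r * r') := by gcongr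
        _ = 1 / 50 * (r * r') := by ring
  have h5 : (1 : ℝ) ≤ 32 / 50 := by
    calc (1 : ℝ) ≤ (|(ρ : ℝ) - σ| * (ρ.den * σ.den)) ^ 5 := one_le_pow₀ g1
      _ ≤ ((2 * max |θ - ρ| |θ - σ|) * (ρ.den * σ.den)) ^ 5 := by gcongr
      _ = 32 * (max |θ - ρ| |θ - σ|) ^ 5 * ((ρ.den : ℝ) ^ 5 * (σ.den : ℝ) ^ 5) := by ring
      _ ≤ 32 * (1 / 50 * (r * r')) * ((ρ.den : ℝ) ^ 5 * (σ.den : ℝ) ^ 5) := by gcongr
      _ = 32 / 50 * (((ρ.den : ℝ) ^ 5 * r) * ((σ.den : ℝ) ^ 5 * r')) := by ring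
      _ ≤ 32 / 50 * (1 * 1) := by
          have := h.den
          have := h'.den
          gcongr
      _ = 32 / 50 := by ring
  norm_num at h5

/-- the sum depends only on the values at the two items -/
lemma T02_congr {θ : ℝ} {ψ φ ψ' φ' : ℕ → ℝ} {lab lab' : ℕ → Option ℚ} {q r : ℕ}
    (h1 : ψ q = ψ' q) (h2 : ψ r = ψ' r) (h3 : φ q = φ' q) (h4 : φ r = φ' r)
    (h5 : lab q = lab' q) (h6 : lab r = lab' r) :
    T02 θ ψ φ lab q r = T02 θ ψ' φ' lab' q r := by
  classical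
  unfold T02
  refine Finset.sum_congr ?_ fun n _ => ?_
  · ext n
    simp only [Finset.mem_filter]
    unfold Wn ExN
    rw [h1, h2, h5, h6]
  · unfold tm2 Dq
    rw [h1, h2, h3, h4, h5, h6]

lemma T0_congr {θ : ℝ} {ψ ψ' : ℕ → ℝ} {lab lab' : ℕ → Option ℚ} {q r : ℕ}
    (h1 : ψ q = ψ' q) (h2 : ψ r = ψ' r) (h5 : lab q = lab' q) (h6 : lab r = lab' r) :
    T0 θ ψ lab q r = T0 θ ψ' lab' q r := T02_congr h1 h2 h1 h2 h5 h6

/-- labels of one stage at comparable radii coincide -/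
lemma lab0_eq_ratio {γ ψ ψ' : ℝ} {b : ℕ} (hb : 0 < b) (h1 : ψ ≤ 2 * ψ') (h2 : ψ' ≤ 2 * ψ)
    (h : lab0 γ ψ b ≠ none) (h' : lab0 γ ψ' b ≠ none) : lab0 γ ψ b = lab0 γ ψ' b := by
  obtain ⟨σ, hσ⟩ := Option.ne_none_iff_exists'.1 h
  obtain ⟨τ, hτ⟩ := Option.ne_none_iff_exists'.1 h'
  have hb0 : (0 : ℝ) < b := by exact_mod_cast hb
  have e := lab_eq_ratio (lab0_spec hb hσ) (lab0_spec hb hτ) (by nlinarith) (by nlinarith)
  have hb1 : (b : ℚ) ≠ 0 := by exact_mod_cast hb.ne'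
  rw [hσ, hτ, mul_left_cancel₀ hb1 e]

/-- **exact pairs with the labels of `J` stages**: the label of `q` is the one of the stage
`st (d q)` (in root coordinates), `b` = missing product of the leaf. -/
theorem exact_cramer_stages (J : ℕ) : ∃ C : ℝ, 0 < C ∧ ∀ (γ : ℝ) (b : ℕ) (st : Fin J → ℕ)
    (S : Finset ℕ) (f : ℕ → ℝ) (d : ℕ → Fin J), 0 < b → (∀ i, 0 < st i) → (∀ q ∈ S, 0 < q) →
    (∀ q ∈ S, 0 < f q) →
    ∑ q ∈ S, ∑ r ∈ S, T0 (b * γ) (fun q => b * f q)
      (fun q => (lab0 γ (f q) (st (d q))).map fun σ => (b : ℚ) * σ) q r ≤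
      C * ∑ q ∈ S, (b * f q) * ((q.totient : ℝ) / q) := by
  obtain ⟨C, hC, h⟩ := exact_cramer J
  refine ⟨C, hC, ?_⟩
  intro γ b st S f d hb hst hS hf
  have hb0 : (0 : ℝ) < b := by exact_mod_cast hb
  refine h (b * γ) S (fun q => b * f q) _ d hS (fun q hq => mul_pos hb0 (hf q hq)) ?_
  intro q hq r hr hnq hnr hn hd
  have hlq : lab0 γ (f q) (st (d q)) ≠ none := by
    intro h0; apply hnq; simp only [h0, Option.map_none]
  have hlr : lab0 γ (f r) (st (d r)) ≠ none := by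
    intro h0; apply hnr; simp only [h0, Option.map_none]
  have h1 : b * f q ≤ 2 * (b * f r) := two_of_log (mul_pos hb0 (hf r hr)) hn
  have h2 : b * f r ≤ 2 * (b * f q) := two_of_log (mul_pos hb0 (hf q hq)) hn.symm
  rw [← hd] at hlr
  have e := lab0_eq_ratio (hst (d q)) (by nlinarith) (by nlinarith) hlq hlr
  show (lab0 γ (f q) (st (d q))).map _ = (lab0 γ (f r) (st (d r))).map _
  rw [← hd, e]

/-- the state of an item whose label is evaluated at the present or at the previous stage -/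
lemma sta_two {thr : ℕ → ℝ} {γ ψ : ℝ} {L : List ℕ} {p : ℕ}
    (h : (L.prod : ℝ) * ψ ≤ thr p ∨ ∀ s L', L = s :: L' → (L'.prod : ℝ) * ψ ≤ thr s) :
    sta thr γ ψ L p = lab0 γ ψ (if (L.prod : ℝ) * ψ ≤ thr p then L.prod else L.tail.prod) := by
  by_cases h1 : (L.prod : ℝ) * ψ ≤ thr p
  · rw [if_pos h1, sta_thin h1]
  · rw [if_neg h1]
    cases L with
    | nil => simp [sta]
    | cons s L' =>
      have e : ¬ ((s * L'.prod : ℕ) : ℝ) * ψ ≤ thr p := by
        simpa [List.prod_cons] using h1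
      rw [sta, if_neg e, List.tail_cons]
      rcases h with h | h
      · exact absurd h h1
      · exact sta_thin (h s L' rfl)

/-- **exact pairs with the states of a leaf** -/
theorem exact_cramer_sta : ∃ C : ℝ, 0 < C ∧ ∀ (thr : ℕ → ℝ) (γ : ℝ) (L : List ℕ) (p : ℕ)
    (S : Finset ℕ) (f : ℕ → ℝ), (∀ s ∈ L, 0 < s) → (∀ q ∈ S, 0 < q) → (∀ q ∈ S, 0 < f q) →
    (∀ q ∈ S, (L.prod : ℝ) * f q ≤ thr p ∨ ∀ s L', L = s :: L' → (L'.prod : ℝ) * f q ≤ thr s) →
    ∑ q ∈ S, ∑ r ∈ S, T0 (L.prod * γ) (fun q => L.prod * f q)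
      (fun q => (sta thr γ (f q) L p).map fun σ => (L.prod : ℚ) * σ) q r ≤
      C * ∑ q ∈ S, (L.prod * f q) * ((q.totient : ℝ) / q) := by
  obtain ⟨C, hC, h⟩ := exact_cramer_stages 2
  refine ⟨C, hC, ?_⟩
  intro thr γ L p S f hL hS hf hfat
  have hpos : ∀ M : List ℕ, (∀ s ∈ M, 0 < s) → 0 < M.prod := fun M hM =>
    Nat.pos_of_ne_zero fun h0 => (hM 0 (List.prod_eq_zero_iff.1 h0)).ne' rfl
  have hb := hpos L hL
  have hb' := hpos L.tail fun s hs => hL s (List.mem_of_mem_tail hs)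
  set d : ℕ → Fin 2 := fun q => if (L.prod : ℝ) * f q ≤ thr p then 0 else 1 with hd
  set st : Fin 2 → ℕ := fun i => if i = 0 then L.prod else L.tail.prod with hst
  have hst0 : ∀ i, 0 < st i := by
    intro i; rw [hst]; dsimp only; split_ifs
    · exact hb
    · exact hb'
  have key := h γ L.prod st S f d hb hst0 hS hf
  refine le_trans (le_of_eq ?_) key
  have hlab : ∀ q ∈ S, (sta thr γ (f q) L p).map (fun σ => (L.prod : ℚ) * σ) =
      (lab0 γ (f q) (st (d q))).map fun σ => (L.prod : ℚ) * σ := by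
    intro q hq
    rw [sta_two (hfat q hq)]
    congr 2
    rw [hst, hd]; dsimp only
    by_cases h1 : (L.prod : ℝ) * f q ≤ thr p
    · simp
    · simp
  exact Finset.sum_congr rfl fun q hq => Finset.sum_congr rfl fun r hr =>
    T0_congr rfl rfl (hlab q hq) (hlab r hr)

end Crest.Agent.R4P.LF363
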